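import Crest.Agent.PVc.R17.Basic

-- ▼ part PVc/R17/SymbolAux
section

/-!
# Row 17: residue characters modulo a prime (auxiliary to `Symbol.lean`)
-/

set_option autoImplicit false

noncomputable section

namespace Crest.Agent.R17
namespace SymbolAux

open scoped ComplexConjugate

theorem of_mem_pf {n p : O} (h : p ∈ pf n) :
    Prime p ∧ Primary p ∧ p ∣ n ∧ vp p n ≠ 0 := by
  have hn : n ≠ 0 := by
    rintro rfl
    simp at h
  obtain ⟨h1, h2, h3⟩ := (mem_pf hn).1 h
  exact ⟨h1, h2, h3, fun h0 => (vp_eq_zero_iff h1 hn).1 h0 h3⟩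

theorem prod_mul {m n : O} (hm : m ≠ 0) (hn : n ≠ 0) (f : O → ℂ) :
    ∏ p ∈ pf (m * n), f p ^ vp p (m * n) =
      (∏ p ∈ pf m, f p ^ vp p m) * ∏ p ∈ pf n, f p ^ vp p n := by
  classical
  have key : ∀ k : O, k ≠ 0 → pf k ⊆ pf (m * n) →
      ∏ p ∈ pf k, f p ^ vp p k = ∏ p ∈ pf (m * n), f p ^ vp p k := fun k hk hs =>
    Finset.prod_subset hs fun p hp hp' => by
      obtain ⟨h1, h2, -, -⟩ := of_mem_pf hp
      rw [(vp_eq_zero_iff h1 hk).2 fun h => hp' ((mem_pf hk).2 ⟨h1, h2, h⟩), pow_zero]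
  rw [key m hm (by rw [pf_mul hm hn]; exact Finset.subset_union_left),
    key n hn (by rw [pf_mul hm hn]; exact Finset.subset_union_right), ← Finset.prod_mul_distrib]
  refine Finset.prod_congr rfl fun p hp => ?_
  rw [vp_mul (of_mem_pf hp).1 hm hn, pow_add]

theorem not_coprime_iff {n a : O} (hn : Primary n) : ¬ IsCoprime n a ↔ ∃ p ∈ pf n, p ∣ a := by
  constructor
  · intro h
    by_contra hc
    push Not at hc
    apply h
    rw [hn.eq_prod]
    exact IsCoprime.prod_left fun p hp =>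
      ((of_mem_pf hp).1.coprime_iff_not_dvd.2 (hc p hp)).pow_left
  · rintro ⟨p, hp, hpa⟩ h
    obtain ⟨h1, -, h3, -⟩ := of_mem_pf hp
    exact h1.not_isUnit (h.isUnit_of_dvd' h3 hpa)

theorem prod_eq_zero_iff {n a : O} (hn : Primary n) (f : O → ℂ)
    (hf : ∀ p, Prime p → Primary p → (f p = 0 ↔ p ∣ a)) :
    ∏ p ∈ pf n, f p ^ vp p n = 0 ↔ ¬ IsCoprime n a := by
  rw [not_coprime_iff hn, Finset.prod_eq_zero_iff]
  refine exists_congr fun p => and_congr_right fun hp => ?_
  obtain ⟨h1, h2, -, h4⟩ := of_mem_pf hp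
  rw [pow_eq_zero_iff h4, hf p h1 h2]

theorem dvd_rad {n p : O} (h : p ∈ pf n) : p ∣ rad n := Finset.dvd_prod_of_mem _ h

theorem om_pow_mod (k : ℕ) : om ^ k = om ^ (k % 3) := pow_eq_pow_mod k om_cube

theorem omC_pow (k : ℕ) : omC ^ k = ι (om ^ k) := by rw [map_pow, ι_om]

theorem omC_cube : omC ^ 3 = 1 := by rw [omC_pow, om_cube, map_one]

theorem omC_ne_zero : omC ≠ 0 := by
  intro h
  simpa [h] using omC_cube

theorem norm_omC : ‖omC‖ = 1 := by
  have := congrArg norm omC_cube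
  rw [norm_pow, norm_one] at this
  exact (pow_eq_one_iff_of_nonneg (norm_nonneg _) (by norm_num)).1 this

theorem cj_om : cj om = om ^ 2 := by
  ext <;> simp [cj, om, pow_two]

theorem conj_omC : conj omC = omC ^ 2 := by rw [← ι_om, ← ι_cj, cj_om, map_pow]

variable {p : O}

theorem dvd_om_sub (hp : Prime p) (h : Primary p) {i j : ℕ} (hd : p ∣ om ^ i - om ^ j) :
    i % 3 = j % 3 := by
  have h3 : ¬ p ∣ 3 := fun h' => hp.not_isUnit (h.isCoprime_three.isUnit_of_dvd' dvd_rfl h')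
  have e := om_sq_add
  rw [om_pow_mod i, om_pow_mod j] at hd
  have hi := Nat.mod_lt i (show 0 < 3 by norm_num)
  have hj := Nat.mod_lt j (show 0 < 3 by norm_num)
  generalize i % 3 = a at *
  generalize j % 3 = b at *
  by_contra hne
  apply h3
  refine hd.trans ?_
  interval_cases a <;> interval_cases b <;> first
    | exact absurd rfl hne
    | exact ⟨1 - om ^ 2, by linear_combination (2 - om) * e⟩
    | exact ⟨1 - om, by linear_combination (2 - om) * e⟩
    | exact ⟨om ^ 2 - 1, by linear_combination (2 - om) * e⟩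
    | exact ⟨om - 1, by linear_combination (2 - om) * e⟩
    | exact ⟨om ^ 2 - om, by linear_combination (om ^ 2 - 3 * om + 3) * e⟩
    | exact ⟨om - om ^ 2, by linear_combination (om ^ 2 - 3 * om + 3) * e⟩

theorem four_le (hp : Prime p) (h : Primary p) : 4 ≤ nm p := by
  have h1 := nm_prime_mod hp h
  have h2 : nm p ≠ 1 := fun h' => hp.not_isUnit (isUnit_iff_nm.2 h')
  omega

theorem fermat (hp : Prime p) {a : O} (ha : ¬ p ∣ a) : p ∣ a ^ (nm p - 1) - 1 := by
  have := Fact.mk hp.ne_zero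
  have : (Ideal.span {p}).IsMaximal := PrincipalIdealRing.isMaximal_of_irreducible hp.irreducible
  let _ := Ideal.Quotient.field (Ideal.span {p})
  have := Fintype.ofFinite (O ⧸ Ideal.span {p})
  have h1 := FiniteField.pow_card_sub_one_eq_one (Ideal.Quotient.mk (Ideal.span {p}) a)
    (by rwa [Ne, Ideal.Quotient.eq_zero_iff_mem, Ideal.mem_span_singleton])
  rw [← Nat.card_eq_fintype_card, card_quot hp.ne_zero] at h1
  rw [← Ideal.mem_span_singleton, ← Ideal.Quotient.eq, map_pow, map_one]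
  exact h1

theorem exists_pow_ne (hp : Prime p) {e : ℕ} (he : e ≠ 0) (he' : e < nm p - 1) :
    ∃ a, ¬ p ∣ a ∧ ¬ p ∣ a ^ e - 1 := by
  have := Fact.mk hp.ne_zero
  have : (Ideal.span {p}).IsMaximal := PrincipalIdealRing.isMaximal_of_irreducible hp.irreducible
  let _ := Ideal.Quotient.field (Ideal.span {p})
  obtain ⟨g, hg⟩ := IsCyclic.exists_ofOrder_eq_natCard (α := (O ⧸ Ideal.span {p})ˣ)
  rw [Nat.card_units, card_quot hp.ne_zero] at hg
  obtain ⟨a, ha⟩ := Ideal.Quotient.mk_surjective (g : O ⧸ Ideal.span {p})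
  refine ⟨a, fun h => g.ne_zero ?_, fun h => pow_ne_one_of_lt_orderOf he (hg ▸ he') ?_⟩
  · rwa [← ha, Ideal.Quotient.eq_zero_iff_mem, Ideal.mem_span_singleton]
  · rw [← Ideal.mem_span_singleton, ← Ideal.Quotient.eq, map_pow, map_one, ha] at h
    exact Units.ext (by simpa using h)

theorem exists_cub (hp : Prime p) (h : Primary p) {a : O} (ha : ¬ p ∣ a) :
    ∃ k, p ∣ a ^ ((nm p - 1) / 3) - om ^ k := by
  have h1 := fermat hp ha
  have h2 := nm_prime_mod hp h
  rw [show nm p - 1 = (nm p - 1) / 3 * 3 by omega, pow_mul] at h1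
  generalize a ^ ((nm p - 1) / 3) = x at *
  have e : x ^ 3 - 1 = (x - om ^ 0) * ((x - om ^ 1) * (x - om ^ 2)) := by
    linear_combination (x ^ 2 - om * x + om - 1) * om_sq_add
  rw [e] at h1
  rcases hp.dvd_or_dvd h1 with h3 | h3
  · exact ⟨0, h3⟩
  · rcases hp.dvd_or_dvd h3 with h4 | h4
    exacts [⟨1, h4⟩, ⟨2, h4⟩]

theorem cub1_of_dvd (hp : Prime p) (h : Primary p) {a : O} {k : ℕ}
    (hk : p ∣ a ^ ((nm p - 1) / 3) - om ^ k) : cub1 p a = omC ^ k := by
  unfold cub1
  rw [Finset.sum_eq_single (k % 3), if_pos (om_pow_mod k ▸ hk), ← pow_eq_pow_mod k omC_cube]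
  · intro j hj hne
    refine if_neg fun hd => hne ?_
    have h1 := dvd_sub hk hd
    rw [sub_sub_sub_cancel_left] at h1
    rw [← dvd_om_sub hp h h1, Nat.mod_eq_of_lt (Finset.mem_range.1 hj)]
  · intro hn
    exact absurd (Finset.mem_range.2 (Nat.mod_lt _ (by norm_num))) hn

theorem not_dvd_of_cub (hp : Prime p) (h : Primary p) {a : O} {k : ℕ}
    (hk : p ∣ a ^ ((nm p - 1) / 3) - om ^ k) : ¬ p ∣ a := by
  intro ha
  have h4 := four_le hp h
  have h1 : p ∣ a ^ ((nm p - 1) / 3) := dvd_pow ha (by omega)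
  have h2 : p ∣ om := hp.dvd_of_dvd_pow ((dvd_sub_right h1).1 hk)
  exact hp.not_dvd_one (om_cube ▸ dvd_pow h2 (by norm_num))

theorem cub1_of_dvd_zero (hp : Prime p) (h : Primary p) {a : O} (ha : p ∣ a) : cub1 p a = 0 :=
  Finset.sum_eq_zero fun _ _ => if_neg fun hk => not_dvd_of_cub hp h hk ha

theorem cub1_eq_zero_iff (hp : Prime p) (h : Primary p) {a : O} : cub1 p a = 0 ↔ p ∣ a := by
  refine ⟨fun h0 => by_contra fun ha => ?_, cub1_of_dvd_zero hp h⟩
  obtain ⟨k, hk⟩ := exists_cub hp h ha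
  rw [cub1_of_dvd hp h hk] at h0
  exact pow_ne_zero _ omC_ne_zero h0

theorem cub1_iff (hp : Prime p) (h : Primary p) {a : O} (k : ℕ) :
    cub1 p a = omC ^ k ↔ p ∣ a ^ ((nm p - 1) / 3) - om ^ k := by
  refine ⟨fun h1 => ?_, cub1_of_dvd hp h⟩
  have ha : ¬ p ∣ a := fun ha => by
    rw [cub1_of_dvd_zero hp h ha] at h1
    exact pow_ne_zero _ omC_ne_zero h1.symm
  obtain ⟨j, hj⟩ := exists_cub hp h ha
  rw [cub1_of_dvd hp h hj, omC_pow, omC_pow] at h1
  rwa [← ι_injective h1]

theorem cub1_one (hp : Prime p) (h : Primary p) : cub1 p 1 = 1 := by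
  have := cub1_of_dvd hp h (a := 1) (k := 0) (by simp)
  simpa using this

theorem cub1_mul (hp : Prime p) (h : Primary p) (a b : O) :
    cub1 p (a * b) = cub1 p a * cub1 p b := by
  by_cases ha : p ∣ a
  · rw [cub1_of_dvd_zero hp h ha, cub1_of_dvd_zero hp h (ha.mul_right b), zero_mul]
  by_cases hb : p ∣ b
  · rw [cub1_of_dvd_zero hp h hb, cub1_of_dvd_zero hp h (hb.mul_left a), mul_zero]
  obtain ⟨i, hi⟩ := exists_cub hp h ha
  obtain ⟨j, hj⟩ := exists_cub hp h hb
  rw [cub1_of_dvd hp h hi, cub1_of_dvd hp h hj, ← pow_add]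
  refine cub1_of_dvd hp h ?_
  have := dvd_add (hi.mul_right (b ^ ((nm p - 1) / 3))) (hj.mul_left (om ^ i))
  convert this using 1
  rw [mul_pow, pow_add]; ring

theorem dvd_pow_sub_iff {a b c : O} (hab : p ∣ a - b) (e : ℕ) : p ∣ a ^ e - c ↔ p ∣ b ^ e - c := by
  have := hab.trans (sub_dvd_pow_sub_pow a b e)
  rw [show a ^ e - c = (a ^ e - b ^ e) + (b ^ e - c) by ring]
  exact dvd_add_right this

theorem cub1_congr {a b : O} (hab : p ∣ a - b) : cub1 p a = cub1 p b := by
  unfold cub1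
  refine Finset.sum_congr rfl fun k _ => ?_
  rw [propext (dvd_pow_sub_iff hab _)]

theorem cub1_cube (hp : Prime p) (h : Primary p) {a : O} (ha : ¬ p ∣ a) : cub1 p a ^ 3 = 1 := by
  obtain ⟨k, hk⟩ := exists_cub hp h ha
  rw [cub1_of_dvd hp h hk, ← pow_mul, mul_comm, pow_mul, omC_cube, one_pow]

theorem norm_cub1_le (hp : Prime p) (h : Primary p) (a : O) : ‖cub1 p a‖ ≤ 1 := by
  by_cases ha : p ∣ a
  · simp [cub1_of_dvd_zero hp h ha]
  · obtain ⟨k, hk⟩ := exists_cub hp h ha
    rw [cub1_of_dvd hp h hk, norm_pow, norm_omC, one_pow]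

theorem conj_cub1 (hp : Prime p) (h : Primary p) (a : O) : conj (cub1 p a) = cub1 p a ^ 2 := by
  by_cases ha : p ∣ a
  · simp [cub1_of_dvd_zero hp h ha]
  · obtain ⟨k, hk⟩ := exists_cub hp h ha
    rw [cub1_of_dvd hp h hk, map_pow, conj_omC, ← pow_mul, ← pow_mul, mul_comm]

/-! ### quadratic character -/

theorem quad1_eq_zero_iff {a : O} : quad1 p a = 0 ↔ p ∣ a := by
  unfold quad1
  split_ifs with h1 h2 <;> simp [h1]

theorem quad1_one (hp : Prime p) : quad1 p 1 = 1 := by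
  unfold quad1
  rw [if_neg hp.not_dvd_one, if_pos (by simp)]

theorem quad1_sq {a : O} (ha : ¬ p ∣ a) : quad1 p a ^ 2 = 1 := by
  unfold quad1
  rw [if_neg ha]
  split_ifs <;> simp

theorem norm_quad1_le (a : O) : ‖quad1 p a‖ ≤ 1 := by
  unfold quad1
  split_ifs <;> simp

theorem conj_quad1 (a : O) : conj (quad1 p a) = quad1 p a := by
  unfold quad1
  split_ifs <;> simp

theorem quad1_congr {a b : O} (hab : p ∣ a - b) : quad1 p a = quad1 p b := by
  unfold quad1
  rw [propext (dvd_iff_dvd_of_dvd_sub hab), propext (dvd_pow_sub_iff hab _)]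

theorem nm_mod_six (hp : Prime p) (h : Primary p) (h2 : ¬ p ∣ 2) : nm p % 6 = 1 ∧ 7 ≤ nm p :=
  nm_prime_mod_six hp h fun e => h2 (e ▸ (neg_dvd.2 dvd_rfl))

theorem quad1_mul (hp : Prime p) (h : Primary p) (h2 : ¬ p ∣ 2) (a b : O) :
    quad1 p (a * b) = quad1 p a * quad1 p b := by
  by_cases ha : p ∣ a
  · rw [quad1_eq_zero_iff.2 ha, quad1_eq_zero_iff.2 (ha.mul_right b), zero_mul]
  by_cases hb : p ∣ b
  · rw [quad1_eq_zero_iff.2 hb, quad1_eq_zero_iff.2 (hb.mul_left a), mul_zero]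
  have hab : ¬ p ∣ a * b := fun h' => (hp.dvd_or_dvd h').elim ha hb
  have h6 := (nm_mod_six hp h h2).1
  have key : ∀ c, ¬ p ∣ c → ¬ p ∣ c ^ ((nm p - 1) / 2) - 1 → p ∣ c ^ ((nm p - 1) / 2) + 1 := by
    intro c hc hc'
    have h1 := fermat hp hc
    rw [show nm p - 1 = (nm p - 1) / 2 * 2 by omega, pow_mul] at h1
    generalize c ^ ((nm p - 1) / 2) = x at *
    rw [show x ^ 2 - 1 = (x + 1) * (x - 1) by ring] at h1
    exact (hp.dvd_or_dvd h1).resolve_right hc'
  have ka := key a ha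
  have kb := key b hb
  unfold quad1
  rw [if_neg ha, if_neg hb, if_neg hab, mul_pow]
  generalize a ^ ((nm p - 1) / 2) = x at *
  generalize b ^ ((nm p - 1) / 2) = y at *
  by_cases hx : p ∣ x - 1 <;> by_cases hy : p ∣ y - 1
  · rw [if_pos hx, if_pos hy, if_pos, one_mul]
    convert dvd_add (hx.mul_right y) hy using 1; ring
  · rw [if_pos hx, if_neg hy, if_neg, one_mul]
    intro h'
    apply hy
    convert dvd_sub h' (hx.mul_right y) using 1; ring
  · rw [if_neg hx, if_pos hy, if_neg, mul_one]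
    intro h'
    apply hx
    convert dvd_sub h' (hy.mul_left x) using 1; ring
  · rw [if_neg hx, if_neg hy, if_pos]
    · norm_num
    · convert dvd_sub ((ka hx).mul_right y) (kb hy) using 1; ring

/-- a character of the residue field from a function -/
theorem exists_chr_prime (f : O → ℂ) (h1 : f 1 = 1) (hmul : ∀ a b, f (a * b) = f a * f b)
    (hper : ∀ a b, p ∣ a - b → f a = f b) (h0 : ∀ a, ¬ IsCoprime a p → f a = 0) :
    ∃ χ : MulChar (O ⧸ Ideal.span {p}) ℂ, ∀ a, χ (Ideal.Quotient.mk _ a) = f a := by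
  obtain ⟨ν, hν⟩ := exists_chr (M := p) f h1 (fun a b _ _ => hmul a b) fun a b _ h => hper a b h
  refine ⟨ν, fun a => ?_⟩
  by_cases ha : IsCoprime a p
  · exact hν a ha
  · rw [h0 a ha]; exact ev_eq_zero ν ha

theorem isUnit_mk_iff (a p : O) :
    IsUnit (Ideal.Quotient.mk (Ideal.span {p}) a) ↔ IsCoprime a p := by
  constructor
  · intro h
    obtain ⟨y, hy⟩ := h.exists_left_inv
    obtain ⟨b, rfl⟩ := Ideal.Quotient.mk_surjective y
    rw [← map_mul, ← map_one (Ideal.Quotient.mk (Ideal.span {p})), Ideal.Quotient.eq,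
      Ideal.mem_span_singleton] at hy
    obtain ⟨c, hc⟩ := hy
    exact ⟨b, -c, by linear_combination hc⟩
  · rintro ⟨b, c, h⟩
    refine IsUnit.of_mul_eq_one_right (Ideal.Quotient.mk _ b) ?_
    rw [← map_mul, ← map_one (Ideal.Quotient.mk (Ideal.span {p})), Ideal.Quotient.eq,
      Ideal.mem_span_singleton]
    exact ⟨-c, by linear_combination h⟩

theorem chr_pow_eq_one_iff (χ : MulChar (O ⧸ Ideal.span {p}) ℂ) (j : ℕ) :
    χ ^ j = 1 ↔ ∀ a, IsCoprime a p → χ (Ideal.Quotient.mk _ a) ^ j = 1 := by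
  rw [MulChar.eq_one_iff]
  constructor
  · intro h a ha
    have hu : IsUnit (Ideal.Quotient.mk (Ideal.span {p}) a) :=
      (isUnit_mk_iff a p).2 ha
    have := h hu.unit
    rwa [MulChar.pow_apply_coe, IsUnit.unit_spec] at this
  · intro h u
    obtain ⟨a, ha⟩ := Ideal.Quotient.mk_surjective (u : O ⧸ Ideal.span {p})
    rw [MulChar.pow_apply_coe, ← ha]
    exact h a ((isUnit_mk_iff a p).1 (ha ▸ u.isUnit))

/-! ### conjugation -/

/-- conjugation as a ring automorphism -/
def cjE : O ≃+* O where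
  toFun := cj
  invFun := cj
  left_inv z := by ext <;> simp [cj]
  right_inv z := by ext <;> simp [cj]
  map_mul' z w := by ext <;> simp [cj] <;> ring
  map_add' z w := by ext <;> simp [cj] <;> ring

theorem cjE_apply (z : O) : cjE z = cj z := rfl

theorem cj_cj (z : O) : cj (cj z) = z := cjE.left_inv z

theorem nm_cj (z : O) : nm (cj z) = nm z := by
  apply Int.natCast_inj.mp; rw [nm_cast, nm_cast]; simp only [cj]; ring

theorem prime_cj (hp : Prime p) : Prime (cj p) := (MulEquiv.prime_iff cjE.toMulEquiv).2 hp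

theorem primary_cj (h : Primary p) : Primary (cj p) := by
  have := map_dvd cjE h
  rwa [map_sub, map_one, map_ofNat] at this

theorem cj_mem_pf {n : O} (h : p ∈ pf n) : cj p ∈ pf (cj n) := by
  obtain ⟨h1, h2, h3, -⟩ := of_mem_pf h
  have hn : n ≠ 0 := by
    rintro rfl
    simp at h
  exact (mem_pf ((map_ne_zero_iff cjE cjE.injective).2 hn)).2
    ⟨prime_cj h1, primary_cj h2, map_dvd cjE h3⟩

theorem vp_cj (p n : O) : vp (cj p) (cj n) = vp p n := multiplicity_map_eq cjE.toMulEquiv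

theorem cub1_cj (hp : Prime p) (h : Primary p) (a : O) :
    cub1 (cj p) (cj a) = conj (cub1 p a) := by
  by_cases ha : p ∣ a
  · rw [cub1_of_dvd_zero hp h ha, map_zero]
    exact cub1_of_dvd_zero (prime_cj hp) (primary_cj h) (map_dvd cjE ha)
  · obtain ⟨k, hk⟩ := exists_cub hp h ha
    rw [cub1_of_dvd hp h hk, map_pow, conj_omC, ← pow_mul]
    refine cub1_of_dvd (prime_cj hp) (primary_cj h) ?_
    have := map_dvd cjE hk
    rwa [map_sub, map_pow, map_pow, cjE_apply, cjE_apply, cjE_apply, cj_om, ← pow_mul,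
      ← nm_cj p] at this

end SymbolAux
end Crest.Agent.R17
end
end

-- ▼ part PVc/R17/Symbol
section

/-!
# Row 17, module M2 (part A): formal properties of the residue symbols

`cub n a = (a/n)₃`, `quad n a = (a/n)₂`, `sym n a = (a/n)₆`.  For a primary prime `p` the residue
ring `O/(p)` is a finite field with `N p` elements, and `cub1 p`, `quad1 p` are multiplicative
characters of it (`exists_mulChar_cub`, `exists_mulChar_sym`).
-/

set_option autoImplicit false

noncomputable section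

namespace Crest.Agent.R17

open scoped ComplexConjugate
open SymbolAux

/-! ## cubic symbol (denominator: any non-zero element; only its prime-to-`λ` part matters) -/

theorem cub_prime {p : O} (hp : Prime p) (h : Primary p) (a : O) : cub p a = cub1 p a := by
  rw [cub, pf_prime hp h, Finset.prod_singleton, vp_self hp, pow_one]
@[simp] theorem cub_one_left (a : O) : cub 1 a = 1 := by
  rw [cub, pf_one, Finset.prod_empty]
@[simp] theorem cub_one_right (n : O) : cub n 1 = 1 := by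
  exact Finset.prod_eq_one fun p hp => by
    rw [cub1_one (of_mem_pf hp).1 (of_mem_pf hp).2.1, one_pow]
theorem cub_mul_left {m n : O} (hm : m ≠ 0) (hn : n ≠ 0) (a : O) :
    cub (m * n) a = cub m a * cub n a := by
  exact prod_mul hm hn fun p => cub1 p a
theorem cub_pow_left {n : O} (hn : n ≠ 0) (k : ℕ) (a : O) : cub (n ^ k) a = cub n a ^ k := by
  induction k with
  | zero => simp
  | succ k ih => rw [pow_succ, cub_mul_left (pow_ne_zero _ hn) hn, ih, pow_succ]
theorem cub_unit_mul_left {u : O} (hu : IsUnit u) (n a : O) : cub (u * n) a = cub n a := by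
  rcases eq_or_ne n 0 with rfl | hn
  · rw [mul_zero]
  · have h : pf u = ∅ := by rw [← mul_one u, pf_unit_mul hu, pf_one]
    rw [cub_mul_left hu.ne_zero hn, cub, h, Finset.prod_empty, one_mul]
theorem cub_mul_right (n a b : O) : cub n (a * b) = cub n a * cub n b := by
  rw [cub, cub, cub, ← Finset.prod_mul_distrib]
  refine Finset.prod_congr rfl fun p hp => ?_
  rw [cub1_mul (of_mem_pf hp).1 (of_mem_pf hp).2.1, mul_pow]
theorem cub_pow_right (n a : O) (k : ℕ) : cub n (a ^ k) = cub n a ^ k := by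
  induction k with
  | zero => simp
  | succ k ih => rw [pow_succ, cub_mul_right, ih, pow_succ]
theorem cub_congr {n a b : O} (h : rad n ∣ a - b) : cub n a = cub n b := by
  exact Finset.prod_congr rfl fun p hp => by rw [cub1_congr ((dvd_rad hp).trans h)]
theorem cub_eq_zero_iff {n a : O} (hn : Primary n) : cub n a = 0 ↔ ¬ IsCoprime n a := by
  exact prod_eq_zero_iff hn (fun p => cub1 p a) fun p hp h => cub1_eq_zero_iff hp h
theorem cub_pow_three {n a : O} (hn : Primary n) (h : IsCoprime n a) : cub n a ^ 3 = 1 := by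
  rw [cub, ← Finset.prod_pow]
  refine Finset.prod_eq_one fun p hp => ?_
  rw [← pow_mul, mul_comm, pow_mul, cub1_cube (of_mem_pf hp).1 (of_mem_pf hp).2.1
    fun hpa => (not_coprime_iff hn).2 ⟨p, hp, hpa⟩ h, one_pow]
theorem norm_cub_le (n a : O) : ‖cub n a‖ ≤ 1 := by
  rw [cub, norm_prod]
  refine Finset.prod_le_one (fun _ _ => norm_nonneg _) fun p hp => ?_
  rw [norm_pow]
  exact pow_le_one₀ (norm_nonneg _) (norm_cub1_le (of_mem_pf hp).1 (of_mem_pf hp).2.1 a)
theorem norm_cub {n a : O} (hn : Primary n) (h : IsCoprime n a) : ‖cub n a‖ = 1 := by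
  have := congrArg norm (cub_pow_three hn h)
  rw [norm_pow, norm_one] at this
  exact (pow_eq_one_iff_of_nonneg (norm_nonneg _) (by norm_num)).1 this
theorem conj_cub (n a : O) : conj (cub n a) = cub n a ^ 2 := by
  rw [cub, map_prod, ← Finset.prod_pow]
  refine Finset.prod_congr rfl fun p hp => ?_
  rw [map_pow, conj_cub1 (of_mem_pf hp).1 (of_mem_pf hp).2.1, ← pow_mul, ← pow_mul, mul_comm]
theorem cub_neg_one (n : O) : cub n (-1) = 1 := by
  rw [show (-1 : O) = (-1) ^ 3 by norm_num, cub_pow_right, cub, ← Finset.prod_pow]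
  refine Finset.prod_eq_one fun p hp => ?_
  rw [← pow_mul, mul_comm, pow_mul, cub1_cube (of_mem_pf hp).1 (of_mem_pf hp).2.1
    fun hpa => (of_mem_pf hp).1.not_dvd_one (dvd_neg.1 hpa), one_pow]
/-- The defining congruence. -/
theorem cub1_eq_pow_iff {p a : O} (hp : Prime p) (h : Primary p) (k : ℕ) :
    cub1 p a = omC ^ k ↔ p ∣ a ^ ((nm p - 1) / 3) - om ^ k := by
  exact cub1_iff hp h k
theorem Symbol_exists_cub_ne {p : O} (hp : Prime p) (h : Primary p) :
    ∃ a, IsCoprime a p ∧ cub p a ≠ 1 := by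
  have h4 := four_le hp h
  obtain ⟨a, ha, ha'⟩ := exists_pow_ne hp (e := (nm p - 1) / 3) (by omega) (by omega)
  refine ⟨a, (hp.coprime_iff_not_dvd.2 ha).symm, fun h1 => ha' ?_⟩
  rw [cub_prime hp h, ← pow_zero omC, cub1_iff hp h, pow_zero] at h1
  exact h1
/-- `cub1 p` is a non-trivial (order three) character of the field `O/(p)`. -/
theorem exists_mulChar_cub {p : O} (hp : Prime p) (h : Primary p) :
    ∃ χ : MulChar (O ⧸ Ideal.span {p}) ℂ, orderOf χ = 3 ∧
      ∀ a, χ (Ideal.Quotient.mk _ a) = cub p a := by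
  obtain ⟨χ, hχ⟩ := exists_chr_prime (p := p) (cub p) (cub_one_right p) (cub_mul_right p)
    (fun a b hab => cub_congr ((rad_dvd p).trans hab))
    fun a ha => (cub_eq_zero_iff h).2 fun h' => ha h'.symm
  refine ⟨χ, orderOf_eq_prime (p := 3) ((chr_pow_eq_one_iff χ 3).2 fun a ha => ?_) fun h1 => ?_,
    hχ⟩
  · rw [hχ, cub_pow_three h ha.symm]
  · obtain ⟨a, ha, ha'⟩ := Symbol_exists_cub_ne hp h
    have := (chr_pow_eq_one_iff χ 1).1 (by rw [h1, one_pow]) a ha
    rw [pow_one, hχ] at this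
    exact ha' this
theorem cub_cj (n a : O) : cub (cj n) (cj a) = conj (cub n a) := by
  rw [cub, cub, map_prod]
  symm
  refine Finset.prod_nbij' cj cj (fun p hp => cj_mem_pf hp) (fun p hp => ?_)
    (fun p _ => cj_cj p) (fun p _ => cj_cj p) fun p hp => ?_
  · have := cj_mem_pf hp
    rwa [cj_cj] at this
  · rw [map_pow, vp_cj, cub1_cj (of_mem_pf hp).1 (of_mem_pf hp).2.1]

/-! ## quadratic and sextic symbols (denominator primary and odd, i.e. coprime to `6`) -/

/-- Primary and coprime to `2`. -/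
def PO (n : O) : Prop := Primary n ∧ IsCoprime n 2

theorem PO.mul {m n : O} (hm : PO m) (hn : PO n) : PO (m * n) := by
  exact ⟨hm.1.mul hn.1, hm.2.mul_left hn.2⟩
theorem PO.of_dvd {m n : O} (hn : PO n) (hm : Primary m) (h : m ∣ n) : PO m := by
  exact ⟨hm, hn.2.of_isCoprime_of_dvd_left h⟩
theorem PO.of_adm {M n : O} (hM : Adm M) (hn : Primary n) (h : IsCoprime n M) : PO n := by
  exact ⟨hn, h.of_isCoprime_of_dvd_right (Dvd.dvd.trans ⟨36, by norm_num⟩ hM.2)⟩

theorem Symbol_quad_prime {p : O} (hp : Prime p) (h : Primary p) (a : O) :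
    quad p a = quad1 p a := by
  rw [quad, pf_prime hp h, Finset.prod_singleton, vp_self hp, pow_one]
theorem Symbol_quad_eq_zero_iff {n a : O} (hn : Primary n) : quad n a = 0 ↔ ¬ IsCoprime n a :=
  prod_eq_zero_iff hn (fun p => quad1 p a) fun _ _ _ => quad1_eq_zero_iff
theorem Symbol_norm_quad_le (n a : O) : ‖quad n a‖ ≤ 1 := by
  rw [quad, norm_prod]
  refine Finset.prod_le_one (fun _ _ => norm_nonneg _) fun p _ => ?_
  rw [norm_pow]
  exact pow_le_one₀ (norm_nonneg _) (norm_quad1_le a)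
theorem Symbol_quad_sq {n a : O} (hn : Primary n) (h : IsCoprime n a) : quad n a ^ 2 = 1 := by
  rw [quad, ← Finset.prod_pow]
  refine Finset.prod_eq_one fun p hp => ?_
  rw [← pow_mul, mul_comm, pow_mul, quad1_sq
    fun hpa => (not_coprime_iff hn).2 ⟨p, hp, hpa⟩ h, one_pow]

@[simp] theorem quad_one_left (a : O) : quad 1 a = 1 := by
  rw [quad, pf_one, Finset.prod_empty]
@[simp] theorem sym_one_left (a : O) : sym 1 a = 1 := by
  simp [sym]
theorem quad_one_right (n : O) : quad n 1 = 1 := by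
  exact Finset.prod_eq_one fun p hp => by rw [quad1_one (of_mem_pf hp).1, one_pow]
theorem sym_one_right (n : O) : sym n 1 = 1 := by
  simp [sym, quad_one_right]
theorem quad_mul_left {m n : O} (hm : m ≠ 0) (hn : n ≠ 0) (a : O) :
    quad (m * n) a = quad m a * quad n a := by
  exact prod_mul hm hn fun p => quad1 p a
theorem sym_mul_left {m n : O} (hm : m ≠ 0) (hn : n ≠ 0) (a : O) :
    sym (m * n) a = sym m a * sym n a := by
  rw [sym, sym, sym, quad_mul_left hm hn, cub_mul_left hm hn, map_mul]; ring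
theorem sym_pow_left {n : O} (hn : n ≠ 0) (k : ℕ) (a : O) : sym (n ^ k) a = sym n a ^ k := by
  induction k with
  | zero => simp
  | succ k ih => rw [pow_succ, sym_mul_left (pow_ne_zero _ hn) hn, ih, pow_succ]
theorem sym_eq_prod (n a : O) : sym n a = ∏ p ∈ pf n, sym p a ^ vp p n := by
  rw [sym, quad, cub, map_prod, ← Finset.prod_mul_distrib]
  refine Finset.prod_congr rfl fun p hp => ?_
  obtain ⟨h1, h2, -, -⟩ := of_mem_pf hp
  rw [sym, cub_prime h1 h2, Symbol_quad_prime h1 h2, mul_pow, map_pow]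
theorem quad_mul_right {n : O} (hn : PO n) (a b : O) : quad n (a * b) = quad n a * quad n b := by
  rw [quad, quad, quad, ← Finset.prod_mul_distrib]
  refine Finset.prod_congr rfl fun p hp => ?_
  obtain ⟨h1, h2, h3, -⟩ := of_mem_pf hp
  rw [quad1_mul h1 h2 (fun h => h1.not_isUnit (hn.2.isUnit_of_dvd' h3 h)), mul_pow]
theorem sym_mul_right {n : O} (hn : PO n) (a b : O) : sym n (a * b) = sym n a * sym n b := by
  rw [sym, sym, sym, quad_mul_right hn, cub_mul_right, map_mul]; ring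
theorem sym_pow_right {n : O} (hn : PO n) (a : O) (k : ℕ) : sym n (a ^ k) = sym n a ^ k := by
  induction k with
  | zero => simp [sym_one_right]
  | succ k ih => rw [pow_succ, sym_mul_right hn, ih, pow_succ]
theorem quad_congr {n a b : O} (h : rad n ∣ a - b) : quad n a = quad n b := by
  exact Finset.prod_congr rfl fun p hp => by rw [quad1_congr ((dvd_rad hp).trans h)]
theorem sym_congr {n a b : O} (h : rad n ∣ a - b) : sym n a = sym n b := by
  rw [sym, sym, quad_congr h, cub_congr h]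
theorem sym_eq_zero_iff {n a : O} (hn : Primary n) : sym n a = 0 ↔ ¬ IsCoprime n a := by
  rw [sym, mul_eq_zero, map_eq_zero, cub_eq_zero_iff hn, Symbol_quad_eq_zero_iff hn, or_self]
theorem norm_sym_le (n a : O) : ‖sym n a‖ ≤ 1 := by
  rw [sym, norm_mul, Complex.norm_conj]
  exact mul_le_one₀ (Symbol_norm_quad_le n a) (norm_nonneg _) (norm_cub_le n a)
theorem norm_sym {n a : O} (hn : Primary n) (h : IsCoprime n a) : ‖sym n a‖ = 1 := by
  have := congrArg norm (Symbol_quad_sq hn h)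
  rw [norm_pow, norm_one] at this
  rw [sym, norm_mul, Complex.norm_conj, norm_cub hn h,
    (pow_eq_one_iff_of_nonneg (norm_nonneg _) (by norm_num)).1 this, one_mul]
theorem norm_quad_le (n a : O) : ‖quad n a‖ ≤ 1 := by
  exact Symbol_norm_quad_le n a
theorem conj_quad (n a : O) : conj (quad n a) = quad n a := by
  rw [quad, map_prod]
  exact Finset.prod_congr rfl fun p _ => by rw [map_pow, conj_quad1]
theorem quad_sq {n a : O} (hn : Primary n) (h : IsCoprime n a) : quad n a ^ 2 = 1 := by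
  exact Symbol_quad_sq hn h
theorem sym_sq {n : O} (hn : Primary n) (a : O) : sym n a ^ 2 = cub n a := by
  rw [sym, conj_cub]
  by_cases h : IsCoprime n a
  · linear_combination cub n a ^ 4 * quad_sq hn h + cub n a * cub_pow_three hn h
  · rw [(cub_eq_zero_iff hn).2 h]; simp
theorem sym_pow_three {n : O} (hn : Primary n) (a : O) : sym n a ^ 3 = quad n a := by
  rw [sym, conj_cub]
  by_cases h : IsCoprime n a
  · linear_combination quad n a * cub n a ^ 6 * quad_sq hn h +
      quad n a * (cub n a ^ 3 + 1) * cub_pow_three hn h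
  · rw [(Symbol_quad_eq_zero_iff hn).2 h]; simp
theorem sym_pow_six {n a : O} (hn : Primary n) (h : IsCoprime n a) : sym n a ^ 6 = 1 := by
  rw [show 6 = 2 * 3 from rfl, pow_mul, sym_sq hn, cub_pow_three hn h]
theorem sym_pow_add_six {n : O} (hn : Primary n) (a : O) {j : ℕ} (hj : j ≠ 0) :
    sym n a ^ (j + 6) = sym n a ^ j := by
  by_cases h : IsCoprime n a
  · rw [pow_add, sym_pow_six hn h, mul_one]
  · rw [(sym_eq_zero_iff hn).2 h, zero_pow hj, zero_pow (by omega)]
theorem conj_sym {n : O} (hn : Primary n) (a : O) : conj (sym n a) = sym n a ^ 5 := by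
  rw [show 5 = 3 + 2 from rfl, pow_add, sym_pow_three hn, sym_sq hn, sym, map_mul, conj_quad,
    Complex.conj_conj]
/-- `sym p` is a character of exact order six of the field `O/(p)`. -/
theorem exists_mulChar_sym {p : O} (hp : Prime p) (h : PO p) :
    ∃ χ : MulChar (O ⧸ Ideal.span {p}) ℂ, orderOf χ = 6 ∧
      ∀ a, χ (Ideal.Quotient.mk _ a) = sym p a := by
  obtain ⟨χ, hχ⟩ := exists_chr_prime (p := p) (sym p) (sym_one_right p) (sym_mul_right h)
    (fun a b hab => sym_congr ((rad_dvd p).trans hab))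
    fun a ha => (sym_eq_zero_iff h.1).2 fun h' => ha h'.symm
  refine ⟨χ, orderOf_eq_of_pow_and_pow_div_prime (by norm_num)
    ((chr_pow_eq_one_iff χ 6).2 fun a ha => ?_) fun q hq hq6 h1 => ?_, hχ⟩
  · rw [hχ, sym_pow_six h.1 ha.symm]
  · have hq' : q = 2 ∨ q = 3 := by
      have := Nat.le_of_dvd (by norm_num) hq6
      interval_cases q <;> first | omega | exact absurd hq (by norm_num)
    rcases hq' with rfl | rfl
    · have h6 := nm_mod_six hp h.1 fun h' => hp.not_isUnit (h.2.isUnit_of_dvd' dvd_rfl h')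
      obtain ⟨a, ha, ha'⟩ := exists_pow_ne hp (e := (nm p - 1) / 2) (by omega) (by omega)
      have := (chr_pow_eq_one_iff χ 3).1 h1 a (hp.coprime_iff_not_dvd.2 ha).symm
      rw [hχ, sym_pow_three h.1, Symbol_quad_prime hp h.1, quad1, if_neg ha, if_neg ha'] at this
      norm_num at this
    · obtain ⟨a, ha, ha'⟩ := Symbol_exists_cub_ne hp h.1
      have := (chr_pow_eq_one_iff χ 2).1 h1 a ha
      rw [hχ, sym_sq h.1] at this
      exact ha' this
/-- A non-trivial power has mean zero. -/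
theorem sum_res_sym_pow {p : O} (hp : Prime p) (h : PO p) {j : ℕ} (hj : ¬ 6 ∣ j) :
    ∑ x ∈ res p, sym p x ^ j = 0 := by
  obtain ⟨χ, h6, hχ⟩ := exists_mulChar_sym hp h
  have := Fact.mk hp.ne_zero
  have := Fintype.ofFinite (O ⧸ Ideal.span {p})
  have hj0 : j ≠ 0 := by
    rintro rfl
    exact hj (dvd_zero _)
  have h1 : χ ^ j ≠ 1 := fun h' => hj (h6 ▸ orderOf_dvd_of_pow_eq_one h')
  rw [← MulChar.sum_eq_zero_of_ne_one h1, ← sum_res_eq_quot hp.ne_zero]
  exact Finset.sum_congr rfl fun x _ => by rw [MulChar.pow_apply' _ hj0, hχ]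
theorem exists_sym_pow_ne_one {p : O} (hp : Prime p) (h : PO p) {j : ℕ} (hj : ¬ 6 ∣ j) :
    ∃ x, IsCoprime x p ∧ sym p x ^ j ≠ 1 := by
  obtain ⟨χ, h6, hχ⟩ := exists_mulChar_sym hp h
  have h1 : χ ^ j ≠ 1 := fun h' => hj (h6 ▸ orderOf_dvd_of_pow_eq_one h')
  by_contra hc
  push Not at hc
  exact h1 ((chr_pow_eq_one_iff χ j).2 fun a ha => by rw [hχ, hc a ha])

end Crest.Agent.R17
end
end

-- ▼ part PVc/R17/Gauss

/-!
# Row 17, module M3: Gauss sums (no reciprocity law is used in this file)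
-/

set_option autoImplicit false
set_option linter.unusedVariables false

noncomputable section

namespace Crest.Agent.R17

open scoped ComplexConjugate

/-- Fourier coefficient of a function modulo `n`. -/
def Gauss_G (f : O → ℂ) (n k : O) : ℂ := ∑ x ∈ res n, f x * eq (k * x) n

theorem Gauss_eq_zero (n : O) : eq 0 n = 1 := by simp [eq]

theorem Gauss_per {f : O → ℂ} {m n : O} (hf : ∀ x y, m ∣ x - y → f x = f y) (h : m ∣ n) (k x y : O)
    (hxy : n ∣ x - y) : f x * eq (k * x) n = f y * eq (k * y) n := by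
  rw [hf x y (h.trans hxy), eq_congr (show n ∣ k * x - k * y from mul_sub k x y ▸ hxy.mul_left k)]

theorem Gauss_sym_per (n : O) (j : ℕ) (x y : O) (h : n ∣ x - y) : sym n x ^ j = sym n y ^ j := by
  rw [sym_congr ((rad_dvd n).trans h)]

theorem Gauss_cub_per (n x y : O) (h : n ∣ x - y) : cub n x = cub n y :=
  cub_congr ((rad_dvd n).trans h)

theorem Gauss_sym_pow {n : O} (hn : Primary n) (a : O) {j : ℕ} (hj : j ≠ 0) (b : ℕ) :
    sym n a ^ (j + 6 * b) = sym n a ^ j := by
  induction b with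
  | zero => rfl
  | succ b ih => rw [mul_add, mul_one, ← add_assoc, sym_pow_add_six hn a (by omega), ih]

theorem Gauss_sym_six {n a : O} (hn : Primary n) (h : IsCoprime n a) (j : ℕ) :
    sym n a ^ (j + 6) = sym n a ^ j := by rw [pow_add, sym_pow_six hn h, mul_one]

theorem Gauss_conj_mul {z : ℂ} (h : ‖z‖ = 1) : conj z * z = 1 := by
  rw [Complex.conj_mul', h]; simp

theorem Gauss_unit {f : O → ℂ} {n : O} (hn : n ≠ 0) (hf : ∀ x y, n ∣ x - y → f x = f y)
    (hm : ∀ x y, f (x * y) = f x * f y) {y : O} (hy : IsCoprime y n) (h1 : ‖f y‖ = 1) (k : O) :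
    Gauss_G f n (k * y) = conj (f y) * Gauss_G f n k := by
  have h := sum_res_affine hn _ (Gauss_per hf dvd_rfl k) hy 0
  rw [Gauss_G, Gauss_G, ← h, Finset.mul_sum]
  refine Finset.sum_congr rfl fun x _ => ?_
  rw [add_zero, hm, ← mul_assoc, ← mul_assoc, Gauss_conj_mul h1, one_mul, mul_assoc k]

theorem Gauss_crt {f g : O → ℂ} {m n : O} (hm : m ≠ 0) (hn : n ≠ 0) (h : IsCoprime m n)
    (hf : ∀ x y, m ∣ x - y → f x = f y) (hg : ∀ x y, n ∣ x - y → g x = g y)
    (hf' : ∀ x y, f (x * y) = f x * f y) (hg' : ∀ x y, g (x * y) = g x * g y) (k : O) :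
    Gauss_G (fun x => f x * g x) (m * n) k = f n * g m * Gauss_G f m k * Gauss_G g n k := by
  rw [Gauss_G, sum_res_crt hm hn h _ (Gauss_per (m := m * n) (fun x y hxy => by
    rw [hf x y ((dvd_mul_right m n).trans hxy), hg x y ((dvd_mul_left n m).trans hxy)])
    dvd_rfl k), Gauss_G, Gauss_G, mul_assoc, Finset.sum_mul_sum, Finset.mul_sum]
  refine Finset.sum_congr rfl fun x _ => ?_
  rw [Finset.mul_sum]
  refine Finset.sum_congr rfl fun y _ => ?_
  rw [hf _ (n * x) ⟨y, by ring⟩, hg _ (m * y) ⟨x, by ring⟩, hf', hg',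
    show k * (n * x + m * y) = n * (k * x) + m * (k * y) by ring, eq_crt hm hn]
  ring

theorem Gauss_dvd {f : O → ℂ} {n k : O} (h : n ∣ k) : Gauss_G f n k = ∑ x ∈ res n, f x :=
  Finset.sum_congr rfl fun x _ => by
    rw [eq_congr (y := 0) (by simpa using h.mul_right x), Gauss_eq_zero, mul_one]

open Classical in
theorem Gauss_delta {f : O → ℂ} {n : O} (hn : n ≠ 0) (hf : ∀ x y, n ∣ x - y → f x = f y) (a : O) :
    ∑ x ∈ res n, (if n ∣ a - x then f x else 0) = f a := by
  obtain ⟨r, ⟨hr, hr'⟩, hu⟩ := exists_unique_res hn a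
  rw [Finset.sum_eq_single_of_mem r hr fun b hb hbr => if_neg fun h => hbr (hu b ⟨hb, h⟩),
    if_pos hr', hf a r hr']

theorem Gauss_norm {f : O → ℂ} {n : O} (hn : n ≠ 0) (hf : ∀ x y, n ∣ x - y → f x = f y)
    (h1 : f 1 = 1) (h : ∀ k, Gauss_G f n k = conj (f k) * Gauss_G f n 1) :
    ‖Gauss_G f n 1‖ = Real.sqrt (nr n) := by
  classical
  have key : conj (Gauss_G f n 1) * Gauss_G f n 1 = nm n := by
    have e1 : conj (Gauss_G f n 1) * Gauss_G f n 1 =
        ∑ k ∈ res n, ∑ x ∈ res n, f x * conj (eq ((1 - x) * k) n) := by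
      conv_lhs => rw [Gauss_G, map_sum, Finset.sum_mul]
      refine Finset.sum_congr rfl fun k _ => ?_
      rw [map_mul, mul_right_comm, ← Gauss_G, ← h, Gauss_G, Finset.sum_mul]
      refine Finset.sum_congr rfl fun x _ => ?_
      rw [← eq_neg, ← eq_neg, mul_assoc, ← eq_add]
      congr 2
      ring
    rw [e1, Finset.sum_comm, ← one_mul (nm n : ℂ), ← h1,
      ← Gauss_delta (f := fun x => f x * nm n) hn (fun x y hxy => by rw [hf x y hxy]) 1]
    refine Finset.sum_congr rfl fun x _ => ?_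
    rw [← Finset.mul_sum, ← map_sum, sum_res_eq_char hn]
    split_ifs <;> simp
  rw [Complex.conj_mul'] at key
  rw [← Real.sqrt_sq (norm_nonneg _)]
  congr 1
  exact_mod_cast key

open Classical in
theorem Gauss_pow {f : O → ℂ} {p : O} (hp : p ≠ 0) (hf : ∀ x y, p ∣ x - y → f x = f y) (i : ℕ)
    (k : O) : Gauss_G f (p ^ (i + 1)) k =
      if p ^ i ∣ k then (nm p : ℂ) ^ i * Gauss_G f p (k / p ^ i) else 0 := by
  have hi := pow_ne_zero i hp
  rw [Gauss_G, pow_succ', sum_res_mul hp hi _ (Gauss_per hf (dvd_mul_right _ _) k)]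
  have e : ∀ x, ∑ y ∈ res (p ^ i), f (x + p * y) * eq (k * (x + p * y)) (p * p ^ i) =
      f x * eq (k * x) (p * p ^ i) * if p ^ i ∣ k then (nm p : ℂ) ^ i else 0 := fun x => by
    rw [← Nat.cast_pow, ← nm_pow, ← sum_res_eq_char hi, Finset.mul_sum]
    refine Finset.sum_congr rfl fun y _ => ?_
    rw [hf _ x ⟨y, by ring⟩, mul_add, eq_add, mul_left_comm k p, eq_mul_mul hp, mul_assoc]
  simp only [e]
  split_ifs with h
  · obtain ⟨k, rfl⟩ := h
    rw [mul_div_cancel_left₀ _ hi, Gauss_G, Finset.mul_sum]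
    refine Finset.sum_congr rfl fun x _ => ?_
    rw [mul_comm p, mul_assoc (p ^ i), eq_mul_mul hi, mul_comm]
  · simp

theorem Gauss_split {n k : O} (hn : Primary n) (hs : Squarefree n) (h : ¬ IsCoprime n k) :
    ∃ p m, Prime p ∧ Primary p ∧ Primary m ∧ IsCoprime p m ∧ p ∣ k ∧ n = p * m := by
  obtain ⟨z, hz, h1, h2⟩ : ∃ z, Prime z ∧ z ∣ n ∧ z ∣ k := by
    by_contra! H
    exact h (isCoprime_of_prime_dvd (fun h => hn.ne_zero h.1) H)
  obtain ⟨u, hu, hp⟩ := exists_unit_primary fun h => hn.not_lam_dvd (h.trans h1)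
  obtain ⟨m, rfl⟩ := hu.mul_left_dvd.2 h1
  exact ⟨_, m, (prime_isUnit_mul hu).2 hz, hp, hp.of_mul hn,
    (squarefree_mul_iff.1 hs).1.isCoprime, hu.mul_left_dvd.2 h2, rfl⟩

theorem gs_congr (j : ℕ) {n k k' : O} (h : n ∣ k - k') : gs j n k = gs j n k' :=
  Finset.sum_congr rfl fun x _ => by
    rw [eq_congr (show n ∣ k * x - k' * x from sub_mul k k' x ▸ h.mul_right x)]
theorem gs_add_six (j : ℕ) {n : O} (hn : Primary n) (k : O) : gs (j + 6) n k = gs j n k :=
  Finset.sum_congr rfl fun x _ => by rw [sym_pow_add_six hn x (by omega)]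
@[simp] theorem gs_one (j : ℕ) (k : O) : gs j 1 k = 1 := by
  simpa [gs] using sum_res_eq_char one_ne_zero k
@[simp] theorem gam_one (j : ℕ) : gam j 1 = 1 := by simp [gam]
@[simp] theorem gc_one (k : O) : gc 1 k = 1 := by
  simpa [gc] using sum_res_eq_char one_ne_zero k
theorem gs_two {n : O} (hn : Primary n) (k : O) : gs 2 n k = gc n k :=
  Finset.sum_congr rfl fun x _ => by rw [sym_pow_add_six hn x two_ne_zero, sym_sq hn]
/-- Scaling the frequency by a unit modulo `n`. -/
theorem gs_mul_unit (j : ℕ) {n : O} (hn : PO n) {y : O} (hy : IsCoprime y n) (k : O) :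
    gs j n (k * y) = conj (sym n y ^ j) * gs j n k := by
  rw [← Gauss_sym_six hn.1 hy.symm]
  exact Gauss_unit hn.1.ne_zero (Gauss_sym_per n _) (fun x y => by rw [sym_mul_right hn, mul_pow])
    hy (by rw [norm_pow, norm_sym hn.1 hy.symm, one_pow]) k
theorem gc_mul_unit {n : O} (hn : Primary n) {y : O} (hy : IsCoprime y n) (k : O) :
    gc n (k * y) = conj (cub n y) * gc n k :=
  Gauss_unit hn.ne_zero (Gauss_cub_per n) (cub_mul_right n) hy (norm_cub hn hy.symm) k
/-- Twisted multiplicativity. -/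
theorem gs_mul (j : ℕ) {m n : O} (hm : PO m) (hn : PO n) (h : IsCoprime m n) (k : O) :
    gs j (m * n) k = sym m n ^ j * sym n m ^ j * gs j m k * gs j n k := by
  rw [← Gauss_sym_six hm.1 h, ← Gauss_sym_six hn.1 h.symm]
  simp only [gs, sym_mul_left hm.1.ne_zero hn.1.ne_zero, mul_pow]
  exact Gauss_crt hm.1.ne_zero hn.1.ne_zero h (Gauss_sym_per m _) (Gauss_sym_per n _)
    (fun x y => by rw [sym_mul_right hm, mul_pow]) (fun x y => by rw [sym_mul_right hn, mul_pow]) k
theorem gc_mul {m n : O} (hm : Primary m) (hn : Primary n) (h : IsCoprime m n) (k : O) :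
    gc (m * n) k = cub m n * cub n m * gc m k * gc n k := by
  simp only [gc, cub_mul_left hm.ne_zero hn.ne_zero]
  exact Gauss_crt hm.ne_zero hn.ne_zero h (Gauss_cub_per m) (Gauss_cub_per n)
    (cub_mul_right m) (cub_mul_right n) k
theorem conj_gs (j : ℕ) {n : O} (hn : PO n) (k : O) :
    conj (gs j n k) = gs (5 * j) n (-k) := by
  rw [gs, map_sum]
  refine Finset.sum_congr rfl fun x _ => ?_
  rw [map_mul, map_pow, conj_sym hn.1, ← pow_mul, ← eq_neg, neg_mul,
    ← Gauss_sym_pow hn.1 x (j := 5 * j + 6) (by omega) 4]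
  congr 2
/-- Primitive characters: squarefree modulus, `6 ∤ j`. -/
theorem gs_sqfree {j : ℕ} (hj : ¬ 6 ∣ j) {n : O} (hn : PO n) (hs : Squarefree n) (k : O) :
    gs j n k = conj (sym n k ^ j) * gs j n 1 := by
  by_cases h : IsCoprime n k
  · simpa using gs_mul_unit j hn h.symm 1
  rw [(sym_eq_zero_iff hn.1).2 h, zero_pow (by omega), map_zero, zero_mul]
  obtain ⟨p, m, hp, hp', hm, hc, hk, rfl⟩ := Gauss_split hn.1 hs h
  have h1 := hn.of_dvd hp' (dvd_mul_right _ _)
  rw [gs_mul j h1 (hn.of_dvd hm (dvd_mul_left _ _)) hc, show gs j p k = 0 from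
    (Gauss_dvd hk).trans (sum_res_sym_pow hp h1 (by omega)), mul_zero, zero_mul]

theorem Gauss_sum_cub {p : O} (hp : Prime p) (h : Primary p) : ∑ x ∈ res p, cub p x = 0 := by
  obtain ⟨χ, h3, hχ⟩ := exists_mulChar_cub hp h
  have := Fact.mk hp.ne_zero
  let _ := Fintype.ofFinite (O ⧸ Ideal.span {p})
  simp only [← hχ]
  rw [sum_res_eq_quot hp.ne_zero]
  exact MulChar.sum_eq_zero_of_ne_one (by rintro rfl; simp at h3)

theorem gc_sqfree {n : O} (hn : Primary n) (hs : Squarefree n) (k : O) :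
    gc n k = conj (cub n k) * gc n 1 := by
  by_cases h : IsCoprime n k
  · simpa using gc_mul_unit hn h.symm 1
  rw [(cub_eq_zero_iff hn).2 h, map_zero, zero_mul]
  obtain ⟨p, m, hp, hp', hm, hc, hk, rfl⟩ := Gauss_split hn hs h
  rw [gc_mul hp' hm hc, show gc p k = 0 from (Gauss_dvd hk).trans (Gauss_sum_cub hp hp'),
    mul_zero, zero_mul]

theorem Gauss_norm_gs {j : ℕ} (hj : ¬ 6 ∣ j) {n : O} (hn : PO n) (hs : Squarefree n) :
    ‖gs j n 1‖ = Real.sqrt (nr n) :=
  Gauss_norm hn.1.ne_zero (Gauss_sym_per n _) (by rw [sym_one_right, one_pow]) fun k => by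
    rw [sym_pow_add_six hn.1 k (by omega)]
    exact gs_sqfree hj hn hs k

theorem norm_gam {j : ℕ} (hj : ¬ 6 ∣ j) {n : O} (hn : PO n) (hs : Squarefree n) :
    ‖gam j n‖ = 1 := by
  rw [gam, norm_div, Gauss_norm_gs hj hn hs, Complex.norm_real, Real.norm_of_nonneg (by positivity),
    div_self (Real.sqrt_pos.2 (nr_pos hn.1.ne_zero)).ne']
theorem norm_gc {n : O} (hn : Primary n) (hs : Squarefree n) :
    ‖gc n 1‖ = Real.sqrt (nr n) :=
  Gauss_norm hn.ne_zero (Gauss_cub_per n) (cub_one_right n) (gc_sqfree hn hs)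

theorem Gauss_neg_one {n : O} (hn : PO n) : sym n (-1) ^ 2 = 1 := by
  rw [← sym_pow_right hn, neg_one_sq, sym_one_right]

theorem gam_mul_gam {j : ℕ} (hj : ¬ 6 ∣ j) {n : O} (hn : PO n) (hs : Squarefree n) :
    gam j n * gam (5 * j) n = sym n (-1) ^ j := by
  have h1 := conj_gs j hn 1
  have h2 := Gauss_neg_one hn
  rw [gs_sqfree (by omega) hn hs (-1), map_pow, conj_sym hn.1, ← pow_mul,
    show 5 * (5 * j) = 2 * (12 * j) + j by ring, pow_add, pow_mul, h2, one_pow, one_mul] at h1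
  have h3 : conj (gam j n) = sym n (-1) ^ j * gam (5 * j) n := by
    rw [gam, map_div₀, h1, Complex.conj_ofReal, gam, mul_div_assoc]
  have h4 := Gauss_conj_mul (norm_gam hj hn hs)
  have h5 : (sym n (-1) ^ j) ^ 2 = 1 := by rw [← pow_mul, mul_comm, pow_mul, h2, one_pow]
  rw [h3] at h4
  linear_combination sym n (-1) ^ j * h4 - gam j n * gam (5 * j) n * h5
open Classical in
/-- Ramanujan sum modulo a prime. -/
theorem gs_prime_zero {j : ℕ} (hj : 6 ∣ j) {p : O} (hp : Prime p) (h : PO p) (k : O) :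
    gs j p k = (if p ∣ k then (nm p : ℂ) else 0) - 1 := by
  obtain ⟨j, rfl⟩ := hj
  rw [← sum_res_eq_char hp.ne_zero, ← Gauss_eq_zero p, ← mul_zero k,
    ← Gauss_delta (f := fun x => eq (k * x) p) hp.ne_zero (fun x y hxy =>
      eq_congr (mul_sub k x y ▸ hxy.mul_left k)) 0, ← Finset.sum_sub_distrib]
  refine Finset.sum_congr rfl fun x _ => ?_
  rw [zero_sub, dvd_neg]
  split_ifs with hx
  · rw [(sym_eq_zero_iff h.1).2 fun hc => hp.not_isUnit (hc.isUnit_of_dvd' dvd_rfl hx)]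
    simp
  · have hc := hp.coprime_iff_not_dvd.2 hx
    rw [Gauss_sym_six h.1 hc, pow_mul, sym_pow_six h.1 hc]
    simp

open Classical in
theorem Gauss_gs_pow (j i : ℕ) {p : O} (h : PO p) (k : O) : gs j (p ^ (i + 1)) k =
      if p ^ i ∣ k then (nm p : ℂ) ^ i * gs (j * (i + 1)) p (k / p ^ i) else 0 := by
  refine Eq.trans (Finset.sum_congr rfl fun x _ => ?_)
    (Gauss_pow h.1.ne_zero (Gauss_sym_per p (j * (i + 1) + 6)) i k)
  beta_reduce
  rw [sym_pow_left h.1.ne_zero, ← pow_mul, ← Gauss_sym_pow h.1 x (j := j * (i + 1) + 6) (by omega) i]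
  congr 2
  ring


theorem Gauss_psi {p : O} (hp : Prime p) : ∃ ψ : AddChar (O ⧸ Ideal.span {p}) ℂ, ψ ≠ 1 ∧
    ∀ a, ψ (Ideal.Quotient.mk _ a) = eq a p := by
  have e : ∀ a : O, eq (Quotient.out (Ideal.Quotient.mk (Ideal.span {p}) a)) p = eq a p := fun a =>
    eq_congr (Ideal.mem_span_singleton.1 (Ideal.Quotient.eq.1 (Ideal.Quotient.mk_out _)))
  refine ⟨⟨fun x => eq (Quotient.out x) p, ?_, fun x y => ?_⟩, fun h => ?_, e⟩
  · exact (e 0).trans (Gauss_eq_zero p)
  · obtain ⟨x, rfl⟩ := Ideal.Quotient.mk_surjective x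
    obtain ⟨y, rfl⟩ := Ideal.Quotient.mk_surjective y
    rw [← map_add, e, e, e, eq_add]
  · have h1 := sum_res_eq_char hp.ne_zero 1
    have h2 : ∀ a, eq a p = 1 := fun a => (e a).symm.trans (DFunLike.congr_fun h _)
    simp [h2, hp.not_dvd_one, card_res hp.ne_zero, nm_eq_zero, hp.ne_zero] at h1

theorem Gauss_gaussSum {p : O} (hp : Prime p) [Fintype (O ⧸ Ideal.span {p})]
    {ψ : AddChar (O ⧸ Ideal.span {p}) ℂ} (hψ : ∀ a, ψ (Ideal.Quotient.mk _ a) = eq a p)
    (χ : MulChar (O ⧸ Ideal.span {p}) ℂ) {f : O → ℂ} (h : ∀ a, χ (Ideal.Quotient.mk _ a) = f a) :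
    Gauss_G f p 1 = gaussSum χ ψ := by
  rw [gaussSum, ← sum_res_eq_quot hp.ne_zero]
  simp only [Gauss_G, h, hψ, one_mul]

theorem Gauss_omC : IsPrimitiveRoot omC 3 := by
  have h : omC ^ 2 + omC + 1 = 0 := by linear_combination omC_mul
  refine (IsPrimitiveRoot.iff three_pos).2 ⟨by linear_combination (omC - 1) * h, fun l h0 h3 e => ?_⟩
  interval_cases l
  · rw [pow_one] at e
    norm_num [e] at h
  · have : omC = -2 := by linear_combination h - e
    norm_num [this] at h

theorem Gauss_sum_poly {F : Type*} [Field F] [Fintype F] {m : ℕ} (h : 2 * m < Fintype.card F - 1) :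
    ∑ x : F, x ^ m * (1 - x) ^ m = 0 := by
  simp only [sub_pow, Finset.mul_sum]
  rw [Finset.sum_comm]
  refine Finset.sum_eq_zero fun i _ => ?_
  have := FiniteField.sum_pow_lt_card_sub_one F (m + (m - i)) (by omega)
  simp only [pow_add] at this
  calc _ = (-1) ^ (i + m) * (m.choose i : F) * ∑ x : F, x ^ m * x ^ (m - i) := by
        rw [Finset.mul_sum]
        exact Finset.sum_congr rfl fun x _ => by ring
    _ = 0 := by rw [this, mul_zero]

/-- The cube of the cubic Gauss sum (Jacobi sum `J(χ,χ) = -p` for primary `p`). -/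
theorem gc_prime_cube {p : O} (hp : Prime p) (h : Primary p) :
    gc p 1 ^ 3 = -(ι p) * (nm p : ℂ) := by
  obtain ⟨χ, h3, hχ⟩ := exists_mulChar_cub hp h
  obtain ⟨ψ, hψ1, hψ⟩ := Gauss_psi hp
  have := Fact.mk hp.ne_zero
  let _ := Fintype.ofFinite (O ⧸ Ideal.span {p})
  have := PrincipalIdealRing.isMaximal_of_irreducible hp.irreducible
  let _ := Ideal.Quotient.field (Ideal.span {p})
  have hq : Fintype.card (O ⧸ Ideal.span {p}) = nm p := by
    rw [← card_quot hp.ne_zero, Nat.card_eq_fintype_card]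
  have hq3 := nm_prime_mod hp h
  have hq1 : nm p ≠ 1 := fun e => hp.not_isUnit (isUnit_iff_nm.2 e)
  have hg : gc p 1 ^ 3 = nm p * jacobiSum χ χ := by
    have := gaussSum_pow_eq_prod_jacobiSum (χ := χ) (by omega) (AddChar.IsPrimitive.of_ne_one hψ1)
    have e : χ (-1) = 1 := (hχ (-1)).trans (cub_neg_one p)
    rw [h3, ← Gauss_gaussSum hp hψ χ hχ, e, hq] at this
    simpa using! this
  have hc : ∀ x, ∃ c : O, ι c = χ x ∧ Ideal.Quotient.mk _ c = x ^ ((nm p - 1) / 3) := fun x => by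
    obtain ⟨a, rfl⟩ := Ideal.Quotient.mk_surjective x
    by_cases ha : p ∣ a
    · rw [Ideal.Quotient.eq_zero_iff_mem.2 (Ideal.mem_span_singleton.2 ha)]
      exact ⟨0, by rw [map_zero, χ.map_zero], by rw [map_zero, zero_pow (by omega)]⟩
    · obtain ⟨k, -, hk⟩ := Gauss_omC.eq_pow_of_pow_eq_one
        (cub_pow_three h (hp.coprime_iff_not_dvd.2 ha))
      refine ⟨om ^ k, by rw [map_pow, ι_om, hk, hχ], ?_⟩
      rw [← map_pow, eq_comm, Ideal.Quotient.eq, Ideal.mem_span_singleton,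
        ← cub1_eq_pow_iff hp h, ← cub_prime hp h, hk]
  choose c hc hc' using hc
  set J := ∑ x, c x * c (1 - x) with hJ
  have h1 : ι J = jacobiSum χ χ := by simp only [hJ, map_sum, map_mul, hc, jacobiSum]
  have h2 : p ∣ J := by
    rw [← Ideal.mem_span_singleton, ← Ideal.Quotient.eq_zero_iff_mem]
    simp only [hJ, map_sum, map_mul, hc']
    exact Gauss_sum_poly (by omega)
  have h4 : Primary (-J) := by
    obtain ⟨z, hz, e⟩ := exists_jacobiSum_eq_neg_one_add (χ := χ) (ψ := χ) (n := 3) (by omega)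
      (h3 ▸ pow_orderOf_eq_one χ) (h3 ▸ pow_orderOf_eq_one χ) (by omega) Gauss_omC
    obtain ⟨w, rfl⟩ : z ∈ ι.toIntAlgHom.range :=
      Algebra.adjoin_le (Set.singleton_subset_iff.2 (ι.toIntAlgHom.mem_range.2 ⟨om, ι_om⟩)) hz
    have : J = -1 + w * (om - 1) ^ 2 := ι_injective (by simpa [h1, ι_om] using e)
    exact ⟨w * om, by linear_combination -this - w * om_sq_add⟩
  have h5 : nm J = nm p := by
    have e := congrArg norm hg
    have h0 := nr_pos hp.ne_zero
    rw [norm_pow, norm_gc h hp.squarefree, norm_mul, ← h1, norm_ι, Complex.norm_natCast,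
      pow_succ, Real.sq_sqrt h0.le, mul_right_inj' h0.ne',
      Real.sqrt_inj h0.le (Nat.cast_nonneg _)] at e
    exact_mod_cast e.symm
  obtain ⟨t, ht⟩ := h2
  have h6 : IsUnit (-t) := by
    rw [ht, nm_mul] at h5
    exact (isUnit_iff_nm.2 ((mul_eq_left₀ (by omega)).1 h5)).neg
  rw [hg, ← h1, h.eq_of_associated h4 (by rw [ht, ← mul_neg]; exact associated_mul_unit_right _ _ h6),
    map_neg, neg_neg, nm_neg, h5, mul_comm]

theorem Gauss_jac {F : Type*} [Field F] [Fintype F] [DecidableEq F] (hF : ringChar F ≠ 2)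
    {χ ρ : MulChar F ℂ} (hχ : χ ≠ 1) (hρ : ∀ a, ρ a = quadraticChar F a) :
    χ 4 * jacobiSum χ χ = jacobiSum ρ χ := by
  have h2 : (2 : F) ≠ 0 := Ring.two_ne_zero hF
  calc χ 4 * jacobiSum χ χ = ∑ x : F, χ (1 - (1 - 2 * x) ^ 2) := by
        rw [jacobiSum, Finset.mul_sum]
        refine Finset.sum_congr rfl fun x _ => ?_
        rw [← map_mul, ← map_mul]
        congr 1
        ring
    _ = ∑ y : F, χ (1 - y ^ 2) :=
        ((Equiv.mulLeft₀ 2 h2).trans (Equiv.subLeft 1)).sum_comp fun y => χ (1 - y ^ 2)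
    _ = ∑ t : F, (ρ t + 1) * χ (1 - t) := by
        rw [← Finset.sum_fiberwise' Finset.univ (fun y : F => y ^ 2) fun t => χ (1 - t)]
        refine Finset.sum_congr rfl fun t _ => ?_
        have := quadraticChar_card_sqrts hF t
        rw [Set.toFinset_ofPred] at this
        rw [Finset.sum_const, nsmul_eq_mul, hρ]
        congr 1
        exact_mod_cast this
    _ = _ := by
        simp only [add_mul, one_mul, Finset.sum_add_distrib]
        rw [show ∑ t : F, χ (1 - t) = 0 from ((Equiv.subLeft 1).sum_comp χ).trans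
          (MulChar.sum_eq_zero_of_ne_one hχ), add_zero, jacobiSum]

theorem Gauss_four {p : O} (h : PO p) : conj (sym p 4) * sym p 4 = 1 :=
  Gauss_conj_mul (norm_sym h.1 (by rw [show (4 : O) = 2 ^ 2 by norm_num]; exact h.2.pow_right))

/-- Hasse–Davenport duplication. -/
theorem gam_dup {p : O} (hp : Prime p) (h : PO p) :
    gam 1 p * gam 4 p = conj (sym p 4) * gam 2 p * gam 3 p := by
  classical
  obtain ⟨χ, h6, hχ⟩ := exists_mulChar_sym hp h
  obtain ⟨ψ, hψ1, hψ⟩ := Gauss_psi hp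
  have := Fact.mk hp.ne_zero
  let _ := Fintype.ofFinite (O ⧸ Ideal.span {p})
  have := PrincipalIdealRing.isMaximal_of_irreducible hp.irreducible
  let _ := Ideal.Quotient.field (Ideal.span {p})
  have hq : Fintype.card (O ⧸ Ideal.span {p}) = nm p := by
    rw [← card_quot hp.ne_zero, Nat.card_eq_fintype_card]
  have hq6 := (nm_prime_mod_six hp h.1 fun e => hp.not_isUnit
    (h.2.isUnit_of_dvd' dvd_rfl (by simp [e]))).1
  have hF : ringChar (O ⧸ Ideal.span {p}) ≠ 2 := fun e => by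
    have := FiniteField.even_card_of_char_two e
    omega
  have hne : ∀ j, 0 < j → j < 6 → χ ^ j ≠ 1 := fun j h0 hj =>
    pow_ne_one_of_lt_orderOf h0.ne' (h6 ▸ hj)
  have hg : ∀ j, j ≠ 0 → gs j p 1 = gaussSum (χ ^ j) ψ := fun j hj =>
    Gauss_gaussSum hp hψ _ fun a => by
      rw [MulChar.pow_apply' _ hj, hχ, sym_pow_add_six h.1 a hj]
  have hρ : ∀ a, (χ ^ 3) a = quadraticChar _ a := fun a => by
    obtain ⟨a, rfl⟩ := Ideal.Quotient.mk_surjective a
    rw [MulChar.pow_apply' _ three_ne_zero, hχ, sym_pow_three h.1, quad, pf_prime hp h.1,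
      Finset.prod_singleton, vp_self hp, pow_one, quad1]
    have e : ∀ b : O, Ideal.Quotient.mk (Ideal.span {p}) b = 0 ↔ p ∣ b := fun b => by
      rw [Ideal.Quotient.eq_zero_iff_mem, Ideal.mem_span_singleton]
    by_cases ha : p ∣ a
    · rw [if_pos ha, (e a).2 ha, MulChar.map_zero, Int.cast_zero]
    · rw [if_neg ha, quadraticChar_eq_pow_of_char_ne_two hF (mt (e a).1 ha), ← e, map_sub, map_pow,
        map_one, sub_eq_zero, hq, show (nm p - 1) / 2 = nm p / 2 by omega]
      split_ifs <;> simp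
  have h1 := Gauss_jac hF (pow_one χ ▸ hne 1 one_pos (by omega)) hρ
  have h2 := jacobiSum_mul_nontrivial (pow_two χ ▸ hne 2 two_pos (by omega)) ψ
  have h3 := jacobiSum_mul_nontrivial (pow_succ χ 3 ▸ hne 4 four_pos (by omega)) ψ
  have h4 : χ 4 = sym p 4 := hχ 4
  have h5 := gaussSum_ne_zero_of_nontrivial (by rw [hq]; exact_mod_cast (by omega))
    (pow_one χ ▸ hne 1 one_pos (by omega)) (AddChar.IsPrimitive.of_ne_one hψ1)
  rw [← pow_two] at h2
  rw [← pow_succ, ← h1, h4] at h3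
  have key : gaussSum χ ψ * gaussSum (χ ^ 4) ψ =
      conj (sym p 4) * gaussSum (χ ^ 2) ψ * gaussSum (χ ^ 3) ψ := by
    refine mul_left_cancel₀ h5 ?_
    linear_combination (-gaussSum (χ ^ 4) ψ) * h2 + conj (sym p 4) * gaussSum (χ ^ 2) ψ * h3
      - gaussSum (χ ^ 4) ψ * gaussSum (χ ^ 2) ψ * jacobiSum χ χ * Gauss_four h
  simp only [gam, hg _ one_ne_zero, hg _ two_ne_zero, hg _ three_ne_zero, hg _ four_ne_zero, pow_one]
  rw [div_mul_div_comm, key]
  ring
/-- The basic conversion at a prime: `μ γ₋₁ = χ(4) γ₃ · conj α · γ₂`. -/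
theorem mu_gam_five_prime {p : O} (hp : Prime p) (h : PO p) :
    -gam 5 p = sym p 4 * gam 3 p * (conj (arg p) * gam 2 p) := by
  have hs := hp.squarefree
  have e : ∀ j, gam (j + 6) p = gam j p := fun j => by rw [gam, gs_add_six j h.1, gam]
  have h1 := gam_mul_gam (j := 1) (by omega) h hs
  have h2 := gam_mul_gam (j := 2) (by omega) h hs
  have h3 := gam_mul_gam (j := 3) (by omega) h hs
  have h4 := Gauss_neg_one h
  rw [show gam (5 * 2) p = gam 4 p from e 4, h4] at h2
  rw [show gam (5 * 3) p = gam 3 p from (e 9).trans (e 3), pow_succ, h4] at h3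
  have h5 := gam_dup hp h
  have h6 := Gauss_four h
  have h7 := Gauss_conj_mul (norm_arg hp.ne_zero)
  have h8 : gam 2 p ^ 3 = -arg p := by
    have h0 := nr_pos hp.ne_zero
    have h9 : ((Real.sqrt (nr p) : ℝ) : ℂ) ^ 2 = nm p := by exact_mod_cast Real.sq_sqrt h0.le
    have h10 : ((Real.sqrt (nr p) : ℝ) : ℂ) ≠ 0 := by exact_mod_cast (Real.sqrt_pos.2 h0).ne'
    rw [gam, gs_two h.1, div_pow, gc_prime_cube hp h.1, arg, norm_ι, ← h9]
    field_simp
  have h0 : gam 1 p ≠ 0 := by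
    rw [← norm_ne_zero_iff, norm_gam (by omega) h hs]
    exact one_ne_zero
  refine mul_left_cancel₀ h0 ?_
  have h9 : gam 1 p = conj (sym p 4) * gam 2 p ^ 2 * gam 3 p := by
    linear_combination gam 2 p * h5 - gam 1 p * h2
  simp only [mul_one, pow_one, one_mul] at h1 h3
  rw [mul_neg, h1, h9]
  linear_combination (-(conj (arg p) * gam 2 p ^ 3 * gam 3 p ^ 2)) * h6
    - conj (arg p) * gam 2 p ^ 3 * h3 - sym p (-1) * conj (arg p) * h8 + sym p (-1) * h7

end Crest.Agent.R17
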