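import Crest.Agent.PVc.R17.LS2Defs

/-!
# Row 17, module M7 (quadratic large sieve): squarefree kernels and sieving identities
-/

set_option autoImplicit false

noncomputable section

namespace Crest.Agent.R17.LS2

open scoped ComplexConjugate
open Classical


theorem ker_exists_sq {k : O} (hk : k ≠ 0) : ∃ a c : O, c ^ 2 * a = k ∧ Squarefree a := by
  induction h : nm k using Nat.strong_induction_on generalizing k with
  | _ n ih =>
    by_cases hs : Squarefree k
    · exact ⟨k, 1, by simp, hs⟩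
    · unfold Squarefree at hs
      push Not at hs
      obtain ⟨x, ⟨k', rfl⟩, hx⟩ := hs
      have hk' : k' ≠ 0 := right_ne_zero_of_mul hk
      have hx0 : x ≠ 0 := left_ne_zero_of_mul (left_ne_zero_of_mul hk)
      have h1 : nm x ≠ 0 := fun h => hx0 (nm_eq_zero.1 h)
      have h2 : nm x ≠ 1 := fun h => hx (isUnit_iff_nm.2 h)
      have h3 : nm k' ≠ 0 := fun h => hk' (nm_eq_zero.1 h)
      have h4 : nm k' < n := by
        rw [← h, nm_mul, nm_mul]
        have h5 : 2 ≤ nm x := by omega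
        have h6 : 1 < nm x * nm x := by nlinarith
        exact lt_mul_of_one_lt_left (Nat.pos_of_ne_zero h3) h6
      obtain ⟨a, c, hac, ha⟩ := ih _ h4 hk' rfl
      exact ⟨a, x * c, by rw [← hac]; ring, ha⟩

theorem lt_nr_of_not_mem_PP {V : ℝ} {k : O} (hk : k ≠ 0) (h : k ∉ PP V) : V < nr k := by
  obtain ⟨a, c, hac, ha⟩ := ker_exists_sq hk
  have hc : c ≠ 0 := by
    rintro rfl
    exact hk (by rw [← hac]; simp)
  by_contra hV
  push Not at hV
  have h1 : nr a ≤ nr k := by exact_mod_cast nm_le_of_dvd (Dvd.intro_left _ hac) hk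
  have h0 : 0 ≤ V := (Nat.cast_nonneg _).trans hV
  exact h ⟨a, (mem_sqf h0).2 ⟨ha, h1.trans hV⟩, c, hc, by rw [← hac, mul_comm]⟩

theorem not_mem_PP_of_squarefree {V : ℝ} (hV : 0 ≤ V) {k : O} (hk : Squarefree k)
    (h : V < nr k) : k ∉ PP V := by
  rintro ⟨a, ha, c, hc, rfl⟩
  have hu : IsUnit c := hk c ⟨a, by ring⟩
  rw [nr_mul, nr_pow, nr, nr, isUnit_iff_nm.1 hu] at h
  have := ((mem_sqf hV).1 ha).2
  simp only [Nat.cast_one, one_pow, mul_one] at h
  exact absurd this (not_le.2 h)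

theorem prod_primes_dvd_iff {E : Finset O} (hE : ∀ p ∈ E, Prime p ∧ Primary p) (x : O) :
    (∏ p ∈ E, p) ∣ x ↔ ∀ p ∈ E, p ∣ x := by
  refine ⟨fun h p hp => (Finset.dvd_prod_of_mem _ hp).trans h, fun h => ?_⟩
  rcases eq_or_ne x 0 with rfl | hx
  · exact dvd_zero _
  · exact BasicB.prod_dvd_of_subset hx fun p hp =>
      (mem_pf hx).2 ⟨(hE p hp).1, (hE p hp).2, h p hp⟩

theorem prod_dvd_mul_sq_iff {E : Finset O} (hE : ∀ p ∈ E, Prime p ∧ Primary p) (a c : O) :
    (∏ p ∈ E, p) ∣ a * c ^ 2 ↔ (∏ p ∈ E.filter (fun p => ¬ p ∣ a), p) ∣ c := by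
  rw [prod_primes_dvd_iff hE, prod_primes_dvd_iff fun p hp => hE p (Finset.mem_filter.1 hp).1]
  constructor
  · intro h p hp
    obtain ⟨hp1, hp2⟩ := Finset.mem_filter.1 hp
    exact (hE p hp1).1.dvd_of_dvd_pow (((hE p hp1).1.dvd_or_dvd (h p hp1)).resolve_left hp2)
  · intro h p hp
    by_cases hpa : p ∣ a
    · exact hpa.mul_right _
    · exact ((h p (Finset.mem_filter.2 ⟨hp, hpa⟩)).pow two_ne_zero).mul_left _

theorem isCoprime_iff_pf {n : O} (hn : Primary n) (x : O) :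
    IsCoprime n x ↔ ∀ p ∈ pf n, ¬ p ∣ x := by
  constructor
  · intro h p hp hx
    obtain ⟨h1, -, h2⟩ := BasicB.of_mem_pf hp
    exact h1.not_isUnit (h.isUnit_of_dvd' h2 hx)
  · intro h
    rw [hn.eq_prod]
    refine IsCoprime.prod_left fun p hp => IsCoprime.pow_left ?_
    exact (BasicB.pf_sub hp).1.irreducible.coprime_iff_not_dvd.2 (h p hp)

theorem tsum_dvd {d : O} (hd : d ≠ 0) (f : O → ℂ) :
    ∑' k : O, (if d ∣ k then f k else 0) = ∑' c : O, f (d * c) := by
  rw [← (mul_right_injective₀ hd).tsum_eq (f := fun k => if d ∣ k then f k else 0)]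
  · exact tsum_congr fun c => if_pos (dvd_mul_right d c)
  · intro k hk
    by_contra hk'
    exact hk (if_neg fun ⟨c, hc⟩ => hk' ⟨c, hc.symm⟩)

/-- Legendre's sieve. -/
theorem tsum_sieve {S : Finset O} (hS : ∀ p ∈ S, Prime p ∧ Primary p) {f : O → ℂ}
    (hf : Summable f) :
    ∑' c : O, (if ∀ p ∈ S, ¬ p ∣ c then f c else 0) =
      ∑ T ∈ S.powerset, (-1) ^ T.card * ∑' c : O, f ((∏ p ∈ T, p) * c) := by
  have h1 : ∀ c : O, (if ∀ p ∈ S, ¬ p ∣ c then f c else 0) =
      ∑ T ∈ S.powerset, (-1) ^ T.card * (if (∏ p ∈ T, p) ∣ c then f c else 0) := by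
    intro c
    have h2 : (if ∀ p ∈ S, ¬ p ∣ c then f c else 0) =
        (∏ p ∈ S, (1 - if p ∣ c then (1 : ℂ) else 0)) * f c := by
      split_ifs with h
      · rw [Finset.prod_eq_one fun p hp => by rw [if_neg (h p hp), sub_zero], one_mul]
      · push Not at h
        obtain ⟨p, hp, hpc⟩ := h
        rw [Finset.prod_eq_zero hp (by rw [if_pos hpc, sub_self]), zero_mul]
    rw [h2, Finset.prod_sub, Finset.sum_mul]
    refine Finset.sum_congr rfl fun T hT => ?_
    rw [Finset.prod_const_one, mul_one, Finset.prod_boole, mul_assoc, boole_mul,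
      prod_primes_dvd_iff fun p hp => hS p (Finset.mem_powerset.1 hT hp)]
    congr
  simp only [h1]
  rw [Summable.tsum_finsetSum]
  · refine Finset.sum_congr rfl fun T hT => ?_
    rw [tsum_mul_left, tsum_dvd
      (Finset.prod_ne_zero_iff.2 fun p hp => (hS p (Finset.mem_powerset.1 hT hp)).1.ne_zero)]
  · intro T _
    exact (hf.indicator {c | (∏ p ∈ T, p) ∣ c}).mul_left _

theorem ker_pow_six (i : ℕ) : ((-om) ^ i) ^ 6 = 1 := by
  rw [← pow_mul, mul_comm, pow_mul]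
  have : (-om) ^ 6 = 1 := by linear_combination (om ^ 3 + 1) * om_cube
  rw [this, one_pow]

theorem ker_pow_inj (i j : Fin 6) (h : (-om) ^ (i : ℕ) = (-om) ^ (j : ℕ)) : i = j := by
  revert i j
  decide

theorem ker_mul_unit {V : ℝ} {a u : O} (ha : a ∈ sqf V) (hu : IsUnit u) : a * u ∈ sqf V := by
  rw [sqf, Finset.mem_filter, mem_ball] at ha ⊢
  refine ⟨by rw [nm_mul, isUnit_iff_nm.1 hu, mul_one]; exact ha.1, ?_⟩
  exact ha.2.squarefree_of_dvd (by rw [hu.mul_right_dvd])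

theorem ker_assoc {a b c d : O} (ha : Squarefree a) (hb : Squarefree b) (hc : c ≠ 0)
    (h : a * c ^ 2 = b * d ^ 2) : Associated c d := by
  obtain ⟨c', d', g, hcd, rfl, rfl⟩ := UniqueFactorizationMonoid.exists_reduced_factors c hc d
  have hg : g ≠ 0 := left_ne_zero_of_mul hc
  have h1 : a * c' ^ 2 = b * d' ^ 2 := by
    apply mul_left_cancel₀ (pow_ne_zero 2 hg)
    linear_combination h
  have h2 : IsRelPrime (c' ^ 2) (d' ^ 2) := hcd.pow
  have h3 : IsUnit c' := hb c' (by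
    rw [← sq]; exact h2.dvd_of_dvd_mul_right ⟨a, by rw [← h1, mul_comm]⟩)
  have h4 : IsUnit d' := ha d' (by
    rw [← sq]; exact h2.symm.dvd_of_dvd_mul_right ⟨b, by rw [h1, mul_comm]⟩)
  exact (associated_mul_unit_left g c' h3).trans (associated_mul_unit_left g d' h4).symm

/-- Every non-zero element has exactly six representations `a c²` with `a` squarefree. -/
theorem tsum_kernel (V : ℝ) {f : O → ℂ} (hf : Summable f) :
    ∑ a ∈ sqf V, ∑' c : O, (if c = 0 then 0 else f (a * c ^ 2)) =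
      6 * ∑' k : O, (if k ∈ PP V then f k else 0) := by
  have hch : ∀ k : PP V, ∃ a ∈ sqf V, ∃ c : O, c ≠ 0 ∧ (k : O) = a * c ^ 2 := fun k => k.2
  choose a₀ ha₀ c₀ hc₀ hk using hch
  obtain ⟨φ, hφ⟩ : ∃ φ : Fin 6 × PP V → O × O, ∀ q, φ q =
    (a₀ q.2 * ((-om) ^ (q.1 : ℕ)) ^ 10, c₀ q.2 * (-om) ^ (q.1 : ℕ)) := ⟨_, fun _ => rfl⟩
  obtain ⟨H, hH⟩ : ∃ H : O × O → ℂ, ∀ z, H z =
    if z.1 ∈ sqf V then (if z.2 = 0 then 0 else f (z.1 * z.2 ^ 2)) else 0 := ⟨_, fun _ => rfl⟩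
  have hprod : ∀ q, (φ q).1 * (φ q).2 ^ 2 = q.2 := by
    intro q
    rw [hk q.2]
    simp only [hφ]
    linear_combination (a₀ q.2 * c₀ q.2 ^ 2 * (((-om) ^ (q.1 : ℕ)) ^ 6 + 1)) * ker_pow_six q.1
  have hunit : ∀ i : ℕ, IsUnit ((-om) ^ i) := fun i =>
    IsUnit.of_mul_eq_one (((-om) ^ i) ^ 5) (by rw [← ker_pow_six i]; ring)
  have hinj : Function.Injective φ := by
    rintro ⟨i, k⟩ ⟨j, l⟩ h
    have h1 : k = l := Subtype.ext (by
      have e1 := hprod (i, k)
      rw [h, hprod (j, l)] at e1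
      exact e1.symm)
    subst h1
    have h2 := congrArg Prod.snd h
    simp only [hφ] at h2
    rw [ker_pow_inj i j (mul_left_cancel₀ (hc₀ k) h2)]
  have hHφ : H ∘ φ = fun q => (1 : ℂ) * f q.2 := by
    funext q
    simp only [Function.comp, hH]
    rw [if_pos, if_neg, hprod, one_mul]
    · rw [hφ]; exact mul_ne_zero (hc₀ _) (hunit _).ne_zero
    · rw [hφ]; exact ker_mul_unit (ha₀ _) ((hunit _).pow _)
  have hsupp : ∀ z ∉ Set.range φ, H z = 0 := by
    rintro ⟨a, c⟩ hz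
    simp only [hH]
    split_ifs with h1 h2
    · rfl
    · exfalso
      apply hz
      obtain ⟨k, hkk⟩ : ∃ k : PP V, (k : O) = a * c ^ 2 := ⟨⟨a * c ^ 2, a, h1, c, h2, rfl⟩, rfl⟩
      have e : a * c ^ 2 = a₀ k * c₀ k ^ 2 := hkk ▸ hk k
      obtain ⟨u, hu⟩ := ker_assoc (squarefree_of_mem_sqf (ha₀ k)) (squarefree_of_mem_sqf h1)
        (hc₀ k) e.symm
      obtain ⟨i, hi, hui⟩ := isUnit_iff_pow.1 u.isUnit
      refine Set.mem_range.2 ⟨((⟨i, hi⟩ : Fin 6), k), ?_⟩
      simp only [hφ]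
      rw [← hui, hu]
      congr 1
      have h6 : (u : O) ^ 6 = 1 := by rw [hui]; exact ker_pow_six i
      have e2 : a * (u : O) ^ 2 = a₀ k := by
        apply mul_right_cancel₀ (pow_ne_zero 2 (hc₀ k))
        rw [← e, ← hu]; ring
      rw [← e2]
      linear_combination (a * ((u : O) ^ 6 + 1)) * h6
    · rfl
  have hs1 : Summable fun _ : Fin 6 => ‖(1 : ℂ)‖ := Summable.of_finite
  have hs2 : Summable fun k : PP V => ‖f k‖ := (hf.norm.subtype (PP V) :)
  have hsum : Summable H := by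
    rw [← hinj.summable_iff hsupp, hHφ]
    exact summable_mul_of_summable_norm (f := fun _ : Fin 6 => (1 : ℂ))
      (g := fun k : PP V => f k) hs1 hs2
  have e1 : ∑' z, H z = 6 * ∑' k : PP V, f k := by
    rw [← hinj.tsum_eq (f := H) (fun z hz => by by_contra h; exact hz (hsupp z h))]
    have := tsum_mul_tsum_of_summable_norm (f := fun _ : Fin 6 => (1 : ℂ))
      (g := fun k : PP V => f k) hs1 hs2
    rw [show (fun q => H (φ q)) = H ∘ φ from rfl, hHφ, ← this]
    simp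
  rw [tsum_subtype (PP V) f, hsum.tsum_prod, tsum_eq_sum (s := sqf V)] at e1
  · rw [show (fun k => if k ∈ PP V then f k else 0) = (PP V).indicator f from rfl, ← e1]
    exact Finset.sum_congr rfl fun a ha => tsum_congr fun c => by simp only [hH, if_pos ha]
  · intro a ha
    simp only [hH, if_neg ha, tsum_zero]

end Crest.Agent.R17.LS2
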