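import Mathlib
import Crest.Agent.PVc.R17.Count

-- ▼ part PVc/R17/PoissonAux
section

/-!
# Row 17: two-dimensional theta inversion with characteristics (hexagonal form)
-/

set_option autoImplicit false

noncomputable section

namespace Crest.Agent.R17.PAux

open Complex

/-- `exp (-π A + 2π i B)` -/
def E (A B : ℝ) : ℂ := cexp (((-(Real.pi * A) : ℝ) : ℂ) + ((2 * Real.pi * B : ℝ) : ℂ) * I)

theorem norm_E (A B : ℝ) : ‖E A B‖ = Real.exp (-(Real.pi * A)) := by
  unfold E
  rw [norm_exp, add_re, ofReal_re, re_ofReal_mul, I_re, mul_zero, add_zero]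

theorem E_mul (A B A' B' : ℝ) : E A B * E A' B' = E (A + A') (B + B') := by
  unfold E
  rw [← Complex.exp_add]
  congr 1
  push_cast
  ring

theorem E_int (A B : ℝ) (n : ℤ) : E A (B + n) = E A B := by
  unfold E
  have : ((-(Real.pi * A) : ℝ) : ℂ) + ((2 * Real.pi * (B + n) : ℝ) : ℂ) * I
      = (((-(Real.pi * A) : ℝ) : ℂ) + ((2 * Real.pi * B : ℝ) : ℂ) * I) + n * (2 * Real.pi * I) := by
    push_cast
    ring
  rw [this, Complex.exp_add, exp_int_mul_two_pi_mul_I, mul_one]

theorem summable_int {δ : ℝ} (hδ : 0 < δ) :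
    Summable fun n : ℤ => Real.exp (-(δ * (n : ℝ) ^ 2)) := by
  have h : Summable fun n : ℕ => Real.exp (-δ * (n : ℝ) ^ 2) := by
    refine Real.summable_exp_nat_mul_of_ge (by linarith) fun i => ?_
    exact_mod_cast Nat.le_self_pow two_ne_zero i
  apply Summable.of_nat_of_neg <;> simpa using h

theorem summable_shift {δ : ℝ} (hδ : 0 < δ) (s : ℝ) :
    Summable fun n : ℤ => Real.exp (-(δ * ((n : ℝ) + s) ^ 2)) := by
  refine ((summable_int (half_pos hδ)).mul_left (Real.exp (δ * s ^ 2))).of_nonneg_of_le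
    (fun _ => (Real.exp_pos _).le) fun n => ?_
  rw [← Real.exp_add]
  apply Real.exp_le_exp.2
  have : 0 ≤ δ * ((n : ℝ) + 2 * s) ^ 2 := by positivity
  nlinarith

theorem summable_prod {δ δ' : ℝ} (hδ : 0 < δ) (hδ' : 0 < δ') (s s' : ℝ) :
    Summable fun p : ℤ × ℤ =>
      Real.exp (-(δ * ((p.1 : ℝ) + s) ^ 2)) * Real.exp (-(δ' * ((p.2 : ℝ) + s') ^ 2)) :=
  (summable_shift hδ s).mul_of_nonneg (summable_shift hδ' s') (fun _ => (Real.exp_pos _).le)
    (fun _ => (Real.exp_pos _).le)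

/-- the norm form -/
def Q (u v : ℝ) : ℝ := u ^ 2 - u * v + v ^ 2

theorem summable_Q {a : ℝ} (ha : 0 < a) (s s' : ℝ) (B : ℤ × ℤ → ℝ) :
    Summable fun p : ℤ × ℤ => E (a * Q (p.1 + s) (p.2 + s')) (B p) := by
  have h : 0 < Real.pi * a / 2 := by have := Real.pi_pos; positivity
  refine Summable.of_norm_bounded (summable_prod h h s s') fun p => ?_
  rw [norm_E, ← Real.exp_add]
  apply Real.exp_le_exp.2
  have h2 : 0 ≤ Real.pi * a / 2 * (((p.1 : ℝ) + s) - (p.2 + s')) ^ 2 := by positivity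
  unfold Q
  nlinarith

/-- one-dimensional inversion -/
theorem P1 {a : ℝ} (ha : 0 < a) (s t : ℝ) :
    ∑' n : ℤ, E (a * (n + s) ^ 2) (n * t) =
      ((Real.sqrt a)⁻¹ : ℝ) * ∑' m : ℤ, E ((m + t) ^ 2 / a) (-(s * (m + t))) := by
  have ha0 : (a : ℂ) ≠ 0 := ofReal_ne_zero.2 ha.ne'
  have H := Complex.tsum_exp_neg_quadratic (a := (a : ℂ)) (by simpa using ha) (-(a * s) + I * t)
  have e1 : ∀ n : ℤ, E (a * (n + s) ^ 2) (n * t) = cexp (-(Real.pi * a * s ^ 2)) *
      cexp (-Real.pi * a * (n : ℂ) ^ 2 + 2 * Real.pi * (-(a * s) + I * t) * n) := by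
    intro n
    unfold E
    rw [← Complex.exp_add]
    congr 1
    push_cast
    ring
  have e2 : (1 : ℂ) / (a : ℂ) ^ (1 / 2 : ℂ) = ((Real.sqrt a)⁻¹ : ℝ) := by
    rw [Real.sqrt_eq_rpow, ofReal_inv, ofReal_cpow ha.le, one_div]
    norm_num
  simp only [e1]
  rw [tsum_mul_left, H, e2, mul_left_comm, ← tsum_mul_left, ← (Equiv.neg ℤ).tsum_eq]
  congr 1
  refine tsum_congr fun m => ?_
  unfold E
  rw [← Complex.exp_add]
  congr 1
  simp only [Equiv.neg_apply]
  push_cast
  field_simp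
  ring_nf
  simp only [I_sq, I_pow_three, I_pow_four]
  ring

/-- two-dimensional inversion -/
theorem P2 {a : ℝ} (ha : 0 < a) (w1 w2 y1 y2 : ℝ) :
    ∑' p : ℤ × ℤ, E (a * Q (p.1 + w1) (p.2 + w2)) (p.1 * y2 + p.2 * y1 - p.2 * y2) =
      ((2 / Real.sqrt 3 / a : ℝ) : ℂ) *
        ∑' p : ℤ × ℤ, E (4 / (3 * a) * Q (p.1 + y1) (p.2 + y2))
          (-((p.1 + y1) * w2 + (p.2 + y2) * w1 - (p.2 + y2) * w2)) := by
  have ha' : 0 < 3 / 4 * a := by positivity
  have ha'' : 0 < 4 / (3 * a) := by positivity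
  let G : ℤ → ℤ → ℂ := fun k n =>
    E ((n + y2) ^ 2 / a) (-((w1 - w2 / 2) * (n + y2))) *
      E (3 / 4 * a * (k + w2) ^ 2) (k * (y1 - (n + y2) / 2))
  have hG : Summable (Function.uncurry G) := by
    have h1 : 0 < Real.pi * (3 / 4 * a) := by have := Real.pi_pos; positivity
    have h2 : 0 < Real.pi / a := by have := Real.pi_pos; positivity
    refine Summable.of_norm ((summable_prod h1 h2 w2 y2).congr fun p => ?_)
    simp only [Function.uncurry, G]
    rw [norm_mul, norm_E, norm_E, mul_comm]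
    congr 2 <;> ring
  have s1 := summable_Q ha w1 w2 (fun p => p.1 * y2 + p.2 * y1 - p.2 * y2)
  have s2 := summable_Q ha'' y1 y2
    (fun p => -((p.1 + y1) * w2 + (p.2 + y2) * w1 - (p.2 + y2) * w2))
  have step1 : ∀ k : ℤ, ∑' j : ℤ, E (a * Q (j + w1) (k + w2)) (j * y2 + k * y1 - k * y2) =
      ((Real.sqrt a)⁻¹ : ℝ) * ∑' n, G k n := by
    intro k
    have H := P1 ha (w1 - (k + w2) / 2) y2
    have e : ∀ j : ℤ, E (a * Q (j + w1) (k + w2)) (j * y2 + k * y1 - k * y2) =
        E (3 / 4 * a * (k + w2) ^ 2) (k * y1 - k * y2) *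
          E (a * (j + (w1 - (k + w2) / 2)) ^ 2) (j * y2) := by
      intro j
      rw [E_mul]
      congr 1
      · unfold Q; ring
      · ring
    simp only [e]
    rw [tsum_mul_left, H, mul_left_comm, ← tsum_mul_left]
    congr 1
    refine tsum_congr fun n => ?_
    simp only [G]
    rw [E_mul, E_mul, ← E_int _ _ (-(k * n))]
    congr 1
    · ring
    · push_cast; ring
  have step2 : ∀ n : ℤ, ∑' k, G k n = ((Real.sqrt (3 / 4 * a))⁻¹ : ℝ) *
      ∑' m : ℤ, E (4 / (3 * a) * Q (m + y1) (n + y2))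
          (-((m + y1) * w2 + (n + y2) * w1 - (n + y2) * w2)) := by
    intro n
    simp only [G]
    rw [tsum_mul_left, P1 ha', mul_left_comm, ← tsum_mul_left]
    congr 1
    refine tsum_congr fun m => ?_
    rw [E_mul]
    congr 1
    · unfold Q; field_simp; ring
    · ring
  have t1 := ((Equiv.prodComm ℤ ℤ).summable_iff.2 s1).tsum_prod
  simp only [Function.comp] at t1
  rw [← (Equiv.prodComm ℤ ℤ).tsum_eq, t1]
  simp only [Equiv.prodComm_apply, Prod.swap_prod_mk, step1]
  rw [tsum_mul_left, ← hG.tsum_comm]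
  simp only [step2]
  rw [tsum_mul_left, ← mul_assoc]
  have t2 := ((Equiv.prodComm ℤ ℤ).summable_iff.2 s2).tsum_prod
  simp only [Function.comp] at t2
  rw [← (Equiv.prodComm ℤ ℤ).tsum_eq, t2]
  simp only [Equiv.prodComm_apply, Prod.swap_prod_mk]
  congr 1
  rw [← ofReal_mul]
  congr 1
  have h3 : 0 < Real.sqrt 3 := Real.sqrt_pos.2 (by norm_num)
  have hsa : 0 < Real.sqrt a := Real.sqrt_pos.2 ha
  have e4 : Real.sqrt (3 / 4 * a) = Real.sqrt 3 / 2 * Real.sqrt a := by
    rw [Real.sqrt_mul (by norm_num), Real.sqrt_div (by norm_num),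
      show (4 : ℝ) = 2 ^ 2 by norm_num, Real.sqrt_sq (by norm_num)]
  rw [e4]
  have e5 : Real.sqrt a * Real.sqrt a = a := Real.mul_self_sqrt ha.le
  field_simp
  nlinarith

end Crest.Agent.R17.PAux
end
end

-- ▼ part PVc/R17/Poisson

/-!
# Row 17, module M4 (part A): Poisson summation on `O` with the Gaussian `gw`
(the lattice `O` is self-dual for `eC` and the measure `(2/√3) dx dy`, `gw (|z|²)` is self-dual).
-/

set_option autoImplicit false

noncomputable section

namespace Crest.Agent.R17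

open scoped ComplexConjugate

theorem pois_three_le : 3 ≤ 2 * Real.pi / Real.sqrt 3 := by
  have h3 : 0 < Real.sqrt 3 := Real.sqrt_pos.2 (by norm_num)
  have h4 : Real.sqrt 3 ≤ 2 := Real.sqrt_le_iff.2 ⟨by norm_num, by norm_num⟩
  rw [le_div_iff₀ h3]
  have := Real.pi_gt_three
  linarith

theorem gw_pos (x : ℝ) : 0 < gw x := Real.exp_pos _
theorem gw_le_one {x : ℝ} (hx : 0 ≤ x) : gw x ≤ 1 := by
  unfold gw
  apply Real.exp_le_one_iff.2
  have := pois_three_le
  nlinarith
theorem gw_antitone : Antitone gw := by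
  intro x y h
  unfold gw
  apply Real.exp_le_exp.2
  have := pois_three_le
  nlinarith

theorem gw_add (x y : ℝ) : gw (x + y) = gw x * gw y := by
  unfold gw
  rw [← Real.exp_add]
  congr 1
  ring

@[simp] theorem gw_zero : gw 0 = 1 := by simp [gw]

theorem gw_nat_mul (x : ℝ) (n : ℕ) : gw (x * n) = gw x ^ n := by
  unfold gw
  rw [← Real.exp_nat_mul]
  congr 1
  ring

theorem gw_third_le {x : ℝ} (hx : 0 ≤ x) : gw (x / 3) ≤ Real.exp (-x) := by
  unfold gw
  apply Real.exp_le_exp.2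
  have := pois_three_le
  nlinarith

theorem gw_le_exp {x : ℝ} (hx : 0 ≤ x) : gw x ≤ Real.exp (-x) :=
  (gw_antitone (by linarith)).trans (gw_third_le hx)

theorem pois_exp_neg_le (A : ℝ) : ∃ C : ℝ, 1 ≤ C ∧ ∀ x : ℝ, 1 ≤ x → Real.exp (-x) ≤ C * x ^ (-A) := by
  refine ⟨(⌈A⌉₊.factorial : ℝ), by exact_mod_cast Nat.succ_le_of_lt (Nat.factorial_pos _),
    fun x hx => ?_⟩
  have hx0 : 0 < x := by linarith
  have h1 := Real.pow_div_factorial_le_exp x hx0.le ⌈A⌉₊
  have h2 : x ^ A ≤ x ^ ⌈A⌉₊ := by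
    rw [← Real.rpow_natCast]
    exact Real.rpow_le_rpow_of_exponent_le hx (Nat.le_ceil A)
  have hf : (0 : ℝ) < (⌈A⌉₊.factorial : ℝ) := by exact_mod_cast Nat.factorial_pos _
  rw [div_le_iff₀ hf] at h1
  have hA : 0 < x ^ A := Real.rpow_pos_of_pos hx0 A
  rw [Real.rpow_neg hx0.le, Real.exp_neg, ← div_eq_mul_inv, le_div_iff₀ hA,
    inv_mul_le_iff₀ (Real.exp_pos x)]
  linarith

/-- `gw` decays faster than any power. -/
theorem gw_le_rpow (A : ℝ) : ∃ C : ℝ, 0 < C ∧ ∀ x : ℝ, 0 < x → 0 ≤ A → gw x ≤ C * x ^ (-A) := by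
  obtain ⟨C, hC, h⟩ := pois_exp_neg_le A
  refine ⟨C, by linarith, fun x hx hA => ?_⟩
  rcases le_total 1 x with h1 | h1
  · exact (gw_le_exp hx.le).trans (h x h1)
  · have h2 : 1 ≤ x ^ (-A) := Real.one_le_rpow_of_pos_of_le_one_of_nonpos hx h1 (by linarith)
    have := gw_le_one hx.le
    nlinarith
theorem summable_gw {X : ℝ} (hX : 0 < X) (A : ℝ) :
    Summable (fun k : O => gw (nr k / X) * (1 + nr k) ^ A) := by
  obtain ⟨C, hC, h⟩ := gw_le_rpow (|A| + 2)
  have hs := (summable_nr_rpow (σ := 2) (by norm_num)).mul_left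
    (C * X ^ (|A| + 2) * 2 ^ |A|)
  refine Summable.of_norm_bounded_eventually hs ?_
  filter_upwards [Filter.eventually_cofinite_ne (0 : O)] with k hk
  have h1 := one_le_nr hk
  have h0 : 0 < nr k := by linarith
  have hA := abs_nonneg A
  have h2 := h (nr k / X) (div_pos h0 hX) (by linarith)
  have h3 : (1 + nr k) ^ A ≤ 2 ^ |A| * nr k ^ |A| := by
    rw [← Real.mul_rpow (by norm_num) h0.le]
    exact (Real.rpow_le_rpow_of_exponent_le (by linarith) (le_abs_self A)).trans
      (Real.rpow_le_rpow (by linarith) (by linarith) hA)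
  rw [Real.norm_of_nonneg (mul_nonneg (gw_pos _).le (Real.rpow_nonneg (by linarith) _))]
  refine (mul_le_mul h2 h3 (Real.rpow_nonneg (by linarith) _) (by positivity)).trans (le_of_eq ?_)
  rw [Real.div_rpow h0.le hX.le, Real.rpow_neg hX.le, div_inv_eq_mul,
    show (-2 : ℝ) = -(|A| + 2) + |A| by ring, Real.rpow_add h0]
  ring

theorem summable_gw' {X : ℝ} (hX : 0 < X) : Summable (fun k : O => gw (nr k / X)) := by
  simpa using summable_gw hX 0

/-- Abel summation: `∑_{k ≠ 0} r^{N k} ≤ 7 r / (1 - r)`. -/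
theorem pois_sum_pow_le {r : ℝ} (h0 : 0 ≤ r) (h1 : r < 1) (S : Finset O) :
    ∑ k ∈ S, (if k = 0 then 0 else r ^ nm k) ≤ 7 * (r / (1 - r)) := by
  classical
  have hr : 0 < 1 - r := by linarith
  have hs : ∀ m : ℕ, HasSum (fun n : ℕ => if m ≤ n then (1 - r) * r ^ n else 0) (r ^ m) := by
    intro m
    rw [← hasSum_nat_add_iff' m]
    have e : ∑ i ∈ Finset.range m, (if m ≤ i then (1 - r) * r ^ i else 0) = 0 :=
      Finset.sum_eq_zero fun i hi => if_neg (not_le.2 (Finset.mem_range.1 hi))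
    rw [e, sub_zero]
    have := (hasSum_geometric_of_lt_one h0 h1).mul_left ((1 - r) * r ^ m)
    rw [show (1 - r) * r ^ m * (1 - r)⁻¹ = r ^ m by field_simp] at this
    refine this.congr_fun ?_ |> fun h => h
    intro n
    rw [if_pos (Nat.le_add_left _ _), pow_add]
    ring
  have hs2 : HasSum (fun n : ℕ => ∑ k ∈ S.erase 0, if nm k ≤ n then (1 - r) * r ^ n else 0)
      (∑ k ∈ S.erase 0, r ^ nm k) := hasSum_sum fun k _ => hs (nm k)
  have hs3 := (hasSum_coe_mul_geometric_of_norm_lt_one (𝕜 := ℝ) (r := r)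
    (by rwa [Real.norm_of_nonneg h0])).mul_left (7 * (1 - r))
  have e1 : ∑ k ∈ S, (if k = 0 then 0 else r ^ nm k) = ∑ k ∈ S.erase 0, r ^ nm k := by
    rw [← Finset.sum_erase (s := S) (a := 0) (f := fun k => if k = 0 then 0 else r ^ nm k)
      (if_pos rfl)]
    exact Finset.sum_congr rfl fun k hk => if_neg (Finset.ne_of_mem_erase hk)
  rw [e1, show 7 * (r / (1 - r)) = 7 * (1 - r) * (r / (1 - r) ^ 2) by field_simp]
  refine hasSum_le (fun n => ?_) hs2 hs3
  rw [← Finset.sum_filter, Finset.sum_const, nsmul_eq_mul]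
  have hc : ((S.erase 0).filter fun k => nm k ≤ n).card ≤ 7 * n := by
    have hsub : ((S.erase 0).filter fun k => nm k ≤ n) ⊆ (ball n).erase 0 := by
      intro k hk
      rw [Finset.mem_filter, Finset.mem_erase] at hk
      exact Finset.mem_erase.2 ⟨hk.1.1, mem_ball.2 hk.2⟩
    have h2 := Finset.card_le_card hsub
    rw [Finset.card_erase_of_mem (mem_ball.2 (by simp))] at h2
    have := card_ball_le n
    omega
  have hc' : (((S.erase 0).filter fun k => nm k ≤ n).card : ℝ) ≤ 7 * n := by exact_mod_cast hc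
  have hp : 0 ≤ (1 - r) * r ^ n := by positivity
  nlinarith

theorem pois_tsum_ne_zero_le {Y : ℝ} (hY : 0 < Y) :
    ∑' h : O, (if h = 0 then 0 else gw (Y * nr h)) ≤ 7 * (gw Y / (1 - gw Y)) := by
  have h1 : gw Y < 1 := by
    refine (gw_le_exp hY.le).trans_lt ?_
    exact Real.exp_lt_one_iff.2 (by linarith) |> fun h => h
  have hp := gw_pos Y
  refine Real.tsum_le_of_sum_le (fun h => ?_) fun S => ?_
  · dsimp only
    split_ifs
    · exact le_rfl
    · exact (gw_pos _).le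
  · simp only [gw_nat_mul]
    exact pois_sum_pow_le hp.le h1 S

theorem tsum_gw_le {X : ℝ} (hX : 0 < X) : ∑' k : O, gw (nr k / X) ≤ 1 + 7 * X := by
  classical
  rw [(summable_gw' hX).tsum_eq_add_tsum_ite 0]
  have hY : 0 < X⁻¹ := inv_pos.2 hX
  have h1 := pois_tsum_ne_zero_le hY
  have e : ∀ k : O, nr k / X = X⁻¹ * nr k := fun k => by ring
  simp only [e]
  have h2 : gw X⁻¹ / (1 - gw X⁻¹) ≤ X := by
    have h3 := gw_le_exp hY.le
    have h4 := Real.add_one_le_exp X⁻¹
    have h5 : Real.exp (-X⁻¹) * Real.exp X⁻¹ = 1 := by rw [← Real.exp_add]; simp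
    have h6 := Real.exp_pos (-X⁻¹)
    have h7 : gw X⁻¹ * (X⁻¹ + 1) ≤ 1 := by nlinarith [gw_pos X⁻¹]
    have h8 : X * X⁻¹ = 1 := mul_inv_cancel₀ hX.ne'
    have h9 : 0 < 1 - gw X⁻¹ := by nlinarith [gw_pos X⁻¹]
    rw [div_le_iff₀ h9]
    nlinarith
  simp only [nr, nm_zero, Nat.cast_zero, mul_zero, gw_zero] at h1 ⊢
  linarith
/-- Non-zero frequencies with a large dilation are negligible:
`∑_{h ≠ 0} gw (Y N h) ≪_A Y^{-A}` for `Y ≥ 1`. -/
theorem tsum_gw_ne_zero_le (A : ℝ) : ∃ C : ℝ, 0 < C ∧ ∀ Y : ℝ, 1 ≤ Y →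
    ∑' h : O, (if h = 0 then 0 else gw (Y * nr h)) ≤ C * Y ^ (-A) := by
  obtain ⟨C, hC, h⟩ := pois_exp_neg_le A
  refine ⟨14 * C, by linarith, fun Y hY => ?_⟩
  have hY0 : 0 < Y := by linarith
  refine (pois_tsum_ne_zero_le hY0).trans ?_
  have h1 := (gw_le_exp hY0.le).trans (h Y hY)
  have h2 : gw Y ≤ 1 / 2 := by
    refine (gw_le_exp hY0.le).trans ?_
    have h4 := Real.add_one_le_exp Y
    have h5 : Real.exp (-Y) * Real.exp Y = 1 := by rw [← Real.exp_add]; simp
    have h6 := Real.exp_pos (-Y)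
    nlinarith
  have h3 : gw Y / (1 - gw Y) ≤ 2 * gw Y := by
    rw [div_le_iff₀ (by linarith)]
    nlinarith [gw_pos Y]
  linarith
/-- Gaussian tails. -/
theorem tsum_gw_tail_le (A B : ℝ) : ∃ C : ℝ, 0 < C ∧ ∀ X L : ℝ, 0 < X → 1 ≤ L →
    ∑' k : O, (if X * L ≤ nr k then gw (nr k / X) * (1 + nr k) ^ B else 0)
      ≤ C * (1 + X) ^ (|B| + 1) * L ^ (-A) := by
  obtain ⟨C, hC, h⟩ := pois_exp_neg_le A
  obtain ⟨C', hC', h'⟩ := pois_exp_neg_le |B|
  refine ⟨21 * C * C', by positivity, fun X L hX hL => ?_⟩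
  have hX3 : 0 < 3 * X := by linarith
  have hL0 : 0 < L := by linarith
  have hB := abs_nonneg B
  set K : ℝ := C * L ^ (-A) * (C' * (1 + X) ^ |B|) with hK
  have hK0 : 0 ≤ K := by positivity
  have hb : ∀ k : O, (if X * L ≤ nr k then gw (nr k / X) * (1 + nr k) ^ B else 0)
      ≤ K * gw (nr k / (3 * X)) := by
    intro k
    split_ifs with hk
    · have ht : L ≤ nr k / X := by rw [le_div_iff₀ hX]; linarith
      set t := nr k / X with ht_def
      have ht1 : 1 ≤ t := hL.trans ht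
      have ht0 : 0 < t := by linarith
      have hk' : nr k = X * t := by rw [ht_def]; field_simp
      have e1 : gw t = gw (t / 3) * gw (t / 3) * gw (nr k / (3 * X)) := by
        rw [← gw_add, ← gw_add]
        congr 1
        rw [ht_def]
        field_simp
        ring
      have a1 : gw (t / 3) ≤ C * L ^ (-A) :=
        (gw_antitone (by linarith)).trans ((gw_third_le hL0.le).trans (h L hL))
      have a2 : gw (t / 3) ≤ C' * t ^ (-|B|) := (gw_third_le ht0.le).trans (h' t ht1)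
      have a3 : (1 + nr k) ^ B ≤ (1 + X) ^ |B| * t ^ |B| := by
        rw [← Real.mul_rpow (by linarith) ht0.le]
        have : 0 ≤ nr k := Nat.cast_nonneg _
        exact (Real.rpow_le_rpow_of_exponent_le (by linarith) (le_abs_self B)).trans
          (Real.rpow_le_rpow (by linarith) (by rw [hk']; nlinarith) hB)
      have a4 : gw (t / 3) * (1 + nr k) ^ B ≤ C' * (1 + X) ^ |B| := by
        refine (mul_le_mul a2 a3 (Real.rpow_nonneg (by positivity) _) (by positivity)).trans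
          (le_of_eq ?_)
        have : t ^ (-|B|) * t ^ |B| = 1 := by rw [← Real.rpow_add ht0]; simp
        linear_combination (C' * (1 + X) ^ |B|) * this
      have a5 := mul_le_mul a1 a4 (mul_nonneg (gw_pos _).le (Real.rpow_nonneg (by positivity) _))
        (by positivity)
      rw [e1]
      have := mul_le_mul_of_nonneg_right a5 (gw_pos (nr k / (3 * X))).le
      rw [hK]
      linarith
    · exact mul_nonneg hK0 (gw_pos _).le
  have hs := (summable_gw' hX3).mul_left K
  have hn : ∀ k : O, 0 ≤ (if X * L ≤ nr k then gw (nr k / X) * (1 + nr k) ^ B else 0) := by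
    intro k
    split_ifs
    · exact mul_nonneg (gw_pos _).le (Real.rpow_nonneg (by positivity) _)
    · exact le_rfl
  refine ((hs.of_nonneg_of_le hn hb).tsum_le_tsum hb hs).trans ?_
  rw [tsum_mul_left]
  have h2 : ∑' k : O, gw (nr k / (3 * X)) ≤ 21 * (1 + X) := (tsum_gw_le hX3).trans (by linarith)
  refine (mul_le_mul_of_nonneg_left h2 hK0).trans (le_of_eq ?_)
  rw [hK, Real.rpow_add (by linarith), Real.rpow_one]
  ring

/-- coordinates in the basis `1, ω` -/
theorem pois_coord (w : ℂ) : ∃ w1 w2 : ℝ, w = w1 + w2 * omC := by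
  have h3 : 0 < Real.sqrt 3 := Real.sqrt_pos.2 (by norm_num)
  refine ⟨w.re + w.im / Real.sqrt 3, 2 * w.im / Real.sqrt 3, ?_⟩
  apply Complex.ext
  · simp only [omC, Complex.add_re, Complex.ofReal_re, Complex.re_ofReal_mul]
    ring
  · simp only [omC, Complex.add_im, Complex.ofReal_im, Complex.im_ofReal_mul]
    field_simp
    ring

theorem pois_normSq (u v : ℝ) : ‖(u : ℂ) + v * omC‖ ^ 2 = PAux.Q u v := by
  have h : Real.sqrt 3 * Real.sqrt 3 = 3 := Real.mul_self_sqrt (by norm_num)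
  rw [Complex.sq_norm, Complex.normSq_apply]
  simp only [omC, Complex.add_re, Complex.ofReal_re, Complex.re_ofReal_mul, Complex.add_im,
    Complex.ofReal_im, Complex.im_ofReal_mul, PAux.Q]
  linear_combination (v ^ 2 / 4) * h

theorem pois_im (u v u' v' : ℝ) : (((u : ℂ) + v * omC) * (u' + v' * omC)).im
    = Real.sqrt 3 / 2 * (u * v' + v * u' - v * v') := by
  simp only [omC, Complex.add_re, Complex.ofReal_re, Complex.re_ofReal_mul, Complex.add_im,
    Complex.ofReal_im, Complex.mul_im]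
  ring

theorem pois_gw_eC (x : ℝ) (z : ℂ) :
    (gw x : ℂ) * eC z = PAux.E (2 / Real.sqrt 3 * x) (2 / Real.sqrt 3 * z.im) := by
  unfold gw eC PAux.E
  rw [Complex.ofReal_exp, ← Complex.exp_add]
  congr 1
  push_cast
  ring

/-- `O ≃ ℤ × ℤ` -/
def poisE : ℤ × ℤ ≃ O := (QuadraticAlgebra.equivProd (-1 : ℤ) (-1)).symm

theorem ι_poisE (p : ℤ × ℤ) : ι (poisE p) = ((p.1 : ℝ) : ℂ) + ((p.2 : ℝ) : ℂ) * omC := by
  simp only [Complex.ofReal_intCast]
  rfl

/-- Theta inversion with characteristics: for `w, y ∈ ℂ`,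
`∑_k gw(|k + w|²/X) e(k y) = X ∑_h gw(X |h + y|²) e(-(h + y) w)`. -/
theorem poisson_shift {X : ℝ} (hX : 0 < X) (w y : ℂ) :
    ∑' k : O, (gw (‖ι k + w‖ ^ 2 / X) : ℂ) * eC (ι k * y) =
      (X : ℂ) * ∑' h : O, (gw (X * ‖ι h + y‖ ^ 2) : ℂ) * eC (-((ι h + y) * w)) := by
  have h3 : 0 < Real.sqrt 3 := Real.sqrt_pos.2 (by norm_num)
  have h : Real.sqrt 3 * Real.sqrt 3 = 3 := Real.mul_self_sqrt (by norm_num)
  obtain ⟨w1, w2, rfl⟩ := pois_coord w
  obtain ⟨y1, y2, rfl⟩ := pois_coord y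
  have ha : 0 < 2 / Real.sqrt 3 / X := by positivity
  have H := PAux.P2 ha w1 w2 y1 y2
  have hadd : ∀ (p : ℤ × ℤ) (u v : ℝ), ι (poisE p) + (u + v * omC)
      = ((p.1 + u : ℝ) : ℂ) + ((p.2 + v : ℝ) : ℂ) * omC := by
    intro p u v
    rw [ι_poisE]
    push_cast
    ring
  rw [← poisE.tsum_eq, ← poisE.tsum_eq]
  simp only [pois_gw_eC, hadd, pois_normSq, Complex.neg_im, pois_im]
  simp only [ι_poisE, pois_im]
  have e0 : 2 / Real.sqrt 3 / (2 / Real.sqrt 3 / X) = X := by field_simp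
  rw [e0] at H
  convert H using 4 with p p
  · ring
  · field_simp
  · congr 1
    · field_simp
      linear_combination (-4 * PAux.Q (p.1 + y1) (p.2 + y2)) * h
    · field_simp

/-- The finite Fourier transform modulo `q`. -/
def ft (q : O) (f : O → ℂ) (h : O) : ℂ := ∑ x ∈ res q, f x * eq (h * x) q

/-- Poisson summation for a periodic function against the Gaussian. -/
theorem poisson {q : O} (hq : q ≠ 0) (f : O → ℂ) (hf : ∀ x y, q ∣ x - y → f x = f y)
    {X : ℝ} (hX : 0 < X) :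
    ∑' k : O, f k * (gw (nr k / X) : ℂ) =
      (X / nr q : ℝ) * ∑' h : O, ft q f h * (gw (X * nr h / nr q) : ℂ) := by
  classical
  have hq0 := nr_pos hq
  have hιq : ι q ≠ 0 := fun h0 => hq (ι_injective (by rw [h0, map_zero]))
  have hX' : 0 < X / nr q := div_pos hX hq0
  -- `f` is bounded
  have hfb : ∀ k, ‖f k‖ ≤ ∑ x ∈ res q, ‖f x‖ := by
    intro k
    obtain ⟨r, ⟨hr, hr'⟩, -⟩ := exists_unique_res hq k
    rw [hf k r hr']
    exact Finset.single_le_sum (f := fun x => ‖f x‖) (fun _ _ => norm_nonneg _) hr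
  have hs : Summable fun k : O => f k * (gw (nr k / X) : ℂ) := by
    refine Summable.of_norm_bounded ((summable_gw' hX).mul_left (∑ x ∈ res q, ‖f x‖)) fun k => ?_
    rw [norm_mul, Complex.norm_real, Real.norm_of_nonneg (gw_pos _).le]
    exact mul_le_mul_of_nonneg_right (hfb k) (gw_pos _).le
  let e : res q × O ≃ O := Equiv.ofBijective (fun z => (z.1 : O) + q * z.2) (by
    constructor
    · rintro ⟨⟨x, hx⟩, k⟩ ⟨⟨x', hx'⟩, k'⟩ hz
      simp only at hz
      obtain ⟨r, -, hr⟩ := exists_unique_res hq (x + q * k)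
      have h1 : x = r := hr x ⟨hx, ⟨k, by ring⟩⟩
      have h2 : x' = r := hr x' ⟨hx', ⟨k', by rw [hz]; ring⟩⟩
      have h3 : x = x' := h1.trans h2.symm
      subst h3
      have h4 : k = k' := mul_left_cancel₀ hq (add_left_cancel hz)
      rw [h4]
    · intro k
      obtain ⟨r, ⟨hr, c, hc⟩, -⟩ := exists_unique_res hq k
      exact ⟨(⟨r, hr⟩, c), by simp only; rw [← hc]; ring⟩)
  have he : ∀ z : res q × O, e z = (z.1 : O) + q * z.2 := fun _ => rfl
  have t1 := (e.summable_iff.2 hs).tsum_prod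
  simp only [Function.comp] at t1
  rw [← e.tsum_eq, t1, tsum_fintype]
  simp only [he]
  have inner : ∀ x : O, ∑' k : O, f (x + q * k) * (gw (nr (x + q * k) / X) : ℂ) =
      (X / nr q : ℝ) * ∑' h : O, f x * eq (h * x) q * (gw (X * nr h / nr q) : ℂ) := by
    intro x
    have H := poisson_shift hX' (ι x / ι q) 0
    simp only [mul_zero, eC_zero, mul_one, add_zero] at H
    have e1 : ∀ k : O, f (x + q * k) * (gw (nr (x + q * k) / X) : ℂ)
        = f x * (gw (‖ι k + ι x / ι q‖ ^ 2 / (X / nr q)) : ℂ) := by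
      intro k
      rw [hf (x + q * k) x ⟨k, by ring⟩]
      congr 3
      have : ι k + ι x / ι q = ι (x + q * k) / ι q := by
        rw [map_add, map_mul]
        field_simp
        ring
      rw [this, norm_div, div_pow, norm_ι_sq, norm_ι_sq]
      field_simp
    simp only [e1]
    rw [tsum_mul_left, H, mul_left_comm, ← tsum_mul_left, ← (Equiv.neg O).tsum_eq]
    congr 1
    refine tsum_congr fun h => ?_
    simp only [Equiv.neg_apply, norm_ι_sq, nr, norm_neg, eq, map_neg, map_mul]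
    rw [show -(-ι h * (ι x / ι q)) = ι h * ι x / ι q by ring,
      show X / (nm q : ℝ) * (nm h : ℝ) = X * (nm h : ℝ) / (nm q : ℝ) by ring]
    ring
  simp only [inner]
  rw [Finset.sum_coe_sort (res q) (fun x => ((X / nr q : ℝ) : ℂ) *
    ∑' h : O, f x * eq (h * x) q * (gw (X * nr h / nr q) : ℂ)), ← Finset.mul_sum]
  congr 1
  have hs2 : ∀ x : O, Summable fun h : O => f x * eq (h * x) q * (gw (X * nr h / nr q) : ℂ) := by
    intro x
    refine Summable.of_norm_bounded ((summable_gw' (inv_pos.2 hX')).mul_left ‖f x‖) fun h => ?_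
    rw [norm_mul, norm_mul, norm_eq, mul_one, Complex.norm_real,
      Real.norm_of_nonneg (gw_pos _).le]
    refine le_of_eq ?_
    congr 2
    field_simp
  rw [← Summable.tsum_finsetSum fun x _ => hs2 x]
  refine tsum_congr fun h => ?_
  rw [ft, Finset.sum_mul]

/-- A periodic function of mean zero and modulus `≤ 1` has a negligible Gaussian sum as soon as
the length exceeds the conductor. -/
theorem norm_tsum_gw_le_of_mean_zero (A : ℝ) : ∃ C : ℝ, 0 < C ∧ ∀ (q : O) (f : O → ℂ) (X : ℝ),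
    q ≠ 0 → (∀ x y, q ∣ x - y → f x = f y) → (∀ x, ‖f x‖ ≤ 1) → ∑ x ∈ res q, f x = 0 →
    nr q ≤ X → ‖∑' k : O, f k * (gw (nr k / X) : ℂ)‖ ≤ C * X * (X / nr q) ^ (-A) := by
  classical
  obtain ⟨C, hC, h⟩ := tsum_gw_ne_zero_le A
  refine ⟨C, hC, fun q f X hq hf hf1 hf0 hX => ?_⟩
  have hq0 := nr_pos hq
  have hX0 : 0 < X := hq0.trans_le hX
  have hX' : 0 < X / nr q := div_pos hX0 hq0
  have hY : 1 ≤ X / nr q := (one_le_div hq0).2 hX
  rw [poisson hq f hf hX0, norm_mul, Complex.norm_real, Real.norm_of_nonneg hX'.le]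
  have hs : Summable fun k : O => (if k = 0 then 0 else gw (X / nr q * nr k)) := by
    refine (summable_gw' (inv_pos.2 hX')).of_nonneg_of_le (fun k => ?_) fun k => ?_
    · split_ifs
      · exact le_rfl
      · exact (gw_pos _).le
    · split_ifs
      · exact (gw_pos _).le
      · refine le_of_eq ?_
        congr 1
        field_simp
  have hb : ‖∑' h : O, ft q f h * (gw (X * nr h / nr q) : ℂ)‖
      ≤ nr q * ∑' k : O, (if k = 0 then 0 else gw (X / nr q * nr k)) := by
    refine tsum_of_norm_bounded (hs.hasSum.mul_left (nr q)) fun k => ?_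
    split_ifs with hk
    · have : ft q f k = 0 := by
        rw [hk, ft, ← hf0]
        refine Finset.sum_congr rfl fun x _ => ?_
        simp [eq]
      simp [this]
    · rw [norm_mul, Complex.norm_real, Real.norm_of_nonneg (gw_pos _).le,
        show X * nr k / nr q = X / nr q * nr k by ring]
      refine mul_le_mul_of_nonneg_right ?_ (gw_pos _).le
      refine (norm_sum_le _ _).trans ?_
      refine (Finset.sum_le_card_nsmul _ _ 1 fun x _ => ?_).trans ?_
      · rw [norm_mul, norm_eq, mul_one]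
        exact hf1 x
      · rw [card_res hq, nsmul_eq_mul, mul_one]
  have h2 := mul_le_mul_of_nonneg_left (h _ hY) hq0.le
  refine (mul_le_mul_of_nonneg_left (hb.trans h2) hX'.le).trans (le_of_eq ?_)
  field_simp

/-- Fourier transform of a product of functions with coprime moduli. -/
theorem ft_mul {m n : O} (hm : m ≠ 0) (hn : n ≠ 0) (h : IsCoprime m n) (f g : O → ℂ)
    (hf : ∀ x y, m ∣ x - y → f x = f y) (hg : ∀ x y, n ∣ x - y → g x = g y) (k : O) :
    ft (m * n) (fun x => f x * g x) k =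
      ft m (fun x => f (n * x)) k * ft n (fun y => g (m * y)) k := by
  unfold ft
  rw [sum_res_crt hm hn h (fun x => f x * g x * eq (k * x) (m * n)), Finset.sum_mul_sum]
  · refine Finset.sum_congr rfl fun x _ => Finset.sum_congr rfl fun y _ => ?_
    rw [hf (n * x + m * y) (n * x) ⟨y, by ring⟩, hg (n * x + m * y) (m * y) ⟨x, by ring⟩,
      show k * (n * x + m * y) = n * (k * x) + m * (k * y) by ring, eq_crt hm hn]
    ring
  · intro x y hxy
    rw [hf x y ((dvd_mul_right m n).trans hxy), hg x y ((dvd_mul_left n m).trans hxy),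
      eq_congr (x := k * x) (y := k * y) (by rw [← mul_sub]; exact hxy.mul_left k)]

/-- Fourier inversion. -/
theorem ft_ft {q : O} (hq : q ≠ 0) (f : O → ℂ) (hf : ∀ x y, q ∣ x - y → f x = f y) (x : O) :
    ft q (ft q f) x = (nm q : ℂ) * f (-x) := by
  classical
  unfold ft
  simp only [Finset.sum_mul]
  rw [Finset.sum_comm]
  have e : ∀ y : O, ∑ h ∈ res q, f y * eq (h * y) q * eq (x * h) q
      = f y * if q ∣ x + y then (nm q : ℂ) else 0 := by
    intro y
    rw [← sum_res_eq_char hq, Finset.mul_sum]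
    refine Finset.sum_congr rfl fun h _ => ?_
    rw [mul_assoc, ← eq_add, show h * y + x * h = (x + y) * h by ring]
  simp only [e]
  obtain ⟨r, ⟨hr, hr'⟩, hu⟩ := exists_unique_res hq (-x)
  rw [Finset.sum_eq_single_of_mem r hr]
  · rw [if_pos (by rw [← dvd_neg]; convert hr' using 1; ring), hf (-x) r hr', mul_comm]
  · intro y hy hne
    rw [if_neg, mul_zero]
    intro hd
    exact hne (hu y ⟨hy, by rw [← dvd_neg]; convert hd using 1; ring⟩)

end Crest.Agent.R17
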