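import Mathlib
import Crest.Agent.PVc.R17.Poisson

-- ▼ part PVc/R17/RecipTheta
section

/-! Theta inversion for complex binary quadratic forms. -/

set_option autoImplicit false

noncomputable section

namespace Crest.Agent.R17.RecipB

open Complex
open scoped Real

def tm (α β γ : ℂ) (x y : ℤ) : ℂ := cexp (-π * (α * x ^ 2 + 2 * β * x * y + γ * y ^ 2))

def PD (α β γ : ℂ) : Prop := 0 < α.re ∧ β.re ^ 2 < α.re * γ.re

def Th (α β γ : ℂ) : ℂ := ∑' p : ℤ × ℤ, tm α β γ p.1 p.2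

theorem PD.swap {α β γ : ℂ} (h : PD α β γ) : PD γ β α := by
  refine ⟨?_, by rw [mul_comm]; exact h.2⟩
  by_contra h0
  nlinarith [h.1, h.2, sq_nonneg β.re]

theorem summable_gauss {c : ℝ} (hc : 0 < c) : Summable fun x : ℤ => Real.exp (-π * c * x ^ 2) := by
  have h := ((summable_jacobiTheta₂_term_iff 0 (I * c)).2 (by simpa using hc)).norm
  refine h.congr fun x => ?_
  rw [jacobiTheta₂_term, Complex.norm_exp]
  congr 1
  have : 2 * π * I * x * 0 + π * I * x ^ 2 * (I * c) = ((-π * c * x ^ 2 : ℝ) : ℂ) := by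
    push_cast
    linear_combination (π * x ^ 2 * c : ℂ) * I_mul_I
  rw [this, ofReal_re]

theorem norm_tm (α β γ : ℂ) (x y : ℤ) :
    ‖tm α β γ x y‖ = Real.exp (-π * (α.re * x ^ 2 + 2 * β.re * x * y + γ.re * y ^ 2)) := by
  rw [tm, Complex.norm_exp]
  congr 1
  simp [sq]

theorem PD.summable {α β γ : ℂ} (h : PD α β γ) :
    Summable fun p : ℤ × ℤ => tm α β γ p.1 p.2 := by
  have h1 := h.1
  have h2 := h.swap.1
  have h3 := h.2
  set c := (α.re * γ.re - β.re ^ 2) / (α.re + γ.re) with hc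
  have hc0 : 0 < c := div_pos (by linarith) (by linarith)
  have hs := (summable_gauss hc0).mul_of_nonneg (summable_gauss hc0) (fun _ => (Real.exp_pos _).le)
    (fun _ => (Real.exp_pos _).le)
  refine hs.of_norm_bounded fun p => ?_
  rw [norm_tm, ← Real.exp_add, Real.exp_le_exp]
  have key : c * ((p.1 : ℝ) ^ 2 + p.2 ^ 2) ≤
      α.re * p.1 ^ 2 + 2 * β.re * p.1 * p.2 + γ.re * p.2 ^ 2 := by
    rw [hc, div_mul_eq_mul_div, div_le_iff₀ (by linarith)]
    nlinarith [sq_nonneg (α.re * p.1 + β.re * p.2), sq_nonneg (β.re * p.1 + γ.re * p.2)]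
  nlinarith [Real.pi_pos]

theorem Th_swap (α β γ : ℂ) : Th α β γ = Th γ β α := by
  rw [Th, Th, ← (Equiv.prodComm ℤ ℤ).tsum_eq]
  refine tsum_congr fun p => ?_
  simp only [tm, Equiv.prodComm_apply, Prod.fst_swap, Prod.snd_swap]
  congr 1
  ring

theorem Th_neg (α β γ : ℂ) : Th α (-β) γ = Th α β γ := by
  rw [Th, Th, ← ((Equiv.neg ℤ).prodCongr (Equiv.refl ℤ)).tsum_eq]
  refine tsum_congr fun p => ?_
  simp only [tm, Equiv.prodCongr_apply, Prod.map_fst, Prod.map_snd, Equiv.neg_apply,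
    Equiv.refl_apply]
  congr 1
  push_cast
  ring

theorem PD.step {α β γ : ℂ} (h : PD α β γ) : PD (1 / α) (-I * β / α) (γ - β ^ 2 / α) := by
  have h1 := h.1
  have h3 := h.2
  have hn : 0 < normSq α := normSq_pos.2 fun h0 => by simp [h0] at h1
  have e1 : (1 / α).re = α.re / normSq α := by simp
  have e2 : (-I * β / α).re = (β.im * α.re - β.re * α.im) / normSq α := by
    simp [div_re]; ring
  have e3 : (γ - β ^ 2 / α).re = γ.re -
      ((β.re ^ 2 - β.im ^ 2) * α.re + 2 * β.re * β.im * α.im) / normSq α := by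
    simp [div_re, sq]; ring
  refine ⟨by rw [e1]; positivity, ?_⟩
  rw [e1, e2, e3, ← sub_pos]
  have e4 : α.re / normSq α * (γ.re -
      ((β.re ^ 2 - β.im ^ 2) * α.re + 2 * β.re * β.im * α.im) / normSq α) -
      ((β.im * α.re - β.re * α.im) / normSq α) ^ 2 = (α.re * γ.re - β.re ^ 2) / normSq α := by
    field_simp
    rw [normSq_apply]
    ring
  rw [e4]
  exact div_pos (by linarith) hn

theorem PD.th_eq {α β γ : ℂ} (h : PD α β γ) : Th α β γ = ∑' y : ℤ, ∑' x : ℤ, tm α β γ x y := by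
  rw [Th, h.summable.tsum_prod]
  exact (Summable.tsum_comm (f := tm α β γ) h.summable).symm

theorem PD.th_step {α β γ : ℂ} (h : PD α β γ) :
    Th α β γ = 1 / α ^ (1 / 2 : ℂ) * Th (1 / α) (-I * β / α) (γ - β ^ 2 / α) := by
  have hα : α ≠ 0 := fun h0 => by simpa [h0] using h.1
  rw [h.th_eq, h.step.th_eq, ← tsum_mul_left]
  refine tsum_congr fun y => ?_
  have h1 : ∀ x : ℤ, tm α β γ x y =
      cexp (-π * γ * y ^ 2) * cexp (-π * α * x ^ 2 + 2 * π * (-β * y) * x) := fun x => by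
    rw [tm, ← Complex.exp_add]
    congr 1
    ring
  have h2 : ∀ x : ℤ, tm (1 / α) (-I * β / α) (γ - β ^ 2 / α) x y =
      cexp (-π * γ * y ^ 2) * cexp (-π / α * (x + I * (-β * y)) ^ 2) := fun x => by
    rw [tm, ← Complex.exp_add]
    congr 1
    field_simp
    linear_combination (β ^ 2 * y ^ 2) * I_mul_I
  simp only [h1, h2, tsum_mul_left]
  rw [Complex.tsum_exp_neg_quadratic h.1]
  ring

theorem sqrt_branch {α : ℂ} (h : 0 < α.re) {D : ℝ} (hD : 0 < D) :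
    α ^ (1 / 2 : ℂ) * (D / α) ^ (1 / 2 : ℂ) = (Real.sqrt D : ℂ) := by
  have hα : α ≠ 0 := fun h0 => by simp [h0] at h
  have harg : α.arg ≠ π := fun h0 => by
    have := (Complex.arg_eq_pi_iff.1 h0).1
    linarith
  have hD' : (D : ℂ) ≠ 0 := by exact_mod_cast hD.ne'
  rw [cpow_def_of_ne_zero hα, cpow_def_of_ne_zero (div_ne_zero hD' hα), div_eq_mul_inv (D : ℂ),
    log_ofReal_mul hD (inv_ne_zero hα), log_inv _ harg, ← Complex.exp_add, Real.sqrt_eq_rpow,
    Real.rpow_def_of_pos hD]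
  push_cast
  congr 1
  ring

/-- Theta inversion for a binary form with positive real determinant. -/
theorem PD.th_inv {α β γ : ℂ} (h : PD α β γ) {D : ℝ} (hD : 0 < D) (hd : α * γ - β ^ 2 = D) :
    Th α β γ = (Real.sqrt D : ℂ)⁻¹ * Th (α / D) (β / D) (γ / D) := by
  have hα : α ≠ 0 := fun h0 => by simpa [h0] using h.1
  have hD' : (D : ℂ) ≠ 0 := by exact_mod_cast hD.ne'
  have e1 : γ - β ^ 2 / α = D / α := by rw [← hd]; field_simp
  rw [h.th_step, Th_swap, h.step.swap.th_step, e1, ← sqrt_branch h.1 hD, ← Th_neg (α / D)]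
  have e2 : 1 / (D / α) = α / D := by field_simp
  have e3 : -I * (-I * β / α) / (D / α) = -(β / D) := by
    field_simp
    linear_combination β * I_mul_I
  have e4 : 1 / α - (-I * β / α) ^ 2 / (D / α) = γ / D := by
    field_simp
    linear_combination (-β ^ 2) * I_mul_I - hd
  rw [e2, e3, e4]
  ring

end Crest.Agent.R17.RecipB
end
end

-- ▼ part PVc/R17/RecipLS

/-! Landsberg–Schaar evaluation of the quadratic Gauss sum in `O`. -/

set_option autoImplicit false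

noncomputable section

namespace Crest.Agent.R17.RecipB

open Complex Filter Topology
open scoped Real ComplexConjugate

def S (ε : ℝ) (w : ℂ) : ℂ := ∑' k : O, (gw (ε * nr k) : ℂ) * eC (ι k ^ 2 * w)

theorem sqrt3_ne : ((Real.sqrt 3 : ℝ) : ℂ) ≠ 0 := by
  exact_mod_cast (Real.sqrt_pos.2 (by norm_num : (0 : ℝ) < 3)).ne'

theorem im_sq_mul (k : O) (w : ℂ) : (ι k ^ 2 * w).im =
    w.im * k.re ^ 2 + 2 * (omC * w).im * k.re * k.im - (w.im + (omC * w).im) * k.im ^ 2 := by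
  have h : ι k ^ 2 * w = ((k.re ^ 2 - k.im ^ 2 : ℝ) : ℂ) * w +
      ((2 * k.re * k.im - k.im ^ 2 : ℝ) : ℂ) * (omC * w) := by
    show ((k.re : ℂ) + k.im * omC) ^ 2 * w = _
    push_cast
    linear_combination (k.im ^ 2 * w : ℂ) * omC_mul
  rw [h, add_im, im_ofReal_mul, im_ofReal_mul]
  ring

theorem S_eq (ε : ℝ) (w : ℂ) : S ε w =
    Th (2 / Real.sqrt 3 * (ε - 2 * I * w.im)) (2 / Real.sqrt 3 * (-ε / 2 - 2 * I * (omC * w).im))
      (2 / Real.sqrt 3 * (ε + 2 * I * (w.im + (omC * w).im))) := by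
  rw [S, Th, ← (QuadraticAlgebra.equivProd (-1 : ℤ) (-1)).tsum_eq]
  refine tsum_congr fun k => ?_
  have hn : nr k = (k.re : ℝ) ^ 2 - k.re * k.im + k.im ^ 2 := by
    have := nm_cast k
    unfold nr
    exact_mod_cast this
  rw [gw, eC, im_sq_mul, ofReal_exp, ← Complex.exp_add, tm, hn]
  congr 1
  simp only [QuadraticAlgebra.equivProd, Equiv.coe_fn_mk]
  push_cast
  have := sqrt3_ne
  field_simp
  ring

theorem S_inv {ε : ℝ} (hε : 0 < ε) (w : ℂ) :
    S ε w = (Real.sqrt (ε ^ 2 + 4 * normSq w) : ℂ)⁻¹ *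
      S (ε / (ε ^ 2 + 4 * normSq w)) (w / (ε ^ 2 + 4 * normSq w : ℝ)) := by
  have hD : 0 < ε ^ 2 + 4 * normSq w := by have := normSq_nonneg w; positivity
  have h3 : Real.sqrt 3 * Real.sqrt 3 = 3 := Real.mul_self_sqrt (by norm_num)
  have h3' : ((Real.sqrt 3 : ℝ) : ℂ) ^ 2 = 3 := by rw [sq]; exact_mod_cast h3
  have hk : 0 < 2 / Real.sqrt 3 := by positivity
  have hr : (omC * w).im = -w.im / 2 + Real.sqrt 3 / 2 * w.re := by simp [omC]; ring
  have hc : (2 / Real.sqrt 3 : ℂ) = ((2 / Real.sqrt 3 : ℝ) : ℂ) := by push_cast; rfl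
  have hpd : PD (2 / Real.sqrt 3 * (ε - 2 * I * w.im))
      (2 / Real.sqrt 3 * (-ε / 2 - 2 * I * (omC * w).im))
      (2 / Real.sqrt 3 * (ε + 2 * I * (w.im + (omC * w).im))) := by
    rw [PD, hc, re_ofReal_mul, re_ofReal_mul, re_ofReal_mul]
    generalize (omC * w).im = r
    generalize 2 / Real.sqrt 3 = κ at hk
    simp
    constructor
    · positivity
    · nlinarith [mul_pos (mul_pos hk hε) (mul_pos hk hε)]
  rw [S_eq, hpd.th_inv hD, S_eq]
  · have hD' : ((ε ^ 2 + 4 * normSq w : ℝ) : ℂ) ≠ 0 := by exact_mod_cast hD.ne'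
    rw [← mul_div_assoc omC, div_ofReal_im, div_ofReal_im]
    generalize ε ^ 2 + 4 * normSq w = D at hD'
    congr 2 <;> push_cast <;> field_simp
  · rw [hr, normSq_apply]
    push_cast
    have := sqrt3_ne
    field_simp
    rw [h3']
    linear_combination (-(12 * w.im ^ 2 + 4 * (Real.sqrt 3 : ℂ) ^ 2 * w.re ^ 2)) * I_mul_I +
      4 * (w.re : ℂ) ^ 2 * h3'

theorem summable_gw0 {X : ℝ} (hX : 0 < X) : Summable fun k : O => gw (nr k / X) := by
  simpa using summable_gw hX 0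

theorem tendsto_gw : Tendsto gw atTop (𝓝 0) := by
  have h : 0 < 2 * π / Real.sqrt 3 := by positivity
  exact Real.tendsto_exp_atBot.comp (tendsto_id.const_mul_atTop_of_neg (by linarith))

theorem mean {q : O} (hq : q ≠ 0) (f : O → ℂ) (hf : ∀ x y, q ∣ x - y → f x = f y)
    (hb : ∀ x, ‖f x‖ ≤ 1) :
    Tendsto (fun X : ℝ => ((X⁻¹ : ℝ) : ℂ) * ∑' k : O, f k * (gw (nr k / X) : ℂ)) atTop
      (𝓝 ((∑ x ∈ res q, f x) / (nr q : ℝ))) := by
  classical
  have hN := nr_pos hq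
  have h1 : Tendsto (fun X : ℝ => ∑' h : O, ft q f h * (gw (X * nr h / nr q) : ℂ)) atTop
      (𝓝 (∑' h : O, if h = 0 then ∑ x ∈ res q, f x else 0)) := by
    refine tendsto_tsum_of_dominated_convergence
      (bound := fun h : O => ((res q).card : ℝ) * gw (nr h / 1))
      ((summable_gw0 one_pos).mul_left _) (fun h => ?_) ?_
    · split_ifs with h0
      · simp [h0, ft, gw, eq]
      · have h2 : Tendsto (fun X : ℝ => X * nr h / nr q) atTop atTop :=
          (tendsto_id.atTop_mul_const (nr_pos h0)).atTop_div_const hN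
        simpa using ((continuous_ofReal.tendsto 0).comp (tendsto_gw.comp h2)).const_mul (ft q f h)
    · filter_upwards [eventually_ge_atTop (nr q)] with X hX h
      rw [norm_mul, norm_real, Real.norm_of_nonneg (gw_pos _).le]
      refine mul_le_mul ?_ (gw_antitone ?_) (gw_pos _).le (Nat.cast_nonneg _)
      · refine (norm_sum_le _ _).trans ?_
        rw [Finset.card_eq_sum_ones, Nat.cast_sum]
        refine Finset.sum_le_sum fun x _ => ?_
        rw [norm_mul, norm_eq, mul_one]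
        simpa using hb x
      · rw [div_one, le_div_iff₀ hN, mul_comm]
        exact mul_le_mul_of_nonneg_right hX (Nat.cast_nonneg _)
  rw [tsum_ite_eq] at h1
  refine (h1.div_const ((nr q : ℝ) : ℂ)).congr' ?_
  filter_upwards [eventually_gt_atTop 0] with X hX
  rw [poisson hq f hf hX]
  have : (X : ℂ) ≠ 0 := by exact_mod_cast hX.ne'
  push_cast
  field_simp

theorem norm_eC_sub_one (z : ℂ) : ‖eC z - 1‖ ≤ 16 * ‖z‖ := by
  have h : eC z = cexp (I * ((4 * π * z.im / Real.sqrt 3 : ℝ) : ℂ)) := by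
    unfold eC
    congr 1
    push_cast
    ring
  rw [h]
  refine Real.norm_exp_I_mul_ofReal_sub_one_le.trans ?_
  have h3 : 1 ≤ Real.sqrt 3 := Real.one_le_sqrt.2 (by norm_num)
  rw [Real.norm_eq_abs, abs_div, abs_mul, abs_of_pos (by positivity : 0 < 4 * π),
    abs_of_pos (by positivity : 0 < Real.sqrt 3)]
  refine (div_le_self (by positivity) h3).trans ?_
  exact mul_le_mul (by linarith [Real.pi_le_four]) (abs_im_le_norm z) (abs_nonneg _) (by norm_num)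

theorem mul_gw_le {t : ℝ} (ht : 0 ≤ t) : t * gw t ≤ gw (t / 2) := by
  have h3 : Real.sqrt 3 ≤ π := by
    rw [Real.sqrt_le_left (by positivity)]
    nlinarith [Real.pi_gt_three]
  have h4 : 1 ≤ π / Real.sqrt 3 := (one_le_div (by positivity)).2 h3
  have h5 : t ≤ Real.exp (π / Real.sqrt 3 * t) := by
    have := Real.add_one_le_exp (π / Real.sqrt 3 * t)
    nlinarith
  calc t * gw t ≤ Real.exp (π / Real.sqrt 3 * t) * gw t :=
        mul_le_mul_of_nonneg_right h5 (gw_pos _).le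
    _ = gw (t / 2) := by
        rw [gw, gw, ← Real.exp_add]
        congr 1
        ring

theorem err_le {X : ℝ} (hX : 0 < X) (w v : ℂ) :
    ‖((X⁻¹ : ℝ) : ℂ) * S X⁻¹ (w + v) - ((X⁻¹ : ℝ) : ℂ) * S X⁻¹ w‖ ≤ 16 * ‖v‖ * (1 + 14 * X) := by
  have hs : ∀ w : ℂ, Summable fun k : O => (gw (X⁻¹ * nr k) : ℂ) * eC (ι k ^ 2 * w) := fun w =>
    (summable_gw0 hX).of_norm_bounded fun k => by
      rw [norm_mul, norm_eC, mul_one, norm_real, Real.norm_of_nonneg (gw_pos _).le, div_eq_inv_mul]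
  have h2 : 0 < 2 * X := by positivity
  rw [← mul_sub, S, S, ← (hs _).tsum_sub (hs _), ← tsum_mul_left]
  refine (tsum_of_norm_bounded ((summable_gw0 h2).mul_left (16 * ‖v‖)).hasSum fun k => ?_).trans ?_
  · have h3 : ((X⁻¹ : ℝ) : ℂ) * ((gw (X⁻¹ * nr k) : ℂ) * eC (ι k ^ 2 * (w + v)) -
        (gw (X⁻¹ * nr k) : ℂ) * eC (ι k ^ 2 * w)) =
        ((X⁻¹ * gw (X⁻¹ * nr k) : ℝ) : ℂ) * eC (ι k ^ 2 * w) * (eC (ι k ^ 2 * v) - 1) := by
      rw [mul_add, eC_add]
      push_cast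
      ring
    have h4 := gw_pos (X⁻¹ * nr k)
    have h5 := mul_gw_le (t := X⁻¹ * nr k) (by positivity)
    have h6 := norm_eC_sub_one (ι k ^ 2 * v)
    rw [norm_mul, norm_pow, norm_ι_sq] at h6
    rw [h3, norm_mul, norm_mul, norm_eC, mul_one, norm_real, Real.norm_of_nonneg (by positivity),
      show nr k / (2 * X) = X⁻¹ * nr k / 2 by field_simp]
    calc X⁻¹ * gw (X⁻¹ * nr k) * ‖eC (ι k ^ 2 * v) - 1‖
        ≤ X⁻¹ * gw (X⁻¹ * nr k) * (16 * (nr k * ‖v‖)) := by gcongr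
      _ = 16 * ‖v‖ * (X⁻¹ * nr k * gw (X⁻¹ * nr k)) := by ring
      _ ≤ _ := by gcongr
  · rw [tsum_mul_left]
    have := tsum_gw_le h2
    gcongr
    linarith

theorem mean_S {q : O} (hq : q ≠ 0) (w : ℂ)
    (hf : ∀ x y, q ∣ x - y → eC (ι x ^ 2 * w) = eC (ι y ^ 2 * w)) :
    Tendsto (fun X : ℝ => ((X⁻¹ : ℝ) : ℂ) * S X⁻¹ w) atTop
      (𝓝 ((∑ x ∈ res q, eC (ι x ^ 2 * w)) / (nr q : ℝ))) := by
  refine (mean hq _ hf fun x => (norm_eC _).le).congr fun X => ?_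
  simp only [S, div_eq_inv_mul, mul_comm]

/-- Landsberg–Schaar in `O`. -/
theorem sum_sq_eq {n : O} (hn : n ≠ 0) :
    ∑ x ∈ res n, eq (x ^ 2) n =
      (Real.sqrt (nr n) : ℂ) * (1 / 2 * ∑ y ∈ res 2, eq (y ^ 2 * cj n) 4) := by
  have hN := nr_pos hn
  have hN' : ((nr n : ℝ) : ℂ) ≠ 0 := by exact_mod_cast hN.ne'
  have hι : ι n ≠ 0 := (map_ne_zero_iff ι ι_injective).2 hn
  set w : ℂ := (ι n)⁻¹ with hw
  set w' : ℂ := ι (cj n) / 4 with hw'
  have e1 : ∀ x, eC (ι x ^ 2 * w) = eq (x ^ 2) n := fun x => by rw [eq, map_pow, div_eq_mul_inv]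
  have e2 : ∀ x, eC (ι x ^ 2 * w') = eq (x ^ 2 * cj n) 4 := fun x => by
    rw [eq, map_mul, map_pow, map_ofNat, mul_div_assoc]
  have e3 : normSq w = (nr n)⁻¹ := by rw [hw, map_inv₀, normSq_eq_norm_sq, norm_ι_sq]
  have e4 : w' = w * (nr n : ℝ) / 4 := by
    have := congrArg ι (mul_cj n)
    rw [map_mul, map_natCast] at this
    rw [hw', hw, ofReal_natCast, ← this]
    field_simp
  have h1 := mean_S hn w fun x y h => by
    rw [e1, e1]
    exact eq_congr (h.trans ⟨x + y, by ring⟩)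
  have h2 := mean_S (q := 2) two_ne_zero w' fun x y h => by
    rw [e2, e2]
    obtain ⟨t, ht⟩ := h
    exact eq_congr ⟨(t ^ 2 + t * y) * cj n, by rw [sub_eq_iff_eq_add.1 ht]; ring⟩
  simp only [e1] at h1
  simp only [e2] at h2
  set c := 4 * (nr n)⁻¹ with hc
  have hc0 : 0 < c := by positivity
  have hD : ∀ X : ℝ, 0 < X⁻¹ ^ 2 + c := fun X => by positivity
  have h3 : Tendsto (fun X : ℝ => (X⁻¹ ^ 2 + c) * X) atTop atTop := by
    refine tendsto_atTop_mono' _ ?_ (tendsto_id.const_mul_atTop hc0)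
    filter_upwards [eventually_gt_atTop 0] with X hX
    have : 0 ≤ X⁻¹ ^ 2 * X := by positivity
    simp only [id]
    linarith
  have h4 : Tendsto (fun X : ℝ => (((((X⁻¹ ^ 2 + c) * X)⁻¹ : ℝ) : ℂ) *
      S ((X⁻¹ ^ 2 + c) * X)⁻¹ (w / (X⁻¹ ^ 2 + c : ℝ)) - ((((X⁻¹ ^ 2 + c) * X)⁻¹ : ℝ) : ℂ) *
      S ((X⁻¹ ^ 2 + c) * X)⁻¹ w')) atTop (𝓝 0) := by
    have hφ : Continuous fun t : ℝ => 16 * (‖w‖ * c⁻¹ ^ 2) * (t ^ 2 + 14 * (t ^ 2 + c) * t) := by
      fun_prop
    refine squeeze_zero_norm' ?_ ((hφ.tendsto' 0 0 (by simp)).comp tendsto_inv_atTop_zero)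
    filter_upwards [eventually_gt_atTop 0] with X hX
    have h5 : w / (X⁻¹ ^ 2 + c : ℝ) = w' + w * ((-(X⁻¹ ^ 2 / (c * (X⁻¹ ^ 2 + c))) : ℝ) : ℂ) := by
      have h6 : ((X⁻¹ ^ 2 + c : ℝ) : ℂ) ≠ 0 := by exact_mod_cast (hD X).ne'
      have h7 : (c : ℂ) ≠ 0 := by exact_mod_cast hc0.ne'
      have h8 : ((nr n : ℝ) : ℂ) = 4 / c := by rw [hc]; push_cast; field_simp
      rw [e4, h8]
      push_cast at h6 ⊢
      generalize (X : ℂ)⁻¹ = t at h6 ⊢
      field_simp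
      ring
    rw [h5]
    refine (err_le (mul_pos (hD X) hX) _ _).trans ?_
    have h9 : X⁻¹ ^ 2 / (c * (X⁻¹ ^ 2 + c)) ≤ c⁻¹ ^ 2 * X⁻¹ ^ 2 := by
      rw [mul_comm (c⁻¹ ^ 2), inv_pow c, ← div_eq_mul_inv]
      gcongr
      nlinarith [sq_nonneg X⁻¹]
    rw [norm_mul, norm_real, norm_neg, Real.norm_of_nonneg (by positivity)]
    calc 16 * (‖w‖ * (X⁻¹ ^ 2 / (c * (X⁻¹ ^ 2 + c)))) * (1 + 14 * ((X⁻¹ ^ 2 + c) * X))
        ≤ 16 * (‖w‖ * (c⁻¹ ^ 2 * X⁻¹ ^ 2)) * (1 + 14 * ((X⁻¹ ^ 2 + c) * X)) := by gcongr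
      _ = _ := by
        simp only [Function.comp]
        field_simp
  have h5 : Tendsto (fun X : ℝ => (Real.sqrt (X⁻¹ ^ 2 + c) : ℂ)) atTop (𝓝 (Real.sqrt c : ℂ)) := by
    have hφ : Continuous fun t : ℝ => (Real.sqrt (t ^ 2 + c) : ℂ) := by fun_prop
    exact (hφ.tendsto' 0 _ (by simp)).comp tendsto_inv_atTop_zero
  have h6 := h5.mul (h4.add (h2.comp h3))
  have h7 := tendsto_nhds_unique h1 (h6.congr' ?_)
  · have h8 : nr 2 = 4 := by
      have := nm_natCast 2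
      unfold nr
      exact_mod_cast this
    have h9 : (Real.sqrt c : ℂ) * (nr n : ℝ) = 2 * (Real.sqrt (nr n) : ℂ) := by
      have : Real.sqrt c * nr n = 2 * Real.sqrt (nr n) := by
        rw [hc, Real.sqrt_mul (by norm_num), Real.sqrt_inv,
          show (4 : ℝ) = 2 ^ 2 by norm_num, Real.sqrt_sq (by norm_num)]
        have := Real.sqrt_pos.2 hN
        field_simp
        rw [Real.sq_sqrt hN.le]
      exact_mod_cast this
    rw [div_eq_iff hN', h8, zero_add] at h7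
    rw [h7]
    push_cast at h9 ⊢
    linear_combination (∑ y ∈ res 2, eq (y ^ 2 * cj n) 4) / 4 * h9
  · filter_upwards [eventually_gt_atTop 0] with X hX
    rw [S_inv (inv_pos.2 hX) w, e3, ← hc, Function.comp, sub_add_cancel,
      show X⁻¹ / (X⁻¹ ^ 2 + c) = ((X⁻¹ ^ 2 + c) * X)⁻¹ by field_simp, ← mul_assoc, ← mul_assoc]
    congr 1
    have h8 := Real.sqrt_pos.2 (hD X)
    have h9 : Real.sqrt (X⁻¹ ^ 2 + c) * ((X⁻¹ ^ 2 + c) * X)⁻¹ = X⁻¹ * (Real.sqrt (X⁻¹ ^ 2 + c))⁻¹ := by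
      have h10 := Real.sq_sqrt (hD X).le
      generalize X⁻¹ ^ 2 + c = D at *
      rw [← h10, Real.sqrt_sq h8.le]
      field_simp
    exact_mod_cast h9

end Crest.Agent.R17.RecipB
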