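import Crest.Agent.PVc.R17.LS2Defs
import Crest.Agent.PVc.R17.RecipLS
import Crest.Agent.PVc.R17.LS2Ker
import Crest.Agent.PVc.R17.Gauss
import Crest.Agent.PVc.R17.LS2Avg
import Crest.Agent.PVc.R17.Count

-- ▼ part PVc/R17/LS2Theta
section

/-!
# Row 17, module M7 (quadratic large sieve): the sum `th2`
-/

set_option autoImplicit false

noncomputable section

namespace Crest.Agent.R17.LS2

open scoped ComplexConjugate
open Classical MeasureTheory

theorem Theta_le {y : ℝ} (hy : 0 ≤ y) (c : O) :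
    (if c = 0 then (0 : ℝ) else gw (y * nr c ^ 2)) ≤ if c = 0 then 0 else gw (y * nr c) := by
  split_ifs with h
  · exact le_rfl
  · have := one_le_nr h
    exact gw_antitone (mul_le_mul_of_nonneg_left (by nlinarith) hy)

theorem Theta_nonneg (x : O → ℝ) (c : O) : 0 ≤ if c = 0 then (0 : ℝ) else gw (x c) := by
  split_ifs
  · exact le_rfl
  · exact (gw_pos _).le

theorem Theta_summable {y : ℝ} (hy : 0 < y) :
    Summable (fun c : O => if c = 0 then (0 : ℝ) else gw (y * nr c)) := by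
  refine Summable.of_nonneg_of_le (Theta_nonneg _) (fun c => ?_) (summable_gw' (inv_pos.2 hy))
  rw [div_inv_eq_mul, mul_comm]
  split_ifs
  · exact (gw_pos _).le
  · exact le_rfl

theorem summable_th2 {y : ℝ} (hy : 0 < y) :
    Summable (fun c : O => if c = 0 then (0 : ℝ) else gw (y * nr c ^ 2)) := by
  exact Summable.of_nonneg_of_le (Theta_nonneg _) (Theta_le hy.le) (Theta_summable hy)

theorem measurable_Er (κ : ℝ) : Measurable (fun x : ℝ => Er κ (Real.exp x)) := by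
  have h : Antitone fun x : ℝ => th2 (Real.exp x) := by
    intro x y hxy
    refine (summable_th2 (Real.exp_pos y)).tsum_le_tsum (fun c => ?_)
      (summable_th2 (Real.exp_pos x))
    split_ifs
    · exact le_rfl
    · exact gw_antitone (mul_le_mul_of_nonneg_right (Real.exp_le_exp.2 hxy) (sq_nonneg _))
  exact h.measurable.sub (by fun_prop)

/-- the constant `2π/√3` -/
def Theta_c : ℝ := 2 * Real.pi / Real.sqrt 3

theorem Theta_c_ge : 3 ≤ Theta_c := pois_three_le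

theorem Theta_c_pos : 0 < Theta_c := lt_of_lt_of_le (by norm_num) Theta_c_ge

/-- the terms of the theta series -/
def Theta_t (z : ℂ) (c : O) : ℂ := if c = 0 then 0 else Complex.exp (-z * (nr c : ℝ))

theorem Theta_t_norm (z : ℂ) (c : O) :
    ‖Theta_t z c‖ = if c = 0 then 0 else gw (z.re / Theta_c * nr c) := by
  have := Theta_c_pos
  rw [Theta_t]
  split_ifs
  · exact norm_zero
  · rw [Complex.norm_exp, gw]
    congr 1
    change _ = -Theta_c * _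
    simp only [Complex.mul_re, Complex.neg_re, Complex.ofReal_re, Complex.ofReal_im, mul_zero,
      sub_zero]
    field_simp

theorem Theta_t_summable {z : ℂ} (hz : 0 < z.re) : Summable fun c => ‖Theta_t z c‖ := by
  simp only [Theta_t_norm]
  exact Theta_summable (div_pos hz Theta_c_pos)

theorem Theta_S_le {z : ℂ} (hz : 0 < z.re) : ‖∑' c, Theta_t z c‖ ≤ 7 / z.re := by
  refine (norm_tsum_le_tsum_norm (Theta_t_summable hz)).trans ?_
  simp only [Theta_t_norm]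
  refine (pois_tsum_ne_zero_le (div_pos hz Theta_c_pos)).trans ?_
  have e : gw (z.re / Theta_c) = Real.exp (-z.re) := by
    have := Theta_c_pos
    rw [gw]
    congr 1
    change -Theta_c * _ = _
    field_simp
  have h1 : Real.exp (-z.re) < 1 := Real.exp_lt_one_iff.2 (by linarith)
  have h2 : Real.exp (-z.re) * (z.re + 1) ≤ 1 := by
    calc Real.exp (-z.re) * (z.re + 1) ≤ Real.exp (-z.re) * Real.exp z.re :=
          mul_le_mul_of_nonneg_left (Real.add_one_le_exp _) (Real.exp_pos _).le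
      _ = 1 := by rw [← Real.exp_add, neg_add_cancel, Real.exp_zero]
  rw [e, div_eq_mul_one_div 7]
  refine mul_le_mul_of_nonneg_left ?_ (by norm_num)
  rw [div_le_div_iff₀ (by linarith) hz]
  linarith

theorem Theta_Th {z : ℂ} (hz : 0 < z.re) :
    RecipB.Th (z / Real.pi) (-(z / Real.pi / 2)) (z / Real.pi) = 1 + ∑' c, Theta_t z c := by
  have hπ : (Real.pi : ℂ) ≠ 0 := Complex.ofReal_ne_zero.2 Real.pi_ne_zero
  have e : ∀ p : ℤ × ℤ, RecipB.tm (z / Real.pi) (-(z / Real.pi / 2)) (z / Real.pi) p.1 p.2 =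
      Complex.exp (-z * (nr (poisE p) : ℝ)) := by
    intro p
    have h : ((nr (poisE p) : ℝ) : ℂ) = (p.1 : ℂ) ^ 2 - p.1 * p.2 + (p.2 : ℂ) ^ 2 := by
      have := nm_cast (poisE p)
      change (nm (poisE p) : ℤ) = p.1 ^ 2 - p.1 * p.2 + p.2 ^ 2 at this
      rw [nr, Complex.ofReal_natCast]
      exact_mod_cast this
    rw [RecipB.tm, h]
    congr 1
    field_simp
    ring
  have hs : Summable fun c : O => Complex.exp (-z * (nr c : ℝ)) := by
    refine ((hasSum_ite_eq (0 : O) (1 : ℂ)).summable.add (Theta_t_summable hz).of_norm).congr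
      fun c => ?_
    rw [Theta_t]
    split_ifs with h
    · simp [h]
    · rw [zero_add]
  rw [RecipB.Th, tsum_congr e, poisE.tsum_eq fun c => Complex.exp (-z * (nr c : ℝ)),
    hs.tsum_eq_add_tsum_ite 0]
  congr 1
  simp

theorem Theta_inv0 {a : ℂ} (ha : 0 < a.re) :
    RecipB.Th a (-(a / 2)) a =
      2 / (Real.sqrt 3 * a) * RecipB.Th (4 / (3 * a)) (-(4 / (3 * a) / 2)) (4 / (3 * a)) := by
  have h0 : a ≠ 0 := fun h => by simp [h] at ha
  have h : RecipB.PD a (-(a / 2)) a := ⟨ha, by simp; nlinarith⟩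
  have e1 : a - (-(a / 2)) ^ 2 / a = ((3 / 4 : ℝ) : ℂ) * a := by
    push_cast
    field_simp
    ring
  have e5 : a ^ (1 / 2 : ℂ) * (((3 / 4 : ℝ) : ℂ) * a) ^ (1 / 2 : ℂ) = Real.sqrt 3 * a / 2 := by
    have h34 : Real.sqrt 3 / 2 = Real.exp (Real.log (3 / 4) * (1 / 2)) := by
      rw [← Real.rpow_def_of_pos (by norm_num), ← Real.sqrt_eq_rpow, Real.sqrt_div (by norm_num),
        show (4 : ℝ) = 2 ^ 2 by norm_num, Real.sqrt_sq (by norm_num)]
    rw [Complex.cpow_def_of_ne_zero h0, Complex.cpow_def_of_ne_zero (mul_ne_zero (by norm_num) h0),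
      Complex.log_ofReal_mul (by norm_num) h0, ← Complex.exp_add,
      show (Real.sqrt 3 : ℂ) * a / 2 = ((Real.sqrt 3 / 2 : ℝ) : ℂ) * a by push_cast; ring, h34,
      Complex.ofReal_exp]
    conv_rhs => rw [← Complex.exp_log h0, ← Complex.exp_add]
    congr 1
    push_cast
    ring
  rw [h.th_step, RecipB.Th_swap, h.step.swap.th_step, e1, RecipB.Th_neg (4 / (3 * a))]
  have e2 : 1 / (((3 / 4 : ℝ) : ℂ) * a) = 4 / (3 * a) := by
    push_cast
    field_simp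
  have e3 : -Complex.I * (-Complex.I * -(a / 2) / a) / (((3 / 4 : ℝ) : ℂ) * a) =
      4 / (3 * a) / 2 := by
    push_cast
    field_simp
    linear_combination (-1) * Complex.I_mul_I
  have e4 : 1 / a - (-Complex.I * -(a / 2) / a) ^ 2 / (((3 / 4 : ℝ) : ℂ) * a) = 4 / (3 * a) := by
    push_cast
    field_simp
    linear_combination (-4) * Complex.I_mul_I
  rw [e2, e3, e4, ← mul_assoc, one_div_mul_one_div, e5, one_div_div]

theorem Theta_re (z : ℂ) :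
    ((Theta_c : ℂ) ^ 2 / z).re = Theta_c ^ 2 * z.re / ‖z‖ ^ 2 := by
  rw [← Complex.ofReal_pow, div_eq_mul_inv, Complex.re_ofReal_mul, Complex.inv_re,
    Complex.normSq_eq_norm_sq, mul_div_assoc]

theorem Theta_inv {z : ℂ} (hz : 0 < z.re) :
    1 + ∑' c, Theta_t z c = Theta_c / z * (1 + ∑' c, Theta_t ((Theta_c : ℂ) ^ 2 / z) c) := by
  have h0 : z ≠ 0 := fun h => by simp [h] at hz
  have hn : 0 < ‖z‖ := norm_pos_iff.2 h0
  have hc := Theta_c_pos
  have hπ : (Real.pi : ℂ) ≠ 0 := Complex.ofReal_ne_zero.2 Real.pi_ne_zero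
  have h3 : ((Real.sqrt 3 : ℝ) : ℂ) ≠ 0 := Complex.ofReal_ne_zero.2 (by positivity)
  have h33 : ((Real.sqrt 3 : ℝ) : ℂ) ^ 2 = 3 := by
    rw [← Complex.ofReal_pow, Real.sq_sqrt (by norm_num)]
    norm_num
  have e : (Theta_c : ℂ) ^ 2 / z / Real.pi = 4 / (3 * (z / Real.pi)) := by
    rw [Theta_c]
    push_cast
    rw [div_pow, h33]
    field_simp
    ring
  rw [← Theta_Th hz, ← Theta_Th (by rw [Theta_re z]; positivity), e,
    Theta_inv0 (by rw [Complex.div_ofReal_re]; exact div_pos hz Real.pi_pos), Theta_c]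
  congr 1
  push_cast
  field_simp

theorem Theta_main {z : ℂ} (hz : 0 < z.re) :
    ‖∑' c, Theta_t z c - Theta_c / z‖ ≤ 1 + 3 * (‖z‖ / z.re) := by
  have h0 : z ≠ 0 := fun h => by simp [h] at hz
  have hn : 0 < ‖z‖ := norm_pos_iff.2 h0
  have hc := Theta_c_pos
  have e : ∑' c, Theta_t z c - Theta_c / z =
      -1 + Theta_c / z * ∑' c, Theta_t ((Theta_c : ℂ) ^ 2 / z) c := by
    linear_combination Theta_inv hz
  have h1 := Theta_S_le (z := (Theta_c : ℂ) ^ 2 / z) (by rw [Theta_re z]; positivity)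
  rw [e]
  refine (norm_add_le _ _).trans (add_le_add (by simp) ?_)
  rw [norm_mul, norm_div, Complex.norm_real, Real.norm_of_nonneg hc.le]
  rw [Theta_re z] at h1
  calc _ ≤ Theta_c / ‖z‖ * (7 / (Theta_c ^ 2 * z.re / ‖z‖ ^ 2)) := by gcongr
    _ = 7 / Theta_c * (‖z‖ / z.re) := by field_simp
    _ ≤ _ := by
        gcongr
        rw [div_le_iff₀ hc]
        linarith [Theta_c_ge]

theorem Theta_Wm_cont : Continuous fun u : ℝ => Wm (((1 : ℝ) : ℂ) + u * Complex.I) :=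
  differentiable_Wm.continuous.comp (by fun_prop)

theorem Theta_Wm_int : Integrable fun u : ℝ => Wm (((1 : ℝ) : ℂ) + u * Complex.I) := by
  rw [← integrable_norm_iff Theta_Wm_cont.aestronglyMeasurable]
  simpa using integrable_Wm_mul_pow 1 0

theorem Theta_zre (ρ u : ℝ) : ((ρ : ℂ) * (((1 : ℝ) : ℂ) + u * Complex.I)).re = ρ := by simp

theorem Theta_t_cont (ρ : ℝ) (c : O) :
    Continuous fun u : ℝ => Theta_t (ρ * (((1 : ℝ) : ℂ) + u * Complex.I)) c := by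
  unfold Theta_t
  split_ifs <;> fun_prop

theorem Theta_repr {y : ℝ} (hy : 0 < y) :
    (th2 y : ℂ) = (1 / (2 * Real.pi) : ℂ) * ∫ u : ℝ, Wm (((1 : ℝ) : ℂ) + u * Complex.I) *
      ∑' c, Theta_t (Real.sqrt (Theta_c * y) * (((1 : ℝ) : ℂ) + u * Complex.I)) c := by
  have hc := Theta_c_pos
  set ρ := Real.sqrt (Theta_c * y) with hρ
  have hρ0 : 0 < ρ := Real.sqrt_pos.2 (by positivity)
  have hi : ∀ c : O, Integrable fun u : ℝ => Wm (((1 : ℝ) : ℂ) + u * Complex.I) *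
      Theta_t (ρ * (((1 : ℝ) : ℂ) + u * Complex.I)) c := fun c =>
    Theta_Wm_int.mul_bdd (Theta_t_cont ρ c).aestronglyMeasurable
      (Filter.Eventually.of_forall fun u => by rw [Theta_t_norm, Theta_zre])
  have hs : Summable fun c : O => ∫ u : ℝ, ‖Wm (((1 : ℝ) : ℂ) + u * Complex.I) *
      Theta_t (ρ * (((1 : ℝ) : ℂ) + u * Complex.I)) c‖ := by
    simp only [norm_mul, Theta_t_norm, Theta_zre, integral_mul_const]
    exact (Theta_summable (div_pos hρ0 hc)).mul_left _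
  simp only [← tsum_mul_left]
  rw [← integral_tsum_of_summable_integral_norm hi hs, ← tsum_mul_left, th2, Complex.ofReal_tsum]
  refine tsum_congr fun c => ?_
  simp only [Theta_t]
  split_ifs
  · simp
  have h1 := Wc_eq_integral (Real.exp_pos (ρ * nr c)) 1 0
  have e1 : Wc (Real.exp (ρ * nr c)) 0 = (gw (y * nr c ^ 2) : ℝ) := by
    rw [Wc, Real.log_exp, zero_mul, add_zero, gw, Complex.ofReal_exp]
    congr 1
    rw [← Complex.ofReal_pow, ← Complex.ofReal_neg, mul_pow, hρ, Real.sq_sqrt (by positivity),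
      Theta_c]
    congr 1
    ring
  rw [← e1, h1]
  congr 1
  refine integral_congr_ae (Filter.Eventually.of_forall fun u => ?_)
  simp only [add_zero]
  rw [WA.cpow_eq (Real.exp_pos _), Real.log_exp]
  congr 2
  push_cast
  ring

theorem Theta_unif : ∃ (K : ℂ) (C : ℝ), 0 ≤ C ∧ ∀ y : ℝ, 0 < y →
    ‖(th2 y : ℂ) - K / Real.sqrt (Theta_c * y)‖ ≤ C := by
  have hc := Theta_c_pos
  have hw : ∀ u : ℝ, ((1 : ℝ) : ℂ) + u * Complex.I ≠ 0 := fun u h => by
    simpa using congrArg Complex.re h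
  refine ⟨(1 / (2 * Real.pi) : ℂ) * ∫ u : ℝ, Wm (((1 : ℝ) : ℂ) + u * Complex.I) *
      (Theta_c / (((1 : ℝ) : ℂ) + u * Complex.I)),
    ‖(1 / (2 * Real.pi) : ℂ)‖ * ∫ u : ℝ, 4 * (‖Wm (((1 : ℝ) : ℂ) + u * Complex.I)‖ * (1 + |u|) ^ 1),
    mul_nonneg (norm_nonneg _) (integral_nonneg fun u => by positivity), fun y hy => ?_⟩
  rw [Theta_repr hy]
  set ρ := Real.sqrt (Theta_c * y) with hρ
  have hρ0 : 0 < ρ := Real.sqrt_pos.2 (by positivity)
  have hρ1 : (ρ : ℂ) ≠ 0 := Complex.ofReal_ne_zero.2 hρ0.ne'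
  have i1 : Integrable fun u : ℝ => Wm (((1 : ℝ) : ℂ) + u * Complex.I) *
      ∑' c, Theta_t (ρ * (((1 : ℝ) : ℂ) + u * Complex.I)) c :=
    Theta_Wm_int.mul_bdd (c := 7 / ρ) (continuous_tsum (Theta_t_cont ρ)
      (Theta_summable (div_pos hρ0 hc))
      fun c u => by rw [Theta_t_norm, Theta_zre]).aestronglyMeasurable
      (Filter.Eventually.of_forall fun u => by
        simpa only [Theta_zre] using Theta_S_le
          (z := ρ * (((1 : ℝ) : ℂ) + u * Complex.I)) (by rwa [Theta_zre]))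
  have i2 : Integrable fun u : ℝ => Wm (((1 : ℝ) : ℂ) + u * Complex.I) *
      (Theta_c / (((1 : ℝ) : ℂ) + u * Complex.I)) / ρ := by
    refine (Theta_Wm_int.mul_bdd (c := Theta_c)
      (Continuous.div continuous_const (by fun_prop) hw).aestronglyMeasurable
      (Filter.Eventually.of_forall fun u => ?_)).div_const _
    rw [Pi.div_apply, norm_div, Complex.norm_real, Real.norm_of_nonneg hc.le]
    refine div_le_self hc.le ?_
    simpa using Complex.re_le_norm (((1 : ℝ) : ℂ) + u * Complex.I)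
  rw [mul_div_assoc, ← mul_sub, norm_mul, ← integral_div, ← integral_sub i1 i2]
  refine mul_le_mul_of_nonneg_left (norm_integral_le_of_norm_le
    ((integrable_Wm_mul_pow 1 1).const_mul 4) (Filter.Eventually.of_forall fun u => ?_))
    (norm_nonneg _)
  have h1 := Theta_main (z := ρ * (((1 : ℝ) : ℂ) + u * Complex.I)) (by rwa [Theta_zre])
  rw [Theta_zre, norm_mul, Complex.norm_real, Real.norm_of_nonneg hρ0.le,
    mul_div_cancel_left₀ _ hρ0.ne'] at h1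
  have h2 : ‖((1 : ℝ) : ℂ) + u * Complex.I‖ ≤ 1 + |u| :=
    (norm_add_le _ _).trans (by simp)
  rw [mul_div_assoc, ← mul_sub, norm_mul, div_div, mul_comm _ (ρ : ℂ), pow_one, mul_left_comm]
  refine mul_le_mul_of_nonneg_left ?_ (norm_nonneg _)
  linarith [abs_nonneg u]

/-- `∑_{c ≠ 0} gw (y N(c)²) = κ / √y + O(min 1 (1/√y))`. -/
theorem exists_Er : ∃ κ C : ℝ, 0 < C ∧ ∀ y : ℝ, 0 < y → |Er κ y| ≤ C * min 1 (Real.sqrt y)⁻¹ := by
  obtain ⟨K, C1, hC1, h1⟩ := Theta_unif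
  obtain ⟨C2, hC2, h2⟩ := tsum_gw_ne_zero_le (1 / 2)
  have hc := Theta_c_pos
  refine ⟨K.re / Real.sqrt Theta_c, C1 + (C2 + |K.re / Real.sqrt Theta_c|), by positivity,
    fun y hy => ?_⟩
  have hs : 0 < Real.sqrt y := Real.sqrt_pos.2 hy
  rcases le_total y 1 with h | h
  · rw [min_eq_left ((one_le_inv₀ hs).2 (Real.sqrt_le_one.2 h)), mul_one]
    have e : Er (K.re / Real.sqrt Theta_c) y = ((th2 y : ℂ) - K / Real.sqrt (Theta_c * y)).re := by
      rw [Er, Complex.sub_re, Complex.ofReal_re, Complex.div_ofReal_re, Real.sqrt_mul hc.le,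
        div_div]
    rw [e]
    exact (Complex.abs_re_le_norm _).trans ((h1 y hy).trans (le_add_of_nonneg_right (by positivity)))
  · rw [min_eq_right (inv_le_one_of_one_le₀ (Real.one_le_sqrt.2 h))]
    have h3 : th2 y ≤ C2 * (Real.sqrt y)⁻¹ := by
      have := h2 y h
      rw [Real.rpow_neg hy.le, ← Real.sqrt_eq_rpow] at this
      refine le_trans ?_ this
      convert (summable_th2 hy).tsum_le_tsum (Theta_le hy.le) (Theta_summable hy) using 1
      · rfl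
    have h4 : 0 ≤ th2 y := tsum_nonneg (Theta_nonneg _)
    rw [Er]
    refine (abs_sub _ _).trans ?_
    rw [abs_of_nonneg h4, abs_div _ (Real.sqrt y), abs_of_pos hs, div_eq_mul_inv _ (Real.sqrt y)]
    have : 0 ≤ C1 * (Real.sqrt y)⁻¹ := by positivity
    linarith

end Crest.Agent.R17.LS2
end
end

-- ▼ part PVc/R17/LS2Pois
section

/-!
# Row 17, module M7 (quadratic large sieve): Poisson summation for a pair of columns
-/

set_option autoImplicit false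

noncomputable section

namespace Crest.Agent.R17.LS2

open scoped ComplexConjugate
open Classical

theorem Pois_ft {q : O} (hq : PO q) (hs : Squarefree q) (hg : g4 q = 1) (h : O) :
    ft q (quad q) h = quad q h * (Real.sqrt (nr q) : ℂ) := by
  have h1 : ft q (quad q) h = gs 3 q h := by
    refine Finset.sum_congr rfl fun x _ => ?_
    rw [sym_pow_add_six hq.1 x (by norm_num), sym_pow_three hq.1]
  have h2 : (Real.sqrt (nr q) : ℂ) ≠ 0 := by
    exact_mod_cast (Real.sqrt_pos.2 (nr_pos hq.1.ne_zero)).ne'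
  have h3 := gam_three hq hs
  rw [hg, gam, div_eq_one_iff_eq h2] at h3
  rw [h1, gs_sqfree (by norm_num) hq hs, sym_pow_three hq.1, conj_quad, h3]

theorem Pois_norm_le (q k : O) (x : ℝ) : ‖quad q k * (gw x : ℂ)‖ ≤ gw x := by
  rw [norm_mul, Complex.norm_real, Real.norm_of_nonneg (gw_pos x).le]
  exact mul_le_of_le_one_left (gw_pos x).le (norm_quad_le q k)

theorem Pois_summable_gw {X W : ℝ} (hX : 0 < X) (hW : 0 < W) :
    Summable (fun k : O => gw (X * nr k / W)) := by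
  refine (summable_gw' (div_pos hW hX)).congr fun k => ?_
  congr 1
  field_simp

theorem Pois_step {q e : O} (hq : PO q) (hs : Squarefree q) (hg : g4 q = 1) (he : e ≠ 0) {X : ℝ}
    (hX : 0 < X) :
    ∑' c : O, quad q (e * c) * (gw (nr (e * c) / X) : ℂ) =
      ((X / (nr e * Real.sqrt (nr q)) : ℝ) : ℂ) * ∑' k : O,
        if e ∣ k then quad q k * (gw (X * nr k / (nr e ^ 2 * nr q)) : ℂ) else 0 := by
  have hNe := nr_pos he
  have hNq := nr_pos hq.1.ne_zero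
  have h1 := poisson hq.1.ne_zero (quad q) (fun x y h => quad_congr ((rad_dvd q).trans h))
    (div_pos hX hNe)
  have h2 : ∀ c : O, quad q (e * c) * (gw (nr (e * c) / X) : ℂ) =
      quad q e * (quad q c * (gw (nr c / (X / nr e)) : ℂ)) := fun c => by
    rw [quad_mul_right hq, nr_mul, mul_assoc]
    congr 4
    field_simp
  have h3 : ∀ c : O, quad q (e * c) * (gw (X * nr (e * c) / (nr e ^ 2 * nr q)) : ℂ) =
      quad q e * (Real.sqrt (nr q) : ℂ)⁻¹ *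
        (ft q (quad q) c * (gw (X / nr e * nr c / nr q) : ℂ)) := fun c => by
    have h4 : (Real.sqrt (nr q) : ℂ) ≠ 0 := by exact_mod_cast (Real.sqrt_pos.2 hNq).ne'
    have h5 : X * nr (e * c) / (nr e ^ 2 * nr q) = X / nr e * nr c / nr q := by
      rw [nr_mul]
      field_simp
    rw [Pois_ft hq hs hg, quad_mul_right hq, h5]
    field_simp
  rw [tsum_dvd he]
  simp only [h2, h3]
  rw [tsum_mul_left, tsum_mul_left, h1, ← mul_assoc, ← mul_assoc]
  congr 1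
  have h6 : X / nr e / nr q = X / (nr e * Real.sqrt (nr q)) * (Real.sqrt (nr q))⁻¹ := by
    have h7 := Real.sqrt_pos.2 hNq
    conv_lhs => rw [← Real.mul_self_sqrt hNq.le]
    field_simp
  rw [h6]
  push_cast
  ring

theorem Pois_quad_sq {q : O} (hq : Primary q) (c : O) :
    quad q c ^ 2 = if ∀ p ∈ pf q, ¬ p ∣ c then 1 else 0 := by
  split_ifs with h
  · exact quad_sq hq ((isCoprime_iff_pf hq c).2 h)
  · rw [(Symbol_quad_eq_zero_iff hq).2 fun h' => h ((isCoprime_iff_pf hq c).1 h')]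
    norm_num

theorem Pois_kernel {q a : O} (hq : PO q) {E : Finset O} (hE : ∀ p ∈ E, Prime p ∧ Primary p)
    (hd : Disjoint E (pf q)) (ha : a ≠ 0) {X : ℝ} (hX : 0 < X) :
    ∑' c : O, (if c = 0 then 0 else if (∏ p ∈ E, p) ∣ a * c ^ 2 then quad q (a * c ^ 2) *
      (gw (X * nr (a * c ^ 2) / (nr (∏ p ∈ E, p) ^ 2 * nr q)) : ℂ) else 0) =
      quad q a * ∑ D ∈ (pf q).powerset, (-1) ^ D.card *
        (th2 (nr a * nP D ^ 2 / (nP (E.filter (· ∣ a)) ^ 2 * nr q) * X) : ℂ) := by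
  set E₂ := E.filter (fun p => ¬ p ∣ a) with hE₂
  have hE₂' : ∀ p ∈ E₂, Prime p ∧ Primary p := fun p hp => hE p (Finset.filter_subset _ _ hp)
  obtain ⟨-, hp₂, hpf₂⟩ := squarefree_prod_primes hE₂'
  have hN₁ : 0 < nP (E.filter (· ∣ a)) :=
    nP_pos fun p hp => (hE p (Finset.filter_subset _ _ hp)).1.ne_zero
  have hN₂ : 0 < nP E₂ := nP_pos fun p hp => (hE₂' p hp).1.ne_zero
  have hNE : nr (∏ p ∈ E, p) = nP (E.filter (· ∣ a)) * nP E₂ := by
    rw [nr_prod, nP, nP, nP, Finset.prod_filter_mul_prod_filter_not]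
  have hNq := nr_pos hq.1.ne_zero
  have hNa := nr_pos ha
  set Y : ℝ := nr a / (nP (E.filter (· ∣ a)) ^ 2 * nr q) * X with hY
  have hY0 : 0 < Y := by positivity
  let χ : O → ℂ := fun c => ((if c = 0 then (0 : ℝ) else gw (Y * nr c ^ 2) : ℝ) : ℂ)
  have hχ : Summable χ := Complex.summable_ofReal.2 (summable_th2 hY0)
  have h1 : ∀ c : O, (if c = 0 then 0 else if (∏ p ∈ E, p) ∣ a * c ^ 2 then quad q (a * c ^ 2) *
      (gw (X * nr (a * c ^ 2) / (nr (∏ p ∈ E, p) ^ 2 * nr q)) : ℂ) else 0) =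
      if (∏ p ∈ E₂, p) ∣ c then (if c = 0 then 0 else quad q (a * c ^ 2) *
        (gw (X * nr (a * c ^ 2) / (nr (∏ p ∈ E, p) ^ 2 * nr q)) : ℂ)) else 0 := fun c => by
    rw [if_congr (prod_dvd_mul_sq_iff hE a c) rfl rfl]
    split_ifs <;> rfl
  have h2 : ∀ c : O, (if (∏ p ∈ E₂, p) * c = 0 then 0 else
      quad q (a * ((∏ p ∈ E₂, p) * c) ^ 2) * (gw (X * nr (a * ((∏ p ∈ E₂, p) * c) ^ 2) /
        (nr (∏ p ∈ E, p) ^ 2 * nr q)) : ℂ)) =
      quad q a * if ∀ p ∈ pf q, ¬ p ∣ c then χ c else 0 := fun c => by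
    by_cases hc : c = 0
    · simp [hc, χ]
    have h3 : quad q (∏ p ∈ E₂, p) ^ 2 = 1 := by
      refine quad_sq hq.1 (isCoprime_of_disjoint_pf hq.1 hp₂.ne_zero ?_)
      rw [hpf₂]
      exact (hd.mono_left (Finset.filter_subset _ _)).symm
    have h4 : X * nr (a * ((∏ p ∈ E₂, p) * c) ^ 2) / (nr (∏ p ∈ E, p) ^ 2 * nr q) =
        Y * nr c ^ 2 := by
      rw [nr_mul, nr_pow, nr_mul, nr_prod E₂, hNE, hY]
      field_simp
    rw [if_neg (mul_ne_zero hp₂.ne_zero hc), h4, quad_mul_right hq, sq, quad_mul_right hq, ← sq,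
      quad_mul_right hq, mul_pow, h3, one_mul, Pois_quad_sq hq.1]
    simp only [χ, if_neg hc]
    split_ifs <;> simp
  simp only [h1]
  rw [tsum_dvd hp₂.ne_zero]
  simp only [h2]
  rw [tsum_mul_left, tsum_sieve (fun p hp => BasicB.pf_sub hp) hχ]
  congr 1
  refine Finset.sum_congr rfl fun D hD => ?_
  have hD' : (∏ p ∈ D, p) ≠ 0 :=
    Finset.prod_ne_zero_iff.2 (ne_zero_of_subset_pf (Finset.mem_powerset.1 hD))
  rw [th2, Complex.ofReal_tsum]
  congr 1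
  refine tsum_congr fun c => ?_
  simp only [χ, mul_eq_zero, hD', false_or]
  congr 3
  rw [nr_mul, nr_prod, hY]
  ring

/-- Dual side: Poisson summation modulo `q = m₁ m₂`. -/
theorem dual_est (V : ℝ) {X : ℝ} (hX : 0 < X) {n₁ n₂ : O} (h₁ : SP 6 n₁) (h₂ : SP 6 n₂)
    (h4 : (4 : O) ∣ n₁ - n₂) :
    ‖6 * (∑' k : O, (gw (nr k / X) : ℂ) * (quad n₁ k * quad n₂ k)) -
        (X : ℂ) * ∑ a ∈ sqf V, dualA n₁ n₂ a (fun y => (th2 (y * X) : ℂ))‖ ≤
      6 * 2 ^ (pf n₁).card * X * ((if n₁ = n₂ then 1 else 0) +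
        ∑' h : O, if V < nr h then gw (X * nr h / (nr n₁ * nr n₂)) else 0) := by
  simp only [dualA]
  set G := pf n₁ ∩ pf n₂ with hG
  set m₁ := cof G n₁ with hm₁
  set m₂ := cof G n₂ with hm₂
  have hG₁ : G ⊆ pf n₁ := Finset.inter_subset_left
  have hG₂ : G ⊆ pf n₂ := Finset.inter_subset_right
  have hGp : ∀ p ∈ G, Prime p ∧ Primary p := fun p hp => BasicB.pf_sub (hG₁ hp)
  have e₁ : (∏ p ∈ G, p) * m₁ = n₁ := prod_mul_cof h₁.1 h₁.2.1 hG₁
  have e₂ : (∏ p ∈ G, p) * m₂ = n₂ := prod_mul_cof h₂.1 h₂.2.1 hG₂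
  have s₁ : SP 6 m₁ := SP_cof h₁ G
  have s₂ : SP 6 m₂ := SP_cof h₂ G
  have sg : SP 6 (∏ p ∈ G, p) := SP_prod h₁ hG₁
  have hz₁ := ne_zero_of_SP s₁
  have hz₂ := ne_zero_of_SP s₂
  have hzg := ne_zero_of_SP sg
  have hN₁ := one_le_nr hz₁
  have hN₂ := one_le_nr hz₂
  have hcop : IsCoprime m₁ m₂ := by
    refine isCoprime_of_disjoint_pf s₁.1 hz₂ ?_
    rw [hm₁, hm₂, pf_cof, pf_cof, Finset.disjoint_left]
    intro p hp hp'
    exact (Finset.mem_sdiff.1 hp).2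
      (Finset.mem_inter.2 ⟨(Finset.mem_sdiff.1 hp).1, (Finset.mem_sdiff.1 hp').1⟩)
  have hq : PO (m₁ * m₂) := (PO_of_SP s₁).mul (PO_of_SP s₂)
  have hqs : Squarefree (m₁ * m₂) := (squarefree_mul_iff).2 ⟨hcop.isRelPrime, s₁.2.1, s₂.2.1⟩
  have hpq : pf (m₁ * m₂) = pf m₁ ∪ pf m₂ := pf_mul hz₁ hz₂
  have hdis : Disjoint G (pf (m₁ * m₂)) := by
    rw [hpq, hm₁, hm₂, pf_cof, pf_cof, Finset.disjoint_union_right]
    exact ⟨Finset.disjoint_sdiff, Finset.disjoint_sdiff⟩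
  have hg4 : g4 (m₁ * m₂) = 1 := by
    have h1 : IsCoprime (4 : O) (∏ p ∈ G, p) := by
      have := (PO_of_SP sg).2.symm.pow_left (m := 2)
      norm_num at this ⊢
      exact this
    have h2 : (4 : O) ∣ m₁ - m₂ := h1.dvd_of_dvd_mul_left (by rwa [mul_sub, e₁, e₂])
    have h3 : (4 : O) ∣ m₁ * m₂ - 1 * m₁ ^ 2 := by
      have : m₁ * m₂ - 1 * m₁ ^ 2 = (m₁ - m₂) * (-m₁) := by ring
      rw [this]
      exact h2.mul_right _
    rw [g4_congr h3, g4_mul_sq (PO_of_SP s₁).2, g4_one]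
  have hNq : nr (m₁ * m₂) = nr m₁ * nr m₂ := nr_mul _ _
  have hNq1 : 1 ≤ nr (m₁ * m₂) := one_le_nr hq.1.ne_zero
  -- the sieve and Poisson summation
  let φ : Finset O → O → ℂ := fun E k => if (∏ p ∈ E, p) ∣ k then quad (m₁ * m₂) k *
    (gw (X * nr k / (nr (∏ p ∈ E, p) ^ 2 * nr (m₁ * m₂))) : ℂ) else 0
  let w : Finset O → ℝ := fun E => X / (nr (∏ p ∈ E, p) * Real.sqrt (nr (m₁ * m₂)))
  have hE0 : ∀ E ∈ G.powerset, (∏ p ∈ E, p) ≠ 0 := fun E hE =>
    Finset.prod_ne_zero_iff.2 (ne_zero_of_subset_pf ((Finset.mem_powerset.1 hE).trans hG₁))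
  have hφ : ∀ E k, ‖φ E k‖ ≤ gw (X * nr k / (nr (∏ p ∈ E, p) ^ 2 * nr (m₁ * m₂))) :=
    fun E k => by
      simp only [φ]
      split_ifs
      · exact Pois_norm_le _ _ _
      · rw [norm_zero]
        exact (gw_pos _).le
  have hφs : ∀ E ∈ G.powerset, Summable (φ E) := fun E hE => by
    have := nr_pos (hE0 E hE)
    exact Summable.of_norm_bounded (Pois_summable_gw hX (by positivity)) (hφ E)
  have hA : ∑' k : O, (gw (nr k / X) : ℂ) * (quad n₁ k * quad n₂ k) =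
      ∑ E ∈ G.powerset, (-1) ^ E.card * ((w E : ℂ) * ∑' k : O, φ E k) := by
    have h1 : ∀ k : O, (gw (nr k / X) : ℂ) * (quad n₁ k * quad n₂ k) =
        if ∀ p ∈ G, ¬ p ∣ k then quad (m₁ * m₂) k * (gw (nr k / X) : ℂ) else 0 := fun k => by
      have h2 := Pois_quad_sq sg.1 k
      rw [pf_prod hG₁] at h2
      have h3 : quad n₁ k * quad n₂ k = quad (∏ p ∈ G, p) k ^ 2 * quad (m₁ * m₂) k := by
        conv_lhs => rw [← e₁, ← e₂]
        rw [quad_mul_left hzg hz₁, quad_mul_left hzg hz₂, quad_mul_left hz₁ hz₂]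
        ring
      rw [h3, h2]
      split_ifs <;> simp [mul_comm]
    simp only [h1]
    rw [tsum_sieve hGp (Summable.of_norm_bounded (summable_gw' hX) fun k => Pois_norm_le _ _ _)]
    exact Finset.sum_congr rfl fun E hE => by rw [Pois_step hq hqs hg4 (hE0 E hE) hX]
  have hB : (X : ℂ) * ∑ a ∈ sqf V, dualB G m₁ m₂ a (fun y => (th2 (y * X) : ℂ)) =
      ∑ E ∈ G.powerset, (-1) ^ E.card * ((w E : ℂ) *
        (6 * ∑' k : O, if k ∈ PP V then φ E k else 0)) := by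
    simp only [dualB]
    rw [Finset.sum_comm, Finset.mul_sum]
    refine Finset.sum_congr rfl fun E hE => ?_
    have hE' := Finset.mem_powerset.1 hE
    rw [← tsum_kernel V (hφs E hE), Finset.mul_sum, Finset.mul_sum, Finset.mul_sum]
    refine Finset.sum_congr rfl fun a ha => ?_
    simp only [φ]
    rw [Pois_kernel hq (fun p hp => hGp p (hE' hp)) (hdis.mono_left hE') (ne_zero_of_mem_sqf ha) hX,
      hpq, quad_mul_left hz₁ hz₂]
    simp only [w, nr_prod, hNq, Real.sqrt_mul (zero_le_one.trans hN₁), mul_assoc]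
    push_cast
    ring
  set R : ℝ := (if n₁ = n₂ then 1 else 0) +
    ∑' h : O, if V < nr h then gw (X * nr h / (nr n₁ * nr n₂)) else 0 with hR
  have hNn : 0 < nr n₁ * nr n₂ := mul_pos (nr_pos h₁.1.ne_zero) (nr_pos h₂.1.ne_zero)
  have hrest : ∀ E ∈ G.powerset, ‖∑' k : O, if k ∈ PP V then 0 else φ E k‖ ≤ R := fun E hE => by
    have h1 : Summable fun h : O => if V < nr h then gw (X * nr h / (nr n₁ * nr n₂)) else 0 := by
      refine Summable.of_nonneg_of_le (fun h => ?_) (fun h => ?_) (Pois_summable_gw hX hNn)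
      · split_ifs
        · exact (gw_pos _).le
        · exact le_rfl
      · split_ifs
        · exact le_rfl
        · exact (gw_pos _).le
    refine tsum_of_norm_bounded ((hasSum_ite_eq (0 : O)
      (if n₁ = n₂ then (1 : ℝ) else 0)).add h1.hasSum) fun k => ?_
    have h2 : (0 : ℝ) ≤ if V < nr k then gw (X * nr k / (nr n₁ * nr n₂)) else 0 := by
      split_ifs
      · exact (gw_pos _).le
      · exact le_rfl
    have h3 : (0 : ℝ) ≤ if k = 0 then (if n₁ = n₂ then (1 : ℝ) else 0) else 0 := by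
      split_ifs <;> norm_num
    by_cases hk : k ∈ PP V
    · rw [if_pos hk, norm_zero]
      exact add_nonneg h3 h2
    rw [if_neg hk]
    by_cases hk0 : k = 0
    · refine le_add_of_le_of_nonneg ?_ h2
      rw [if_pos hk0]
      split_ifs with hn
      · refine (hφ E k).trans (gw_le_one ?_)
        positivity
      · have h5 : quad (m₁ * m₂) k = 0 := by
          refine (Symbol_quad_eq_zero_iff hq.1).2 fun h => hn ?_
          rw [hk0, isCoprime_zero_right] at h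
          rw [← e₁, ← e₂, s₁.1.eq_one_of_isUnit (isUnit_of_mul_isUnit_left h),
            s₂.1.eq_one_of_isUnit (isUnit_of_mul_isUnit_right h)]
        simp [φ, h5]
    · refine le_add_of_nonneg_of_le h3 ?_
      rw [if_pos (lt_nr_of_not_mem_PP hk0 hk)]
      refine (hφ E k).trans (gw_antitone ?_)
      have h5 := nr_pos (hE0 E hE)
      have h6 : nr (∏ p ∈ E, p) ≤ nr (∏ p ∈ G, p) := by
        rw [nr_prod, nr_prod]
        exact nP_mono (Finset.mem_powerset.1 hE) (ne_zero_of_subset_pf hG₁)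
      refine div_le_div_of_nonneg_left (by positivity) (by positivity) ?_
      conv_rhs => rw [← e₁, ← e₂]
      rw [nr_mul (∏ p ∈ G, p), nr_mul (∏ p ∈ G, p), hNq]
      calc nr (∏ p ∈ E, p) ^ 2 * (nr m₁ * nr m₂) ≤ nr (∏ p ∈ G, p) ^ 2 * (nr m₁ * nr m₂) := by
            gcongr
        _ = _ := by ring
  have hsplit : ∀ E ∈ G.powerset, ∑' k : O, φ E k = (∑' k : O, if k ∈ PP V then φ E k else 0) +
      ∑' k : O, if k ∈ PP V then 0 else φ E k := fun E hE => by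
    rw [← Summable.tsum_add]
    · refine tsum_congr fun k => ?_
      split_ifs <;> simp
    · refine Summable.of_norm_bounded (hφs E hE).norm fun k => ?_
      split_ifs <;> simp
    · refine Summable.of_norm_bounded (hφs E hE).norm fun k => ?_
      split_ifs <;> simp
  have hR0 : 0 ≤ R := (norm_nonneg _).trans (hrest ∅ (Finset.empty_mem_powerset G))
  rw [hA, hB, Finset.mul_sum, ← Finset.sum_sub_distrib]
  have hterm : ∀ E ∈ G.powerset, ‖6 * ((-1) ^ E.card * ((w E : ℂ) * ∑' k : O, φ E k)) -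
      (-1) ^ E.card * ((w E : ℂ) * (6 * ∑' k : O, if k ∈ PP V then φ E k else 0))‖ ≤
      6 * X * R := fun E hE => by
    have h1 : 6 * ((-1) ^ E.card * ((w E : ℂ) * ∑' k : O, φ E k)) -
        (-1) ^ E.card * ((w E : ℂ) * (6 * ∑' k : O, if k ∈ PP V then φ E k else 0)) =
        6 * (-1) ^ E.card * (w E : ℂ) * ∑' k : O, if k ∈ PP V then 0 else φ E k := by
      rw [hsplit E hE]
      ring
    have h2 := one_le_nr (hE0 E hE)
    have h3 : 1 ≤ Real.sqrt (nr (m₁ * m₂)) := Real.one_le_sqrt.2 hNq1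
    have h5 : 0 ≤ w E := by positivity
    have h6 : w E ≤ X := div_le_self hX.le (one_le_mul_of_one_le_of_one_le h2 h3)
    rw [h1, norm_mul, norm_mul, norm_mul, norm_pow, norm_neg, norm_one, one_pow, mul_one,
      Complex.norm_real, Real.norm_of_nonneg h5, Complex.norm_ofNat]
    gcongr
    exact hrest E hE
  refine (norm_sum_le _ _).trans ((Finset.sum_le_card_nsmul _ _ _ hterm).trans ?_)
  rw [Finset.card_powerset, nsmul_eq_mul, Nat.cast_pow, Nat.cast_ofNat]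
  calc (2 : ℝ) ^ G.card * (6 * X * R) ≤ 2 ^ (pf n₁).card * (6 * X * R) := by
        gcongr
        norm_num
    _ = _ := by ring

end Crest.Agent.R17.LS2
end
end

-- ▼ part PVc/R17/LS2Eval
section

/-!
# Row 17, module M7 (quadratic large sieve): evaluation of `origA`, `dualA` at multiplicative test functions
-/

set_option autoImplicit false

noncomputable section

namespace Crest.Agent.R17.LS2

open scoped ComplexConjugate
open Classical

theorem Eval_prod {ψ : ℝ → ℂ} (hψ : MulF ψ) (t : O → ℝ) (D : Finset O) (h : ∀ p ∈ D, 0 < t p) :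
    ψ (∏ p ∈ D, t p) = ∏ p ∈ D, ψ (t p) := by
  induction D using Finset.induction_on with
  | empty => simpa using hψ.1
  | insert p D hp ih =>
    have h' : ∀ q ∈ D, 0 < t q := fun q hq => h q (Finset.mem_insert_of_mem hq)
    rw [Finset.prod_insert hp, Finset.prod_insert hp,
      hψ.2 _ _ (h p (Finset.mem_insert_self _ _)) (Finset.prod_pos h'), ih h']

theorem Eval_alt (S : Finset O) (t : O → ℂ) :
    ∑ D ∈ S.powerset, (-1) ^ D.card * ∏ p ∈ D, t p = ∏ p ∈ S, (1 - t p) := by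
  simp only [sub_eq_add_neg, Finset.prod_one_add, Finset.prod_neg]

theorem Eval_inner {ψ : ℝ → ℂ} (hψ : MulF ψ) {c : ℝ} (hc : 0 < c) {S : Finset O}
    (hS : ∀ p ∈ S, p ≠ 0) :
    ∑ D ∈ S.powerset, (-1) ^ D.card * ψ (c * nP D ^ 2) = ψ c * eu ψ S := by
  rw [eu, ← Eval_alt, Finset.mul_sum]
  refine Finset.sum_congr rfl fun D hD => ?_
  have h0 : ∀ p ∈ D, p ≠ 0 := fun p hp => hS p (Finset.mem_powerset.1 hD hp)
  have h1 := nP_pos h0
  rw [hψ.2 _ _ hc (by positivity), sq, hψ.2 _ _ h1 h1, nP,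
    Eval_prod hψ _ _ fun p hp => nr_pos (h0 p hp), Finset.prod_pow]
  ring

theorem Eval_eu_union (ψ : ℝ → ℂ) (A B : Finset O) :
    eu ψ (A \ (A ∩ B) ∪ B \ (A ∩ B)) = eu ψ (A \ (A ∩ B)) * eu ψ (B \ (A ∩ B)) := by
  refine Finset.prod_union (Finset.disjoint_left.2 fun p h1 h2 => ?_)
  simp only [Finset.mem_sdiff, Finset.mem_inter] at h1 h2
  exact h1.2 ⟨h1.1, h2.1⟩

theorem Eval_eu_union' (ψ : ℝ → ℂ) (A B : Finset O) :
    eu ψ (A ∪ B) = eu ψ (A ∩ B) * (eu ψ (A \ (A ∩ B)) * eu ψ (B \ (A ∩ B))) := by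
  rw [← Eval_eu_union, eu, eu, eu, ← Finset.prod_union]
  · congr 1
    ext p
    simp only [Finset.mem_sdiff, Finset.mem_inter, Finset.mem_union]
    tauto
  · refine Finset.disjoint_left.2 fun p h1 h2 => ?_
    simp only [Finset.mem_sdiff, Finset.mem_union] at h2
    exact h2.elim (fun h => h.2 h1) fun h => h.2 h1

theorem Eval_ne_zero (n₁ n₂ : O) : ∀ p ∈ pf n₁ ∪ pf n₂, p ≠ 0 := fun p hp =>
  (Finset.mem_union.1 hp).elim (ne_zero_of_subset_pf subset_rfl p)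
    (ne_zero_of_subset_pf subset_rfl p)

theorem Eval_quad {n : O} (h : SP 6 n) {G : Finset O} (hG : G ⊆ pf n) (a : O) :
    quad n a = quad (∏ p ∈ G, p) a * quad (cof G n) a := by
  rw [← quad_mul_left (ne_zero_of_SP (SP_prod h hG)) (ne_zero_of_SP (SP_cof h G)),
    prod_mul_cof h.1 h.2.1 hG]

theorem Eval_four {ψ : ℝ → ℂ} (hψ : MulF ψ) {x P y z : ℝ} (hx : 0 < x) (hP : 0 < P) (hy : 0 < y)
    (hz : 0 < z) : ψ (x * (P * P) * y * z) = ψ x * (ψ P * ψ P) * ψ y * ψ z := by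
  rw [hψ.2 _ z (by positivity) hz, hψ.2 _ y (by positivity) hy, hψ.2 x _ hx (by positivity),
    hψ.2 _ _ hP hP]

theorem Eval_dualB {ψ : ℝ → ℂ} (hψ : MulF ψ) {G : Finset O} (hG : ∀ p ∈ G, p ≠ 0) {m₁ m₂ a : O}
    (h₁ : m₁ ≠ 0) (h₂ : m₂ ≠ 0) (ha : a ≠ 0) :
    dualB G m₁ m₂ a ψ =
      (ψ (nr a) * ∏ p ∈ G, (1 - (if p ∣ a then ψ (nr p)⁻¹ ^ 2 else 1) / (nr p : ℂ))) *
        (ψ (nr m₁)⁻¹ / (Real.sqrt (nr m₁) : ℂ) * quad m₁ a) *
        (ψ (nr m₂)⁻¹ / (Real.sqrt (nr m₂) : ℂ) * quad m₂ a) * eu ψ (pf m₁ ∪ pf m₂) := by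
  rw [← Eval_alt, dualB]
  simp only [Finset.mul_sum _ _ (ψ (nr a)), Finset.sum_mul]
  refine Finset.sum_congr rfl fun E hE => ?_
  have h0 : ∀ p ∈ E.filter (· ∣ a), 0 < (nr p)⁻¹ := fun p hp =>
    inv_pos.2 (nr_pos (hG p (Finset.mem_powerset.1 hE (Finset.mem_filter.1 hp).1)))
  have p0 := Finset.prod_pos h0
  have p1 := inv_pos.2 (nr_pos h₁)
  have p2 := inv_pos.2 (nr_pos h₂)
  have p3 := nr_pos ha
  have e : ∀ D : Finset O, nr a * nP D ^ 2 / (nP (E.filter (· ∣ a)) ^ 2 * nr m₁ * nr m₂) =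
      nr a * ((∏ p ∈ E.filter (· ∣ a), (nr p)⁻¹) * ∏ p ∈ E.filter (· ∣ a), (nr p)⁻¹) *
        (nr m₁)⁻¹ * (nr m₂)⁻¹ * nP D ^ 2 := fun D => by
    rw [Finset.prod_inv_distrib, ← nP.eq_1 (E.filter (· ∣ a))]
    ring
  simp only [e]
  rw [Eval_inner hψ (mul_pos (mul_pos (mul_pos p3 (mul_pos p0 p0)) p1) p2) (Eval_ne_zero m₁ m₂),
    Eval_four hψ p3 p0 p1 p2, Eval_prod hψ _ _ h0, Finset.prod_div_distrib, ← Finset.prod_filter, Finset.prod_pow, nP]
  push_cast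
  ring

theorem Eval_origA_smul (n₁ n₂ a : O) (c : ℂ) (f : ℝ → ℂ) :
    origA n₁ n₂ a (fun y => c * f y) = c * origA n₁ n₂ a f := by
  simp only [origA, Finset.mul_sum]
  exact Finset.sum_congr rfl fun _ _ => by ring

theorem Eval_dualA_smul (n₁ n₂ a : O) (c : ℂ) (f : ℝ → ℂ) :
    dualA n₁ n₂ a (fun y => c * f y) = c * dualA n₁ n₂ a f := by
  simp only [dualA, dualB, Finset.mul_sum]
  exact Finset.sum_congr rfl fun _ _ => Finset.sum_congr rfl fun _ _ => by ring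

theorem orig_eval {ψ : ℝ → ℂ} (hψ : MulF ψ) {n₁ n₂ a : O} (h₁ : SP 6 n₁) (h₂ : SP 6 n₂)
    (ha : a ≠ 0) :
    origA n₁ n₂ a ψ =
      (quad (∏ p ∈ pf n₁ ∩ pf n₂, p) a ^ 2 * ψ (nr a) * eu ψ (pf n₁ ∩ pf n₂)) *
        (eu ψ (pf (cof (pf n₁ ∩ pf n₂) n₁)) * quad (cof (pf n₁ ∩ pf n₂) n₁) a) *
        (eu ψ (pf (cof (pf n₁ ∩ pf n₂) n₂)) * quad (cof (pf n₁ ∩ pf n₂) n₂) a) := by
  rw [origA, Eval_inner hψ (nr_pos ha) (Eval_ne_zero n₁ n₂), Eval_eu_union', pf_cof, pf_cof,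
    Eval_quad h₁ (Finset.inter_subset_left (s₂ := pf n₂)) a,
    Eval_quad h₂ (Finset.inter_subset_right (s₁ := pf n₁)) a]
  ring

theorem dual_eval {ψ : ℝ → ℂ} (hψ : MulF ψ) {n₁ n₂ a : O} (h₁ : SP 6 n₁) (h₂ : SP 6 n₂)
    (ha : a ≠ 0) :
    dualA n₁ n₂ a ψ =
      (ψ (nr a) * ∏ p ∈ pf n₁ ∩ pf n₂, (1 - (if p ∣ a then ψ (nr p)⁻¹ ^ 2 else 1) / (nr p : ℂ))) *
        (ψ (nr (cof (pf n₁ ∩ pf n₂) n₁))⁻¹ / (Real.sqrt (nr (cof (pf n₁ ∩ pf n₂) n₁)) : ℂ) *
          eu ψ (pf (cof (pf n₁ ∩ pf n₂) n₁)) * quad (cof (pf n₁ ∩ pf n₂) n₁) a) *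
        (ψ (nr (cof (pf n₁ ∩ pf n₂) n₂))⁻¹ / (Real.sqrt (nr (cof (pf n₁ ∩ pf n₂) n₂)) : ℂ) *
          eu ψ (pf (cof (pf n₁ ∩ pf n₂) n₂)) * quad (cof (pf n₁ ∩ pf n₂) n₂) a) := by
  rw [dualA, Eval_dualB hψ (ne_zero_of_subset_pf Finset.inter_subset_left)
    (ne_zero_of_SP (SP_cof h₁ _)) (ne_zero_of_SP (SP_cof h₂ _)) ha, pf_cof, pf_cof, Eval_eu_union]
  ring

/-- The main terms of the two sides coincide. -/
theorem main_cancel (κ : ℝ) {X : ℝ} (hX : 0 < X) {n₁ n₂ a : O} (h₁ : SP 6 n₁) (h₂ : SP 6 n₂)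
    (ha : a ≠ 0) :
    (X : ℂ) * dualA n₁ n₂ a (fun y => ((κ / Real.sqrt (y * X) : ℝ) : ℂ)) =
      origA n₁ n₂ a (fun y => ((κ / Real.sqrt (y / X) : ℝ) : ℂ)) := by
  set ψ : ℝ → ℂ := fun y => (((Real.sqrt y)⁻¹ : ℝ) : ℂ) with hψd
  have hψ : MulF ψ := ⟨by simp [hψd], fun x y hx _ => by
    simp only [hψd, Real.sqrt_mul hx.le, mul_inv, Complex.ofReal_mul]⟩
  have e1 : (fun y => ((κ / Real.sqrt (y * X) : ℝ) : ℂ)) =
      fun y => ((κ / Real.sqrt X : ℝ) : ℂ) * ψ y := by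
    funext y
    simp only [hψd, Real.sqrt_mul' y hX.le, ← Complex.ofReal_mul]
    congr 1
    ring
  have e2 : (fun y => ((κ / Real.sqrt (y / X) : ℝ) : ℂ)) =
      fun y => ((κ * Real.sqrt X : ℝ) : ℂ) * ψ y := by
    funext y
    simp only [hψd, Real.sqrt_div' y hX.le, ← Complex.ofReal_mul]
    congr 1
    rw [div_div_eq_mul_div, div_eq_mul_inv]
  have e3 : (X : ℂ) * ((κ / Real.sqrt X : ℝ) : ℂ) = ((κ * Real.sqrt X : ℝ) : ℂ) := by
    rw [← Complex.ofReal_mul]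
    congr 1
    have h1 := Real.mul_self_sqrt hX.le
    have h2 := (Real.sqrt_pos.2 hX).ne'
    field_simp
    linear_combination -κ * h1
  have e4 : ∀ m : O, m ≠ 0 → ψ (nr m)⁻¹ / (Real.sqrt (nr m) : ℂ) = 1 := fun m hm => by
    simp only [hψd, Real.sqrt_inv, inv_inv]
    exact div_self (Complex.ofReal_ne_zero.2 (Real.sqrt_pos.2 (nr_pos hm)).ne')
  rw [e1, e2, Eval_origA_smul, Eval_dualA_smul, ← mul_assoc, e3, orig_eval hψ h₁ h₂ ha,
    dual_eval hψ h₁ h₂ ha, e4 _ (ne_zero_of_SP (SP_cof h₁ _)), e4 _ (ne_zero_of_SP (SP_cof h₂ _)),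
    one_mul, one_mul]
  have hG : pf n₁ ∩ pf n₂ ⊆ pf n₁ := Finset.inter_subset_left
  have hg := SP_prod h₁ hG
  have key : ∏ p ∈ pf n₁ ∩ pf n₂, (1 - (if p ∣ a then ψ (nr p)⁻¹ ^ 2 else 1) / (nr p : ℂ)) =
      quad (∏ p ∈ pf n₁ ∩ pf n₂, p) a ^ 2 * eu ψ (pf n₁ ∩ pf n₂) := by
    by_cases h : ∃ p ∈ pf n₁ ∩ pf n₂, p ∣ a
    · obtain ⟨p, hp, hpa⟩ := h
      have hp' := (BasicB.pf_sub (hG hp)).1
      have hn := nr_pos hp'.ne_zero
      rw [(Symbol_quad_eq_zero_iff hg.1).2 fun hc =>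
        hp'.not_isUnit (hc.isUnit_of_dvd' (Finset.dvd_prod_of_mem _ hp) hpa),
        zero_pow two_ne_zero, zero_mul]
      refine Finset.prod_eq_zero hp ?_
      simp only [if_pos hpa, hψd, Real.sqrt_inv, inv_inv]
      rw [← Complex.ofReal_pow, Real.sq_sqrt hn.le, div_self (Complex.ofReal_ne_zero.2 hn.ne'),
        sub_self]
    · push Not at h
      rw [quad_sq hg.1 (IsCoprime.prod_left fun p hp =>
        (BasicB.pf_sub (hG hp)).1.irreducible.coprime_iff_not_dvd.2 (h p hp)), one_mul, eu]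
      refine Finset.prod_congr rfl fun p hp => ?_
      have hn := nr_pos (BasicB.pf_sub (hG hp)).1.ne_zero
      simp only [if_neg (h p hp), hψd]
      rw [← Complex.ofReal_pow, inv_pow, Real.sq_sqrt hn.le, Complex.ofReal_inv, one_div]
  rw [key]
  ring

end Crest.Agent.R17.LS2
end
end

-- ▼ part PVc/R17/LS2Pair
section

/-!
# Row 17, module M7 (quadratic large sieve): the sum over the rows with large kernel for a pair of columns
-/

set_option autoImplicit false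

noncomputable section

namespace Crest.Agent.R17.LS2

open scoped ComplexConjugate
open Classical

theorem pair_summable {X : ℝ} (hX : 0 < X) (n₁ n₂ : O) :
    Summable fun k : O => (gw (nr k / X) : ℂ) * (quad n₁ k * quad n₂ k) := by
  refine Summable.of_norm_bounded (summable_gw' hX) fun k => ?_
  rw [norm_mul, norm_mul, Complex.norm_real, Real.norm_of_nonneg (gw_pos _).le]
  exact mul_le_of_le_one_right (gw_pos _).le
    (mul_le_one₀ (norm_quad_le _ _) (norm_nonneg _) (norm_quad_le _ _))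

theorem pair_quad_sq {n : O} (h : SP 6 n) (a c : O) :
    quad n (a * c ^ 2) = if ∀ p ∈ pf n, ¬ p ∣ c then quad n a else 0 := by
  rw [quad_mul_right (PO_of_SP h), sq, quad_mul_right (PO_of_SP h), ← sq]
  split_ifs with hc
  · rw [quad_sq h.1 ((isCoprime_iff_pf h.1 c).2 hc), mul_one]
  · rw [(Symbol_quad_eq_zero_iff h.1).2 fun h' => hc ((isCoprime_iff_pf h.1 c).1 h')]
    simp

theorem pair_row {X : ℝ} (hX : 0 < X) {n₁ n₂ a : O} (h₁ : SP 6 n₁) (h₂ : SP 6 n₂) (ha : a ≠ 0) :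
    (∑' c : O, if c = 0 then 0 else
        (gw (nr (a * c ^ 2) / X) : ℂ) * (quad n₁ (a * c ^ 2) * quad n₂ (a * c ^ 2))) =
      origA n₁ n₂ a (fun y => (th2 (y / X) : ℂ)) := by
  have hS : ∀ p ∈ pf n₁ ∪ pf n₂, Prime p ∧ Primary p := fun p hp => by
    rcases Finset.mem_union.1 hp with h | h <;> exact BasicB.pf_sub h
  have hg : Summable fun c : O =>
      (((if c = 0 then (0 : ℝ) else gw (nr a / X * nr c ^ 2)) : ℝ) : ℂ) :=
    Complex.summable_ofReal.2 (summable_th2 (div_pos (nr_pos ha) hX))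
  have hs := tsum_sieve hS hg
  have e1 : ∀ c : O, (if c = 0 then 0 else
      (gw (nr (a * c ^ 2) / X) : ℂ) * (quad n₁ (a * c ^ 2) * quad n₂ (a * c ^ 2))) =
      quad n₁ a * quad n₂ a * (if ∀ p ∈ pf n₁ ∪ pf n₂, ¬ p ∣ c then
        (((if c = 0 then (0 : ℝ) else gw (nr a / X * nr c ^ 2)) : ℝ) : ℂ) else 0) := by
    intro c
    have e : nr (a * c ^ 2) / X = nr a / X * nr c ^ 2 := by rw [nr_mul, nr_pow]; ring
    rw [pair_quad_sq h₁, pair_quad_sq h₂, e]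
    simp only [Finset.forall_mem_union]
    by_cases hc : c = 0
    · simp [hc]
    · by_cases k₁ : ∀ p ∈ pf n₁, ¬ p ∣ c <;> by_cases k₂ : ∀ p ∈ pf n₂, ¬ p ∣ c
      · rw [if_neg hc, if_pos k₁, if_pos k₂, if_pos ⟨k₁, k₂⟩, if_neg hc]; ring
      · rw [if_neg hc, if_neg k₂, if_neg (c := _ ∧ _) fun h => k₂ h.2]; ring
      · rw [if_neg hc, if_neg k₁, if_neg (c := _ ∧ _) fun h => k₁ h.1]; ring
      · rw [if_neg hc, if_neg k₁, if_neg (c := _ ∧ _) fun h => k₁ h.1]; ring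
  rw [tsum_congr e1, tsum_mul_left, hs, origA]
  congr 1
  refine Finset.sum_congr rfl fun T hT => ?_
  have hT0 : (∏ p ∈ T, p) ≠ 0 :=
    Finset.prod_ne_zero_iff.2 fun p hp => (hS p (Finset.mem_powerset.1 hT hp)).1.ne_zero
  rw [th2, Complex.ofReal_tsum]
  congr 1
  refine tsum_congr fun c => ?_
  have e : nr a / X * nr ((∏ p ∈ T, p) * c) ^ 2 = nr a * nP T ^ 2 / X * nr c ^ 2 := by
    rw [nr_mul, nr_prod]; ring
  rw [e]
  simp only [mul_eq_zero, hT0, false_or]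

theorem pair_origA_sub (n₁ n₂ a : O) (f g : ℝ → ℂ) :
    origA n₁ n₂ a (fun y => f y - g y) = origA n₁ n₂ a f - origA n₁ n₂ a g := by
  simp only [origA, mul_sub, Finset.sum_sub_distrib]

theorem pair_dualA_sub (n₁ n₂ a : O) (f g : ℝ → ℂ) :
    dualA n₁ n₂ a (fun y => f y - g y) = dualA n₁ n₂ a f - dualA n₁ n₂ a g := by
  simp only [dualA, dualB, mul_sub, Finset.sum_sub_distrib]

/-- Original side. -/
theorem orig_eq (V : ℝ) {X : ℝ} (hX : 0 < X) {n₁ n₂ : O} (h₁ : SP 6 n₁) (h₂ : SP 6 n₂) :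
    6 * (∑' k : O, if k ∈ PP V then (gw (nr k / X) : ℂ) * (quad n₁ k * quad n₂ k) else 0) =
      ∑ a ∈ sqf V, origA n₁ n₂ a (fun y => (th2 (y / X) : ℂ)) := by
  rw [← tsum_kernel V (pair_summable hX n₁ n₂)]
  exact Finset.sum_congr rfl fun a ha => pair_row hX h₁ h₂ (ne_zero_of_mem_sqf ha)

theorem pair_est (κ V : ℝ) {X : ℝ} (hX : 0 < X) {n₁ n₂ : O} (h₁ : SP 6 n₁) (h₂ : SP 6 n₂)
    (h4 : (4 : O) ∣ n₁ - n₂) :
    ‖6 * (∑' k : O, if k ∈ PP V then 0 else (gw (nr k / X) : ℂ) * (quad n₁ k * quad n₂ k)) -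
        ∑ a ∈ sqf V, ((X : ℂ) * dualA n₁ n₂ a (fun y => (Er κ (y * X) : ℂ)) -
          origA n₁ n₂ a (fun y => (Er κ (y / X) : ℂ)))‖ ≤
      6 * 2 ^ (pf n₁).card * X * ((if n₁ = n₂ then 1 else 0) +
        ∑' h : O, if V < nr h then gw (X * nr h / (nr n₁ * nr n₂)) else 0) := by
  have hF := pair_summable hX n₁ n₂
  have hP : Summable fun k : O =>
      if k ∈ PP V then (gw (nr k / X) : ℂ) * (quad n₁ k * quad n₂ k) else 0 :=
    (hF.indicator (PP V)).congr fun k => by rw [Set.indicator_apply]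
  have e1 : (∑' k : O, if k ∈ PP V then 0 else (gw (nr k / X) : ℂ) * (quad n₁ k * quad n₂ k)) =
      (∑' k : O, (gw (nr k / X) : ℂ) * (quad n₁ k * quad n₂ k)) -
        ∑' k : O, if k ∈ PP V then (gw (nr k / X) : ℂ) * (quad n₁ k * quad n₂ k) else 0 := by
    rw [← hF.tsum_sub hP]
    refine tsum_congr fun k => ?_
    split_ifs <;> simp
  have e2 : ∀ a ∈ sqf V, (X : ℂ) * dualA n₁ n₂ a (fun y => (Er κ (y * X) : ℂ)) -
      origA n₁ n₂ a (fun y => (Er κ (y / X) : ℂ)) =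
      (X : ℂ) * dualA n₁ n₂ a (fun y => (th2 (y * X) : ℂ)) -
        origA n₁ n₂ a (fun y => (th2 (y / X) : ℂ)) := by
    intro a ha
    have h := main_cancel κ hX h₁ h₂ (ne_zero_of_mem_sqf ha)
    simp only [Er, Complex.ofReal_sub]
    rw [pair_origA_sub, pair_dualA_sub, ← h]
    ring
  rw [e1, Finset.sum_congr rfl e2, Finset.sum_sub_distrib, ← orig_eq V hX h₁ h₂, ← Finset.mul_sum]
  convert dual_est V hX h₁ h₂ h4 using 2
  ring

end Crest.Agent.R17.LS2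
end
end

-- ▼ part PVc/R17/LS2Bil
section

/-!
# Row 17, module M7 (quadratic large sieve): bilinear forms with coefficients depending on the gcd
-/

set_option autoImplicit false

noncomputable section

namespace Crest.Agent.R17.LS2

open scoped ComplexConjugate
open Classical

theorem bil_filter {U T G : Finset O} (hT : T ⊆ U) (hG : G ⊆ T) :
    (U \ G).powerset.filter (fun E => G ∪ E ⊆ T) = (T \ G).powerset := by
  ext E
  simp only [Finset.mem_filter, Finset.mem_powerset, Finset.union_subset_iff, Finset.subset_sdiff]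
  exact ⟨fun h => ⟨h.2.2, h.1.2⟩, fun h => ⟨⟨h.1.trans hT, h.2⟩, hG, h.1⟩⟩

/-- Möbius inversion on the Boolean lattice. -/
theorem bil_mob {U T : Finset O} (hT : T ⊆ U) (F : Finset O → ℂ) :
    F T = ∑ G ∈ U.powerset, ∑ E ∈ (U \ G).powerset,
      if G ∪ E ⊆ T then (-1) ^ E.card * F G else 0 := by
  have h1 : ∀ G ∈ U.powerset, (∑ E ∈ (U \ G).powerset,
      if G ∪ E ⊆ T then (-1) ^ E.card * F G else 0) = if T = G then F G else 0 := by
    intro G _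
    by_cases hG : G ⊆ T
    · rw [← Finset.sum_filter, bil_filter hT hG, ← Finset.sum_mul]
      have h2 : ∑ E ∈ (T \ G).powerset, (-1 : ℂ) ^ E.card = if T \ G = ∅ then 1 else 0 := by
        exact_mod_cast congrArg (Int.cast : ℤ → ℂ)
          (Finset.sum_powerset_neg_one_pow_card (x := T \ G))
      rw [h2]
      by_cases h : T = G
      · rw [if_pos h, if_pos (Finset.sdiff_eq_empty_iff_subset.2 h.subset), one_mul]
      · rw [if_neg h, if_neg fun h' =>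
          h (Finset.Subset.antisymm (Finset.sdiff_eq_empty_iff_subset.1 h') hG), zero_mul]
    · rw [if_neg fun h : T = G => hG h.symm.subset]
      exact Finset.sum_eq_zero fun E _ => if_neg fun h => hG (Finset.subset_union_left.trans h)
  rw [Finset.sum_congr rfl h1, Finset.sum_ite_eq, if_pos (Finset.mem_powerset.2 hT)]

theorem bil_count {U T : Finset O} (hT : T ⊆ U) (x : ℝ) :
    (∑ G ∈ U.powerset, ∑ E ∈ (U \ G).powerset, if G ∪ E ⊆ T then x else 0) =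
      3 ^ T.card * x := by
  have h1 : ∀ G ∈ U.powerset, (∑ E ∈ (U \ G).powerset, if G ∪ E ⊆ T then x else 0) =
      if G ⊆ T then 1 ^ G.card * 2 ^ (T.card - G.card) * x else 0 := by
    intro G _
    by_cases hG : G ⊆ T
    · rw [← Finset.sum_filter, bil_filter hT hG, if_pos hG, Finset.sum_const, Finset.card_powerset,
        Finset.card_sdiff_of_subset hG, nsmul_eq_mul, one_pow, one_mul]
      push_cast
      rfl
    · rw [if_neg hG]
      exact Finset.sum_eq_zero fun E _ => if_neg fun h => hG (Finset.subset_union_left.trans h)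
  have h2 : U.powerset.filter (fun G => G ⊆ T) = T.powerset := by
    ext G
    simp only [Finset.mem_filter, Finset.mem_powerset]
    exact ⟨fun h => h.2, fun h => ⟨h.trans hT, h⟩⟩
  rw [Finset.sum_congr rfl h1, ← Finset.sum_filter, h2, ← Finset.sum_mul,
    Finset.sum_pow_mul_eq_add_pow]
  norm_num

theorem bil_one {ξ V N D Λ : ℝ} (hS : Sieve ξ V N D) (hD : 0 ≤ D) (hΛ : 0 ≤ Λ) {S : Finset O}
    (hSP : ∀ n ∈ S, SP 6 n ∧ nr n ≤ N) (γ : O → ℂ) (c : O → ℂ) (η : O → ℂ) {G : Finset O}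
    {H : ℝ} (hG : ∀ n ∈ S, G ⊆ pf n) (hη : ∀ n ∈ S, ‖η (cof G n)‖ ≤ H)
    (hc : ∀ n ∈ S, ∀ a ∈ sqf V, ‖c a‖ * H ^ 2 * (N / nP G + nr a ^ ξ) ≤ Λ) :
    ∑ a ∈ sqf V, ‖c a‖ * ‖∑ n ∈ S, γ n * (η (cof G n) * quad (cof G n) a)‖ ^ 2 ≤
      Λ * D * ∑ n ∈ S, ‖γ n‖ ^ 2 := by
  rcases S.eq_empty_or_nonempty with rfl | ⟨n₀, hn₀⟩
  · simp
  have hH := (norm_nonneg _).trans (hη n₀ hn₀)
  rcases hH.eq_or_lt with rfl | hH
  · refine (Finset.sum_eq_zero fun a _ => ?_).trans_le (by positivity)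
    rw [Finset.sum_eq_zero fun n hn => by
      rw [norm_le_zero_iff.1 (hη n hn), zero_mul, mul_zero]]
    simp
  have hP := one_le_nP (ne_zero_of_subset_pf (hG n₀ hn₀))
  have h1 : ∀ n ∈ S, SP 6 (cof G n) ∧ nr (cof G n) ≤ N / nP G := fun n hn =>
    ⟨SP_cof (hSP n hn).1 G, by
      rw [nr_cof (hSP n hn).1 (hG n hn)]
      exact div_le_div_of_nonneg_right (hSP n hn).2 (zero_le_one.trans hP)⟩
  have h2 : 1 ≤ N / nP G := (one_le_nr (ne_zero_of_SP (h1 n₀ hn₀).1)).trans (h1 n₀ hn₀).2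
  have h3 : 1 ≤ N := (one_le_nr (ne_zero_of_SP (hSP n₀ hn₀).1)).trans (hSP n₀ hn₀).2
  have h4 := hS (N / nP G) h2 (div_le_self (zero_le_one.trans h3) hP) S (cof G)
    (fun n => γ n * η (cof G n)) (fun n hn n' hn' h => by
      rw [← prod_mul_cof (hSP n hn).1.1 (hSP n hn).1.2.1 (hG n hn),
        ← prod_mul_cof (hSP n' hn').1.1 (hSP n' hn').1.2.1 (hG n' hn'), h]) h1
  have h5 : ∑ n ∈ S, ‖γ n * η (cof G n)‖ ^ 2 ≤ H ^ 2 * ∑ n ∈ S, ‖γ n‖ ^ 2 := by
    rw [Finset.mul_sum]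
    refine Finset.sum_le_sum fun n hn => ?_
    rw [norm_mul, mul_pow, mul_comm]
    exact mul_le_mul_of_nonneg_right (pow_le_pow_left₀ (norm_nonneg _) (hη n hn) 2) (sq_nonneg _)
  have h6 := mul_le_mul_of_nonneg_left (h4.trans (mul_le_mul_of_nonneg_left h5 hD))
    (div_nonneg hΛ (sq_nonneg H))
  rw [Finset.mul_sum] at h6
  refine le_trans (Finset.sum_le_sum fun a ha => ?_) (h6.trans_eq (by field_simp))
  have h7 : 0 < N / nP G + nr a ^ ξ :=
    add_pos_of_pos_of_nonneg (one_pos.trans_le h2)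
      (Real.rpow_nonneg (zero_le_one.trans (one_le_nr (ne_zero_of_mem_sqf ha))) ξ)
  simp only [← mul_assoc]
  rw [mul_div_assoc', ← div_mul_eq_mul_div, div_div]
  refine mul_le_mul_of_nonneg_right ?_ (sq_nonneg _)
  rw [le_div_iff₀ (by positivity), ← mul_assoc]
  exact hc n₀ hn₀ a ha

theorem bil_two {ξ V N D Λ : ℝ} (hS : Sieve ξ V N D) (hD : 0 ≤ D) (hΛ : 0 ≤ Λ) {S : Finset O}
    (hSP : ∀ n ∈ S, SP 6 n ∧ nr n ≤ N) (β : O → ℂ) (c : O → ℂ) (η : O → ℂ) {G : Finset O}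
    {H : ℝ} (hG : ∀ n ∈ S, G ⊆ pf n) (hη : ∀ n ∈ S, ‖η (cof G n)‖ ≤ H)
    (hc : ∀ n ∈ S, ∀ a ∈ sqf V, ‖c a‖ * H ^ 2 * (N / nP G + nr a ^ ξ) ≤ Λ) :
    ‖∑ n₁ ∈ S, ∑ n₂ ∈ S, β n₁ * conj (β n₂) * ∑ a ∈ sqf V, c a *
        (η (cof G n₁) * quad (cof G n₁) a) * (η (cof G n₂) * quad (cof G n₂) a)‖ ≤
      Λ * D * ∑ n ∈ S, ‖β n‖ ^ 2 := by
  have h1 := bil_one hS hD hΛ hSP β c η hG hη hc
  have h2 := bil_one hS hD hΛ hSP (fun n => conj (β n)) c η hG hη hc
  simp only [Complex.norm_conj] at h2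
  have h3 : ∑ n₁ ∈ S, ∑ n₂ ∈ S, β n₁ * conj (β n₂) * ∑ a ∈ sqf V, c a *
        (η (cof G n₁) * quad (cof G n₁) a) * (η (cof G n₂) * quad (cof G n₂) a) =
      ∑ a ∈ sqf V, c a * ((∑ n ∈ S, β n * (η (cof G n) * quad (cof G n) a)) *
        ∑ n ∈ S, conj (β n) * (η (cof G n) * quad (cof G n) a)) := by
    simp only [Finset.sum_mul_sum]
    simp only [Finset.mul_sum]
    rw [Finset.sum_comm (s := sqf V)]
    refine Finset.sum_congr rfl fun n₁ _ => ?_
    rw [Finset.sum_comm (s := sqf V)]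
    exact Finset.sum_congr rfl fun n₂ _ => Finset.sum_congr rfl fun a _ => by ring
  rw [h3]
  refine (norm_sum_le _ _).trans (le_trans (Finset.sum_le_sum (g := fun a =>
    (‖c a‖ * ‖∑ n ∈ S, β n * (η (cof G n) * quad (cof G n) a)‖ ^ 2 +
      ‖c a‖ * ‖∑ n ∈ S, conj (β n) * (η (cof G n) * quad (cof G n) a)‖ ^ 2) / 2) fun a _ => ?_) ?_)
  · rw [norm_mul, norm_mul, ← mul_add, mul_div_assoc]
    refine mul_le_mul_of_nonneg_left ?_ (norm_nonneg _)
    rw [le_div_iff₀' two_pos, ← mul_assoc]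
    exact two_mul_le_add_sq _ _
  · rw [← Finset.sum_div, Finset.sum_add_distrib]
    linarith

theorem bil {ξ V N D Λ : ℝ} (hS : Sieve ξ V N D) (hD : 0 ≤ D) (hΛ : 0 ≤ Λ) {S : Finset O}
    (hSP : ∀ n ∈ S, SP 6 n ∧ nr n ≤ N) (β : O → ℂ) (c : Finset O → O → ℂ) (η : O → ℂ)
    (H : Finset O → ℝ) (hη : ∀ n ∈ S, ∀ G ⊆ pf n, ‖η (cof G n)‖ ≤ H G)
    (hc : ∀ n ∈ S, ∀ G ⊆ pf n, ∀ a ∈ sqf V, ‖c G a‖ * H G ^ 2 * (N / nP G + nr a ^ ξ) ≤ Λ) :
    ‖∑ n₁ ∈ S, ∑ n₂ ∈ S, β n₁ * conj (β n₂) * ∑ a ∈ sqf V, c (pf n₁ ∩ pf n₂) a *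
        (η (cof (pf n₁ ∩ pf n₂) n₁) * quad (cof (pf n₁ ∩ pf n₂) n₁) a) *
        (η (cof (pf n₁ ∩ pf n₂) n₂) * quad (cof (pf n₁ ∩ pf n₂) n₂) a)‖ ≤
      Λ * D * ∑ n ∈ S, 3 ^ (pf n).card * ‖β n‖ ^ 2 := by
  set U : Finset O := S.biUnion pf with hU
  have hsub : ∀ n ∈ S, pf n ⊆ U := fun n hn => Finset.subset_biUnion_of_mem pf hn
  set T : Finset O → O → O → ℂ := fun G n₁ n₂ => β n₁ * conj (β n₂) * ∑ a ∈ sqf V, c G a *
    (η (cof G n₁) * quad (cof G n₁) a) * (η (cof G n₂) * quad (cof G n₂) a) with hT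
  have h1 : ∑ n₁ ∈ S, ∑ n₂ ∈ S, T (pf n₁ ∩ pf n₂) n₁ n₂ =
      ∑ G ∈ U.powerset, ∑ E ∈ (U \ G).powerset, (-1) ^ E.card *
        ∑ n₁ ∈ S.filter (fun n => G ∪ E ⊆ pf n), ∑ n₂ ∈ S.filter (fun n => G ∪ E ⊆ pf n),
          T G n₁ n₂ := by
    rw [Finset.sum_congr rfl fun n₁ h₁ => Finset.sum_congr rfl fun n₂ _ =>
      bil_mob (Finset.inter_subset_left.trans (hsub n₁ h₁)) (fun G => T G n₁ n₂)]
    rw [Finset.sum_congr rfl fun n₁ _ => Finset.sum_comm, Finset.sum_comm]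
    refine Finset.sum_congr rfl fun G _ => ?_
    rw [Finset.sum_congr rfl fun n₁ _ => Finset.sum_comm, Finset.sum_comm]
    refine Finset.sum_congr rfl fun E _ => ?_
    rw [Finset.mul_sum, Finset.sum_filter]
    refine Finset.sum_congr rfl fun n₁ _ => ?_
    by_cases h : G ∪ E ⊆ pf n₁
    · rw [if_pos h, Finset.mul_sum, Finset.sum_filter]
      refine Finset.sum_congr rfl fun n₂ _ => ?_
      simp only [Finset.subset_inter_iff, h, true_and]
    · rw [if_neg h]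
      exact Finset.sum_eq_zero fun n₂ _ => if_neg fun h' => h (h'.trans Finset.inter_subset_left)
  have h2 : ∑ n ∈ S, 3 ^ (pf n).card * ‖β n‖ ^ 2 = ∑ G ∈ U.powerset, ∑ E ∈ (U \ G).powerset,
      ∑ n ∈ S.filter (fun n => G ∪ E ⊆ pf n), ‖β n‖ ^ 2 := by
    rw [Finset.sum_congr rfl fun n hn => (bil_count (hsub n hn) (‖β n‖ ^ 2)).symm, Finset.sum_comm]
    refine Finset.sum_congr rfl fun G _ => ?_
    rw [Finset.sum_comm]
    exact Finset.sum_congr rfl fun E _ => (Finset.sum_filter _ _).symm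
  change ‖∑ n₁ ∈ S, ∑ n₂ ∈ S, T (pf n₁ ∩ pf n₂) n₁ n₂‖ ≤ _
  rw [h1, h2, Finset.mul_sum]
  refine (norm_sum_le _ _).trans (Finset.sum_le_sum fun G _ => ?_)
  rw [Finset.mul_sum]
  refine (norm_sum_le _ _).trans (Finset.sum_le_sum fun E _ => ?_)
  rw [norm_mul, norm_pow, norm_neg, norm_one, one_pow, one_mul]
  have h3 : ∀ n ∈ S.filter (fun n => G ∪ E ⊆ pf n), n ∈ S ∧ G ⊆ pf n := fun n hn =>
    ⟨(Finset.mem_filter.1 hn).1, Finset.subset_union_left.trans (Finset.mem_filter.1 hn).2⟩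
  exact bil_two hS hD hΛ (fun n hn => hSP n (h3 n hn).1) β (c G) η (fun n hn => (h3 n hn).2)
    (fun n hn => hη n (h3 n hn).1 G (h3 n hn).2) fun n hn => hc n (h3 n hn).1 G (h3 n hn).2

end Crest.Agent.R17.LS2
end
end

-- ▼ part PVc/R17/LS2Bnd
section

/-!
# Row 17, module M7 (quadratic large sieve): bounds for the Mellin transforms
-/

set_option autoImplicit false

noncomputable section

namespace Crest.Agent.R17.LS2

open scoped ComplexConjugate
open Classical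

theorem Bnd_norm_psi (s : ℂ) {y : ℝ} (hy : 0 < y) : ‖(y : ℂ) ^ (-s)‖ = y ^ (-s.re) := by
  rw [Complex.norm_cpow_eq_rpow_re_of_pos hy, Complex.neg_re]

theorem Bnd_norm_psi_le {s : ℂ} (hs : 0 ≤ s.re) {y : ℝ} (hy : 1 ≤ y) : ‖(y : ℂ) ^ (-s)‖ ≤ 1 := by
  rw [Bnd_norm_psi s (by linarith)]
  exact Real.rpow_le_one_of_one_le_of_nonpos hy (by linarith)

theorem Bnd_prod_le {T : Finset O} {n : O} {w : ℝ} (hT : T ⊆ pf n) (hw : 2 ^ (pf n).card ≤ w)
    {f : O → ℂ} (hf : ∀ p ∈ T, ‖f p‖ ≤ 1) : ‖∏ p ∈ T, (1 - f p)‖ ≤ w := by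
  rw [norm_prod]
  calc ∏ p ∈ T, ‖1 - f p‖ ≤ ∏ _p ∈ T, (2 : ℝ) := by
        refine Finset.prod_le_prod (fun _ _ => norm_nonneg _) fun p hp => ?_
        have := norm_sub_le (1 : ℂ) (f p)
        rw [norm_one] at this
        linarith [hf p hp]
    _ = 2 ^ T.card := by simp
    _ ≤ 2 ^ (pf n).card := pow_le_pow_right₀ one_le_two (Finset.card_le_card hT)
    _ ≤ w := hw

theorem Bnd_eu {s : ℂ} (hs : 0 ≤ s.re) {T : Finset O} {n : O} {w : ℝ} (hT : T ⊆ pf n)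
    (hw : 2 ^ (pf n).card ≤ w) : ‖eu (fun y => (y : ℂ) ^ (-s)) T‖ ≤ w := by
  refine Bnd_prod_le hT hw fun p hp => ?_
  rw [norm_pow]
  exact pow_le_one₀ (norm_nonneg _) (Bnd_norm_psi_le hs (one_le_nr (ne_zero_of_subset_pf hT p hp)))

theorem Bnd_dual_c {s : ℂ} (hs' : s.re ≤ 1 / 2) {T : Finset O} {n : O} {w : ℝ} (hT : T ⊆ pf n)
    (hw : 2 ^ (pf n).card ≤ w) (a : O) :
    ‖∏ p ∈ T, (1 - (if p ∣ a then ((((nr p)⁻¹ : ℝ) : ℂ) ^ (-s)) ^ 2 else 1) / (nr p : ℂ))‖ ≤ w := by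
  refine Bnd_prod_le hT hw fun p hp => ?_
  have h1 := one_le_nr (ne_zero_of_subset_pf hT p hp)
  have h0 : 0 < nr p := by linarith
  rw [norm_div, Complex.norm_real, Real.norm_eq_abs, abs_of_pos h0, div_le_one h0]
  split_ifs
  · rw [norm_pow, Bnd_norm_psi s (inv_pos.2 h0), Real.inv_rpow h0.le, Real.rpow_neg h0.le, inv_inv,
      ← Real.rpow_natCast, ← Real.rpow_mul h0.le]
    calc nr p ^ (s.re * ((2 : ℕ) : ℝ)) ≤ nr p ^ (1 : ℝ) :=
          Real.rpow_le_rpow_of_exponent_le h1 (by push_cast; linarith)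
      _ = nr p := Real.rpow_one _
  · simpa using h1

theorem Bnd_eta {s : ℂ} (hs : 0 ≤ s.re) {m n : O} {w : ℝ} (hm : m ≠ 0) (hT : pf m ⊆ pf n)
    (hw : 2 ^ (pf n).card ≤ w) :
    ‖(((nr m)⁻¹ : ℝ) : ℂ) ^ (-s) / (Real.sqrt (nr m) : ℂ) * eu (fun y => (y : ℂ) ^ (-s)) (pf m)‖ ≤
      nr m ^ (s.re - 1 / 2) * w := by
  have h0 := nr_pos hm
  rw [norm_mul, norm_div, Bnd_norm_psi s (inv_pos.2 h0), Real.inv_rpow h0.le, Real.rpow_neg h0.le,
    inv_inv, Complex.norm_real, Real.norm_eq_abs, abs_of_nonneg (Real.sqrt_nonneg _),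
    Real.sqrt_eq_rpow, ← Real.rpow_sub h0]
  exact mul_le_mul_of_nonneg_left (Bnd_eu hs hT hw) (by positivity)

theorem Bnd_fin {S : Finset O} {w : ℝ} (hw : ∀ n ∈ S, 2 ^ (pf n).card ≤ w) (β : O → ℂ) :
    ∑ n ∈ S, 3 ^ (pf n).card * ‖β n‖ ^ 2 ≤ w ^ 2 * ∑ n ∈ S, ‖β n‖ ^ 2 := by
  rw [Finset.mul_sum]
  refine Finset.sum_le_sum fun n hn => mul_le_mul_of_nonneg_right ?_ (by positivity)
  calc (3 : ℝ) ^ (pf n).card ≤ (2 ^ 2) ^ (pf n).card := pow_le_pow_left₀ (by norm_num) (by norm_num) _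
    _ = (2 ^ (pf n).card) ^ 2 := by rw [← pow_mul, ← pow_mul, mul_comm]
    _ ≤ w ^ 2 := pow_le_pow_left₀ (by positivity) (hw n hn) 2

theorem Bnd_basic {N w : ℝ} {S : Finset O} (hB : Blk N S) (hw : ∀ n ∈ S, 2 ^ (pf n).card ≤ w)
    (hne : S.Nonempty) : 1 ≤ w ∧ 1 ≤ N := by
  obtain ⟨n, hn⟩ := hne
  exact ⟨le_trans (one_le_pow₀ one_le_two) (hw n hn),
    le_trans (one_le_nr (ne_zero_of_SP (hB.1 n hn).1)) (hB.1 n hn).2.2⟩

theorem Bnd_pf_cof (G : Finset O) (n : O) : pf (cof G n) ⊆ pf n := by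
  rw [pf_cof]; exact Finset.sdiff_subset

theorem bnd_orig {ξ V N D w : ℝ} (hξ : 0 ≤ ξ) (hV : 1 ≤ V) (hS : Sieve ξ V N D) (hD : 0 ≤ D)
    {S : Finset O} (hB : Blk N S) (hw : ∀ n ∈ S, 2 ^ (pf n).card ≤ w) (β : O → ℂ) {s : ℂ}
    (hs : 0 ≤ s.re) :
    ‖∑ n₁ ∈ S, ∑ n₂ ∈ S, β n₁ * conj (β n₂) *
        ∑ a ∈ sqf V, origA n₁ n₂ a (fun y => (y : ℂ) ^ (-s))‖ ≤
      w ^ 5 * (N + V ^ ξ) * D * ∑ n ∈ S, ‖β n‖ ^ 2 := by
  rcases S.eq_empty_or_nonempty with rfl | hne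
  · simp
  obtain ⟨hw1, hN1⟩ := Bnd_basic hB hw hne
  have hV0 : 0 ≤ V := by linarith
  have hVξ : 0 ≤ V ^ ξ := by positivity
  have key := bil (Λ := w ^ 3 * (N + V ^ ξ)) hS hD (by positivity)
    (fun n hn => ⟨(hB.1 n hn).1, (hB.1 n hn).2.2⟩) β
    (fun G a => quad (∏ p ∈ G, p) a ^ 2 * ((nr a : ℝ) : ℂ) ^ (-s) * eu (fun y => (y : ℂ) ^ (-s)) G)
    (fun m => eu (fun y => (y : ℂ) ^ (-s)) (pf m)) (fun _ => w)
    (fun n hn G _ => Bnd_eu hs (Bnd_pf_cof G n) (hw n hn)) (fun n hn G hG a ha => by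
      have ha0 := ne_zero_of_mem_sqf ha
      have h1 : ‖quad (∏ p ∈ G, p) a ^ 2 * ((nr a : ℝ) : ℂ) ^ (-s) *
          eu (fun y => (y : ℂ) ^ (-s)) G‖ ≤ w := by
        rw [norm_mul, norm_mul, norm_pow]
        calc _ ≤ 1 * 1 * w := by
              gcongr
              · exact pow_le_one₀ (norm_nonneg _) (norm_quad_le _ _)
              · exact Bnd_norm_psi_le hs (one_le_nr ha0)
              · exact Bnd_eu hs hG (hw n hn)
          _ = w := by ring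
      have h2 : N / nP G ≤ N := div_le_self (by linarith) (one_le_nP (ne_zero_of_subset_pf hG))
      have h3 : nr a ^ ξ ≤ V ^ ξ := Real.rpow_le_rpow (nr_pos ha0).le ((mem_sqf hV0).1 ha).2 hξ
      have h4 : 0 ≤ N / nP G := div_nonneg (by linarith) (nP_pos (ne_zero_of_subset_pf hG)).le
      have h5 : 0 ≤ nr a ^ ξ := Real.rpow_nonneg (nr_pos ha0).le _
      calc _ ≤ w * w ^ 2 * (N + V ^ ξ) := by gcongr
        _ = w ^ 3 * (N + V ^ ξ) := by ring)
  refine le_trans (le_of_eq ?_) (key.trans ?_)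
  · refine congrArg norm ?_
    refine Finset.sum_congr rfl fun n₁ h₁ => Finset.sum_congr rfl fun n₂ h₂ => ?_
    refine congrArg (fun z => β n₁ * conj (β n₂) * z) ?_
    exact Finset.sum_congr rfl fun a ha =>
      orig_eval (mulF_cpow s) (hB.1 n₁ h₁).1 (hB.1 n₂ h₂).1 (ne_zero_of_mem_sqf ha)
  · calc _ ≤ w ^ 3 * (N + V ^ ξ) * D * (w ^ 2 * ∑ n ∈ S, ‖β n‖ ^ 2) :=
          mul_le_mul_of_nonneg_left (Bnd_fin hw β) (by positivity)
      _ = _ := by ring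

theorem bnd_lo {ξ V N D w : ℝ} (hV : 1 ≤ V) (hS : Sieve ξ V N D) (hD : 0 ≤ D)
    {S : Finset O} (hB : Blk N S) (hw : ∀ n ∈ S, 2 ^ (pf n).card ≤ w) (β : O → ℂ) {s : ℂ}
    (hs : 0 ≤ s.re) (hs' : s.re ≤ 1 / 2) :
    ‖∑ n₁ ∈ S, ∑ n₂ ∈ S, β n₁ * conj (β n₂) *
        ∑ a ∈ (sqf V).filter (fun a => nr a ^ ξ ≤ N / nP (pf n₁ ∩ pf n₂)),
          dualA n₁ n₂ a (fun y => (y : ℂ) ^ (-s))‖ ≤
      4 * w ^ 5 * N ^ (2 * s.re) * D * ∑ n ∈ S, ‖β n‖ ^ 2 := by
  rcases S.eq_empty_or_nonempty with rfl | hne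
  · simp
  obtain ⟨hw1, hN1⟩ := Bnd_basic hB hw hne
  have hNs : 0 ≤ N ^ (2 * s.re) := by positivity
  have key := bil (Λ := 4 * w ^ 3 * N ^ (2 * s.re)) hS hD (by positivity)
    (fun n hn => ⟨(hB.1 n hn).1, (hB.1 n hn).2.2⟩) β
    (fun G a => if nr a ^ ξ ≤ N / nP G then ((nr a : ℝ) : ℂ) ^ (-s) *
      ∏ p ∈ G, (1 - (if p ∣ a then ((((nr p)⁻¹ : ℝ) : ℂ) ^ (-s)) ^ 2 else 1) / (nr p : ℂ)) else 0)
    (fun m => (((nr m)⁻¹ : ℝ) : ℂ) ^ (-s) / (Real.sqrt (nr m) : ℂ) *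
      eu (fun y => (y : ℂ) ^ (-s)) (pf m)) (fun G => (N / nP G / 2) ^ (s.re - 1 / 2) * w)
    (fun n hn G hG => by
      have hP := nP_pos (ne_zero_of_subset_pf hG)
      refine (Bnd_eta hs (ne_zero_of_SP (SP_cof (hB.1 n hn).1 G)) (Bnd_pf_cof G n)
        (hw n hn)).trans (mul_le_mul_of_nonneg_right ?_ (by linarith))
      refine Real.rpow_le_rpow_of_nonpos (by positivity) ?_ (by linarith)
      rw [nr_cof (hB.1 n hn).1 hG, div_right_comm]
      exact div_le_div_of_nonneg_right (hB.1 n hn).2.1 hP.le)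
    (fun n hn G hG a ha => by
      have ha0 := ne_zero_of_mem_sqf ha
      have hP := nP_pos (ne_zero_of_subset_pf hG)
      split_ifs with hc
      · have h1 : ‖((nr a : ℝ) : ℂ) ^ (-s) * ∏ p ∈ G, (1 - (if p ∣ a then
            ((((nr p)⁻¹ : ℝ) : ℂ) ^ (-s)) ^ 2 else 1) / (nr p : ℂ))‖ ≤ w := by
          rw [norm_mul]
          calc _ ≤ 1 * w := by
                gcongr
                · exact Bnd_norm_psi_le hs (one_le_nr ha0)
                · exact Bnd_dual_c hs' hG (hw n hn) a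
            _ = w := by ring
        have h2 : N / nP G ≤ N := div_le_self (by linarith) (one_le_nP (ne_zero_of_subset_pf hG))
        set y := N / nP G / 2 with hy
        have hy0 : 0 < y := by positivity
        have h3 : (y ^ (s.re - 1 / 2)) ^ 2 * y = y ^ (2 * s.re) := by
          rw [← Real.rpow_natCast, ← Real.rpow_mul hy0.le, ← Real.rpow_add_one hy0.ne']
          congr 1; push_cast; ring
        have h4 : y ^ (2 * s.re) ≤ N ^ (2 * s.re) :=
          Real.rpow_le_rpow hy0.le (by linarith) (by linarith)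
        have h5 : 0 ≤ nr a ^ ξ := Real.rpow_nonneg (nr_pos ha0).le _
        have h6 : N / nP G + nr a ^ ξ ≤ 4 * y := by linarith
        calc _ ≤ w * (y ^ (s.re - 1 / 2) * w) ^ 2 * (4 * y) := by gcongr
          _ = 4 * w ^ 3 * ((y ^ (s.re - 1 / 2)) ^ 2 * y) := by ring
          _ ≤ 4 * w ^ 3 * N ^ (2 * s.re) := by rw [h3]; gcongr
      · simp only [norm_zero, zero_mul]; positivity)
  refine le_trans (le_of_eq ?_) (key.trans ?_)
  · refine congrArg norm ?_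
    refine Finset.sum_congr rfl fun n₁ h₁ => Finset.sum_congr rfl fun n₂ h₂ => ?_
    refine congrArg (fun z => β n₁ * conj (β n₂) * z) ?_
    rw [Finset.sum_filter]
    refine Finset.sum_congr rfl fun a ha => ?_
    split_ifs
    · exact dual_eval (mulF_cpow s) (hB.1 n₁ h₁).1 (hB.1 n₂ h₂).1 (ne_zero_of_mem_sqf ha)
    · simp
  · calc _ ≤ 4 * w ^ 3 * N ^ (2 * s.re) * D * (w ^ 2 * ∑ n ∈ S, ‖β n‖ ^ 2) :=
          mul_le_mul_of_nonneg_left (Bnd_fin hw β) (by positivity)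
      _ = _ := by ring

theorem bnd_hi {ξ V N D w : ℝ} (hξ : 1 ≤ ξ) (hV : 1 ≤ V) (hS : Sieve ξ V N D) (hD : 0 ≤ D)
    {S : Finset O} (hB : Blk N S) (hw : ∀ n ∈ S, 2 ^ (pf n).card ≤ w) (β : O → ℂ) {s : ℂ}
    (hs : 0 ≤ s.re) (hs' : s.re ≤ 1 / 2) :
    ‖∑ n₁ ∈ S, ∑ n₂ ∈ S, β n₁ * conj (β n₂) *
        ∑ a ∈ (sqf V).filter (fun a => ¬ nr a ^ ξ ≤ N / nP (pf n₁ ∩ pf n₂)),
          dualA n₁ n₂ a (fun y => (y : ℂ) ^ (-s))‖ ≤
      2 * w ^ 5 * V ^ (ξ - s.re) * D * ∑ n ∈ S, ‖β n‖ ^ 2 := by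
  rcases S.eq_empty_or_nonempty with rfl | hne
  · simp
  obtain ⟨hw1, hN1⟩ := Bnd_basic hB hw hne
  have hV0 : 0 ≤ V := by linarith
  have hVs : 0 ≤ V ^ (ξ - s.re) := by positivity
  have key := bil (Λ := 2 * w ^ 3 * V ^ (ξ - s.re)) hS hD (by positivity)
    (fun n hn => ⟨(hB.1 n hn).1, (hB.1 n hn).2.2⟩) β
    (fun G a => if ¬ nr a ^ ξ ≤ N / nP G then ((nr a : ℝ) : ℂ) ^ (-s) *
      ∏ p ∈ G, (1 - (if p ∣ a then ((((nr p)⁻¹ : ℝ) : ℂ) ^ (-s)) ^ 2 else 1) / (nr p : ℂ)) else 0)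
    (fun m => (((nr m)⁻¹ : ℝ) : ℂ) ^ (-s) / (Real.sqrt (nr m) : ℂ) *
      eu (fun y => (y : ℂ) ^ (-s)) (pf m)) (fun _ => w)
    (fun n hn G _ => by
      have hm := ne_zero_of_SP (SP_cof (hB.1 n hn).1 G)
      refine (Bnd_eta hs hm (Bnd_pf_cof G n) (hw n hn)).trans
        (mul_le_of_le_one_left (by linarith) ?_)
      exact Real.rpow_le_one_of_one_le_of_nonpos (one_le_nr hm) (by linarith))
    (fun n hn G hG a ha => by
      have ha0 := ne_zero_of_mem_sqf ha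
      have hP := nP_pos (ne_zero_of_subset_pf hG)
      have ha1 := nr_pos ha0
      by_cases hc : nr a ^ ξ ≤ N / nP G
      · rw [if_neg (not_not.2 hc)]
        simp only [norm_zero, zero_mul]; positivity
      · rw [if_pos hc]
        have h1 : ‖((nr a : ℝ) : ℂ) ^ (-s) * ∏ p ∈ G, (1 - (if p ∣ a then
            ((((nr p)⁻¹ : ℝ) : ℂ) ^ (-s)) ^ 2 else 1) / (nr p : ℂ))‖ ≤ nr a ^ (-s.re) * w := by
          rw [norm_mul, Bnd_norm_psi s ha1]
          exact mul_le_mul_of_nonneg_left (Bnd_dual_c hs' hG (hw n hn) a) (by positivity)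
        have h3 : nr a ^ (-s.re) * nr a ^ ξ = nr a ^ (ξ - s.re) := by
          rw [← Real.rpow_add ha1]; congr 1; ring
        have h4 : nr a ^ (ξ - s.re) ≤ V ^ (ξ - s.re) :=
          Real.rpow_le_rpow ha1.le ((mem_sqf hV0).1 ha).2 (by linarith)
        have h5 : 0 ≤ N / nP G := by positivity
        have h6 : N / nP G + nr a ^ ξ ≤ 2 * nr a ^ ξ := by linarith [not_le.1 hc]
        calc _ ≤ nr a ^ (-s.re) * w * w ^ 2 * (2 * nr a ^ ξ) := by gcongr
          _ = 2 * w ^ 3 * (nr a ^ (-s.re) * nr a ^ ξ) := by ring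
          _ ≤ 2 * w ^ 3 * V ^ (ξ - s.re) := by rw [h3]; gcongr)
  refine le_trans (le_of_eq ?_) (key.trans ?_)
  · refine congrArg norm ?_
    refine Finset.sum_congr rfl fun n₁ h₁ => Finset.sum_congr rfl fun n₂ h₂ => ?_
    refine congrArg (fun z => β n₁ * conj (β n₂) * z) ?_
    rw [Finset.sum_filter]
    refine Finset.sum_congr rfl fun a ha => ?_
    by_cases hc : nr a ^ ξ ≤ N / nP (pf n₁ ∩ pf n₂)
    · rw [if_neg (not_not.2 hc), if_neg (not_not.2 hc)]; simp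
    · rw [if_pos hc, if_pos hc]
      exact dual_eval (mulF_cpow s) (hB.1 n₁ h₁).1 (hB.1 n₂ h₂).1 (ne_zero_of_mem_sqf ha)
  · calc _ ≤ 2 * w ^ 3 * V ^ (ξ - s.re) * D * (w ^ 2 * ∑ n ∈ S, ‖β n‖ ^ 2) :=
          mul_le_mul_of_nonneg_left (Bnd_fin hw β) (by positivity)
      _ = _ := by ring

end Crest.Agent.R17.LS2
end
end

-- ▼ part PVc/R17/LS2Core
section

/-!
# Row 17, module M7 (quadratic large sieve): the recursive step
-/

set_option autoImplicit false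

noncomputable section

namespace Crest.Agent.R17.LS2

open scoped ComplexConjugate
open Classical

/-- The numerical facts on the parameters `P = (M N)^δ`, `V = N^{1/ξ} P`. -/
theorem core_params {ξ δ M N P V : ℝ} (h1 : 1 ≤ ξ) (h2 : ξ ≤ 2) (hδ0 : 0 < δ) (hδ1 : δ ≤ 1 / 4)
    (hN : 1 ≤ N) (hM : N ^ (2 - 1 / ξ) ≤ M) (hP : P = (M * N) ^ δ) (hV : V = N ^ (1 / ξ) * P) :
    N ≤ M ∧ 1 ≤ P ∧ 1 ≤ V ∧ N ^ δ ≤ P ∧ M ^ δ ≤ P ∧ (V * N) ^ δ ≤ P ^ 3 ∧ V ^ ξ ≤ M * P ^ 2 ∧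
      N ^ (2 * δ) ≤ P ^ 2 ∧ M ^ (1 - δ) ≤ M ∧
      M ^ (1 - (1 / 2 - δ)) * V ^ (ξ - (1 / 2 - δ)) ≤ M * P ^ 5 ∧
      N * ((M / N ^ 2) ^ (-(3 / δ)) * V ^ (1 - 3 / δ)) ≤ 1 := by
  have hN0 : 0 < N := by linarith
  set η := 1 / ξ with hη
  have hξ0 : 0 < ξ := by linarith
  have hη1 : η ≤ 1 := by rw [hη, div_le_one hξ0]; exact h1
  have hη2 : 1 / 2 ≤ η := by rw [hη]; exact one_div_le_one_div_of_le hξ0 h2
  have hξη : ξ * η = 1 := by rw [hη]; field_simp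
  have hM0 : 0 < M := lt_of_lt_of_le (Real.rpow_pos_of_pos hN0 _) hM
  obtain ⟨x, rfl⟩ : ∃ x, N = Real.exp x := ⟨Real.log N, (Real.exp_log hN0).symm⟩
  obtain ⟨y, rfl⟩ : ∃ y, M = Real.exp y := ⟨Real.log M, (Real.exp_log hM0).symm⟩
  have hx : 0 ≤ x := by rwa [Real.one_le_exp_iff] at hN
  rw [← Real.exp_mul, Real.exp_le_exp] at hM
  have hxy : x ≤ y := by nlinarith
  have hy : 0 ≤ y := by linarith
  set p := (y + x) * δ with hp
  have hp0 : 0 ≤ p := by positivity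
  have hp1 : p ≤ y + x := by nlinarith
  have hP' : P = Real.exp p := by rw [hP, ← Real.exp_add, ← Real.exp_mul]
  have hV' : V = Real.exp (x * η + p) := by rw [hV, hP', ← Real.exp_mul, ← Real.exp_add]
  subst hP' hV'
  have hxη : x * η ≤ x := by nlinarith
  have hxη0 : 0 ≤ x * η := by positivity
  simp only [← Real.exp_mul, ← Real.exp_add, ← Real.exp_nat_mul, ← Real.exp_sub,
    Real.exp_le_exp, Real.one_le_exp_iff, Real.exp_le_one_iff, Nat.cast_ofNat]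
  refine ⟨hxy, hp0, by linarith, by nlinarith, by nlinarith, by nlinarith, ?_, by nlinarith,
    by nlinarith, ?_, ?_⟩
  · have : (x * η + p) * ξ = x + p * ξ := by linear_combination x * hξη
    rw [this]; nlinarith
  · have e : (x * η + p) * (ξ - (1 / 2 - δ)) =
        x * (2 - η) / 2 + p * (ξ - 1 / 2) + (x * η + p) * δ := by linear_combination x * hξη
    rw [e]
    have a1 : p * (ξ - 1 / 2) ≤ 2 * p := by nlinarith
    have a2 : (x * η + p) * δ ≤ 2 * p := by nlinarith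
    have a3 : y * δ ≤ p := by nlinarith
    nlinarith
  · have hA : 0 < 3 / δ := by positivity
    have e : p * (3 / δ) = 3 * (y + x) := by rw [hp]; field_simp
    have a1 : 0 ≤ (y - 2 * x + x * η) * (3 / δ) := mul_nonneg (by nlinarith) hA.le
    nlinarith

theorem fc_origA (n₁ n₂ : O) {a : O} (ha : a ≠ 0) : FC (origA n₁ n₂ a) := by
  refine FC.const_mul (FC.sum _ fun D hD => FC.const_mul (FC.eval ?_) _) _
  rw [Finset.mem_powerset] at hD
  have : 0 < nP D := nP_pos fun p hp => by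
    rcases Finset.mem_union.1 (hD hp) with h | h <;> exact (BasicB.pf_sub h).1.ne_zero
  have := nr_pos ha
  positivity

theorem fc_dualA (n₁ n₂ : O) {a : O} (ha : a ≠ 0) : FC (dualA n₁ n₂ a) := by
  refine FC.sum _ fun E hE => FC.const_mul (FC.sum _ fun D hD => FC.const_mul (FC.eval ?_) _) _
  rw [Finset.mem_powerset] at hD hE
  have h1 : 0 < nP D := nP_pos fun p hp => by
    rcases Finset.mem_union.1 (hD hp) with h | h <;> exact (BasicB.pf_sub h).1.ne_zero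
  have h2 : 0 < nP (E.filter (· ∣ a)) := nP_pos fun p hp =>
    (BasicB.pf_sub (Finset.mem_inter.1 (hE (Finset.mem_filter.1 hp).1)).1).1.ne_zero
  have h3 := nr_pos ha
  have h4 := nr_pos (primary_cof (pf n₁ ∩ pf n₂) n₁).ne_zero
  have h5 := nr_pos (primary_cof (pf n₁ ∩ pf n₂) n₂).ne_zero
  positivity

theorem summable_tail (V : ℝ) {Y : ℝ} (hY : 0 < Y) :
    Summable (fun h : O => if V < nr h then gw (Y * nr h) else 0) := by
  refine Summable.of_nonneg_of_le (fun h => ?_) (fun h => ?_) (summable_gw' (inv_pos.2 hY))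
  · split_ifs
    · exact (gw_pos _).le
    · exact le_rfl
  · rw [div_inv_eq_mul, mul_comm (nr h)]
    split_ifs
    · exact le_rfl
    · exact (gw_pos _).le

theorem tail_le {A : ℝ} (hA : 1 < A) : ∃ C : ℝ, 0 < C ∧ ∀ V Y : ℝ, 1 ≤ V → 0 < Y →
    ∑' h : O, (if V < nr h then gw (Y * nr h) else 0) ≤ C * (Y ^ (-A) * V ^ (1 - A)) := by
  obtain ⟨C₁, hC₁, h₁⟩ := gw_le_rpow A
  obtain ⟨C₂, hC₂, h₂⟩ := sum_nr_rpow_tail hA
  refine ⟨C₁ * C₂, by positivity, fun V Y hV hY => ?_⟩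
  refine (summable_tail V hY).tsum_le_of_sum_le fun s => ?_
  rw [← Finset.sum_filter]
  calc ∑ h ∈ s.filter (fun h => V < nr h), gw (Y * nr h)
      ≤ ∑ h ∈ s.filter (fun h => V < nr h), C₁ * Y ^ (-A) * nr h ^ (-A) := by
        refine Finset.sum_le_sum fun h hh => ?_
        have hh' : 0 < nr h := by linarith [(Finset.mem_filter.1 hh).2]
        rw [mul_assoc, ← Real.mul_rpow hY.le hh'.le]
        exact h₁ _ (by positivity) (by linarith)
    _ ≤ C₁ * Y ^ (-A) * (C₂ * V ^ (1 - A)) := by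
        rw [← Finset.mul_sum]
        exact mul_le_mul_of_nonneg_left (h₂ V _ hV fun h hh => (Finset.mem_filter.1 hh).2.le)
          (by positivity)
    _ = _ := by ring

theorem sum_norm_mul_le (S : Finset O) (β : O → ℂ) :
    ∑ n₁ ∈ S, ∑ n₂ ∈ S, ‖β n₁‖ * ‖β n₂‖ ≤ S.card * ∑ n ∈ S, ‖β n‖ ^ 2 := by
  rw [← Finset.sum_mul_sum, ← sq]
  exact sq_sum_le_card_mul_sum_sq

theorem normSq_expand (S : Finset O) (β : O → ℂ) (k : O) :
    ((‖∑ n ∈ S, β n * quad n k‖ ^ 2 : ℝ) : ℂ) =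
      ∑ n₁ ∈ S, ∑ n₂ ∈ S, β n₁ * conj (β n₂) * (quad n₁ k * quad n₂ k) := by
  rw [← Complex.normSq_eq_norm_sq, ← Complex.mul_conj, map_sum, Finset.sum_mul_sum]
  refine Finset.sum_congr rfl fun n₁ _ => Finset.sum_congr rfl fun n₂ _ => ?_
  rw [map_mul, conj_quad]; ring

theorem summable_pair (V : ℝ) {X : ℝ} (hX : 0 < X) (n₁ n₂ : O) :
    Summable (fun k : O =>
      if k ∈ PP V then (0 : ℂ) else (gw (nr k / X) : ℂ) * (quad n₁ k * quad n₂ k)) := by
  refine Summable.of_norm_bounded (summable_gw' hX) fun k => ?_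
  split_ifs
  · rw [norm_zero]; exact (gw_pos _).le
  · rw [norm_mul, norm_mul, Complex.norm_real, Real.norm_of_nonneg (gw_pos _).le]
    exact mul_le_of_le_one_right (gw_pos _).le
      (mul_le_one₀ (norm_quad_le _ _) (norm_nonneg _) (norm_quad_le _ _))

/-- The inequality at a fixed scale `X`. -/
theorem point (κ : ℝ) {M N V X w : ℝ} (hV : 0 ≤ V) (hM : 0 ≤ M) (hX : 0 < X) {S : Finset O}
    (hB : Blk N S) (hw0 : 0 ≤ w) (hw : ∀ n ∈ S, 2 ^ (pf n).card ≤ w) (β : O → ℂ) (hN : 0 < N) :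
    gw (M / X) * (6 * ∑ k ∈ (sp 6 M).filter (fun k => V < nr k),
        ‖∑ n ∈ S, β n * quad n k‖ ^ 2) ≤
      6 * w * X * (1 + S.card * ∑' h : O, if V < nr h then gw (X / N ^ 2 * nr h) else 0) *
        ∑ n ∈ S, ‖β n‖ ^ 2 +
      (∑ n₁ ∈ S, ∑ n₂ ∈ S, β n₁ * conj (β n₂) *
        ∑ a ∈ sqf V, ((X : ℂ) * dualA n₁ n₂ a (fun y => (Er κ (y * X) : ℂ)) -
          origA n₁ n₂ a (fun y => (Er κ (y / X) : ℂ)))).re := by
  set F : O → ℝ := fun k => ‖∑ n ∈ S, β n * quad n k‖ ^ 2 with hF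
  set t : ℝ := ∑' h : O, if V < nr h then gw (X / N ^ 2 * nr h) else 0 with ht
  set g : O → O → O → ℂ := fun n₁ n₂ k =>
    if k ∈ PP V then (0 : ℂ) else (gw (nr k / X) : ℂ) * (quad n₁ k * quad n₂ k) with hg
  set m : O → O → ℂ := fun n₁ n₂ =>
    ∑ a ∈ sqf V, ((X : ℂ) * dualA n₁ n₂ a (fun y => (Er κ (y * X) : ℂ)) -
          origA n₁ n₂ a (fun y => (Er κ (y / X) : ℂ))) with hm
  set r : O → ℝ := fun k => if k ∈ PP V then 0 else gw (nr k / X) * F k with hr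
  have hrC : ∀ k, (r k : ℂ) = ∑ n₁ ∈ S, ∑ n₂ ∈ S, β n₁ * conj (β n₂) * g n₁ n₂ k := by
    intro k
    simp only [hr, hg]
    split_ifs
    · simp
    · rw [Complex.ofReal_mul, hF, normSq_expand, Finset.mul_sum]
      refine Finset.sum_congr rfl fun n₁ _ => ?_
      rw [Finset.mul_sum]
      exact Finset.sum_congr rfl fun n₂ _ => by ring
  have hs : ∀ n₁ n₂, Summable (fun k => β n₁ * conj (β n₂) * g n₁ n₂ k) :=
    fun n₁ n₂ => (summable_pair V hX n₁ n₂).mul_left _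
  have hsC : Summable (fun k => (r k : ℂ)) := by
    simp only [hrC]
    exact summable_sum fun n₁ _ => summable_sum fun n₂ _ => hs n₁ n₂
  have hsr : Summable r := Complex.summable_ofReal.1 hsC
  have hr0 : ∀ k, 0 ≤ r k := fun k => by
    simp only [hr, hF]
    split_ifs
    · exact le_rfl
    · exact mul_nonneg (gw_pos _).le (sq_nonneg _)
  have e1 : ((∑' k, r k : ℝ) : ℂ) =
      ∑ n₁ ∈ S, ∑ n₂ ∈ S, β n₁ * conj (β n₂) * ∑' k, g n₁ n₂ k := by
    rw [Complex.ofReal_tsum]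
    simp only [hrC]
    rw [Summable.tsum_finsetSum fun n₁ _ => summable_sum fun n₂ _ => hs n₁ n₂]
    refine Finset.sum_congr rfl fun n₁ _ => ?_
    rw [Summable.tsum_finsetSum fun n₂ _ => hs n₁ n₂]
    exact Finset.sum_congr rfl fun n₂ _ => tsum_mul_left
  have h1 : gw (M / X) * ∑ k ∈ (sp 6 M).filter (fun k => V < nr k), F k ≤ ∑' k, r k := by
    rw [Finset.mul_sum]
    refine le_trans (Finset.sum_le_sum fun k hk => ?_) (hsr.sum_le_tsum _ fun k _ => hr0 k)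
    obtain ⟨hk1, hk2⟩ := Finset.mem_filter.1 hk
    obtain ⟨hk3, hk4⟩ := (mem_sp hM).1 hk1
    simp only [hr]
    rw [if_neg (not_mem_PP_of_squarefree hV hk3.2.1 hk2)]
    exact mul_le_mul_of_nonneg_right (gw_antitone (by gcongr)) (sq_nonneg _)
  have ht0 : 0 ≤ t := tsum_nonneg fun h => by
    split_ifs
    · exact (gw_pos _).le
    · exact le_rfl
  have h2 : ∀ n₁ ∈ S, ∀ n₂ ∈ S, ‖β n₁ * conj (β n₂) * (6 * (∑' k, g n₁ n₂ k) - m n₁ n₂)‖ ≤
      6 * w * X * ((if n₁ = n₂ then ‖β n₁‖ ^ 2 else 0) + t * (‖β n₁‖ * ‖β n₂‖)) := by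
    intro n₁ h₁ n₂ h₂
    have hp := pair_est κ V hX (hB.1 n₁ h₁).1 (hB.1 n₂ h₂).1 (hB.2 n₁ h₁ n₂ h₂)
    have a1 := nr_pos (ne_zero_of_SP (hB.1 n₁ h₁).1)
    have a2 := nr_pos (ne_zero_of_SP (hB.1 n₂ h₂).1)
    have ht' : (∑' h : O, if V < nr h then gw (X * nr h / (nr n₁ * nr n₂)) else 0) ≤ t := by
      simp only [mul_div_right_comm X]
      refine Summable.tsum_le_tsum (fun h => ?_) (summable_tail V (by positivity))
        (summable_tail V (by positivity))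
      split_ifs
      · refine gw_antitone ?_
        have : nr n₁ * nr n₂ ≤ N ^ 2 := by
          rw [sq]; exact mul_le_mul (hB.1 n₁ h₁).2.2 (hB.1 n₂ h₂).2.2 a2.le hN.le
        gcongr
      · exact le_rfl
    rw [norm_mul, norm_mul, Complex.norm_conj]
    have hp' : ‖6 * (∑' k, g n₁ n₂ k) - m n₁ n₂‖ ≤ 6 * w * X * ((if n₁ = n₂ then 1 else 0) + t) := by
      refine hp.trans ?_
      have : (0 : ℝ) ≤ if n₁ = n₂ then 1 else 0 := by split_ifs <;> norm_num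
      have := hw n₁ h₁
      have : 0 ≤ ∑' h : O, if V < nr h then gw (X * nr h / (nr n₁ * nr n₂)) else 0 :=
        tsum_nonneg fun h => by
          split_ifs
          · exact (gw_pos _).le
          · exact le_rfl
      gcongr
    refine (mul_le_mul_of_nonneg_left hp' (by positivity)).trans (le_of_eq ?_)
    split_ifs with h
    · subst h; ring
    · ring
  have h3 : ‖∑ n₁ ∈ S, ∑ n₂ ∈ S, β n₁ * conj (β n₂) * (6 * (∑' k, g n₁ n₂ k) - m n₁ n₂)‖ ≤
      6 * w * X * (1 + S.card * t) * ∑ n ∈ S, ‖β n‖ ^ 2 := by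
    refine (norm_sum_le _ _).trans ?_
    refine (Finset.sum_le_sum fun n₁ h₁ => (norm_sum_le _ _).trans
      (Finset.sum_le_sum fun n₂ h₂ => h2 n₁ h₁ n₂ h₂)).trans ?_
    simp only [← Finset.mul_sum, Finset.sum_add_distrib]
    rw [mul_assoc (6 * w * X)]
    refine mul_le_mul_of_nonneg_left ?_ (by positivity)
    have a1 : ∑ n₁ ∈ S, ∑ n₂ ∈ S, (if n₁ = n₂ then ‖β n₁‖ ^ 2 else 0) = ∑ n ∈ S, ‖β n‖ ^ 2 :=
      Finset.sum_congr rfl fun n hn => by rw [Finset.sum_ite_eq, if_pos hn]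
    have a2 := sum_norm_mul_le S β
    simp only [← Finset.mul_sum] at a2
    rw [a1]
    nlinarith
  have e2 : (6 * ∑' k, r k : ℝ) = (∑ n₁ ∈ S, ∑ n₂ ∈ S, β n₁ * conj (β n₂) *
      (6 * (∑' k, g n₁ n₂ k) - m n₁ n₂)).re +
      (∑ n₁ ∈ S, ∑ n₂ ∈ S, β n₁ * conj (β n₂) * m n₁ n₂).re := by
    rw [← Complex.add_re, ← Complex.ofReal_re (6 * ∑' k, r k), Complex.ofReal_mul, e1]
    congr 1
    simp only [Finset.mul_sum, ← Finset.sum_add_distrib]
    refine Finset.sum_congr rfl fun n₁ _ => Finset.sum_congr rfl fun n₂ _ => ?_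
    push_cast; ring
  have h4 := (Complex.re_le_norm _).trans h3
  linarith

/-- Rows of small norm. -/
theorem small_rows {ξ M N V D : ℝ} (hξ : 0 ≤ ξ) (hV : 0 ≤ V) (hM : 0 ≤ M) (hN : 1 ≤ N)
    (hS : Sieve ξ V N D) {S : Finset O} (hB : Blk N S) (β : O → ℂ) :
    ∑ k ∈ (sp 6 M).filter (fun k => ¬ V < nr k), ‖∑ n ∈ S, β n * quad n k‖ ^ 2 ≤
      (N + V ^ ξ) * (D * ∑ n ∈ S, ‖β n‖ ^ 2) := by
  have h := hS N hN le_rfl S id β (Set.injOn_id _) fun i hi => ⟨(hB.1 i hi).1, (hB.1 i hi).2.2⟩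
  have hp : 0 ≤ N + V ^ ξ := by positivity
  refine le_trans ?_ (mul_le_mul_of_nonneg_left h hp)
  rw [Finset.mul_sum]
  have hsub : (sp 6 M).filter (fun k => ¬ V < nr k) ⊆ sqf V := fun k hk => by
    obtain ⟨h1, h2⟩ := Finset.mem_filter.1 hk
    exact (mem_sqf hV).2 ⟨((mem_sp hM).1 h1).1.2.1, not_lt.1 h2⟩
  refine le_trans (Finset.sum_le_sum_of_subset_of_nonneg hsub fun _ _ _ => sq_nonneg _)
    (Finset.sum_le_sum fun a ha => ?_)
  have h1 : 0 < N + nr a ^ ξ := by positivity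
  have h2 : nr a ^ ξ ≤ V ^ ξ := Real.rpow_le_rpow (Nat.cast_nonneg _) ((mem_sqf hV).1 ha).2 hξ
  rw [← mul_div_assoc, le_div_iff₀ h1, mul_comm]
  exact mul_le_mul_of_nonneg_right (by linarith) (sq_nonneg _)

theorem Core_of_LSw {ξ : ℝ} (h1 : 1 ≤ ξ) (h2 : ξ ≤ 2) (h : LSw ξ) : Core (2 - 1 / ξ) := by
  intro ε hε
  set δ : ℝ := min (ε / 13) (1 / 4) with hδ
  have hδ0 : 0 < δ := lt_min (by positivity) (by norm_num)
  have hδ1 : δ ≤ 1 / 4 := min_le_right _ _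
  have hδ2 : δ ≤ ε / 13 := min_le_left _ _
  have hA : 1 < 3 / δ := by rw [lt_div_iff₀ hδ0]; linarith
  obtain ⟨κ, CE, -, hE⟩ := exists_Er
  obtain ⟨C₁, hC₁, hS⟩ := h δ hδ0
  obtain ⟨C₂, hC₂, hw⟩ := pow_card_pf_le hδ0 2
  obtain ⟨C₃, hC₃, hav⟩ := avg (measurable_Er κ) hE (σ := δ) (τ := 1 / 2 - δ) hδ0 (by linarith)
    (by linarith) (by linarith) (3 / δ - 1)
  obtain ⟨C₄, hC₄, htail⟩ := tail_le hA
  refine ⟨2 * C₁ + C₃ * (6 * C₂ * (1 + 8 * C₄) + 8 * C₁ * C₂ ^ 5), by positivity,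
    fun M N S β hN hM hB => ?_⟩
  obtain ⟨p1, p2, p3, p4, p5, p6, p7, p8, p9, p10, p11⟩ :=
    core_params h1 h2 hδ0 hδ1 hN hM rfl rfl
  set P : ℝ := (M * N) ^ δ with hP
  set V : ℝ := N ^ (1 / ξ) * P with hV
  have hN0 : 0 < N := by linarith
  have hM0 : 0 < M := by linarith
  have hV0 : 0 < V := by linarith
  have hP0 : 0 < P := by linarith
  set B : ℝ := ∑ n ∈ S, ‖β n‖ ^ 2 with hBdef
  have hB0 : 0 ≤ B := Finset.sum_nonneg fun _ _ => sq_nonneg _
  set D : ℝ := C₁ * (V * N) ^ δ with hD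
  have hD0 : 0 ≤ D := by positivity
  have hD1 : D ≤ C₁ * P ^ 3 := mul_le_mul_of_nonneg_left p6 hC₁.le
  have hSv : Sieve ξ V N D := hS V N p3 hN
  set w : ℝ := C₂ * P with hwdef
  have hw0 : 0 ≤ w := by positivity
  have hw' : ∀ n ∈ S, 2 ^ (pf n).card ≤ w := fun n hn =>
    (hw n (ne_zero_of_SP (hB.1 n hn).1)).trans (mul_le_mul_of_nonneg_left
      ((Real.rpow_le_rpow (Nat.cast_nonneg _) (hB.1 n hn).2.2 hδ0.le).trans p4) hC₂.le)
  have hcard : (S.card : ℝ) ≤ 8 * N := by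
    have a1 : S ⊆ ball ⌊N⌋₊ := fun n hn => mem_ball.2 (Nat.le_floor (hB.1 n hn).2.2)
    have a2 := (Finset.card_le_card a1).trans (card_ball_le _)
    have a3 : (S.card : ℝ) ≤ 7 * (⌊N⌋₊ : ℝ) + 1 := by exact_mod_cast a2
    linarith [Nat.floor_le hN0.le]
  have hNV : N + V ^ ξ ≤ 2 * M * P ^ 2 := by nlinarith [one_le_pow₀ (n := 2) p2]
  have hbig := hav
    (fun f => ∑ n₁ ∈ S, ∑ n₂ ∈ S, β n₁ * conj (β n₂) * ∑ a ∈ sqf V, origA n₁ n₂ a f)
    (fun f => ∑ n₁ ∈ S, ∑ n₂ ∈ S, β n₁ * conj (β n₂) *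
      ∑ a ∈ (sqf V).filter (fun a => nr a ^ ξ ≤ N / nP (pf n₁ ∩ pf n₂)), dualA n₁ n₂ a f)
    (fun f => ∑ n₁ ∈ S, ∑ n₂ ∈ S, β n₁ * conj (β n₂) *
      ∑ a ∈ (sqf V).filter (fun a => ¬ nr a ^ ξ ≤ N / nP (pf n₁ ∩ pf n₂)), dualA n₁ n₂ a f)
    M (6 * ∑ k ∈ (sp 6 M).filter (fun k => V < nr k), ‖∑ n ∈ S, β n * quad n k‖ ^ 2)
    (6 * w * M * (1 + 8 * C₄) * B) (w ^ 5 * (N + V ^ ξ) * D * B)
    (4 * w ^ 5 * N ^ (2 * δ) * D * B) (2 * w ^ 5 * V ^ (ξ - (1 / 2 - δ)) * D * B)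
    (FC.sum _ fun n₁ _ => FC.sum _ fun n₂ _ => FC.const_mul
      (FC.sum _ fun a ha => fc_origA n₁ n₂ (ne_zero_of_mem_sqf ha)) _)
    (FC.sum _ fun n₁ _ => FC.sum _ fun n₂ _ => FC.const_mul
      (FC.sum _ fun a ha => fc_dualA n₁ n₂ (ne_zero_of_mem_sqf (Finset.mem_filter.1 ha).1)) _)
    (FC.sum _ fun n₁ _ => FC.sum _ fun n₂ _ => FC.const_mul
      (FC.sum _ fun a ha => fc_dualA n₁ n₂ (ne_zero_of_mem_sqf (Finset.mem_filter.1 ha).1)) _)
    hM0 (by positivity)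
    (fun s hs => bnd_orig (by linarith) p3 hSv hD0 hB hw' β (by linarith))
    (fun s hs => by
      have := bnd_lo p3 hSv hD0 hB hw' β (s := s) (by linarith) (by linarith)
      rwa [hs] at this)
    (fun s hs => by
      have := bnd_hi h1 p3 hSv hD0 hB hw' β (s := s) (by linarith) (by linarith)
      rwa [hs] at this)
    (fun X hX => by
      refine (point κ hV0.le hM0.le hX hB hw0 hw' β hN0).trans (add_le_add ?_ (le_of_eq ?_))
      · have t1 := htail V (X / N ^ 2) p3 (by positivity)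
        have hu : 0 < X / M := by positivity
        have t2 : X / M * (X / N ^ 2) ^ (-(3 / δ)) =
            (X / M) ^ (-(3 / δ - 1)) * (M / N ^ 2) ^ (-(3 / δ)) := by
          have e : X / N ^ 2 = X / M * (M / N ^ 2) := by field_simp
          rw [e, Real.mul_rpow hu.le (by positivity), ← mul_assoc,
            show -(3 / δ - 1) = 1 + -(3 / δ) by ring, Real.rpow_add hu, Real.rpow_one]
        have hv : 0 < (X / M) ^ (-(3 / δ - 1)) := by positivity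
        have t3 : X / M * (S.card * ∑' h : O, if V < nr h then gw (X / N ^ 2 * nr h) else 0) ≤
            8 * C₄ * (X / M) ^ (-(3 / δ - 1)) := by
          have t0 : 0 ≤ ∑' h : O, if V < nr h then gw (X / N ^ 2 * nr h) else 0 :=
            tsum_nonneg fun h => by
              split_ifs
              · exact (gw_pos _).le
              · exact le_rfl
          calc _ ≤ X / M * (8 * N * (C₄ * ((X / N ^ 2) ^ (-(3 / δ)) * V ^ (1 - 3 / δ)))) := by
                gcongr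
            _ = 8 * C₄ * (X / M * (X / N ^ 2) ^ (-(3 / δ))) * (N * V ^ (1 - 3 / δ)) := by ring
            _ = 8 * C₄ * (X / M) ^ (-(3 / δ - 1)) *
                (N * ((M / N ^ 2) ^ (-(3 / δ)) * V ^ (1 - 3 / δ))) := by rw [t2]; ring
            _ ≤ _ := mul_le_of_le_one_right (by positivity) p11
        have t4 : 6 * w * X * (1 + S.card * ∑' h : O, if V < nr h then gw (X / N ^ 2 * nr h) else 0)
            * B = 6 * w * M * B * (X / M +
              X / M * (S.card * ∑' h : O, if V < nr h then gw (X / N ^ 2 * nr h) else 0)) := by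
          field_simp
        rw [t4]
        have t5 : 6 * w * M * (1 + 8 * C₄) * B * (X / M + (X / M) ^ (-(3 / δ - 1))) =
            6 * w * M * B * ((1 + 8 * C₄) * (X / M + (X / M) ^ (-(3 / δ - 1)))) := by ring
        rw [t5]
        refine mul_le_mul_of_nonneg_left ?_ (by positivity)
        nlinarith [mul_pos hC₄ hu]
      · congr 1
        simp only [← Finset.sum_add_distrib, ← mul_add, Finset.sum_filter_add_sum_filter_not,
          Finset.mul_sum, ← Finset.sum_sub_distrib]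
        refine Finset.sum_congr rfl fun n₁ _ => Finset.sum_congr rfl fun n₂ _ =>
          Finset.sum_congr rfl fun a _ => by ring)
  have hsmall := small_rows (by linarith) hV0.le hM0.le hN hSv hB β
  rw [← Finset.sum_filter_add_sum_filter_not (sp 6 M) (fun k => V < nr k)]
  have hP13 : P ^ 13 ≤ (M * N) ^ ε := by
    rw [hP, ← Real.rpow_natCast, ← Real.rpow_mul (by positivity)]
    exact Real.rpow_le_rpow_of_exponent_le (by nlinarith) (by push_cast; linarith)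
  have hpow : ∀ k ≤ 13, P ^ k ≤ (M * N) ^ ε := fun k hk =>
    (pow_le_pow_right₀ p2 hk).trans hP13
  set R : ℝ := (M * N) ^ ε with hR
  have b0 : (N + V ^ ξ) * (D * B) ≤ 2 * C₁ * (R * M * B) := by
    calc _ ≤ 2 * M * P ^ 2 * (C₁ * P ^ 3 * B) := by gcongr
      _ = 2 * C₁ * (P ^ 5 * M * B) := by ring
      _ ≤ _ := by gcongr; exact hpow 5 (by norm_num)
  have b1 : 6 * w * M * (1 + 8 * C₄) * B ≤ 6 * C₂ * (1 + 8 * C₄) * (R * M * B) := by
    calc _ = 6 * C₂ * (1 + 8 * C₄) * (P ^ 1 * M * B) := by rw [hwdef]; ring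
      _ ≤ _ := by gcongr; exact hpow 1 (by norm_num)
  have b2 : M ^ δ * (w ^ 5 * (N + V ^ ξ) * D * B) ≤ 2 * C₁ * C₂ ^ 5 * (R * M * B) := by
    calc _ ≤ P * (w ^ 5 * (2 * M * P ^ 2) * (C₁ * P ^ 3) * B) := by gcongr
      _ = 2 * C₁ * C₂ ^ 5 * (P ^ 11 * M * B) := by rw [hwdef]; ring
      _ ≤ _ := by gcongr; exact hpow 11 (by norm_num)
  have b3 : M ^ (1 - δ) * (4 * w ^ 5 * N ^ (2 * δ) * D * B) ≤
      4 * C₁ * C₂ ^ 5 * (R * M * B) := by
    calc _ ≤ M * (4 * w ^ 5 * P ^ 2 * (C₁ * P ^ 3) * B) := by gcongr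
      _ = 4 * C₁ * C₂ ^ 5 * (P ^ 10 * M * B) := by rw [hwdef]; ring
      _ ≤ _ := by gcongr; exact hpow 10 (by norm_num)
  have b4 : M ^ (1 - (1 / 2 - δ)) * (2 * w ^ 5 * V ^ (ξ - (1 / 2 - δ)) * D * B) ≤
      2 * C₁ * C₂ ^ 5 * (R * M * B) := by
    calc _ = 2 * w ^ 5 * (M ^ (1 - (1 / 2 - δ)) * V ^ (ξ - (1 / 2 - δ))) * D * B := by ring
      _ ≤ 2 * w ^ 5 * (M * P ^ 5) * (C₁ * P ^ 3) * B := by gcongr
      _ = 2 * C₁ * C₂ ^ 5 * (P ^ 13 * M * B) := by rw [hwdef]; ring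
      _ ≤ _ := by gcongr
  have hT : 0 ≤ ∑ k ∈ (sp 6 M).filter (fun k => V < nr k), ‖∑ n ∈ S, β n * quad n k‖ ^ 2 :=
    Finset.sum_nonneg fun _ _ => sq_nonneg _
  have b5 := hbig.trans (mul_le_mul_of_nonneg_left
    (add_le_add (add_le_add (add_le_add b1 b2) b3) b4) hC₃.le)
  have b6 := hsmall.trans b0
  nlinarith

end Crest.Agent.R17.LS2
end
end

-- ▼ part PVc/R17/LS2Dual
section

/-!
# Row 17, module M7 (quadratic large sieve): duality and reciprocity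
-/

set_option autoImplicit false

noncomputable section

namespace Crest.Agent.R17.LS2

open scoped ComplexConjugate
open Classical

/-- The duality principle. -/
theorem duality {α β : Type*} (S : Finset α) (T : Finset β) (φ : α → β → ℂ) {B : ℝ} (hB : 0 ≤ B)
    (h : ∀ x : β → ℂ, ∑ a ∈ S, ‖∑ b ∈ T, x b * φ a b‖ ^ 2 ≤ B * ∑ b ∈ T, ‖x b‖ ^ 2)
    (y : α → ℂ) : ∑ b ∈ T, ‖∑ a ∈ S, y a * φ a b‖ ^ 2 ≤ B * ∑ a ∈ S, ‖y a‖ ^ 2 := by
  set u : β → ℂ := fun b => ∑ a ∈ S, y a * φ a b with hu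
  set U : ℝ := ∑ b ∈ T, ‖u b‖ ^ 2 with hU
  set Y : ℝ := ∑ a ∈ S, ‖y a‖ ^ 2 with hY
  have hU0 : 0 ≤ U := Finset.sum_nonneg fun _ _ => sq_nonneg _
  have hY0 : 0 ≤ Y := Finset.sum_nonneg fun _ _ => sq_nonneg _
  have h1 : (U : ℂ) = ∑ a ∈ S, y a * ∑ b ∈ T, conj (u b) * φ a b := by
    have : (U : ℂ) = ∑ b ∈ T, conj (u b) * u b := by
      rw [hU]; push_cast
      exact Finset.sum_congr rfl fun b _ => (Complex.conj_mul' (u b)).symm
    rw [this]
    simp only [Finset.mul_sum]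
    rw [Finset.sum_comm]
    refine Finset.sum_congr rfl fun b _ => ?_
    conv_lhs => rw [hu]
    simp only [Finset.mul_sum]
    exact Finset.sum_congr rfl fun a _ => by ring
  have h2 : U ≤ ∑ a ∈ S, ‖y a‖ * ‖∑ b ∈ T, conj (u b) * φ a b‖ := by
    have : U = ‖(U : ℂ)‖ := by rw [Complex.norm_real, Real.norm_of_nonneg hU0]
    rw [this, h1]
    refine (norm_sum_le _ _).trans (le_of_eq ?_)
    exact Finset.sum_congr rfl fun a _ => norm_mul _ _
  have h3 : U ^ 2 ≤ Y * (B * U) := by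
    refine (pow_le_pow_left₀ hU0 h2 2).trans ((Finset.sum_mul_sq_le_sq_mul_sq _ _ _).trans ?_)
    refine mul_le_mul_of_nonneg_left ((h fun b => conj (u b)).trans (le_of_eq ?_)) hY0
    simp only [Complex.norm_conj, hU]
  rcases hU0.eq_or_lt with h0 | h0
  · rw [← h0]; positivity
  · nlinarith

/-- Splitting a sum into `s.card` pieces according to a colouring. -/
theorem norm_sum_sq_le_fiber {α κ : Type*} (T : Finset α) (s : Finset κ) (g : α → κ)
    (hg : ∀ b ∈ T, g b ∈ s) (x : α → ℂ) :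
    ‖∑ b ∈ T, x b‖ ^ 2 ≤ s.card * ∑ j ∈ s, ‖∑ b ∈ T.filter (fun b => g b = j), x b‖ ^ 2 := by
  rw [← Finset.sum_fiberwise_of_maps_to hg x]
  exact (pow_le_pow_left₀ (norm_nonneg _) (norm_sum_le _ _) 2).trans sq_sum_le_card_mul_sum_sq

theorem Dual_norm_Rs {m n : O} (hm : IsCoprime m 2) (hn : IsCoprime n 2) : ‖Rs m n‖ = 1 := by
  have h := congrArg norm (Rs_sq hm hn)
  rw [norm_pow, norm_one] at h
  exact (pow_eq_one_iff_of_nonneg (norm_nonneg _) two_ne_zero).1 h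

theorem Dual_SP_of_mem {M n : O} {X : ℝ} (h : n ∈ sp M X) : SP M n := by
  rw [sp, Finset.mem_filter] at h
  exact h.2

/-- On one class modulo `4`, the symbol can be flipped. -/
theorem Dual_flip {n : O} (hn : SP 6 n) (T : Finset O) (hT : ∀ k ∈ T, SP 6 k)
    (h4 : ∀ k ∈ T, ∀ k' ∈ T, (4 : O) ∣ k - k') (x : O → ℂ) :
    ‖∑ k ∈ T, x k * quad n k‖ = ‖∑ k ∈ T, x k * quad k n‖ := by
  rcases T.eq_empty_or_nonempty with rfl | ⟨k₀, hk₀⟩
  · simp
  have : ∑ k ∈ T, x k * quad n k = Rs n k₀ * ∑ k ∈ T, x k * quad k n := by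
    rw [Finset.mul_sum]
    refine Finset.sum_congr rfl fun k hk => ?_
    rw [quad_recip (PO_of_SP hn) (PO_of_SP (hT k hk)),
      Rs_congr (m := n) (m' := n) (by simp) (h4 k hk k₀ hk₀)]
    ring
  rw [this, norm_mul, Dual_norm_Rs (PO_of_SP hn).2 (PO_of_SP (hT k₀ hk₀)).2, one_mul]

theorem Dual_res_four : ∃ R : Finset O, (R.card : ℝ) = 16 ∧ ∀ k : O, k % 4 ∈ R := by
  have h40 : (4 : O) ≠ 0 := by decide
  refine ⟨res 4, ?_, fun k => ?_⟩
  · rw [card_res h40]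
    have : nm (4 : O) = 16 := by simpa using nm_natCast 4
    rw [this]; norm_num
  · rw [mem_res h40]
    refine mod_congr h40 ?_
    rw [← dvd_neg, neg_sub]
    exact dvd_sub_mod' k 4

/-- Duality and quadratic reciprocity: the exponent moves to the rows. -/
theorem LS.swap {ξ : ℝ} (h : LS ξ) {ε : ℝ} (hε : 0 < ε) : ∃ C : ℝ, 0 < C ∧
    ∀ (K N : ℝ) (β : O → ℂ), 1 ≤ K → 1 ≤ N →
      ∑ k ∈ sp 6 K, ‖∑ n ∈ sp 6 N, β n * quad n k‖ ^ 2 ≤
        C * (K * N) ^ ε * (N + K ^ ξ) * ∑ n ∈ sp 6 N, ‖β n‖ ^ 2 := by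
  obtain ⟨C, hC, h⟩ := h ε hε
  refine ⟨16 * C, by positivity, fun K N β hK hN => ?_⟩
  obtain ⟨R, hcard, hR⟩ := Dual_res_four
  have hmap : ∀ k ∈ sp 6 K, k % 4 ∈ R := fun k _ => hR k
  refine duality (sp 6 N) (sp 6 K) (fun n k => quad n k) (by positivity) (fun x => ?_) β
  set B : ℝ := C * (N * K) ^ ε * (N + K ^ ξ) with hB
  have hj : ∀ j : O, ∑ n ∈ sp 6 N, ‖∑ k ∈ (sp 6 K).filter (fun k => k % 4 = j), x k * quad n k‖ ^ 2
      ≤ B * ∑ k ∈ (sp 6 K).filter (fun k => k % 4 = j), ‖x k‖ ^ 2 := fun j => by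
    have h1 := h N K (fun k => if k % 4 = j then x k else 0) hN hK
    have h2 : ∑ k ∈ sp 6 K, ‖(if k % 4 = j then x k else 0)‖ ^ 2 =
        ∑ k ∈ (sp 6 K).filter (fun k => k % 4 = j), ‖x k‖ ^ 2 := by
      rw [Finset.sum_filter]
      refine Finset.sum_congr rfl fun k _ => ?_
      split_ifs <;> simp
    rw [h2] at h1
    refine le_trans (le_of_eq (Finset.sum_congr rfl fun n hn => ?_)) h1
    rw [Dual_flip (Dual_SP_of_mem hn) _ (fun k hk => Dual_SP_of_mem (Finset.mem_filter.1 hk).1)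
      (fun k hk k' hk' => ?_), Finset.sum_filter]
    · congr 2
      refine Finset.sum_congr rfl fun k _ => ?_
      split_ifs <;> simp
    · have e1 := dvd_sub_mod' k 4
      have e2 := dvd_sub_mod' k' 4
      rw [(Finset.mem_filter.1 hk).2] at e1
      rw [(Finset.mem_filter.1 hk').2] at e2
      simpa using dvd_sub e1 e2
  calc ∑ n ∈ sp 6 N, ‖∑ k ∈ sp 6 K, x k * quad n k‖ ^ 2
      ≤ ∑ n ∈ sp 6 N, 16 * ∑ j ∈ R,
          ‖∑ k ∈ (sp 6 K).filter (fun k => k % 4 = j), x k * quad n k‖ ^ 2 := by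
        refine Finset.sum_le_sum fun n _ => ?_
        have := norm_sum_sq_le_fiber (sp 6 K) R (fun k => k % 4) hmap
          (fun k => x k * quad n k)
        rw [hcard] at this
        refine this.trans (le_of_eq ?_)
        congr!
    _ = 16 * ∑ j ∈ R, ∑ n ∈ sp 6 N,
          ‖∑ k ∈ (sp 6 K).filter (fun k => k % 4 = j), x k * quad n k‖ ^ 2 := by
        rw [← Finset.mul_sum, Finset.sum_comm]
    _ ≤ 16 * ∑ j ∈ R, B * ∑ k ∈ (sp 6 K).filter (fun k => k % 4 = j), ‖x k‖ ^ 2 := by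
        gcongr with j _
        exact hj j
    _ = 16 * C * (K * N) ^ ε * (N + K ^ ξ) * ∑ k ∈ sp 6 K, ‖x k‖ ^ 2 := by
        rw [← Finset.mul_sum, Finset.sum_fiberwise_of_maps_to hmap, hB, mul_comm N K]
        ring

/-- Reindexing along an injective map. -/
theorem Dual_reindex (S I : Finset O) (m : O → O) (γ : O → ℂ) (hm : Set.InjOn m I)
    (hS : ∀ i ∈ I, m i ∈ S) : ∃ β : O → ℂ,
      (∀ F : O → ℂ, ∑ n ∈ S, β n * F n = ∑ i ∈ I, γ i * F (m i)) ∧
        ∑ n ∈ S, ‖β n‖ ^ 2 = ∑ i ∈ I, ‖γ i‖ ^ 2 := by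
  refine ⟨fun n => ∑ i ∈ I.filter (fun i => m i = n), γ i, fun F => ?_, ?_⟩
  · rw [← Finset.sum_fiberwise_of_maps_to hS]
    refine Finset.sum_congr rfl fun n _ => ?_
    rw [Finset.sum_mul]
    exact Finset.sum_congr rfl fun i hi => by rw [(Finset.mem_filter.1 hi).2]
  · rw [← Finset.sum_fiberwise_of_maps_to hS]
    refine Finset.sum_congr rfl fun n _ => ?_
    have hc : (I.filter (fun i => m i = n)).card ≤ 1 := by
      rw [Finset.card_le_one]
      intro a ha b hb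
      rw [Finset.mem_filter] at ha hb
      exact hm ha.1 hb.1 (ha.2.trans hb.2.symm)
    rcases Finset.card_le_one_iff_subset_singleton.1 hc with ⟨a, ha⟩
    rcases Finset.subset_singleton_iff.1 ha with e | e <;> simp [e]

/-- Every squarefree element is a small factor times a normalised squarefree element. -/
theorem Dual_decomp {a : O} (ha : Squarefree a) :
    ∃ e ∈ (ball 12).erase 0, ∃ k : O, SP 6 k ∧ a = e * k := by
  have ha0 := ha.ne_zero
  obtain ⟨u, j, hu, h⟩ := exists_eq_unit_lam_primary ha0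
  have hr : ∏ p ∈ pf a, p ^ vp p a = ∏ p ∈ pf a, p := by
    refine Finset.prod_congr rfl fun p hp => ?_
    have h1 := BasicB.vp_le_one ha (BasicB.pf_sub hp).1
    have h2 := BasicB.vp_ne_zero hp
    rw [show vp p a = 1 by omega, pow_one]
  rw [hr] at h
  have hj : j ≤ 1 := by
    by_contra hj
    have : lam * lam ∣ a := by
      rw [h, ← sq]
      exact ((pow_dvd_pow lam (by omega)).mul_left u).mul_right _
    exact prime_lam.not_isUnit (ha lam this)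
  have hP : ∀ q ∈ (pf a).erase (-2), Prime q ∧ Primary q :=
    fun q hq => BasicB.pf_sub (Finset.mem_of_mem_erase hq)
  have hk : SP 6 (∏ p ∈ (pf a).erase (-2), p) := by
    have h1 := squarefree_prod_primes hP
    refine ⟨h1.2.1, h1.1, ?_⟩
    rw [show (6 : O) = 2 * 3 by norm_num]
    refine IsCoprime.mul_right (IsCoprime.prod_left fun p hp => ?_) h1.2.1.isCoprime_three
    rcases RecipB.po_or (hP p hp).1 (hP p hp).2 with e | e
    · exact absurd e (Finset.ne_of_mem_erase hp)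
    · exact e.2
  have hu1 : nm u = 1 := isUnit_iff_nm.1 hu
  have hl : nm (lam ^ j) ≤ 3 := by
    rw [nm_pow, nm_lam]
    interval_cases j <;> norm_num
  by_cases h2 : (-2 : O) ∈ pf a
  · have e : a = u * lam ^ j * (-2) * ∏ p ∈ (pf a).erase (-2), p := by
      rw [mul_assoc (u * lam ^ j), Finset.mul_prod_erase _ (fun p => p) h2]
      exact h
    refine ⟨u * lam ^ j * (-2), CountAux.mem_erase_ball.2 ⟨?_, ?_⟩, _, hk, e⟩
    · intro h0; rw [h0, zero_mul] at e; exact ha0 e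
    · have : nm (-2 : O) = 4 := by decide
      rw [nm_mul, nm_mul, hu1, this]; omega
  · have e : a = u * lam ^ j * ∏ p ∈ (pf a).erase (-2), p := by
      rw [Finset.erase_eq_of_notMem h2]
      exact h
    refine ⟨u * lam ^ j, CountAux.mem_erase_ball.2 ⟨?_, ?_⟩, _, hk, e⟩
    · intro h0; rw [h0, zero_mul] at e; exact ha0 e
    · rw [nm_mul, hu1]; omega

theorem Dual_decomp' : ∃ E : Finset O, (E.card : ℝ) ≤ 84 ∧ (∀ e ∈ E, e ≠ 0) ∧
    ∀ a : O, Squarefree a → ∃ e ∈ E, ∃ k : O, SP 6 k ∧ a = e * k := by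
  refine ⟨(ball 12).erase 0, ?_, fun e he => Finset.ne_of_mem_erase he, fun a ha => Dual_decomp ha⟩
  have := CountAux.card_erase_le 12
  push_cast at this
  linarith

/-- Number of dyadic blocks. -/
theorem Dual_log_le {ε V : ℝ} (hε : 0 < ε) (hV : 1 ≤ V) :
    ((Nat.log 2 ⌊V⌋₊ + 1 : ℕ) : ℝ) ≤ (1 + 1 / (ε * Real.log 2)) * V ^ ε := by
  have hl : 0 < Real.log 2 := Real.log_pos one_lt_two
  have hf : ⌊V⌋₊ ≠ 0 := (Nat.floor_pos.2 hV).ne'
  have h1 : ((2 : ℝ)) ^ Nat.log 2 ⌊V⌋₊ ≤ V := by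
    have := Nat.pow_log_le_self 2 hf
    exact le_trans (by exact_mod_cast this) (Nat.floor_le (by linarith))
  have h2 : (Nat.log 2 ⌊V⌋₊ : ℝ) * Real.log 2 ≤ V ^ ε / ε := by
    rw [← Real.log_pow]
    exact (Real.log_le_log (by positivity) h1).trans (Real.log_le_rpow_div (by linarith) hε)
  have h3 : (Nat.log 2 ⌊V⌋₊ : ℝ) ≤ 1 / (ε * Real.log 2) * V ^ ε := by
    rw [one_div_mul_eq_div, le_div_iff₀ (by positivity)]
    rw [le_div_iff₀ hε] at h2
    linarith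
  have h4 : 1 ≤ V ^ ε := Real.one_le_rpow hV hε.le
  push_cast
  linarith

/-- The dyadic decomposition of the rows. -/
theorem Dual_dyadic {ξ ε C V N W : ℝ} (h0 : 0 ≤ ξ) (hε : 0 < ε) (hC : 0 < C) (hV : 1 ≤ V)
    (hN : 1 ≤ N) (hW : 0 ≤ W) (f : O → ℝ) (hf : ∀ k, 0 ≤ f k)
    (h : ∀ K : ℝ, 1 ≤ K → ∑ k ∈ sp 6 K, f k ≤ C * (K * N) ^ ε * (N + K ^ ξ) * W) :
    ∑ k ∈ sp 6 V, f k / (N + nr k ^ ξ) ≤
      ((Nat.log 2 ⌊V⌋₊ + 1 : ℕ) : ℝ) * (C * (2 * V * N) ^ ε * 2 ^ ξ * W) := by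
  set J := Nat.log 2 ⌊V⌋₊ with hJ
  have hf0 : ⌊V⌋₊ ≠ 0 := (Nat.floor_pos.2 hV).ne'
  have hJV : ((2 : ℝ)) ^ J ≤ V := by
    have := Nat.pow_log_le_self 2 hf0
    exact le_trans (by exact_mod_cast this) (Nat.floor_le (by linarith))
  have hmap : ∀ k ∈ sp 6 V, Nat.log 2 (nm k) ∈ Finset.range (J + 1) := fun k hk => by
    rw [Finset.mem_range, Nat.lt_succ_iff]
    refine Nat.log_mono_right ?_
    rw [Nat.le_floor_iff (by linarith)]
    exact ((mem_sp (by linarith)).1 hk).2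
  rw [← Finset.sum_fiberwise_of_maps_to hmap]
  refine (Finset.sum_le_card_nsmul _ _ (C * (2 * V * N) ^ ε * 2 ^ ξ * W) fun j hj => ?_).trans
    (le_of_eq (by rw [Finset.card_range, nsmul_eq_mul]))
  have hjJ : j ≤ J := by rwa [Finset.mem_range, Nat.lt_succ_iff] at hj
  have h2j : (1 : ℝ) ≤ 2 ^ j := one_le_pow₀ one_le_two
  have hjV : (2 : ℝ) ^ j ≤ V := (pow_le_pow_right₀ one_le_two hjJ).trans hJV
  have hD : 0 < N + ((2 : ℝ) ^ j) ^ ξ := by positivity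
  have h1 : ∑ k ∈ (sp 6 V).filter (fun k => Nat.log 2 (nm k) = j), f k / (N + nr k ^ ξ) ≤
      (∑ k ∈ sp 6 (2 * 2 ^ j), f k) / (N + ((2 : ℝ) ^ j) ^ ξ) := by
    rw [Finset.sum_div]
    refine (Finset.sum_le_sum fun k hk => ?_).trans
      (Finset.sum_le_sum_of_subset_of_nonneg (fun k hk => ?_) fun k _ _ => div_nonneg (hf k) hD.le)
    · obtain ⟨hk1, hk2⟩ := Finset.mem_filter.1 hk
      have hk0 : nm k ≠ 0 := fun e => ne_zero_of_SP (Dual_SP_of_mem hk1) (nm_eq_zero.1 e)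
      have : (2 : ℝ) ^ j ≤ nr k := by
        have := Nat.pow_log_le_self 2 hk0
        rw [hk2] at this
        exact_mod_cast this
      gcongr
      exact hf k
    · obtain ⟨hk1, hk2⟩ := Finset.mem_filter.1 hk
      rw [mem_sp (by positivity)]
      refine ⟨Dual_SP_of_mem hk1, ?_⟩
      have := Nat.lt_pow_succ_log_self one_lt_two (nm k)
      rw [hk2, Nat.succ_eq_add_one, pow_succ, mul_comm] at this
      exact_mod_cast this.le
  refine h1.trans ?_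
  rw [div_le_iff₀ hD]
  refine (h _ (by linarith)).trans ?_
  have h2 : (2 * (2 : ℝ) ^ j * N) ^ ε ≤ (2 * V * N) ^ ε := by gcongr
  have h3 : N + (2 * (2 : ℝ) ^ j) ^ ξ ≤ 2 ^ ξ * (N + ((2 : ℝ) ^ j) ^ ξ) := by
    rw [Real.mul_rpow (by norm_num) (by positivity), mul_add]
    have : (1 : ℝ) ≤ 2 ^ ξ := Real.one_le_rpow one_le_two h0
    nlinarith
  calc C * (2 * (2 : ℝ) ^ j * N) ^ ε * (N + (2 * (2 : ℝ) ^ j) ^ ξ) * W
      ≤ C * (2 * V * N) ^ ε * (2 ^ ξ * (N + ((2 : ℝ) ^ j) ^ ξ)) * W := by gcongr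
    _ = _ := by ring

theorem LSw_of_LS {ξ : ℝ} (h0 : 0 ≤ ξ) (h : LS ξ) : LSw ξ := by
  intro ε hε
  have hε2 : 0 < ε / 2 := by positivity
  obtain ⟨C, hC, h⟩ := h.swap hε2
  have hl : 0 < Real.log 2 := Real.log_pos one_lt_two
  refine ⟨84 * (1 + 1 / (ε / 2 * Real.log 2)) * (C * 2 ^ (ε / 2) * 2 ^ ξ), by positivity,
    fun V N hV hN N' hN' hNN I m γ hm hI => ?_⟩
  set W : ℝ := ∑ i ∈ I, ‖γ i‖ ^ 2 with hW
  have hW0 : 0 ≤ W := Finset.sum_nonneg fun _ _ => sq_nonneg _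
  set D : ℝ := ((Nat.log 2 ⌊V⌋₊ + 1 : ℕ) : ℝ) * (C * (2 * V * N') ^ (ε / 2) * 2 ^ ξ * W) with hD
  have hden : ∀ a : O, 0 < N' + nr a ^ ξ := fun a => by positivity
  obtain ⟨E, hc, hE0, hE⟩ := Dual_decomp'
  have he : ∀ e ∈ E,
      ∑ k ∈ sp 6 V, ‖∑ i ∈ I, γ i * quad (m i) (e * k)‖ ^ 2 / (N' + nr (e * k) ^ ξ) ≤ D := by
    intro e he
    have he0 : e ≠ 0 := hE0 e he
    obtain ⟨β, hβ1, hβ2⟩ := Dual_reindex (sp 6 N') I m (fun i => γ i * quad (m i) e) hm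
      fun i hi => (mem_sp (by linarith)).2 (hI i hi)
    have hβ3 : ∑ n ∈ sp 6 N', ‖β n‖ ^ 2 ≤ W := by
      rw [hβ2]
      refine Finset.sum_le_sum fun i _ => ?_
      rw [norm_mul]
      exact pow_le_pow_left₀ (by positivity)
        (mul_le_of_le_one_right (norm_nonneg _) (norm_quad_le _ _)) 2
    refine le_trans (Finset.sum_le_sum fun k hk => ?_) (Dual_dyadic h0 hε2 hC hV hN' hW0
      (fun k => ‖∑ n ∈ sp 6 N', β n * quad n k‖ ^ 2) (fun _ => sq_nonneg _) fun K hK => ?_)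
    · have e1 : ∑ i ∈ I, γ i * quad (m i) (e * k) = ∑ n ∈ sp 6 N', β n * quad n k := by
        rw [hβ1 fun n => quad n k]
        refine Finset.sum_congr rfl fun i hi => ?_
        rw [quad_mul_right (PO_of_SP (hI i hi).1), mul_assoc]
      have e2 : nr k ≤ nr (e * k) := by
        rw [nr_mul]
        exact le_mul_of_one_le_left (Nat.cast_nonneg _) (one_le_nr he0)
      rw [e1]
      gcongr
    · refine (h K N' β hK hN').trans ?_
      gcongr
  have h1 := CountAux.sum_le_prod E (sp 6 V) (fun e k => e * k) (S := sqf V)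
    (fun a ha => by
      obtain ⟨ha1, ha2⟩ := (mem_sqf (by linarith)).1 ha
      obtain ⟨e, he, k, hk, rfl⟩ := hE a ha1
      refine ⟨e, he, k, (mem_sp (by linarith)).2 ⟨hk, le_trans ?_ ha2⟩, rfl⟩
      rw [nr_mul]
      exact le_mul_of_one_le_left (Nat.cast_nonneg _) (one_le_nr (hE0 e he)))
    (fun a => ‖∑ i ∈ I, γ i * quad (m i) a‖ ^ 2 / (N' + nr a ^ ξ))
    (fun a => div_nonneg (sq_nonneg _) (hden a).le)
  refine h1.trans ((Finset.sum_le_card_nsmul _ _ D he).trans ?_)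
  rw [nsmul_eq_mul]
  have h2 := Dual_log_le hε2 hV
  have h3 : V ^ (ε / 2) ≤ (V * N) ^ (ε / 2) := by
    gcongr
    exact le_mul_of_one_le_right (by linarith) hN
  have h4 : (2 * V * N') ^ (ε / 2) ≤ 2 ^ (ε / 2) * (V * N) ^ (ε / 2) := by
    rw [← Real.mul_rpow (by norm_num) (by positivity), mul_assoc]
    gcongr
  have h5 : (V * N) ^ ε = (V * N) ^ (ε / 2) * (V * N) ^ (ε / 2) := by
    rw [← Real.rpow_add (by positivity)]; congr 1; ring
  calc (E.card : ℝ) * D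
      ≤ 84 * (((1 + 1 / (ε / 2 * Real.log 2)) * (V * N) ^ (ε / 2)) *
          (C * (2 ^ (ε / 2) * (V * N) ^ (ε / 2)) * 2 ^ ξ * W)) := by
        rw [hD]
        gcongr
        exact h2.trans (by gcongr)
    _ = _ := by rw [h5]; ring

end Crest.Agent.R17.LS2
end
end

-- ▼ part PVc/R17/LS2Red
section

/-!
# Row 17, module M7 (quadratic large sieve): reduction to blocks, iteration
-/

set_option autoImplicit false

noncomputable section

namespace Crest.Agent.R17.LS2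

open scoped ComplexConjugate
open Classical

theorem LS_of_Core {ξ : ℝ} (h0 : 0 ≤ ξ) (h : Core ξ) : LS ξ := by
  intro ε hε
  obtain ⟨C, hC, hcore⟩ := h (ε / 2 / (ξ + 1)) (by positivity)
  have hlog : 0 < Real.log 2 := Real.log_pos one_lt_two
  refine ⟨((res 4).card + 1) * (1 / (ε / 2 * Real.log 2) + 1) * (C * 2 ^ (ε / 2) * 2 ^ ξ),
    by positivity, fun K N β hK hN => ?_⟩
  set M : ℝ := max K ((2 * N) ^ ξ) with hM
  set s : Finset (ℕ × O) := Finset.range (Nat.log 2 ⌊N⌋₊ + 1) ×ˢ res 4 with hs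
  set g : O → ℕ × O := fun n => (Nat.log 2 (nm n), n % 4) with hg
  have hKN : 1 ≤ K * N := one_le_mul_of_one_le_of_one_le hK hN
  have hgs : ∀ n ∈ sp 6 N, g n ∈ s := by
    intro n hn
    have h1 := ((mem_sp (by linarith)).1 hn).2
    refine Finset.mem_product.2 ⟨Finset.mem_range.2 (Nat.lt_succ_of_le ?_), ?_⟩
    · exact Nat.log_mono_right (b := 2) (Nat.le_floor h1)
    · have h4 : (4 : O) ≠ 0 := by norm_num
      have h5 : (4 : O) ∣ n % 4 - n := by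
        rw [← neg_sub, dvd_neg]
        exact dvd_sub_mod' n 4
      show n % 4 ∈ res 4
      rw [mem_res h4]
      exact mod_congr h4 h5
  have hfl : ((2 ^ Nat.log 2 ⌊N⌋₊ : ℕ) : ℝ) ≤ N :=
    (Nat.cast_le.2 (Nat.pow_log_le_self 2 (Nat.floor_pos.2 hN).ne')).trans
      (Nat.floor_le (by linarith))
  push_cast at hfl
  have hM1 : M ≤ 2 ^ ξ * (K + N ^ ξ) := by
    have a1 : (1 : ℝ) ≤ 2 ^ ξ := Real.one_le_rpow one_le_two h0
    have a2 : 0 ≤ N ^ ξ := by positivity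
    refine max_le (by nlinarith) ?_
    rw [Real.mul_rpow (by norm_num) (by linarith)]
    nlinarith
  have hM2 : M * (2 * N) ≤ (2 * (K * N)) ^ (ξ + 1) := by
    have a1 : (1 : ℝ) ≤ (2 * N) ^ ξ := Real.one_le_rpow (by linarith) h0
    have a2 : M ≤ K * (2 * N) ^ ξ := max_le (by nlinarith) (by nlinarith)
    have a3 : (2 * N) ^ ξ ≤ (2 * (K * N)) ^ ξ :=
      Real.rpow_le_rpow (by linarith) (by nlinarith) h0
    rw [Real.rpow_add_one (by positivity)]
    calc M * (2 * N) ≤ K * (2 * (K * N)) ^ ξ * (2 * N) := by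
          refine mul_le_mul_of_nonneg_right (a2.trans ?_) (by linarith)
          exact mul_le_mul_of_nonneg_left a3 (by linarith)
      _ = _ := by ring
  have hM0 : 0 ≤ M := le_trans (by linarith) (le_max_left _ _)
  have hblk : ∀ j ∈ s, ∑ k ∈ sp 6 K, ‖∑ n ∈ (sp 6 N).filter (fun n => g n = j), β n * quad n k‖ ^ 2
      ≤ C * 2 ^ (ε / 2) * 2 ^ ξ * (K * N) ^ (ε / 2) * (K + N ^ ξ) *
        ∑ n ∈ (sp 6 N).filter (fun n => g n = j), ‖β n‖ ^ 2 := by
    rintro ⟨j, r⟩ hj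
    have hj' : j ≤ Nat.log 2 ⌊N⌋₊ :=
      Nat.le_of_lt_succ (Finset.mem_range.1 (Finset.mem_product.1 hj).1)
    have h2j : (2 : ℝ) ^ (j + 1) ≤ 2 * N := by
      have := pow_le_pow_right₀ (one_le_two (α := ℝ)) hj'
      rw [pow_succ]
      linarith
    have h1j : (1 : ℝ) ≤ 2 ^ (j + 1) := one_le_pow₀ one_le_two
    have hB : Blk (2 ^ (j + 1)) ((sp 6 N).filter fun n => g n = (j, r)) := by
      constructor
      · intro n hn
        obtain ⟨hn1, hn2⟩ := Finset.mem_filter.1 hn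
        have hSP := ((mem_sp (by linarith)).1 hn1).1
        have hj2 : Nat.log 2 (nm n) = j := congrArg Prod.fst hn2
        have hne : nm n ≠ 0 := fun h => ne_zero_of_SP hSP (nm_eq_zero.1 h)
        have b1 := Nat.pow_log_le_self 2 hne
        have b2 := (Nat.lt_pow_succ_log_self one_lt_two (nm n)).le
        rw [hj2] at b1 b2
        refine ⟨hSP, ?_, by exact_mod_cast b2⟩
        rw [pow_succ, mul_div_cancel_right₀ _ two_ne_zero]
        exact_mod_cast b1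
      · intro n₁ hn₁ n₂ hn₂
        have e1 : n₁ % 4 = r := congrArg Prod.snd (Finset.mem_filter.1 hn₁).2
        have e2 : n₂ % 4 = r := congrArg Prod.snd (Finset.mem_filter.1 hn₂).2
        have d1 := dvd_sub_mod' n₁ 4
        have d2 := dvd_sub_mod' n₂ 4
        rw [e1] at d1
        rw [e2] at d2
        have := dvd_sub d1 d2
        rwa [sub_sub_sub_cancel_right] at this
    have hc := hcore M (2 ^ (j + 1)) _ β h1j
      ((Real.rpow_le_rpow (by linarith) h2j h0).trans (le_max_right _ _)) hB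
    refine le_trans (Finset.sum_le_sum_of_subset_of_nonneg (fun k hk => ?_)
      fun _ _ _ => sq_nonneg _) (hc.trans ?_)
    · rw [mem_sp (by linarith)] at hk
      exact (mem_sp hM0).2 ⟨hk.1, hk.2.trans (le_max_left _ _)⟩
    refine mul_le_mul_of_nonneg_right ?_ (Finset.sum_nonneg fun _ _ => sq_nonneg _)
    have a1 : (M * 2 ^ (j + 1)) ^ (ε / 2 / (ξ + 1)) ≤ 2 ^ (ε / 2) * (K * N) ^ (ε / 2) := by
      refine (Real.rpow_le_rpow (by positivity)
        ((mul_le_mul_of_nonneg_left h2j hM0).trans hM2) (by positivity)).trans (le_of_eq ?_)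
      rw [← Real.rpow_mul (by positivity), mul_div_cancel₀ _ (by positivity),
        Real.mul_rpow (by norm_num) (by linarith)]
    calc C * (M * 2 ^ (j + 1)) ^ (ε / 2 / (ξ + 1)) * M
        ≤ C * (2 ^ (ε / 2) * (K * N) ^ (ε / 2)) * (2 ^ ξ * (K + N ^ ξ)) := by gcongr
      _ = _ := by ring
  have hcard : (s.card : ℝ) ≤ ((res 4).card + 1) * (1 / (ε / 2 * Real.log 2) + 1) *
      (K * N) ^ (ε / 2) := by
    rw [hs, Finset.card_product, Finset.card_range]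
    push_cast
    have a1 : (1 : ℝ) ≤ (K * N) ^ (ε / 2) := Real.one_le_rpow hKN (by positivity)
    have a2 : (Nat.log 2 ⌊N⌋₊ : ℝ) * Real.log 2 ≤ (K * N) ^ (ε / 2) / (ε / 2) := by
      refine le_trans ?_ (Real.log_le_rpow_div (by linarith) (by positivity))
      rw [← Real.log_pow]
      exact Real.log_le_log (by positivity) (by nlinarith)
    have a3 : (Nat.log 2 ⌊N⌋₊ : ℝ) ≤ 1 / (ε / 2 * Real.log 2) * (K * N) ^ (ε / 2) := by
      rw [one_div, ← div_eq_inv_mul, ← div_div, le_div_iff₀ hlog]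
      exact a2
    rw [mul_comm, mul_assoc]
    refine mul_le_mul (by linarith) ?_ (by positivity) (by positivity)
    rw [add_mul]
    linarith
  calc _ ≤ ∑ k ∈ sp 6 K, s.card *
        ∑ j ∈ s, ‖∑ n ∈ (sp 6 N).filter (fun n => g n = j), β n * quad n k‖ ^ 2 :=
        Finset.sum_le_sum fun k _ => by
          have := norm_sum_sq_le_fiber (sp 6 N) s g hgs fun n => β n * quad n k
          refine this.trans (le_of_eq ?_)
          congr!
    _ = s.card * ∑ j ∈ s, ∑ k ∈ sp 6 K,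
        ‖∑ n ∈ (sp 6 N).filter (fun n => g n = j), β n * quad n k‖ ^ 2 := by
        rw [← Finset.mul_sum, Finset.sum_comm]
    _ ≤ (((res 4).card + 1) * (1 / (ε / 2 * Real.log 2) + 1) * (K * N) ^ (ε / 2)) *
        (C * 2 ^ (ε / 2) * 2 ^ ξ * (K * N) ^ (ε / 2) * (K + N ^ ξ) *
          ∑ n ∈ sp 6 N, ‖β n‖ ^ 2) := by
        refine mul_le_mul hcard ((Finset.sum_le_sum hblk).trans (le_of_eq ?_))
          (Finset.sum_nonneg fun _ _ => Finset.sum_nonneg fun _ _ => sq_nonneg _) (by positivity)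
        rw [← Finset.mul_sum, Finset.sum_fiberwise_of_maps_to hgs]
    _ = _ := by
        have : (K * N) ^ ε = (K * N) ^ (ε / 2) * (K * N) ^ (ε / 2) := by
          rw [← Real.rpow_add (by linarith), add_halves]
        rw [this]
        ring

/-- The iteration `ξ ↦ 2 - 1/ξ` and the final duality. -/
theorem final_of_step (h2 : LS 2) (step : ∀ ξ : ℝ, 1 ≤ ξ → ξ ≤ 2 → LS ξ → LS (2 - 1 / ξ))
    {ε : ℝ} (hε : 0 < ε) : ∃ C : ℝ, 0 < C ∧
    ∀ (K N : ℝ) (β : O → ℂ), 1 ≤ K → 1 ≤ N →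
      ∑ k ∈ sp 6 K, ‖∑ n ∈ sp 6 N, β n * quad k n‖ ^ 2 ≤
        C * (K * N) ^ ε * (K + N) * ∑ n ∈ sp 6 N, ‖β n‖ ^ 2 := by
  have hall : ∀ j : ℕ, LS (1 + 1 / ((j : ℝ) + 1)) := by
    intro j
    induction j with
    | zero => convert h2 using 1; norm_num
    | succ j ih =>
      have a1 : 0 ≤ 1 / ((j : ℝ) + 1) := by positivity
      have a2 : 1 / ((j : ℝ) + 1) ≤ 1 := by
        rw [div_le_one (by positivity)]
        linarith [Nat.cast_nonneg (α := ℝ) j]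
      convert step _ (by linarith) (by linarith) ih using 1
      push_cast
      field_simp
      ring
  obtain ⟨j, hj⟩ := exists_nat_one_div_lt (half_pos hε)
  obtain ⟨C, hC, h⟩ := hall j (ε / 2) (half_pos hε)
  refine ⟨C, hC, fun K N β hK hN => ?_⟩
  have hKN : 1 ≤ K * N := one_le_mul_of_one_le_of_one_le hK hN
  have hd := duality (sp 6 N) (sp 6 K) (fun n k => quad k n) (by positivity)
    (fun x => h N K x hN hK) β
  refine hd.trans (mul_le_mul_of_nonneg_right ?_ (Finset.sum_nonneg fun _ _ => sq_nonneg _))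
  have a1 : (1 : ℝ) ≤ (K * N) ^ (ε / 2) := Real.one_le_rpow hKN (by positivity)
  have a2 : K ^ (1 / ((j : ℝ) + 1)) ≤ (K * N) ^ (ε / 2) :=
    (Real.rpow_le_rpow_of_exponent_le hK hj.le).trans
      (Real.rpow_le_rpow (by linarith) (by nlinarith) (by positivity))
  have a3 : N + K ^ (1 + 1 / ((j : ℝ) + 1)) ≤ (K * N) ^ (ε / 2) * (K + N) := by
    rw [Real.rpow_add (by linarith), Real.rpow_one]
    nlinarith
  have : (K * N) ^ ε = (K * N) ^ (ε / 2) * (K * N) ^ (ε / 2) := by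
    rw [← Real.rpow_add (by linarith), add_halves]
  rw [this, mul_comm N K]
  calc _ ≤ C * (K * N) ^ (ε / 2) * ((K * N) ^ (ε / 2) * (K + N)) :=
        mul_le_mul_of_nonneg_left a3 (by positivity)
    _ = _ := by ring

end Crest.Agent.R17.LS2
end
end

-- ▼ part PVc/R17/LS2Triv
section

/-!
# Row 17, module M7 (quadratic large sieve): the trivial large sieve
-/

set_option autoImplicit false

noncomputable section

namespace Crest.Agent.R17.LS2

open scoped ComplexConjugate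
open Classical

theorem triv_mean_prime {p m : O} (hp : Prime p) (hpo : PO p) (hm : m ≠ 0) (h : IsCoprime p m)
    {j : ℕ} (hj : ¬ 6 ∣ j) (g : O → ℂ) (hg : ∀ x y, m ∣ x - y → g x = g y) :
    ∑ x ∈ res (p * m), sym p x ^ j * g x = 0 := by
  rw [sum_res_crt hp.ne_zero hm h (fun x => sym p x ^ j * g x)]
  · have e : ∀ x y : O, sym p (m * x + p * y) ^ j * g (m * x + p * y) =
        sym p x ^ j * (sym p m ^ j * g (p * y)) := by
      intro x y
      rw [sym_congr (n := p) (a := m * x + p * y) (b := m * x)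
        ((rad_dvd p).trans ⟨y, by ring⟩), sym_mul_right hpo, hg (m * x + p * y) (p * y) ⟨x, by ring⟩,
        mul_pow]
      ring
    simp only [e]
    rw [← Finset.sum_mul_sum, sum_res_sym_pow hp hpo hj, zero_mul]
  · intro x y hxy
    rw [sym_congr ((rad_dvd p).trans ((dvd_mul_right p m).trans hxy)),
      hg x y ((dvd_mul_left m p).trans hxy)]

theorem triv_mean_of_mem {z₁ z₂ p : O} (h1 : SP 6 z₁) (h2 : SP 6 z₂) (hp1 : p ∈ pf z₁)
    (hp2 : p ∉ pf z₂) {j : ℕ} (hj : ¬ 6 ∣ j) :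
    ∑ x ∈ res (z₁ * z₂), sym z₁ x ^ j * conj (sym z₂ x ^ j) = 0 := by
  obtain ⟨hp, hp'⟩ := BasicB.pf_sub hp1
  have hsub : ({p} : Finset O) ⊆ pf z₁ := Finset.singleton_subset_iff.2 hp1
  have hz : p * cof {p} z₁ = z₁ := by
    have := prod_mul_cof h1.1 h1.2.1 hsub
    rwa [Finset.prod_singleton] at this
  set c := cof {p} z₁ with hc
  have hc0 : c ≠ 0 := (primary_cof _ _).ne_zero
  have hz2 : z₂ ≠ 0 := ne_zero_of_SP h2
  have hpo : PO p := (PO_of_SP h1).of_dvd hp' ⟨c, hz.symm⟩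
  have hcop : IsCoprime p (c * z₂) := by
    refine isCoprime_of_disjoint_pf hp' (mul_ne_zero hc0 hz2) ?_
    rw [pf_prime hp hp', pf_mul hc0 hz2, hc, pf_cof, Finset.disjoint_singleton_left]
    simp [hp2]
  have key := triv_mean_prime hp hpo (mul_ne_zero hc0 hz2) hcop hj
    (fun x => sym c x ^ j * conj (sym z₂ x ^ j)) (fun x y hxy => by
      rw [sym_congr ((rad_dvd c).trans ((dvd_mul_right c z₂).trans hxy)),
        sym_congr ((rad_dvd z₂).trans ((dvd_mul_left z₂ c).trans hxy))])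
  rw [← mul_assoc, hz] at key
  rw [← key]
  refine Finset.sum_congr rfl fun x _ => ?_
  rw [← hz, sym_mul_left hp.ne_zero hc0, mul_pow, mul_assoc]

theorem triv_mean {z₁ z₂ : O} (h1 : SP 6 z₁) (h2 : SP 6 z₂) (hne : z₁ ≠ z₂) {j : ℕ}
    (hj : ¬ 6 ∣ j) : ∑ x ∈ res (z₁ * z₂), sym z₁ x ^ j * conj (sym z₂ x ^ j) = 0 := by
  have hpf : pf z₁ ≠ pf z₂ := by
    intro h
    apply hne
    rw [← h1.1.eq_rad h1.2.1, ← h2.1.eq_rad h2.2.1, rad, rad, h]
  by_cases hsub : pf z₁ ⊆ pf z₂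
  · have : ¬ pf z₂ ⊆ pf z₁ := fun h => hpf (Finset.Subset.antisymm hsub h)
    obtain ⟨p, hp2, hp1⟩ := Finset.not_subset.1 this
    have key := congrArg conj (triv_mean_of_mem h2 h1 hp2 hp1 hj)
    rw [map_sum, map_zero, mul_comm z₂ z₁] at key
    rw [← key]
    refine Finset.sum_congr rfl fun x _ => ?_
    rw [map_mul, Complex.conj_conj, mul_comm]
  · obtain ⟨p, hp1, hp2⟩ := Finset.not_subset.1 hsub
    exact triv_mean_of_mem h1 h2 hp1 hp2 hj

theorem triv_bilinear (S : Finset O) (a : O → O → ℂ) (ha : ∀ z n, ‖a z n‖ ≤ 1) (w : O → ℝ)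
    (hw0 : ∀ n, 0 ≤ w n) (hw : Summable w) (c : O → ℂ) {D E : ℝ} (hE : 0 ≤ E)
    (hD : ∑' n, w n ≤ D)
    (hoff : ∀ z₁ ∈ S, ∀ z₂ ∈ S, z₁ ≠ z₂ → ‖∑' n, a z₁ n * conj (a z₂ n) * (w n : ℂ)‖ ≤ E)
    (T : Finset O) :
    ∑ n ∈ T, w n * ‖∑ z ∈ S, c z * a z n‖ ^ 2 ≤ (D + S.card * E) * ∑ z ∈ S, ‖c z‖ ^ 2 := by
  have hb : ∀ z₁ z₂ n, ‖a z₁ n * conj (a z₂ n) * (w n : ℂ)‖ ≤ w n := by
    intro z₁ z₂ n
    rw [norm_mul, norm_mul, Complex.norm_conj, Complex.norm_real, Real.norm_of_nonneg (hw0 n)]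
    exact mul_le_of_le_one_left (hw0 n) (mul_le_one₀ (ha _ _) (norm_nonneg _) (ha _ _))
  have hs : ∀ z₁ z₂, Summable fun n => a z₁ n * conj (a z₂ n) * (w n : ℂ) :=
    fun z₁ z₂ => Summable.of_norm_bounded hw (hb z₁ z₂)
  have hall : ∀ z₁ z₂, ‖∑' n, a z₁ n * conj (a z₂ n) * (w n : ℂ)‖ ≤ D :=
    fun z₁ z₂ => (tsum_of_norm_bounded hw.hasSum (hb z₁ z₂)).trans hD
  have e : ∀ n, ((w n * ‖∑ z ∈ S, c z * a z n‖ ^ 2 : ℝ) : ℂ) =
      ∑ z₁ ∈ S, ∑ z₂ ∈ S, c z₁ * conj (c z₂) * (a z₁ n * conj (a z₂ n) * (w n : ℂ)) := by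
    intro n
    push_cast
    rw [← Complex.mul_conj', map_sum, Finset.sum_mul_sum, Finset.mul_sum]
    refine Finset.sum_congr rfl fun z₁ _ => ?_
    rw [Finset.mul_sum]
    refine Finset.sum_congr rfl fun z₂ _ => ?_
    rw [map_mul]
    ring
  have hH : HasSum (fun n => ((w n * ‖∑ z ∈ S, c z * a z n‖ ^ 2 : ℝ) : ℂ))
      (∑ z₁ ∈ S, ∑ z₂ ∈ S, c z₁ * conj (c z₂) * ∑' n, a z₁ n * conj (a z₂ n) * (w n : ℂ)) := by
    simp only [e]
    exact hasSum_sum fun z₁ _ => hasSum_sum fun z₂ _ => (hs z₁ z₂).hasSum.mul_left _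
  have hH' := Complex.hasSum_re hH
  simp only [Complex.ofReal_re] at hH'
  refine (sum_le_hasSum T (fun n _ => mul_nonneg (hw0 n) (sq_nonneg _)) hH').trans ?_
  refine (Complex.re_le_norm _).trans ?_
  have h1 : ∀ z₁ ∈ S, ∀ z₂ ∈ S,
      ‖c z₁ * conj (c z₂) * ∑' n, a z₁ n * conj (a z₂ n) * (w n : ℂ)‖ ≤
        (if z₁ = z₂ then D * ‖c z₁‖ ^ 2 else 0) + (E / 2 * ‖c z₁‖ ^ 2 + E / 2 * ‖c z₂‖ ^ 2) := by
    intro z₁ h₁ z₂ h₂
    rw [norm_mul, norm_mul, Complex.norm_conj]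
    split_ifs with h
    · subst h
      have := mul_le_mul_of_nonneg_left (hall z₁ z₁)
        (mul_nonneg (norm_nonneg (c z₁)) (norm_nonneg (c z₁)))
      have h2 : 0 ≤ E / 2 * ‖c z₁‖ ^ 2 := by positivity
      nlinarith
    · have := mul_le_mul_of_nonneg_left (hoff z₁ h₁ z₂ h₂ h)
        (mul_nonneg (norm_nonneg (c z₁)) (norm_nonneg (c z₂)))
      have h2 := mul_nonneg hE (sq_nonneg (‖c z₁‖ - ‖c z₂‖))
      nlinarith
  calc _ ≤ ∑ z₁ ∈ S, ∑ z₂ ∈ S, ((if z₁ = z₂ then D * ‖c z₁‖ ^ 2 else 0) +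
        (E / 2 * ‖c z₁‖ ^ 2 + E / 2 * ‖c z₂‖ ^ 2)) :=
        (norm_sum_le _ _).trans (Finset.sum_le_sum fun z₁ h₁ =>
          (norm_sum_le _ _).trans (Finset.sum_le_sum fun z₂ h₂ => h1 z₁ h₁ z₂ h₂))
    _ = _ := by
        simp only [Finset.sum_add_distrib, Finset.sum_ite_eq, Finset.sum_const, nsmul_eq_mul,
          ← Finset.mul_sum]
        rw [Finset.sum_congr rfl fun z hz => if_pos hz, ← Finset.mul_sum]
        ring

theorem triv_sieve {j : ℕ} (hj : ¬ 6 ∣ j) {ε : ℝ} (hε : 0 < ε) : ∃ C : ℝ, 0 < C ∧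
    ∀ (N Z : ℝ) (c : O → ℂ), 1 ≤ N → 1 ≤ Z →
      ∑ n ∈ ball ⌊N⌋₊, ‖∑ z ∈ sp 6 Z, c z * sym z n ^ j‖ ^ 2 ≤
        C * (N * Z) ^ ε * (N + Z ^ 2) * ∑ z ∈ sp 6 Z, ‖c z‖ ^ 2 := by
  obtain ⟨C, hC, hoff⟩ := norm_tsum_gw_le_of_mean_zero ε⁻¹
  have hg1 := gw_pos 1
  refine ⟨(gw 1)⁻¹ * (8 + 8 * C), by positivity, fun N Z c hN hZ => ?_⟩
  have hNZ : 1 ≤ N * Z := one_le_mul_of_one_le_of_one_le hN hZ
  set P := (N * Z) ^ ε with hP
  have hP1 : 1 ≤ P := Real.one_le_rpow hNZ hε.le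
  set X := N + Z ^ 2 * P with hX
  have hZ2 : 1 ≤ Z ^ 2 := one_le_pow₀ hZ
  have hZP : 0 ≤ Z ^ 2 * P := by positivity
  have hXN : N ≤ X := by linarith
  have hX1 : 1 ≤ X := by linarith
  have hX0 : 0 < X := by linarith
  have hcard : ((sp 6 Z).card : ℝ) ≤ 8 * Z := by
    have h1 : (sp 6 Z).card ≤ 7 * ⌊Z⌋₊ + 1 :=
      (Finset.card_le_card (Finset.filter_subset _ _)).trans (card_ball_le _)
    have h2 : ((sp 6 Z).card : ℝ) ≤ 7 * ⌊Z⌋₊ + 1 := by exact_mod_cast h1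
    have h3 := Nat.floor_le (show (0 : ℝ) ≤ Z by linarith)
    linarith
  have key := triv_bilinear (sp 6 Z) (fun z n => sym z n ^ j)
    (fun z n => by rw [norm_pow]; exact pow_le_one₀ (norm_nonneg _) (norm_sym_le z n))
    (fun n => gw (nr n / X)) (fun n => (gw_pos _).le) (summable_gw' hX0) c
    (E := C * X * (N * Z)⁻¹) (by positivity) (tsum_gw_le hX0) ?_ (ball ⌊N⌋₊)
  · have hS : 0 ≤ ∑ z ∈ sp 6 Z, ‖c z‖ ^ 2 := Finset.sum_nonneg fun _ _ => sq_nonneg _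
    have h1 : gw 1 * ∑ n ∈ ball ⌊N⌋₊, ‖∑ z ∈ sp 6 Z, c z * sym z n ^ j‖ ^ 2 ≤
        ∑ n ∈ ball ⌊N⌋₊, gw (nr n / X) * ‖∑ z ∈ sp 6 Z, c z * sym z n ^ j‖ ^ 2 := by
      rw [Finset.mul_sum]
      refine Finset.sum_le_sum fun n hn => mul_le_mul_of_nonneg_right (gw_antitone ?_) (sq_nonneg _)
      rw [mem_ball, Nat.le_floor_iff (by linarith)] at hn
      rw [div_le_one hX0]
      exact hn.trans hXN
    have h2 : ((sp 6 Z).card : ℝ) * (C * X * (N * Z)⁻¹) ≤ 8 * C * X := by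
      calc _ ≤ 8 * Z * (C * X * (N * Z)⁻¹) := by gcongr
        _ = 8 * C * X * N⁻¹ := by field_simp
        _ ≤ 8 * C * X := mul_le_of_le_one_right (by positivity) (inv_le_one_of_one_le₀ hN)
    have h3 : X ≤ P * (N + Z ^ 2) := by
      rw [hX]
      nlinarith
    have h4 : 1 + 7 * X + ((sp 6 Z).card : ℝ) * (C * X * (N * Z)⁻¹) ≤
        (8 + 8 * C) * (P * (N + Z ^ 2)) := by
      calc _ ≤ (8 + 8 * C) * X := by linarith
        _ ≤ _ := by gcongr
    have h5 := (h1.trans key).trans (mul_le_mul_of_nonneg_right h4 hS)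
    rw [← le_inv_mul_iff₀ hg1] at h5
    refine h5.trans (le_of_eq ?_)
    ring
  · intro z₁ h₁ z₂ h₂ hne
    rw [mem_sp (by linarith)] at h₁ h₂
    have hq : z₁ * z₂ ≠ 0 := mul_ne_zero (ne_zero_of_SP h₁.1) (ne_zero_of_SP h₂.1)
    have hq0 := nr_pos hq
    have hqZ : nr (z₁ * z₂) ≤ Z ^ 2 := by
      rw [nr_mul, sq]
      exact mul_le_mul h₁.2 h₂.2 (Nat.cast_nonneg _) (by linarith)
    have hPq : P ≤ X / nr (z₁ * z₂) := by
      rw [le_div_iff₀ hq0]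
      have := mul_le_mul_of_nonneg_left hqZ (show 0 ≤ P by linarith)
      linarith
    have hqX : nr (z₁ * z₂) ≤ X := by
      have := (le_div_iff₀ hq0).1 (hP1.trans hPq)
      linarith
    refine (hoff (z₁ * z₂) (fun n => sym z₁ n ^ j * conj (sym z₂ n ^ j)) X hq ?_ ?_
      (triv_mean h₁.1 h₂.1 hne hj) hqX).trans ?_
    · intro x y hxy
      rw [sym_congr ((rad_dvd z₁).trans ((dvd_mul_right z₁ z₂).trans hxy)),
        sym_congr ((rad_dvd z₂).trans ((dvd_mul_left z₂ z₁).trans hxy))]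
    · intro x
      rw [norm_mul, Complex.norm_conj, norm_pow, norm_pow]
      exact mul_le_one₀ (pow_le_one₀ (norm_nonneg _) (norm_sym_le _ _)) (by positivity)
        (pow_le_one₀ (norm_nonneg _) (norm_sym_le _ _))
    · refine mul_le_mul_of_nonneg_left ?_ (by positivity)
      calc _ ≤ P ^ (-ε⁻¹) :=
            Real.rpow_le_rpow_of_nonpos (by linarith) hPq (neg_nonpos.2 (inv_nonneg.2 hε.le))
        _ = (N * Z)⁻¹ := by
            rw [hP, ← Real.rpow_mul (by linarith), mul_neg, mul_inv_cancel₀ hε.ne',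
              Real.rpow_neg_one]

theorem LS_two : LS 2 := by
  intro ε hε
  obtain ⟨C, hC, h⟩ := triv_sieve (j := 3) (by norm_num) hε
  refine ⟨C, hC, fun K N β hK hN => ?_⟩
  rw [Real.rpow_two]
  refine le_trans ?_ (h K N β hK hN)
  calc _ = ∑ k ∈ sp 6 K, ‖∑ n ∈ sp 6 N, β n * sym n k ^ 3‖ ^ 2 := by
        refine Finset.sum_congr rfl fun k _ => ?_
        congr 2
        refine Finset.sum_congr rfl fun n hn => ?_
        rw [sym_pow_three ((mem_sp (by linarith)).1 hn).1.1]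
    _ ≤ _ := Finset.sum_le_sum_of_subset_of_nonneg (Finset.filter_subset _ _)
        fun _ _ _ => sq_nonneg _

end Crest.Agent.R17.LS2
end
end

-- ▼ part PVc/R17/LS2

/-!
# Row 17, module M7: Heath-Brown's quadratic large sieve in `O`, and the trivial cubic large sieve

The finset `sp M X` (squarefree primary elements coprime to `M` of norm at most `X`) is defined in
`LS2Defs.lean`.
-/

set_option autoImplicit false

noncomputable section

namespace Crest.Agent.R17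

open scoped ComplexConjugate

/-- **Quadratic large sieve.** -/
theorem quad_large_sieve {ε : ℝ} (hε : 0 < ε) : ∃ C : ℝ, 0 < C ∧
    ∀ (K N : ℝ) (β : O → ℂ), 1 ≤ K → 1 ≤ N →
      ∑ k ∈ sp 6 K, ‖∑ n ∈ sp 6 N, β n * quad k n‖ ^ 2 ≤
        C * (K * N) ^ ε * (K + N) * ∑ n ∈ sp 6 N, ‖β n‖ ^ 2 := by
  refine LS2.final_of_step LS2.LS_two (fun ξ h1 h2 h => ?_) hε
  refine LS2.LS_of_Core ?_ (LS2.Core_of_LSw h1 h2 (LS2.LSw_of_LS (by linarith) h))
  have : 1 / ξ ≤ 1 := by rw [div_le_one (by linarith)]; exact h1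
  linarith

/-- Trivial large sieve for the cubic characters `χ_z^4` (all rows `n`, squarefree moduli `z`). -/
theorem cubic_trivial_sieve {ε : ℝ} (hε : 0 < ε) : ∃ C : ℝ, 0 < C ∧
    ∀ (N Z : ℝ) (c : O → ℂ), 1 ≤ N → 1 ≤ Z →
      ∑ n ∈ ball ⌊N⌋₊, ‖∑ z ∈ sp 6 Z, c z * sym z n ^ 4‖ ^ 2 ≤
        C * (N * Z) ^ ε * (N + Z ^ 2) * ∑ z ∈ sp 6 Z, ‖c z‖ ^ 2 :=
  LS2.triv_sieve (by norm_num) hε

end Crest.Agent.R17
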