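import Mathlib
import Crest.Agent.PVc.R17.Refl
import Crest.Agent.PVc.R17.LS2

-- ▼ part PVc/R17/EnR
section

/-!
# Row 17, module M8 (reflected energy), part R: real inequalities
-/

set_option autoImplicit false

noncomputable section

namespace Crest.Agent.R17.En

/-! ### The shapes of the bounds -/

theorem le_root {x y : ℝ} (hx : 0 ≤ x) (h : x ^ 4 ≤ y) : x ≤ y ^ (1 / 4 : ℝ) := by
  rw [one_div]
  exact (Real.le_rpow_inv_iff_of_pos hx ((pow_nonneg hx 4).trans h) (by norm_num)).2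
    (by exact_mod_cast h)

theorem root_le {x y : ℝ} (hx : 0 ≤ x) (hy : 0 ≤ y) (h : y ≤ x ^ 4) : y ^ (1 / 4 : ℝ) ≤ x := by
  rw [one_div]
  exact (Real.rpow_inv_le_iff_of_pos hy hx (by norm_num)).2 (by exact_mod_cast h)

theorem root_pow {y : ℝ} (hy : 0 ≤ y) : (y ^ (1 / 4 : ℝ)) ^ 4 = y := by
  rw [one_div]
  exact_mod_cast Real.rpow_inv_natCast_pow hy (n := 4) (by norm_num)

/-- the bound of the bilinear estimate (rows `≤ K`, marks `≤ Z`, columns `≤ L`) -/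
def Cb (K Z L ρ : ℝ) : ℝ :=
  K * (L * Z + min (L * Z ^ 2) ((L ^ 3 * Z ^ 9 * ρ) ^ (1 / 4 : ℝ))) +
    L * Z * (L + min (L * Z) (Z ^ 2))

theorem Cb_nonneg {K Z L ρ : ℝ} (hK : 0 ≤ K) (hZ : 0 ≤ Z) (hL : 0 ≤ L) (hρ : 0 ≤ ρ) :
    0 ≤ Cb K Z L ρ := by
  unfold Cb
  positivity

theorem le_Cb {K Z L ρ : ℝ} (hK : 0 ≤ K) (hZ : 0 ≤ Z) (hL : 0 ≤ L) (hρ : 0 ≤ ρ) :
    K * L * Z ≤ Cb K Z L ρ := by
  have h1 : 0 ≤ K * min (L * Z ^ 2) ((L ^ 3 * Z ^ 9 * ρ) ^ (1 / 4 : ℝ)) := by positivity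
  have h2 : 0 ≤ L * Z * (L + min (L * Z) (Z ^ 2)) := by positivity
  unfold Cb
  linarith

theorem Cb_div {K Z L ρ t : ℝ} (hK : 0 ≤ K) (hZ : 0 ≤ Z) (hL : 0 ≤ L) (hρ : 0 ≤ ρ) (ht : 1 ≤ t) :
    Cb (K / t) (Z / t) L ρ ≤ t⁻¹ * Cb K Z L ρ := by
  have h0 : Z / t ≤ Z := div_le_self hZ ht
  have h1 : 0 ≤ Z / t := by positivity
  have h2 : Cb (K / t) (Z / t) L ρ = t⁻¹ * (K * (L * (Z / t) + min (L * (Z / t) ^ 2)
      ((L ^ 3 * (Z / t) ^ 9 * ρ) ^ (1 / 4 : ℝ))) + L * Z * (L + min (L * (Z / t)) ((Z / t) ^ 2))) := by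
    unfold Cb
    ring
  rw [h2, Cb]
  gcongr

theorem Cb_mul {K Z L ρ a : ℝ} (hK : 0 ≤ K) (hZ : 0 ≤ Z) (hL : 0 ≤ L) (hρ : 0 ≤ ρ) (ha : 1 ≤ a) :
    Cb K Z (a * L) ρ ≤ a ^ 2 * Cb K Z L ρ := by
  have ha0 : 0 ≤ a := by linarith
  have ha2 : a ≤ a ^ 2 := by nlinarith
  have h0 : 0 ≤ L ^ 3 * Z ^ 9 * ρ := by positivity
  have h1 : ((a * L) ^ 3 * Z ^ 9 * ρ) ^ (1 / 4 : ℝ) ≤ a * (L ^ 3 * Z ^ 9 * ρ) ^ (1 / 4 : ℝ) := by
    refine root_le (by positivity) (by positivity) ?_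
    rw [mul_pow a _ 4, root_pow h0, mul_pow, mul_assoc, mul_assoc, ← mul_assoc (L ^ 3)]
    exact mul_le_mul_of_nonneg_right (pow_le_pow_right₀ ha (by norm_num)) h0
  have h2 : min (a * L * Z ^ 2) (((a * L) ^ 3 * Z ^ 9 * ρ) ^ (1 / 4 : ℝ)) ≤
      a * min (L * Z ^ 2) ((L ^ 3 * Z ^ 9 * ρ) ^ (1 / 4 : ℝ)) := by
    rw [mul_min_of_nonneg _ _ ha0]
    exact min_le_min (le_of_eq (mul_assoc _ _ _)) h1
  have h3 : min (a * L * Z) (Z ^ 2) ≤ a * min (L * Z) (Z ^ 2) := by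
    rw [mul_min_of_nonneg _ _ ha0]
    exact min_le_min (le_of_eq (mul_assoc _ _ _)) (le_mul_of_one_le_left (sq_nonneg Z) ha)
  have h4 : 0 ≤ K * (L * Z + min (L * Z ^ 2) ((L ^ 3 * Z ^ 9 * ρ) ^ (1 / 4 : ℝ))) := by positivity
  have h5 := mul_le_mul_of_nonneg_left h2 hK
  have h6 := mul_le_mul_of_nonneg_left h3 (by positivity : 0 ≤ a * L * Z)
  have h7 := mul_le_mul_of_nonneg_right ha2 h4
  unfold Cb
  linarith

/-- the bound of one block (`a = 3^{j/3}`, `E ≤ N d ≤ 2E`, `N n ≤ N`) -/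
theorem block_le_Cb {K Z L ρ a E N f : ℝ} (hK : 0 ≤ K) (hZ : 0 ≤ Z) (ha : 1 ≤ a) (hE : 1 ≤ E)
    (hN : 0 ≤ N) (hL : N * a ^ 3 * E ^ 3 = L) (hf : 0 ≤ f) (hρ : f ≤ ρ) :
    a * (2 * E) ^ 2 * (K * min (N * Z ^ 2) ((N + 2 * E * f * Z ^ 2) * Z) +
      N * (2 * E) * min (N * Z ^ 2) ((N + Z ^ 2) * Z)) ≤ 8 * Cb K Z L ρ := by
  have ha0 : 0 ≤ a := by linarith
  have hE0 : 0 ≤ E := by linarith
  have hρ0 : 0 ≤ ρ := hf.trans hρ
  have hL0 : 0 ≤ L := by rw [← hL]; positivity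
  have h1 : ∀ i ≤ 3, ∀ j ≤ 3, N * a ^ i * E ^ j ≤ L := fun i hi j hj => by
    rw [← hL]
    gcongr
  have h2 := h1 1 (by norm_num) 2 (by norm_num)
  have h3 := h1 1 (by norm_num) 3 (by norm_num)
  have h4 := h1 0 (by norm_num) 0 (by norm_num)
  simp only [pow_one, pow_zero, mul_one] at h2 h3 h4
  set μ := min (N * Z ^ 2) (E * ρ * Z ^ 3) with hμ
  have hμ0 : 0 ≤ μ := by positivity
  have hμ1 : μ ≤ N * Z ^ 2 := min_le_left _ _
  have hμ2 : μ ≤ E * ρ * Z ^ 3 := min_le_right _ _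
  have h5 : min (N * Z ^ 2) ((N + 2 * E * f * Z ^ 2) * Z) ≤ N * Z + 2 * μ := by
    have e1 : 0 ≤ N * Z := by positivity
    have e2 : E * f * Z ^ 3 ≤ E * ρ * Z ^ 3 := by gcongr
    rcases min_choice (N * Z ^ 2) (E * ρ * Z ^ 3) with h | h
    · exact (min_le_left _ _).trans (by linarith)
    · exact (min_le_right _ _).trans (by linarith)
  have h6 : a * E ^ 2 * μ ≤ min (L * Z ^ 2) ((L ^ 3 * Z ^ 9 * ρ) ^ (1 / 4 : ℝ)) := by
    refine le_min ?_ (le_root (by positivity) ?_)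
    · nlinarith [mul_le_mul_of_nonneg_left hμ1 (by positivity : 0 ≤ a * E ^ 2),
        mul_le_mul_of_nonneg_right h2 (sq_nonneg Z)]
    · calc (a * E ^ 2 * μ) ^ 4 = a ^ 4 * (E ^ 8 * (μ ^ 3 * μ)) := by ring
        _ ≤ a ^ 9 * (E ^ 8 * ((N * Z ^ 2) ^ 3 * (E * ρ * Z ^ 3))) := by gcongr; norm_num
        _ = L ^ 3 * Z ^ 9 * ρ := by rw [← hL]; ring
  have h7 : min (N * Z ^ 2) ((N + Z ^ 2) * Z) ≤ Z * (L + min (L * Z) (Z ^ 2)) := by
    have e1 : 0 ≤ Z * L := by positivity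
    have e2 : N * Z ≤ L * Z := by gcongr
    have e3 : N * Z ^ 2 ≤ L * Z ^ 2 := by gcongr
    rcases min_choice (L * Z) (Z ^ 2) with h | h <;> rw [h]
    · exact (min_le_left _ _).trans (by linarith)
    · exact (min_le_right _ _).trans (by linarith)
  have h8 := mul_le_mul_of_nonneg_left h5 (by positivity : 0 ≤ a * E ^ 2 * K)
  have h9 := mul_le_mul_of_nonneg_left h6 hK
  have h10 := mul_le_mul h3 h7 (by positivity) hL0
  have h11 := mul_le_mul_of_nonneg_left h2 (by positivity : 0 ≤ K * Z)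
  have h12 : 0 ≤ K * L * Z := by positivity
  unfold Cb
  linarith

/-- the bound for a fixed frozen part of radical norm `ρ` -/
def Fb (K D Z ρ : ℝ) : ℝ :=
  K + min (K * Z) (Real.sqrt K * Z * D ^ (1 / 4 : ℝ)) + K ^ 2 * ρ ^ 2 * Z / D +
    min (K ^ 2 * ρ ^ 2 * Z / D * Z) (Z ^ 2)

theorem Fb_nonneg {K D Z ρ : ℝ} (hK : 0 ≤ K) (hD : 0 < D) (hZ : 0 ≤ Z) : 0 ≤ Fb K D Z ρ := by
  unfold Fb
  positivity

theorem Fb_mono {K K' D Z ρ ρ' : ℝ} (hK : 0 ≤ K) (hKK : K ≤ K') (hD : 0 < D) (hZ : 0 ≤ Z)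
    (hρ : 0 ≤ ρ) (hρρ : ρ ≤ ρ') : Fb K D Z ρ ≤ Fb K' D Z ρ' := by
  have hK' : 0 ≤ K' := hK.trans hKK
  unfold Fb
  gcongr

/-- from `Cb` to `Fb`: rows `∼ K₁`, inactive part of the marks of norm `w` -/
theorem Cb_le_Fb {c : ℝ} (hc : 0 < c) : ∃ C : ℝ, 0 < C ∧ ∀ K₁ D Z ρ w : ℝ, 0 < K₁ → 0 < D →
    0 < Z → 1 ≤ ρ → 1 ≤ w →
    w ^ 2 * ((D / (K₁ * ρ)) ^ 2 * (w / Z) *
      Cb (2 * K₁) (2 * Z / w) ((2 * K₁) ^ 2 * (2 * Z / w) / (D * w / (c * ρ ^ 2))) ρ) ≤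
      C * (D * Z) * Fb K₁ D Z ρ := by
  set C₁ : ℝ := 2 + 4 / c with hC₁
  have hC1 : 2 ≤ C₁ := le_add_of_nonneg_right (by positivity)
  refine ⟨16 * c * (2 * C₁ + 16 * c + 4), by positivity, fun K D Z ρ w hK hD hZ hρ hw => ?_⟩
  have hρ0 : 0 < ρ := by linarith
  have hw0 : 0 < w := by linarith
  set Z' := 2 * Z / w with hZ'
  set L := (2 * K) ^ 2 * Z' / (D * w / (c * ρ ^ 2)) with hL
  set B := K ^ 2 * ρ ^ 2 * Z / D with hB
  set R := Real.sqrt K * Z * D ^ (1 / 4 : ℝ) with hR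
  have hZ0 : 0 < Z' := by positivity
  have hL0 : 0 < L := by positivity
  have hB0 : 0 < B := by positivity
  have hR0 : 0 < R := by positivity
  have h1 : L = 8 * c * B / w ^ 2 := by
    rw [hL, hZ', hB]
    field_simp
    norm_num
  have h2 : Z' ≤ 2 * Z := div_le_self (by positivity) hw
  have h3 : L ≤ 8 * c * B := by
    rw [h1]
    exact div_le_self (by positivity) (one_le_pow₀ hw)
  have h4 : R ^ 4 = K ^ 2 * Z ^ 4 * D := by
    rw [hR, mul_pow, mul_pow, root_pow hD.le, show 4 = 2 * 2 from rfl, pow_mul, Real.sq_sqrt hK.le]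
  have h5 : (L ^ 3 * Z' ^ 9 * ρ) ^ (1 / 4 : ℝ) ≤ L * Z' * (C₁ * R / K) := by
    refine root_le (by positivity) (by positivity) ?_
    have e1 : 4 ≤ c * C₁ ^ 4 * ρ * w ^ 3 := by
      calc 4 = c * (4 / c) ^ 1 * 1 * 1 := by field_simp
        _ ≤ c * C₁ ^ 1 * ρ * w ^ 3 := by
          gcongr
          · linarith
          · exact one_le_pow₀ hw
        _ ≤ c * C₁ ^ 4 * ρ * w ^ 3 := by
          gcongr
          · linarith
          · norm_num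
    have e2 : L ^ 3 * Z' ^ 9 * ρ = L ^ 3 * Z' ^ 4 * (8 * Z ^ 5 * ρ / w ^ 5) * 4 := by
      rw [hZ']
      field_simp
      norm_num
    have e3 : (L * Z' * (C₁ * R / K)) ^ 4 =
        L ^ 3 * Z' ^ 4 * (8 * Z ^ 5 * ρ / w ^ 5) * (c * C₁ ^ 4 * ρ * w ^ 3) := by
      rw [mul_pow, div_pow, mul_pow C₁, h4, mul_pow, show L ^ 4 = L ^ 3 * L by ring]
      nth_rewrite 2 [h1]
      rw [hB]
      field_simp
    rw [e2, e3]
    gcongr
  have h6 : K * min (L * Z' ^ 2) ((L ^ 3 * Z' ^ 9 * ρ) ^ (1 / 4 : ℝ)) ≤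
      L * Z' * (C₁ * min (K * Z) R) := by
    rcases min_choice (K * Z) R with h | h <;> rw [h]
    · calc _ ≤ K * (L * Z' ^ 2) := mul_le_mul_of_nonneg_left (min_le_left _ _) hK.le
        _ = L * Z' * (K * Z') := by ring
        _ ≤ L * Z' * (K * (C₁ * Z)) := by
          gcongr
          nlinarith
        _ = _ := by ring
    · calc _ ≤ K * (L * Z' * (C₁ * R / K)) :=
          mul_le_mul_of_nonneg_left ((min_le_right _ _).trans h5) hK.le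
        _ = _ := by field_simp
  have h7 : min (L * Z') (Z' ^ 2) ≤ (16 * c + 4) * min (B * Z) (Z ^ 2) := by
    rw [mul_min_of_nonneg _ _ (by positivity)]
    refine min_le_min ?_ ?_
    · nlinarith [mul_le_mul h3 h2 hZ0.le (by positivity), mul_pos hB0 hZ]
    · nlinarith [mul_pos hc (pow_pos hZ 2)]
  have h8 : Cb (2 * K) Z' L ρ ≤ L * Z' * ((2 * C₁ + 16 * c + 4) * Fb K D Z ρ) := by
    have e1 : 0 ≤ min (K * Z) R := by positivity
    have e2 : 0 ≤ min (B * Z) (Z ^ 2) := by positivity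
    have e3 : 2 * K + 2 * (C₁ * min (K * Z) R) + L + min (L * Z') (Z' ^ 2) ≤
        (2 * C₁ + 16 * c + 4) * Fb K D Z ρ := by
      rw [Fb, ← hB, ← hR]
      nlinarith [mul_nonneg hc.le e1, mul_pos hc hK, mul_pos hc hB0]
    have e4 := mul_le_mul_of_nonneg_left e3 (mul_pos hL0 hZ0).le
    unfold Cb
    linarith
  refine (mul_le_mul_of_nonneg_left (mul_le_mul_of_nonneg_left h8 (by positivity))
    (by positivity)).trans (le_of_eq ?_)
  rw [h1, hZ', hB]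
  field_simp
  norm_num

/-- from `Fb` to the final bound: powerful part of norm `H`, prefix of norm `H₀` -/
theorem Fb_le {K D Z ρ H H₀ : ℝ} (hD : 0 < D) (hZ : 0 ≤ Z) (hH : 1 ≤ H) (hHK : H ≤ K)
    (hH₀ : 1 ≤ H₀) (hρ : ρ ^ 2 ≤ H * H₀ ^ 2) :
    Fb (K / H) D Z ρ ≤ H₀ ^ 2 * H ^ (-(1 / 2 : ℝ)) *
      (K + K ^ 2 * Z / D + min (Z ^ 2 * Real.sqrt K) (K * Z ^ 2 / Real.sqrt D) +
        min (K * Z) (Real.sqrt K * Z * D ^ (1 / 4 : ℝ))) := by
  have hH0 : 0 < H := by linarith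
  have hK : 0 < K := by linarith
  rw [Real.rpow_neg hH0.le, ← Real.sqrt_eq_rpow, Fb, Real.sqrt_div' _ hH0.le]
  have h1 : 1 ≤ Real.sqrt H := Real.one_le_sqrt.2 hH
  have h2 : Real.sqrt H ≤ Real.sqrt K := Real.sqrt_le_sqrt hHK
  have h3 : Real.sqrt H ^ 2 = H := Real.sq_sqrt hH0.le
  have h4 : Real.sqrt D ^ 2 = D := Real.sq_sqrt hD.le
  have h5 : 0 < Real.sqrt D := Real.sqrt_pos.2 hD
  have h6 : 0 ≤ D ^ (1 / 4 : ℝ) := by positivity
  generalize Real.sqrt H = h at *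
  generalize Real.sqrt K = k at *
  generalize D ^ (1 / 4 : ℝ) = r at *
  generalize Real.sqrt D = d at *
  subst h3 h4
  have hh : 0 < h := by linarith
  have hk : 0 < k := by linarith
  have h7 : h⁻¹ ≤ H₀ ^ 2 * h⁻¹ := le_mul_of_one_le_left (by positivity) (one_le_pow₀ hH₀)
  have h8 : (h ^ 2)⁻¹ ≤ h⁻¹ := inv_anti₀ hh (by nlinarith)
  have h9 : (K / h ^ 2) ^ 2 * ρ ^ 2 ≤ (K * H₀ / h) ^ 2 :=
    (mul_le_mul_of_nonneg_left hρ (by positivity)).trans (le_of_eq (by field_simp))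
  have e1 : K / h ^ 2 ≤ H₀ ^ 2 * h⁻¹ * K := by
    rw [div_eq_inv_mul]
    exact mul_le_mul_of_nonneg_right (h8.trans h7) hK.le
  have e2 : min (K / h ^ 2 * Z) (k / h * Z * r) ≤ H₀ ^ 2 * h⁻¹ * min (K * Z) (k * Z * r) := by
    rw [mul_min_of_nonneg _ _ (by positivity)]
    refine min_le_min ?_ ?_
    · rw [← mul_assoc]
      exact mul_le_mul_of_nonneg_right e1 hZ
    · rw [div_eq_inv_mul, mul_assoc, mul_assoc, ← mul_assoc k]
      exact mul_le_mul_of_nonneg_right h7 (by positivity)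
  have e3 : (K / h ^ 2) ^ 2 * ρ ^ 2 * Z / d ^ 2 ≤ H₀ ^ 2 * h⁻¹ * (K ^ 2 * Z / d ^ 2) := by
    calc _ ≤ (K * H₀ / h) ^ 2 * Z / d ^ 2 := by gcongr
      _ = H₀ ^ 2 * (h ^ 2)⁻¹ * (K ^ 2 * Z / d ^ 2) := by field_simp
      _ ≤ _ := by gcongr
  have e4 : min ((K / h ^ 2) ^ 2 * ρ ^ 2 * Z / d ^ 2 * Z) (Z ^ 2) ≤
      H₀ ^ 2 * h⁻¹ * min (Z ^ 2 * k) (K * Z ^ 2 / d) := by
    rw [mul_min_of_nonneg _ _ (by positivity)]
    refine le_min ((min_le_right _ _).trans ?_) ?_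
    · calc Z ^ 2 = h⁻¹ * (Z ^ 2 * h) := by field_simp
        _ ≤ _ := by gcongr
    · set q := K * H₀ / h / d with hq
      have hq0 : 0 ≤ q := by positivity
      have a1 : (K / h ^ 2) ^ 2 * ρ ^ 2 * Z / d ^ 2 * Z ≤ q * (q * Z ^ 2) := by
        calc _ ≤ (K * H₀ / h) ^ 2 * Z / d ^ 2 * Z := by gcongr
          _ = _ := by rw [hq]; field_simp
      have a2 : q * Z ^ 2 ≤ H₀ ^ 2 * h⁻¹ * (K * Z ^ 2 / d) := by
        calc _ = H₀ ^ 1 * h⁻¹ * (K * Z ^ 2 / d) := by rw [hq]; field_simp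
          _ ≤ _ := by gcongr; norm_num
      refine le_trans ?_ a2
      rcases le_total q 1 with a3 | a3
      · exact (min_le_left _ _).trans (a1.trans (mul_le_of_le_one_left (by positivity) a3))
      · exact (min_le_right _ _).trans (le_mul_of_one_le_left (sq_nonneg Z) a3)
  linarith

end Crest.Agent.R17.En
end
end

-- ▼ part PVc/R17/EnA
section

/-!
# Row 17, module M8 (reflected energy), part A: toolkit
-/

set_option autoImplicit false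

noncomputable section

namespace Crest.Agent.R17.En

open scoped ComplexConjugate
open MeasureTheory Finset

/-! ### Cauchy–Schwarz -/

theorem sq_sum_le_card {α : Type*} (I : Finset α) (a : α → ℂ) :
    ‖∑ i ∈ I, a i‖ ^ 2 ≤ I.card * ∑ i ∈ I, ‖a i‖ ^ 2 := by
  exact (pow_le_pow_left₀ (norm_nonneg _) (norm_sum_le _ _) 2).trans sq_sum_le_card_mul_sum_sq

theorem sq_sum_le_weight {α : Type*} (I : Finset α) (a : α → ℂ) {w : α → ℝ}
    (hw : ∀ i ∈ I, 0 < w i) :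
    ‖∑ i ∈ I, a i‖ ^ 2 ≤ (∑ i ∈ I, (w i)⁻¹) * ∑ i ∈ I, w i * ‖a i‖ ^ 2 := by
  refine (pow_le_pow_left₀ (norm_nonneg _) (norm_sum_le _ _) 2).trans ?_
  refine sum_sq_le_sum_mul_sum_of_sq_le_mul I (fun i hi => (inv_pos.2 (hw i hi)).le)
    (fun i hi => mul_nonneg (hw i hi).le (sq_nonneg _)) fun i hi => ?_
  rw [inv_mul_cancel_left₀ (hw i hi).ne']

theorem l2_sum_le {α κ : Type*} (S : Finset κ) (I : Finset α) (f : α → κ → ℂ) {E : ℝ}
    (h : ∀ i ∈ I, ∑ k ∈ S, ‖f i k‖ ^ 2 ≤ E) :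
    ∑ k ∈ S, ‖∑ i ∈ I, f i k‖ ^ 2 ≤ (I.card : ℝ) ^ 2 * E := by
  calc _ ≤ ∑ k ∈ S, (I.card : ℝ) * ∑ i ∈ I, ‖f i k‖ ^ 2 :=
        sum_le_sum fun k _ => sq_sum_le_card I _
    _ = I.card * ∑ i ∈ I, ∑ k ∈ S, ‖f i k‖ ^ 2 := by rw [← mul_sum, sum_comm]
    _ ≤ I.card * ∑ _i ∈ I, E := mul_le_mul_of_nonneg_left (sum_le_sum h) (Nat.cast_nonneg _)
    _ = _ := by rw [sum_const, nsmul_eq_mul]; ring

/-- weighted version: the pieces have energy `≤ E / w²` -/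
theorem l2_sum_le_weight {α κ : Type*} (S : Finset κ) (I : Finset α) (f : α → κ → ℂ) {w : α → ℝ}
    (hw : ∀ i ∈ I, 0 < w i) {E : ℝ} (h : ∀ i ∈ I, w i ^ 2 * ∑ k ∈ S, ‖f i k‖ ^ 2 ≤ E) :
    ∑ k ∈ S, ‖∑ i ∈ I, f i k‖ ^ 2 ≤ (∑ i ∈ I, (w i)⁻¹) ^ 2 * E := by
  have h0 : 0 ≤ ∑ i ∈ I, (w i)⁻¹ := sum_nonneg fun i hi => (inv_pos.2 (hw i hi)).le
  calc _ ≤ ∑ k ∈ S, (∑ i ∈ I, (w i)⁻¹) * ∑ i ∈ I, w i * ‖f i k‖ ^ 2 :=
        sum_le_sum fun k _ => sq_sum_le_weight I _ hw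
    _ = (∑ i ∈ I, (w i)⁻¹) * ∑ i ∈ I, w i * ∑ k ∈ S, ‖f i k‖ ^ 2 := by
        rw [← mul_sum, sum_comm]
        simp only [mul_sum]
    _ ≤ (∑ i ∈ I, (w i)⁻¹) * ∑ i ∈ I, (w i)⁻¹ * E := by
        refine mul_le_mul_of_nonneg_left (sum_le_sum fun i hi => ?_) h0
        rw [le_inv_mul_iff₀ (hw i hi), ← mul_assoc, ← sq]
        exact h i hi
    _ = _ := by rw [← sum_mul]; ring

theorem l2_add_le {κ : Type*} (S : Finset κ) (f g : κ → ℂ) :
    ∑ k ∈ S, ‖f k + g k‖ ^ 2 ≤ 2 * ∑ k ∈ S, ‖f k‖ ^ 2 + 2 * ∑ k ∈ S, ‖g k‖ ^ 2 := by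
  rw [mul_sum, mul_sum, ← sum_add_distrib]
  refine sum_le_sum fun k _ => ?_
  have h := pow_le_pow_left₀ (norm_nonneg _) (norm_add_le (f k) (g k)) 2
  nlinarith [sq_nonneg (‖f k‖ - ‖g k‖)]

theorem l2_integral {κ : Type*} (S : Finset κ) {Kr : ℝ → ℂ} {G : ℝ → κ → ℂ} {E : ℝ}
    (hK : Integrable Kr) (hG : ∀ k ∈ S, Integrable fun u => Kr u * G u k)
    (h : ∀ u, ∑ k ∈ S, ‖G u k‖ ^ 2 ≤ E) :
    ∑ k ∈ S, ‖∫ u, Kr u * G u k‖ ^ 2 ≤ (∫ u, ‖Kr u‖) ^ 2 * E := by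
  set a : κ → ℂ := fun k => ∫ u, Kr u * G u k with ha
  set T : ℝ := ∑ k ∈ S, ‖a k‖ ^ 2 with hT
  have hT0 : 0 ≤ T := sum_nonneg fun _ _ => sq_nonneg _
  have hE : 0 ≤ E := (sum_nonneg fun _ _ => sq_nonneg _).trans (h 0)
  have hI : 0 ≤ ∫ u, ‖Kr u‖ := integral_nonneg fun _ => norm_nonneg _
  have h1 : (T : ℂ) = ∫ u, ∑ k ∈ S, conj (a k) * (Kr u * G u k) := by
    rw [integral_finsetSum _ fun k hk => (hG k hk).const_mul _, hT]
    push_cast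
    refine sum_congr rfl fun k _ => ?_
    rw [integral_const_mul, Complex.conj_mul']
  have h2 : ∀ u, ‖∑ k ∈ S, conj (a k) * (Kr u * G u k)‖ ≤ ‖Kr u‖ * (√T * √E) := by
    intro u
    have h3 : ∑ k ∈ S, ‖a k‖ * ‖G u k‖ ≤ √T * √E := by
      refine (Real.sum_mul_le_sqrt_mul_sqrt S _ _).trans ?_
      exact mul_le_mul_of_nonneg_left (Real.sqrt_le_sqrt (h u)) (Real.sqrt_nonneg _)
    refine (norm_sum_le _ _).trans (le_trans (le_of_eq ?_)
      (mul_le_mul_of_nonneg_left h3 (norm_nonneg _)))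
    rw [mul_sum]
    refine sum_congr rfl fun k _ => ?_
    rw [norm_mul, norm_mul, Complex.norm_conj]
    ring
  have h4 : T ≤ (∫ u, ‖Kr u‖) * (√T * √E) := by
    calc T = ‖(T : ℂ)‖ := by rw [Complex.norm_real, Real.norm_of_nonneg hT0]
      _ ≤ ∫ u, ‖Kr u‖ * (√T * √E) := by
        rw [h1]
        exact norm_integral_le_of_norm_le (hK.norm.mul_const _) (Filter.Eventually.of_forall h2)
      _ = _ := integral_mul_const _ _
  have h5 := Real.sq_sqrt hT0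
  have h6 := Real.sq_sqrt hE
  nlinarith [sq_nonneg (√T - (∫ u, ‖Kr u‖) * √E)]

/-! ### Counting -/

theorem mem_ball_floor {X : ℝ} (hX : 0 ≤ X) {n : O} : n ∈ ball ⌊X⌋₊ ↔ nr n ≤ X := by
  rw [mem_ball, Nat.le_floor_iff hX]

theorem mem_sp {M n : O} {X : ℝ} (hX : 0 ≤ X) : n ∈ sp M X ↔ SP M n ∧ nr n ≤ X := by
  classical
  rw [sp, mem_filter, mem_ball_floor hX, and_comm]

theorem SP.po {n : O} (h : SP 6 n) : PO n := by
  exact ⟨h.1, h.2.2.of_isCoprime_of_dvd_right ⟨3, by norm_num⟩⟩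

theorem SP.of_dvd {M n d : O} (h : SP M n) (hd : Primary d) (hdn : d ∣ n) : SP M d := by
  exact ⟨hd, h.2.1.squarefree_of_dvd hdn, h.2.2.of_isCoprime_of_dvd_left hdn⟩

theorem SP.six {M h n : O} (hM : Adm M) (hn : SP (M * h) n) : SP 6 n := by
  exact ⟨hn.1, hn.2.1, hn.2.2.of_isCoprime_of_dvd_right
    ((Dvd.intro 12 (by norm_num) : (6 : O) ∣ 72).trans (hM.2.mul_right h))⟩

theorem card_le {S : Finset O} {X : ℝ} (hX : 0 ≤ X) (h : ∀ n ∈ S, n ≠ 0 ∧ nr n ≤ X) :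
    (S.card : ℝ) ≤ 7 * X := by
  classical
  have h1 : S ⊆ (ball ⌊X⌋₊).erase 0 := fun n hn =>
    mem_erase.2 ⟨(h n hn).1, (mem_ball_floor hX).2 (h n hn).2⟩
  have h2 := card_le_card h1
  rw [card_erase_of_mem (mem_ball.2 (by simp))] at h2
  have h3 := card_ball_le ⌊X⌋₊
  have h4 : (S.card : ℝ) ≤ 7 * (⌊X⌋₊ : ℕ) := by exact_mod_cast (by omega : S.card ≤ 7 * ⌊X⌋₊)
  linarith [Nat.floor_le hX]

/-- non-zero multiples of `q` -/
theorem card_mult {q : O} (hq : q ≠ 0) {S : Finset O} {X : ℝ} (hX : 0 ≤ X)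
    (h : ∀ n ∈ S, n ≠ 0 ∧ q ∣ n ∧ nr n ≤ X) : (S.card : ℝ) ≤ 7 * (X / nr q) := by
  classical
  choose! t ht using fun n (hn : n ∈ S) => (h n hn).2.1
  have hq0 := nr_pos hq
  rw [← card_image_of_injOn (f := t) fun a ha b hb hab => by
    rw [ht a ha, ht b hb, hab]]
  refine card_le (by positivity) fun x hx => ?_
  obtain ⟨n, hn, rfl⟩ := mem_image.1 hx
  refine ⟨fun h0 => (h n hn).1 (by rw [ht n hn, h0, mul_zero]), ?_⟩
  rw [le_div_iff₀ hq0, mul_comm, ← nr_mul, ← ht n hn]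
  exact (h n hn).2.2

theorem card_sp (M : O) {X : ℝ} (hX : 0 ≤ X) : ((sp M X).card : ℝ) ≤ 7 * X := by
  exact card_le hX fun n hn => ⟨((mem_sp hX).1 hn).1.1.ne_zero, ((mem_sp hX).1 hn).2⟩

theorem sum_inv_le {ε : ℝ} (hε : 0 < ε) : ∃ C : ℝ, 0 < C ∧ ∀ (Q : ℝ) (S : Finset O), 1 ≤ Q →
    (∀ n ∈ S, n ≠ 0 ∧ nr n ≤ Q) → ∑ n ∈ S, (nr n)⁻¹ ≤ C * Q ^ ε := by
  classical
  obtain ⟨C, hC, h⟩ := sum_inv_nr_le
  refine ⟨C * (2 + ε⁻¹), by positivity, fun Q S hQ hS => ?_⟩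
  have hQ0 : 0 < Q := by linarith
  have h1 : S ⊆ (ball ⌊Q⌋₊).erase 0 := fun n hn =>
    mem_erase.2 ⟨(hS n hn).1, (mem_ball_floor hQ0.le).2 (hS n hn).2⟩
  refine (sum_le_sum_of_subset_of_nonneg h1 fun _ _ _ => by positivity).trans ((h _).trans ?_)
  rw [mul_assoc]
  refine mul_le_mul_of_nonneg_left ?_ hC.le
  have h2 : Real.log (⌊Q⌋₊ + 1) ≤ Real.log 2 + Real.log Q := by
    rw [← Real.log_mul two_ne_zero hQ0.ne']
    exact Real.log_le_log (by positivity) (by linarith [Nat.floor_le hQ0.le])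
  have h3 : Real.log Q ≤ Q ^ ε / ε := Real.log_le_rpow_div hQ0.le hε
  have h4 : 1 ≤ Q ^ ε := Real.one_le_rpow hQ hε.le
  have h5 := Real.log_two_lt_d9
  rw [div_eq_inv_mul] at h3
  nlinarith

theorem log_le {ε : ℝ} (hε : 0 < ε) : ∃ C : ℝ, 0 < C ∧ ∀ (Q : ℝ) (n : ℕ),
    (2 : ℝ) ^ n ≤ Q → (n : ℝ) + 1 ≤ C * Q ^ ε := by
  refine ⟨1 + 2 * ε⁻¹, by positivity, fun Q n hQ => ?_⟩
  have hQ1 : 1 ≤ Q := (one_le_pow₀ one_le_two).trans hQ
  have h2 : n * Real.log 2 ≤ Real.log Q := by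
    rw [← Real.log_pow]
    exact Real.log_le_log (by positivity) hQ
  have h3 : Real.log Q ≤ Q ^ ε / ε := Real.log_le_rpow_div (by linarith) hε
  have h4 : 1 ≤ Q ^ ε := Real.one_le_rpow hQ1 hε.le
  have h5 := Real.log_two_gt_d9
  have h6 : (0 : ℝ) ≤ n := Nat.cast_nonneg _
  rw [div_eq_inv_mul] at h3
  nlinarith

/-- divisor bound with a uniform majorant -/
theorem card_pdiv_le' {ε : ℝ} (hε : 0 < ε) : ∃ C : ℝ, 0 < C ∧ ∀ (Q : ℝ) (n : O), n ≠ 0 →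
    nr n ≤ Q → ((pdiv n).card : ℝ) ≤ C * Q ^ ε := by
  obtain ⟨C, hC, h⟩ := card_pdiv_le hε
  exact ⟨C, hC, fun Q n hn hQ => (h n hn).trans (mul_le_mul_of_nonneg_left
    (Real.rpow_le_rpow (Nat.cast_nonneg _) hQ hε.le) hC.le)⟩

/-- dyadic decomposition -/
theorem dyadic {ε : ℝ} (hε : 0 < ε) : ∃ C : ℝ, 0 < C ∧ ∀ (Q K E : ℝ) (S : Finset O) (f : O → ℝ),
    1 ≤ K → K ≤ Q → (∀ k ∈ S, k ≠ 0 ∧ nr k ≤ K) → (∀ k, 0 ≤ f k) →
    (∀ K₁ : ℝ, 1 ≤ K₁ → K₁ ≤ K →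
      ∑ k ∈ S.filter (fun k => K₁ ≤ nr k ∧ nr k ≤ 2 * K₁), f k ≤ E) →
    ∑ k ∈ S, f k ≤ C * Q ^ ε * E := by
  classical
  obtain ⟨C, hC, h⟩ := log_le hε
  refine ⟨C, hC, fun Q K E S f hK hKQ hS hf hE => ?_⟩
  have hE0 : 0 ≤ E := (sum_nonneg fun _ _ => hf _).trans (hE 1 le_rfl hK)
  have hK0 : ⌊K⌋₊ ≠ 0 := by
    have := (Nat.one_le_floor_iff K).2 hK
    omega
  have hm : (2 : ℝ) ^ Nat.log 2 ⌊K⌋₊ ≤ K :=
    le_trans (by exact_mod_cast Nat.pow_log_le_self 2 hK0) (Nat.floor_le (by linarith))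
  rw [← sum_fiberwise_of_maps_to (t := range (Nat.log 2 ⌊K⌋₊ + 1)) (g := fun k => Nat.log 2 (nm k))
    fun k hk => mem_range.2 (Nat.lt_succ_of_le (Nat.log_mono_right
      ((Nat.le_floor_iff (by linarith)).2 (hS k hk).2)))]
  calc _ ≤ ∑ _e ∈ range (Nat.log 2 ⌊K⌋₊ + 1), E := by
        refine sum_le_sum fun e he => le_trans ?_ (hE (2 ^ e) (one_le_pow₀ one_le_two)
          ((pow_le_pow_right₀ one_le_two (Nat.lt_succ_iff.1 (mem_range.1 he))).trans hm))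
        refine sum_le_sum_of_subset_of_nonneg (fun k hk => ?_) fun _ _ _ => hf _
        obtain ⟨hk', rfl⟩ := mem_filter.1 hk
        have h0 : nm k ≠ 0 := fun h0 => (hS k hk').1 (nm_eq_zero.1 h0)
        refine mem_filter.2 ⟨hk', by exact_mod_cast Nat.pow_log_le_self 2 h0, ?_⟩
        have := (Nat.lt_pow_succ_log_self one_lt_two (nm k)).le
        rw [pow_succ'] at this
        exact_mod_cast this
    _ ≤ _ := by
        rw [sum_const, card_range, nsmul_eq_mul]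
        refine mul_le_mul_of_nonneg_right ?_ hE0
        exact_mod_cast h Q _ (hm.trans hKQ)

open Classical in
/-- multiples of `t` among the squarefree elements -/
theorem sum_sp_dvd {β : Type*} [AddCommMonoid β] {t : O} (ht : Primary t) {X : ℝ} (hX : 0 ≤ X)
    (f : O → β) : ∑ z ∈ (sp 6 X).filter (t ∣ ·), f z =
      ∑ z ∈ sp 6 (X / nr t), if t * z ∈ sp 6 X then f (t * z) else 0 := by
  have ht0 := nr_pos ht.ne_zero
  rw [← sum_filter]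
  symm
  refine sum_bij (fun z _ => t * z) (fun z hz => ?_) (fun a _ b _ hab => ?_) (fun z hz => ?_)
    fun _ _ => rfl
  · exact mem_filter.2 ⟨(mem_filter.1 hz).2, dvd_mul_right _ _⟩
  · exact mul_left_cancel₀ ht.ne_zero hab
  · obtain ⟨hz, z', rfl⟩ := mem_filter.1 hz
    have h1 := (mem_sp hX).1 hz
    refine ⟨z', mem_filter.2 ⟨(mem_sp (by positivity)).2
      ⟨SP.of_dvd h1.1 (ht.of_mul h1.1.1) (dvd_mul_left _ _), ?_⟩, hz⟩, rfl⟩
    rw [le_div_iff₀ ht0, mul_comm, ← nr_mul]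
    exact h1.2

open Classical in
/-- summation over the factorisations `z = zi * za` -/
theorem sum_pdiv_sp {β : Type*} [AddCommMonoid β] {X : ℝ} (hX : 0 ≤ X) {Zs : Finset O}
    (h : Zs ⊆ sp 6 X) (g : O → O → β) : ∑ z ∈ Zs, ∑ za ∈ pdiv z, g z za =
      ∑ zi ∈ sp 6 X, ∑ za ∈ sp 6 (X / nr zi), if zi * za ∈ Zs then g (zi * za) za else 0 := by
  simp only [← sum_filter]
  rw [sum_sigma', sum_sigma']
  symm
  refine sum_bij (fun x _ => ⟨x.1 * x.2, x.2⟩) (fun x hx => ?_) (fun a ha b hb hab => ?_)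
    (fun y hy => ?_) fun _ _ => rfl
  · simp only [mem_sigma, mem_filter] at hx ⊢
    have h1 := (mem_sp hX).1 (h hx.2.2)
    have h2 := (mem_sp (div_nonneg hX (Nat.cast_nonneg _))).1 hx.2.1
    exact ⟨hx.2.2, (mem_pdiv h1.1.1.ne_zero).2 ⟨h2.1.1, dvd_mul_left _ _⟩⟩
  · simp only [mem_sigma, mem_filter] at hb
    have h2 := (mem_sp (div_nonneg hX (Nat.cast_nonneg _))).1 hb.2.1
    obtain ⟨a1, a2⟩ := a
    obtain ⟨b1, b2⟩ := b
    simp only [Sigma.mk.injEq, heq_eq_eq] at hab ⊢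
    obtain ⟨h3, rfl⟩ := hab
    exact ⟨mul_right_cancel₀ h2.1.1.ne_zero h3, rfl⟩
  · obtain ⟨z, za⟩ := y
    simp only [mem_sigma] at hy
    have h1 := (mem_sp hX).1 (h hy.1)
    obtain ⟨h2, zi, rfl⟩ := (mem_pdiv h1.1.1.ne_zero).1 hy.2
    have h3 : Primary zi := h2.of_mul h1.1.1
    have h4 := h1.2
    rw [nr_mul] at h4
    have h5 := one_le_nr h2.ne_zero
    have h6 := nr_pos h3.ne_zero
    refine ⟨⟨zi, za⟩, ?_, by simp [mul_comm]⟩
    simp only [mem_sigma, mem_filter]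
    refine ⟨(mem_sp hX).2 ⟨SP.of_dvd h1.1 h3 (dvd_mul_left _ _), by nlinarith⟩,
      (mem_sp (by positivity)).2 ⟨SP.of_dvd h1.1 h2 (dvd_mul_right _ _), ?_⟩, ?_⟩
    · rwa [le_div_iff₀ h6]
    · rw [mul_comm]
      exact hy.1

/-- every primary element is a squarefree element times a square -/
theorem exists_sqfree_sq {d : O} (hd : Primary d) :
    ∃ d₀ y : O, Primary d₀ ∧ Squarefree d₀ ∧ Primary y ∧ d = d₀ * y ^ 2 := by
  have hs : ∀ q ∈ pf d, Prime q ∧ Primary q := fun q hq => BasicB.pf_sub hq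
  have h0 := BasicB.primary_prod_pow hs fun p => vp p d % 2
  refine ⟨_, _, h0, ?_, BasicB.primary_prod_pow hs _, BasicB.eq_mod_mul_div hd 2⟩
  rw [h0.squarefree_iff]
  intro p hp
  have h1 := BasicB.vp_ne_zero hp
  have h2 := BasicB.pf_sub hp
  rw [vp_prod_pow hs _ h2.1 h2.2] at h1 ⊢
  split_ifs at h1 ⊢ <;> omega

/-! ### Dual coefficients -/

theorem dualB_of_le {C : ℝ} {h r : O} {b b' : O → ℂ} (hb : DualB C h r b)
    (hle : ∀ ν, ‖b' ν‖ ≤ ‖b ν‖) : DualB C h r b' := by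
  intro ν hν
  obtain ⟨u, j, n, d, h1, h2, h3, h4, h5, h6⟩ := hb ν fun h0 =>
    hν (norm_le_zero_iff.1 ((hle ν).trans_eq (by rw [h0, norm_zero])))
  exact ⟨u, j, n, d, h1, h2, h3, h4, h5, (hle ν).trans h6⟩

theorem dualB_mono {C C' : ℝ} {h r : O} {b : O → ℂ} (hb : DualB C h r b) (hC : C ≤ C') :
    DualB C' h r b := by
  intro ν hν
  obtain ⟨u, j, n, d, h1, h2, h3, h4, h5, h6⟩ := hb ν hν
  refine ⟨u, j, n, d, h1, h2, h3, h4, h5, h6.trans ?_⟩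
  gcongr

theorem dualB_zero {C : ℝ} {h r : O} {b : O → ℂ} (hb : DualB C h r b) : b 0 = 0 := by
  by_contra h0
  obtain ⟨u, j, n, d, h1, h2, -, h4, h5, -⟩ := hb 0 h0
  exact mul_ne_zero (mul_ne_zero h1.ne_zero (pow_ne_zero _ prime_lam.ne_zero))
    (mul_ne_zero h2.ne_zero (pow_ne_zero _ h4.ne_zero)) h5.symm

theorem four_le_nr {p : O} (hp : Prime p) (h : Primary p) : 4 ≤ nr p := by
  have h1 := nm_prime_mod hp h
  have h2 : nm p ≠ 1 := fun h1 => hp.not_isUnit (isUnit_iff_nm.2 h1)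
  exact_mod_cast (by omega : 4 ≤ nm p)

theorem nr_le_of_dvd {z w : O} (h : z ∣ w) (hw : w ≠ 0) : nr z ≤ nr w :=
  Nat.cast_le.2 (nm_le_of_dvd h hw)

theorem nr_prod {α : Type*} (s : Finset α) (f : α → O) :
    nr (∏ i ∈ s, f i) = ∏ i ∈ s, nr (f i) := by
  simp only [nr, nm_prod, Nat.cast_prod]

theorem nr_unit_lam {u : O} (hu : IsUnit u) (j : ℕ) : nr (u * lam ^ j) = 3 ^ j := by
  rw [nr_mul, nr_pow, nr, nr, isUnit_iff_nm.1 hu, nm_lam]
  simp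

/-- trivial bound -/
theorem dualB_norm_le {C : ℝ} (hC : 0 < C) {h r : O} (hr : r ≠ 0) {b : O → ℂ}
    (hb : DualB C h r b) (ν : O) : ‖b ν‖ ≤ C * nr r * nr ν := by
  classical
  by_cases h0 : b ν = 0
  · rw [h0, norm_zero]
    positivity
  obtain ⟨u, j, n, d, h1, h2, -, h4, h5, h6⟩ := hb ν h0
  have hn := one_le_nr h2.ne_zero
  have hd := one_le_nr h4.ne_zero
  have h7 : (3 : ℝ) ^ ((j : ℝ) / 6) * √(nr d) ≤ nr ν := by
    rw [h5, nr_mul, nr_unit_lam h1, nr_mul, nr_pow]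
    refine mul_le_mul ?_ ?_ (Real.sqrt_nonneg _) (by positivity)
    · rw [← Real.rpow_natCast]
      exact Real.rpow_le_rpow_of_exponent_le (by norm_num)
        (div_le_self (Nat.cast_nonneg _) (by norm_num))
    · refine (Real.sqrt_le_iff.2 ⟨by linarith, by nlinarith⟩ : √(nr d) ≤ nr d).trans ?_
      exact (le_self_pow₀ hd three_ne_zero).trans (le_mul_of_one_le_left (by positivity) hn)
  have h8 : ∏ p ∈ (pf r).filter (fun p => vp p h % 6 = 4),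
      ((√(nr p))⁻¹ + if p ∣ ν then √(nr p) else 0) ≤ nr r := by
    refine le_trans ?_ (nr_le_of_dvd (BasicB.prod_dvd_of_subset hr
      (filter_subset (fun p => vp p h % 6 = 4) _)) hr)
    rw [nr_prod]
    refine prod_le_prod (fun p _ => by positivity) fun p hp => ?_
    have hp' := BasicB.pf_sub (mem_filter.1 hp).1
    have h9 := four_le_nr hp'.1 hp'.2
    have h10 : 2 ≤ √(nr p) := Real.le_sqrt_of_sq_le (by linarith)
    have h11 : (√(nr p))⁻¹ ≤ 1 := inv_le_one_of_one_le₀ (by linarith)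
    have h12 := Real.mul_self_sqrt (show 0 ≤ nr p by linarith)
    split_ifs <;> nlinarith
  rw [mul_assoc C] at h6
  refine h6.trans ((mul_le_mul (mul_le_mul_of_nonneg_left h7 hC.le) h8
    (prod_nonneg fun p _ => by positivity) (by positivity)).trans_eq ?_)
  ring

end Crest.Agent.R17.En
end
end

-- ▼ part PVc/R17/EnB
section

/-!
# Row 17, module M8 (reflected energy), part B: the large sieves in the form used below
-/

set_option autoImplicit false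

noncomputable section

namespace Crest.Agent.R17.En

open scoped ComplexConjugate
open MeasureTheory Finset

theorem EnB.rpow_half {ε Q x y : ℝ} (hε : 0 < ε) (hx : 0 ≤ x) (hy : 0 ≤ y) (hxQ : x ≤ Q)
    (hyQ : y ≤ Q) : (x * y) ^ (ε / 2) ≤ Q ^ ε := by
  have hQ : 0 ≤ Q := hx.trans hxQ
  calc (x * y) ^ (ε / 2) ≤ (Q * Q) ^ (ε / 2) :=
        Real.rpow_le_rpow (mul_nonneg hx hy) (mul_le_mul hxQ hyQ hy hQ) (by positivity)
    _ = Q ^ ε := by
        rw [Real.mul_rpow hQ hQ, ← Real.rpow_add' hQ (by positivity), add_halves]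

theorem EnB.nr_le_of_dvd {z w : O} (h : z ∣ w) (hw : w ≠ 0) : nr z ≤ nr w := by
  exact_mod_cast nm_le_of_dvd h hw

open Classical in
/-- `quad2` for odd columns -/
theorem EnB.quad1 {ε : ℝ} (hε : 0 < ε) : ∃ C : ℝ, 0 < C ∧
    ∀ (Q K N τ : ℝ) (A : Finset O) (m : O → O) (β : O → ℂ), 1 ≤ K → K ≤ Q → 1 ≤ N → N ≤ Q →
      0 ≤ τ → (∀ a ∈ A, SP 6 (m a) ∧ nr (m a) ≤ N) →
      (∀ x, ((A.filter fun a => m a = x).card : ℝ) ≤ τ) →
      ∑ k ∈ sp 6 K, ‖∑ a ∈ A, β a * quad k (m a)‖ ^ 2 ≤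
        C * Q ^ ε * τ * (K + N) * ∑ a ∈ A, ‖β a‖ ^ 2 := by
  obtain ⟨C, hC, h⟩ := quad_large_sieve (half_pos hε)
  refine ⟨C, hC, fun Q K N τ A m β hK hKQ hN hNQ hτ hA hcard => ?_⟩
  have hmap : ∀ a ∈ A, m a ∈ sp 6 N := fun a ha => (mem_sp (by linarith)).2 (hA a ha)
  have e : ∀ k, ∑ a ∈ A, β a * quad k (m a) =
      ∑ x ∈ sp 6 N, (∑ a ∈ A.filter (fun a => m a = x), β a) * quad k x := fun k => by
    rw [← sum_fiberwise_of_maps_to hmap]
    refine sum_congr rfl fun x _ => ?_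
    rw [sum_mul]
    exact sum_congr rfl fun a ha => by rw [(mem_filter.1 ha).2]
  simp only [e]
  refine (h K N _ hK hN).trans ?_
  have h1 : ∑ x ∈ sp 6 N, ‖∑ a ∈ A.filter (fun a => m a = x), β a‖ ^ 2 ≤
      τ * ∑ a ∈ A, ‖β a‖ ^ 2 := by
    rw [← sum_fiberwise_of_maps_to hmap, mul_sum]
    refine sum_le_sum fun x _ => (sq_sum_le_card _ _).trans ?_
    exact mul_le_mul_of_nonneg_right (hcard x) (by positivity)
  have h2 := EnB.rpow_half hε (by linarith : 0 ≤ K) (by linarith : 0 ≤ N) hKQ hNQ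
  have hQ : 0 ≤ Q := by linarith
  calc _ ≤ C * Q ^ ε * (K + N) * (τ * ∑ a ∈ A, ‖β a‖ ^ 2) := by gcongr
    _ = _ := by ring

/-- trivial bound and cubic large sieve on the multiples of `q` -/
theorem cubic2 {ε : ℝ} (hε : 0 < ε) : ∃ C : ℝ, 0 < C ∧
    ∀ (Q N Z : ℝ) (q : O) (c : O → ℂ) (S : Finset O), 1 ≤ Z → Z ≤ Q → 0 ≤ N → N ≤ Q → q ≠ 0 →
      (∀ z, ‖c z‖ ≤ 1) → (∀ n ∈ S, n ≠ 0 ∧ q ∣ n ∧ nr n ≤ N) →
      ∑ n ∈ S, ‖∑ z ∈ sp 6 Z, c z * sym z n ^ 4‖ ^ 2 ≤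
        C * Q ^ ε * min (N / nr q * Z ^ 2) ((N / nr q + Z ^ 2) * Z) := by
  classical
  obtain ⟨C, hC, h⟩ := cubic_trivial_sieve (half_pos hε)
  refine ⟨343 + 7 * C, by positivity, fun Q N Z q c S hZ hZQ hN hNQ hq hc hS => ?_⟩
  have hq1 := one_le_nr hq
  have hQ : 1 ≤ Q := hZ.trans hZQ
  have hQε : 1 ≤ Q ^ ε := Real.one_le_rpow hQ hε.le
  have hN' : 0 ≤ N / nr q := by positivity
  have hZ0 : 0 ≤ Z := by linarith
  rcases S.eq_empty_or_nonempty with rfl | ⟨n₀, hn₀⟩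
  · rw [sum_empty]
    exact mul_nonneg (by positivity) (le_min (by positivity) (by positivity))
  have hN1 : 1 ≤ N / nr q := by
    rw [le_div_iff₀ (by positivity), one_mul]
    exact (EnB.nr_le_of_dvd (hS n₀ hn₀).2.1 (hS n₀ hn₀).1).trans (hS n₀ hn₀).2.2
  have hcs := card_sp 6 hZ0
  rw [mul_min_of_nonneg _ _ (by positivity)]
  refine le_min ?_ ?_
  · have h1 : ∀ n ∈ S, ‖∑ z ∈ sp 6 Z, c z * sym z n ^ 4‖ ^ 2 ≤ (7 * Z) ^ 2 := fun n _ => by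
      refine pow_le_pow_left₀ (norm_nonneg _) (le_trans ?_ hcs) 2
      refine (norm_sum_le _ _).trans ?_
      rw [card_eq_sum_ones]
      push_cast
      refine sum_le_sum fun z _ => ?_
      rw [norm_mul, norm_pow]
      exact mul_le_one₀ (hc z) (by positivity) (pow_le_one₀ (norm_nonneg _) (norm_sym_le z n))
    have h2 := card_mult hq hN hS
    calc _ ≤ S.card • (7 * Z) ^ 2 := sum_le_card_nsmul _ _ _ h1
      _ = S.card * (7 * Z) ^ 2 := nsmul_eq_mul _ _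
      _ ≤ 7 * (N / nr q) * (7 * Z) ^ 2 := by gcongr
      _ = 343 * 1 * (N / nr q * Z ^ 2) := by ring
      _ ≤ _ := by gcongr; linarith
  · have hsub : S ⊆ (ball ⌊N / nr q⌋₊).image (q * ·) := fun n hn => by
      obtain ⟨h1, ⟨n', rfl⟩, h3⟩ := hS n hn
      refine mem_image.2 ⟨n', (mem_ball_floor hN').2 ?_, rfl⟩
      rw [le_div_iff₀ (by positivity), mul_comm, ← nr_mul]
      exact h3
    have h1 := h (N / nr q) Z (fun z => c z * sym z q ^ 4) hN1 hZ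
    have h2 : ∑ z ∈ sp 6 Z, ‖c z * sym z q ^ 4‖ ^ 2 ≤ 7 * Z := by
      refine le_trans ?_ hcs
      rw [card_eq_sum_ones]
      push_cast
      refine sum_le_sum fun z _ => pow_le_one₀ (norm_nonneg _) ?_
      rw [norm_mul, norm_pow]
      exact mul_le_one₀ (hc z) (by positivity) (pow_le_one₀ (norm_nonneg _) (norm_sym_le z q))
    have h3 := EnB.rpow_half hε hN' hZ0 ((div_le_self hN hq1).trans hNQ) hZQ
    calc _ ≤ ∑ n ∈ (ball ⌊N / nr q⌋₊).image (q * ·), ‖∑ z ∈ sp 6 Z, c z * sym z n ^ 4‖ ^ 2 :=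
          sum_le_sum_of_subset_of_nonneg hsub fun _ _ _ => by positivity
      _ = ∑ n ∈ ball ⌊N / nr q⌋₊, ‖∑ z ∈ sp 6 Z, c z * sym z q ^ 4 * sym z n ^ 4‖ ^ 2 := by
          rw [sum_image fun _ _ _ _ hh => mul_left_cancel₀ hq hh]
          refine sum_congr rfl fun n _ => ?_
          congr 2
          refine sum_congr rfl fun z hz => ?_
          rw [sym_mul_right (SP.po ((mem_sp hZ0).1 hz).1), mul_pow, mul_assoc]
      _ ≤ C * Q ^ ε * (N / nr q + Z ^ 2) * (7 * Z) := h1.trans (by gcongr)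
      _ = 7 * C * Q ^ ε * ((N / nr q + Z ^ 2) * Z) := by ring
      _ ≤ _ := by gcongr; linarith

open Classical in
/-- quadratic large sieve with repeated (and possibly even) columns -/
theorem quad2 {ε : ℝ} (hε : 0 < ε) : ∃ C : ℝ, 0 < C ∧
    ∀ (Q K N τ : ℝ) (A : Finset O) (m : O → O) (β : O → ℂ), 1 ≤ K → K ≤ Q → 0 ≤ N → N ≤ Q →
      0 ≤ τ → (∀ a ∈ A, Primary (m a) ∧ Squarefree (m a) ∧ nr (m a) ≤ N) →
      (∀ x, ((A.filter fun a => m a = x).card : ℝ) ≤ τ) →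
      ∑ k ∈ sp 6 K, ‖∑ a ∈ A, β a * quad k (m a)‖ ^ 2 ≤
        C * Q ^ ε * τ * (K + N) * ∑ a ∈ A, ‖β a‖ ^ 2 := by
  obtain ⟨C, hC, h⟩ := EnB.quad1 hε
  refine ⟨2 * C, by positivity, fun Q K N τ A m β hK hKQ hN hNQ hτ hA hcard => ?_⟩
  have hQ : 0 ≤ Q := by linarith
  rcases A.eq_empty_or_nonempty with rfl | ⟨a₀, ha₀⟩
  · simp
  have hN1 : 1 ≤ N := (one_le_nr (hA a₀ ha₀).1.ne_zero).trans (hA a₀ ha₀).2.2
  have six : ∀ n : O, Primary n → Squarefree n → ¬ (-2 : O) ∣ n → SP 6 n := fun n h1 h2 h3 => by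
    refine ⟨h1, h2, ?_⟩
    have h4 : IsCoprime (-2 : O) n := (prime_neg_two.irreducible.coprime_iff_not_dvd).2 h3
    have h5 : IsCoprime n (2 : O) := by simpa using h4.symm.neg_right
    rw [show (6 : O) = 2 * 3 by norm_num]
    exact h5.mul_right h1.isCoprime_three
  have p2 : Primary (-2 : O) := ⟨-1, by norm_num⟩
  have n2 : (-2 : O) ≠ 0 := prime_neg_two.ne_zero
  have hdiv : ∀ a ∈ A.filter (fun a => (-2 : O) ∣ m a), m a = -2 * (m a / (-2)) := fun a ha =>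
    (EuclideanDomain.mul_div_cancel' n2 (mem_filter.1 ha).2).symm
  have h0 := h Q K N τ (A.filter fun a => ¬ (-2 : O) ∣ m a) m β hK hKQ hN1 hNQ hτ
    (fun a ha => by
      obtain ⟨ha, h2⟩ := mem_filter.1 ha
      exact ⟨six _ (hA a ha).1 (hA a ha).2.1 h2, (hA a ha).2.2⟩)
    (fun x => le_trans (by
      exact_mod_cast card_le_card (filter_subset_filter _ (filter_subset _ _))) (hcard x))
  have h1 := h Q K N τ (A.filter fun a => (-2 : O) ∣ m a) (fun a => m a / (-2)) β hK hKQ hN1 hNQ hτ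
    (fun a ha => by
      have e := hdiv a ha
      obtain ⟨h1, h2, h3⟩ := hA a (mem_filter.1 ha).1
      have hd : m a / (-2) ∣ m a := ⟨-2, by rw [mul_comm]; exact e⟩
      refine ⟨six _ (p2.of_mul (e ▸ h1)) (h2.squarefree_of_dvd hd) fun h4 => ?_,
        (EnB.nr_le_of_dvd hd h1.ne_zero).trans h3⟩
      exact prime_neg_two.not_isUnit (h2 (-2) (by rw [e]; exact mul_dvd_mul_left _ h4)))
    (fun x => le_trans (by
      refine Nat.cast_le.2 (card_le_card fun a ha => ?_)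
      obtain ⟨ha, hx⟩ := mem_filter.1 ha
      exact mem_filter.2 ⟨(mem_filter.1 ha).1, by rw [hdiv a ha, hx]⟩) (hcard (-2 * x)))
  have h2 : ∑ k ∈ sp 6 K, ‖∑ a ∈ A.filter (fun a => (-2 : O) ∣ m a), β a * quad k (m a)‖ ^ 2 ≤
      ∑ k ∈ sp 6 K, ‖∑ a ∈ A.filter (fun a => (-2 : O) ∣ m a), β a * quad k (m a / (-2))‖ ^ 2 := by
    refine sum_le_sum fun k hk => pow_le_pow_left₀ (norm_nonneg _) ?_ 2
    have hk' := SP.po ((mem_sp (by linarith)).1 hk).1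
    have : ∑ a ∈ A.filter (fun a => (-2 : O) ∣ m a), β a * quad k (m a) =
        quad k (-2) * ∑ a ∈ A.filter (fun a => (-2 : O) ∣ m a), β a * quad k (m a / (-2)) := by
      rw [mul_sum]
      refine sum_congr rfl fun a ha => ?_
      conv_lhs => rw [hdiv a ha, quad_mul_right hk']
      ring
    rw [this, norm_mul]
    exact mul_le_of_le_one_left (norm_nonneg _) (norm_quad_le _ _)
  simp only [← sum_filter_add_sum_filter_not A (fun a => (-2 : O) ∣ m a)]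
  refine (l2_add_le _ _ _).trans ?_
  linarith

/-- average size of the square part on the multiples of `f` -/
theorem sumY {ε : ℝ} (hε : 0 < ε) : ∃ C : ℝ, 0 < C ∧
    ∀ (Q E : ℝ) (f : O) (S : Finset O) (y : O → O), 1 ≤ Q → 0 ≤ E → E ≤ Q → Primary f →
      Squarefree f → (∀ d ∈ S, d ≠ 0 ∧ nr d ≤ E ∧ f ∣ d ∧ Primary (y d) ∧ y d ^ 2 ∣ d) →
      ∑ d ∈ S, nr (y d) ≤ C * Q ^ ε * (E / nr f) := by
  classical
  obtain ⟨C₁, hC₁, h₁⟩ := sum_inv_le (half_pos hε)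
  obtain ⟨C₂, hC₂, h₂⟩ := card_pdiv_le' (half_pos hε)
  refine ⟨7 * C₁ * C₂, by positivity, fun Q E f S y hQ hE hEQ hf hsf hS => ?_⟩
  have hf0 := hf.ne_zero
  have hf1 := nr_pos hf0
  have hQ0 : 0 ≤ Q := by linarith
  rcases S.eq_empty_or_nonempty with rfl | ⟨d₀, hd₀⟩
  · rw [sum_empty]; positivity
  have hfQ : nr f ≤ Q :=
    ((EnB.nr_le_of_dvd (hS d₀ hd₀).2.2.1 (hS d₀ hd₀).1).trans (hS d₀ hd₀).2.1).trans hEQ
  set T := (ball ⌊Q⌋₊).filter (· ≠ 0) with hT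
  have key : ∀ d ∈ S, pgcd f (y d) ∈ pdiv f ∧ y d = pgcd f (y d) * (y d / pgcd f (y d)) ∧
      f * pgcd f (y d) * (y d / pgcd f (y d)) ^ 2 ∣ d := fun d hd => by
    obtain ⟨h1, h2, h3, h4, h5⟩ := hS d hd
    have he := primary_pgcd f (y d)
    obtain ⟨⟨f', hf'⟩, h7⟩ := (dvd_pgcd_iff hf0 h4.ne_zero he).1 dvd_rfl
    have h8 := (EuclideanDomain.mul_div_cancel' he.ne_zero h7).symm
    refine ⟨(mem_pdiv hf0).2 ⟨he, f', hf'⟩, h8, ?_⟩
    set e := pgcd f (y d) with hedef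
    set y' := y d / e
    have hf'p : Primary f' := he.of_mul (hf' ▸ hf)
    have hy'p : Primary y' := he.of_mul (h8 ▸ h4)
    have c1 : IsCoprime f' y' := by
      rw [← pgcd_eq_one_iff hf'p hy'p.ne_zero]
      have := pgcd_mul_left he hf'p.ne_zero hy'p.ne_zero
      rw [← hf', ← h8, ← hedef] at this
      exact (mul_left_cancel₀ he.ne_zero (by rw [mul_one]; exact this)).symm
    have c2 : IsCoprime f' e := (IsRelPrime.of_squarefree_mul (hf' ▸ hsf)).isCoprime.symm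
    have c3 : IsCoprime f' (y d ^ 2) := by
      rw [h8]; exact (c2.mul_right c1).pow_right
    have := c3.mul_dvd ((Dvd.intro_left e hf'.symm).trans h3) h5
    convert this using 1
    rw [h8, hf']
    ring
  have hmap : ∀ d ∈ S, (pgcd f (y d), y d / pgcd f (y d)) ∈ pdiv f ×ˢ T := fun d hd => by
    obtain ⟨k1, k2, k3⟩ := key d hd
    obtain ⟨h1, h2, h3, h4, h5⟩ := hS d hd
    refine mem_product.2 ⟨k1, mem_filter.2 ⟨(mem_ball_floor hQ0).2 ?_, fun h0 => ?_⟩⟩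
    · refine ((EnB.nr_le_of_dvd ?_ h1).trans h2).trans hEQ
      exact ((dvd_pow_self _ two_ne_zero).mul_left _).trans k3
    · exact h4.ne_zero (by rw [k2, show y d / pgcd f (y d) = 0 from h0, mul_zero])
  rw [← sum_fiberwise_of_maps_to hmap]
  have hfib : ∀ p ∈ pdiv f ×ˢ T, ∑ d ∈ S.filter
      (fun d => (pgcd f (y d), y d / pgcd f (y d)) = p), nr (y d) ≤
        7 * (E / nr f) * (nr p.2)⁻¹ := by
    rintro ⟨e, y'⟩ hp
    obtain ⟨he, hy'⟩ := mem_product.1 hp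
    have he0 : e ≠ 0 := ((mem_pdiv hf0).1 he).1.ne_zero
    have hy0 : y' ≠ 0 := (mem_filter.1 hy').2
    have hc := card_mult (q := f * e * y' ^ 2) (by positivity) hE
      (S := S.filter (fun d => (pgcd f (y d), y d / pgcd f (y d)) = (e, y'))) fun d hd => by
        obtain ⟨hd, h⟩ := mem_filter.1 hd
        obtain ⟨h1, h2⟩ := Prod.mk.inj h
        have k3 := (key d hd).2.2
        rw [h2, h1] at k3
        exact ⟨(hS d hd).1, k3, (hS d hd).2.1⟩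
    rw [sum_congr rfl (g := fun _ => nr e * nr y') fun d hd => by
      obtain ⟨hd, h⟩ := mem_filter.1 hd
      obtain ⟨h1, h2⟩ := Prod.mk.inj h
      have k2 := (key d hd).2.1
      rw [h2, h1] at k2
      rw [k2, nr_mul], sum_const, nsmul_eq_mul]
    have p1 := nr_pos he0
    have p2 := nr_pos hy0
    refine (mul_le_mul_of_nonneg_right hc (by positivity)).trans (le_of_eq ?_)
    rw [nr_mul, nr_mul, nr_pow]
    field_simp
  refine (sum_le_sum hfib).trans ?_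
  rw [sum_product]
  simp only [sum_const, nsmul_eq_mul, ← mul_sum]
  have a1 := h₁ Q T hQ fun n hn =>
    ⟨(mem_filter.1 hn).2, (mem_ball_floor hQ0).1 (mem_filter.1 hn).1⟩
  have a2 := h₂ Q f hf0 hfQ
  have a3 : Q ^ (ε / 2) * Q ^ (ε / 2) = Q ^ ε := by
    rw [← Real.rpow_add (by linarith), add_halves]
  calc _ ≤ C₂ * Q ^ (ε / 2) * (7 * (E / nr f) * (C₁ * Q ^ (ε / 2))) := by gcongr
    _ = _ := by rw [← a3]; ring

end Crest.Agent.R17.En
end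
end

-- ▼ part PVc/R17/EnC
section

/-!
# Row 17, module M8 (reflected energy), part C: one block
-/

set_option autoImplicit false

noncomputable section

namespace Crest.Agent.R17.En

open scoped ComplexConjugate
open MeasureTheory Finset

theorem block_decomp {n d₀ y f : O} (hn : Primary n) (hs : Squarefree n) (hd : Primary d₀)
    (hds : Squarefree d₀) (hf : Primary f) (hfn : f ∣ n) (hfd : IsCoprime f (d₀ * y ^ 2)) :
    ∃ g m : O, Primary g ∧ Primary m ∧ Squarefree m ∧ g ∣ d₀ * y ^ 2 ∧ g * f ∣ n ∧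
      n * (d₀ * y ^ 2) = f * m * (g * y) ^ 2 := by
  have hg := primary_pgcd n d₀
  obtain ⟨h1, d', h2⟩ := (dvd_pgcd_iff hn.ne_zero hd.ne_zero hg).1 dvd_rfl
  have h3 : pgcd n d₀ ∣ d₀ * y ^ 2 := Dvd.dvd.mul_right ⟨d', h2⟩ _
  obtain ⟨n', h4⟩ := (hfd.symm.of_isCoprime_of_dvd_left h3).mul_dvd h1 hfn
  have hn' : Primary n' := (hg.mul hf).of_mul (h4 ▸ hn)
  have hd' : Primary d' := hg.of_mul (h2 ▸ hd)
  have h5 : pgcd n d₀ * pgcd (f * n') d' = pgcd n d₀ * 1 := by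
    rw [← pgcd_mul_left hg (hf.mul hn').ne_zero hd'.ne_zero, ← mul_assoc, ← h4, ← h2, mul_one]
  have h6 : IsCoprime (f * n') d' :=
    (pgcd_eq_one_iff (hf.mul hn') hd'.ne_zero).1 (mul_left_cancel₀ hg.ne_zero h5)
  refine ⟨pgcd n d₀, n' * d', hg, hn'.mul hd', ?_, h3, ⟨n', h4⟩, ?_⟩
  · exact squarefree_mul_iff.2 ⟨h6.of_mul_left_right.isRelPrime,
      hs.squarefree_of_dvd ⟨_, h4.trans (mul_comm _ _)⟩,
      hds.squarefree_of_dvd ⟨_, h2.trans (mul_comm _ _)⟩⟩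
  · generalize pgcd n d₀ = g at h2 h4
    rw [h4, h2]
    ring

theorem block_real {K Z N E f g y : ℝ} (hK : 0 ≤ K) (hZ : 0 ≤ Z) (hN : 0 ≤ N) (hf : 1 ≤ f)
    (hg : 1 ≤ g) (hy : 1 ≤ y) (hE : g ≤ E) :
    g * y * (K + N * E / (f * (g * y) ^ 2)) *
        min (N / (g * f) * Z ^ 2) ((N / (g * f) + Z ^ 2) * Z) ≤
      y / f * (K * min (N * Z ^ 2) ((N + E * f * Z ^ 2) * Z) +
        N * E * min (N * Z ^ 2) ((N + Z ^ 2) * Z)) := by
  have hgf : 1 ≤ g * f := one_le_mul_of_one_le_of_one_le hg hf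
  have hE0 : 0 ≤ E := by linarith
  have h1 : N / (g * f) ≤ N := div_le_self hN hgf
  set μ := min (N / (g * f) * Z ^ 2) ((N / (g * f) + Z ^ 2) * Z) with hμ
  have hμ0 : 0 ≤ μ := le_min (by positivity) (by positivity)
  have h2 : μ ≤ min (N * Z ^ 2) ((N + Z ^ 2) * Z) := min_le_min (by gcongr) (by gcongr)
  have h3 : g * f * μ ≤ min (N * Z ^ 2) ((N + E * f * Z ^ 2) * Z) := by
    rw [hμ, mul_min_of_nonneg _ _ (by positivity)]
    refine min_le_min (le_of_eq (by field_simp)) ?_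
    calc _ = (N + g * f * Z ^ 2) * Z := by field_simp
      _ ≤ _ := by gcongr
  have h4 : 1 / (g * y ^ 2) ≤ 1 := by
    rw [div_le_one (by positivity)]
    exact one_le_mul_of_one_le_of_one_le hg (one_le_pow₀ hy)
  calc _ = y / f * (K * (g * f * μ) + N * E * (1 / (g * y ^ 2) * μ)) := by field_simp
    _ ≤ y / f * (K * min (N * Z ^ 2) ((N + E * f * Z ^ 2) * Z) + N * E * (1 * μ)) := by gcongr
    _ ≤ _ := by rw [one_mul]; gcongr

/-- the estimate for one block of indices `n d³` -/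
theorem block {ε : ℝ} (hε : 0 < ε) : ∃ C : ℝ, 0 < C ∧
    ∀ (Q K Z N E : ℝ) (f₁ f₂ : O) (A : Finset O) (n d : O → O) (β c : O → ℂ),
      1 ≤ K → K ≤ Q → 1 ≤ Z → Z ≤ Q → 0 ≤ N → N ≤ Q → 0 ≤ E → E ≤ Q →
      Primary f₁ → Primary f₂ → Squarefree f₂ →
      (∀ a ∈ A, Primary (n a) ∧ Squarefree (n a) ∧ Primary (d a) ∧ nr (n a) ≤ N ∧ nr (d a) ≤ E ∧
        f₁ ∣ n a ∧ IsCoprime f₁ (d a) ∧ f₂ ∣ d a) →
      Set.InjOn (fun a => (n a, d a)) A → (∀ a, ‖β a‖ ≤ 1) → (∀ z, ‖c z‖ ≤ 1) →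
      ∑ k ∈ sp 6 K, ‖∑ a ∈ A, β a * quad k (n a * d a) *
          ∑ z ∈ sp 6 Z, c z * sym z (d a) ^ 12 * sym z (n a) ^ 4‖ ^ 2 ≤
        C * Q ^ ε * (E / (nr f₁ * nr f₂)) *
          (K * min (N * Z ^ 2) ((N + E * nr f₁ * Z ^ 2) * Z) +
            N * E * min (N * Z ^ 2) ((N + Z ^ 2) * Z)) := by
  classical
  have hε' : 0 < ε / 12 := by positivity
  obtain ⟨C₁, hC₁, h₁⟩ := sum_inv_le hε'
  obtain ⟨C₂, hC₂, h₂⟩ := quad2 hε'
  obtain ⟨C₃, hC₃, h₃⟩ := card_pdiv_le' hε'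
  obtain ⟨C₄, hC₄, h₄⟩ := cubic2 hε'
  obtain ⟨C₅, hC₅, h₅⟩ := sumY hε'
  refine ⟨C₁ * C₂ * C₃ * C₄ * C₃ * C₅, by positivity, fun Q K Z N E f₁ f₂ A n d β c hK hKQ hZ hZQ hN
    hNQ hE hEQ hf₁ hf₂ hf₂' hA hinj hβ hc => ?_⟩
  have hQ : 1 ≤ Q := hK.trans hKQ
  have hQ2 : Q ≤ Q ^ 2 := le_self_pow₀ hQ two_ne_zero
  have hNE : N * E ≤ Q ^ 2 := by rw [sq]; gcongr
  set P : ℝ := (Q ^ 2) ^ (ε / 12) with hP
  have hP0 : 0 ≤ P := by positivity
  have hP6 : P ^ 6 = Q ^ ε := by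
    rw [hP, ← Real.rpow_natCast Q 2, ← Real.rpow_mul (by linarith), ← Real.rpow_natCast _ 6,
      ← Real.rpow_mul (by linarith)]
    congr 1
    push_cast
    ring
  have hf1 := one_le_nr hf₁.ne_zero
  have hf2 := one_le_nr hf₂.ne_zero
  choose! d₀ y hd₀ hd₀' hy hdy using fun x (hx : Primary x) => exists_sqfree_sq hx
  have hdec : ∀ a ∈ A, ∃ g m : O, Primary g ∧ Primary m ∧ Squarefree m ∧ g ∣ d a ∧ g * f₁ ∣ n a ∧
      n a * d a = f₁ * m * (g * y (d a)) ^ 2 := by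
    intro a ha
    obtain ⟨a1, a2, a3, -, -, a6, a7, -⟩ := hA a ha
    have := block_decomp a1 a2 (hd₀ _ a3) (hd₀' _ a3) hf₁ a6 (hdy _ a3 ▸ a7)
    rwa [← hdy _ a3] at this
  choose! g m hg hm hm' hgd hgn hnd using hdec
  set Cf : O → O → ℂ := fun x t => ∑ z ∈ sp 6 Z, c z * sym z x ^ 12 * sym z t ^ 4 with hCf
  set w : O → O := fun a => g a * y (d a) with hw
  have hwp : ∀ a ∈ A, Primary (w a) := fun a ha => (hg a ha).mul (hy _ (hA a ha).2.2.1)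
  have hnd' : ∀ a ∈ A, nr f₁ * nr (m a) * nr (w a) ^ 2 ≤ N * E := by
    intro a ha
    rw [← nr_pow, ← nr_mul, ← nr_mul, ← hnd a ha, nr_mul]
    exact mul_le_mul (hA a ha).2.2.2.1 (hA a ha).2.2.2.2.1 (Nat.cast_nonneg _) hN
  set ψ : ℝ → ℝ := fun t => t * (K + N * E / (nr f₁ * t ^ 2)) with hψ
  set T : ℝ := K * min (N * Z ^ 2) ((N + E * nr f₁ * Z ^ 2) * Z) +
    N * E * min (N * Z ^ 2) ((N + Z ^ 2) * Z) with hT
  have hT0 : 0 ≤ T := by positivity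
  -- the large sieve for a fixed square part
  have s1 : ∀ x ∈ A.image w, nr x * ∑ k ∈ sp 6 K,
      ‖∑ a ∈ A.filter (fun a => w a = x), β a * quad k (n a * d a) * Cf (d a) (n a)‖ ^ 2 ≤
      C₂ * P * (C₃ * P) * ∑ a ∈ A.filter (fun a => w a = x), ψ (nr (w a)) * ‖Cf (d a) (n a)‖ ^ 2 := by
    intro x hx
    obtain ⟨a₀, ha₀, rfl⟩ := mem_image.1 hx
    have hx1 := one_le_nr (hwp a₀ ha₀).ne_zero
    have hden : 1 ≤ nr f₁ * nr (w a₀) ^ 2 := one_le_mul_of_one_le_of_one_le hf1 (one_le_pow₀ hx1)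
    have := h₂ (Q ^ 2) K (N * E / (nr f₁ * nr (w a₀) ^ 2)) (C₃ * P)
      (A.filter fun a => w a = w a₀) m (fun a => β a * Cf (d a) (n a)) hK (hKQ.trans hQ2)
      (by positivity) ((div_le_self (by positivity) hden).trans hNE) (by positivity)
      (fun a ha => ?_) fun x => ?_
    · calc _ ≤ nr (w a₀) * ∑ k ∈ sp 6 K,
            ‖∑ a ∈ A.filter (fun a => w a = w a₀), β a * Cf (d a) (n a) * quad k (m a)‖ ^ 2 := by
            refine mul_le_mul_of_nonneg_left (sum_le_sum fun k hk => ?_) (by positivity)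
            have hk' := SP.po ((mem_sp (by linarith)).1 hk).1
            have e : ∑ a ∈ A.filter (fun a => w a = w a₀), β a * quad k (n a * d a) * Cf (d a) (n a)
                = quad k (f₁ * w a₀ ^ 2) * ∑ a ∈ A.filter (fun a => w a = w a₀),
                  β a * Cf (d a) (n a) * quad k (m a) := by
              rw [mul_sum]
              refine sum_congr rfl fun a ha => ?_
              obtain ⟨ha, ha'⟩ := mem_filter.1 ha
              rw [hnd a ha, ← ha', mul_right_comm f₁, quad_mul_right hk']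
              ring
            rw [e, norm_mul]
            exact pow_le_pow_left₀ (by positivity)
              (mul_le_of_le_one_left (norm_nonneg _) (norm_quad_le _ _)) 2
        _ ≤ nr (w a₀) * (C₂ * P * (C₃ * P) * (K + N * E / (nr f₁ * nr (w a₀) ^ 2)) *
            ∑ a ∈ A.filter (fun a => w a = w a₀), ‖Cf (d a) (n a)‖ ^ 2) := by
            refine mul_le_mul_of_nonneg_left (this.trans ?_) (by positivity)
            refine mul_le_mul_of_nonneg_left (sum_le_sum fun a _ => ?_) (by positivity)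
            rw [norm_mul]
            exact pow_le_pow_left₀ (by positivity) (mul_le_of_le_one_left (norm_nonneg _) (hβ a)) 2
        _ = _ := by
            rw [sum_congr (f := fun a => ψ (nr (w a)) * ‖Cf (d a) (n a)‖ ^ 2) rfl
              (g := fun a => ψ (nr (w a₀)) * ‖Cf (d a) (n a)‖ ^ 2) fun a ha => by
              rw [(mem_filter.1 ha).2], ← mul_sum]
            simp only [hψ]
            ring
    · obtain ⟨ha, ha'⟩ := mem_filter.1 ha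
      refine ⟨hm a ha, hm' a ha, ?_⟩
      rw [le_div_iff₀ (by positivity), ← ha']
      linarith [hnd' a ha]
    · rcases ((A.filter fun a => w a = w a₀).filter fun a => m a = x).eq_empty_or_nonempty with
        h0 | ⟨a₁, ha₁⟩
      · rw [h0, card_empty, Nat.cast_zero]
        positivity
      simp only [mem_filter] at ha₁
      have hp : Primary (n a₁ * d a₁) := (hA a₁ ha₁.1.1).1.mul (hA a₁ ha₁.1.1).2.2.1
      have he : ∀ a ∈ (A.filter fun a => w a = w a₀).filter fun a => m a = x,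
          n a * d a = n a₁ * d a₁ := by
        intro a ha
        simp only [mem_filter] at ha
        have e1 : g a * y (d a) = g a₁ * y (d a₁) := ha.1.2.trans ha₁.1.2.symm
        rw [hnd a ha.1.1, hnd a₁ ha₁.1.1, e1, ha.2, ha₁.2]
      refine le_trans (Nat.cast_le.2 (card_le_card_of_injOn n (fun a ha => ?_)
        fun a ha b hb hab => ?_)) (h₃ (Q ^ 2) _ hp.ne_zero ?_)
      · have ha' := (mem_filter.1 (mem_filter.1 ha).1).1
        exact (mem_pdiv hp.ne_zero).2 ⟨(hA a ha').1, he a ha ▸ dvd_mul_right _ _⟩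
      · have ha' := (mem_filter.1 (mem_filter.1 ha).1).1
        have hb' := (mem_filter.1 (mem_filter.1 hb).1).1
        refine hinj ha' hb' (Prod.ext hab (mul_left_cancel₀ (hA a ha').1.ne_zero ?_))
        rw [he a ha, ← he b hb, hab]
      · rw [nr_mul]
        exact (mul_le_mul (hA a₁ ha₁.1.1).2.2.2.1 (hA a₁ ha₁.1.1).2.2.2.2.1 (Nat.cast_nonneg _)
          hN).trans hNE
  -- the cubic sieve for fixed `d` and `g`
  have s2 : ∀ x ∈ A.image d, ∑ a ∈ A.filter (fun a => d a = x), ψ (nr (w a)) * ‖Cf (d a) (n a)‖ ^ 2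
      ≤ C₄ * P * (C₃ * P) * (T / nr f₁) * nr (y x) := by
    intro x hx
    obtain ⟨a₀, ha₀, rfl⟩ := mem_image.1 hx
    have hx := (hA a₀ ha₀).2.2.1
    have hxE := (hA a₀ ha₀).2.2.2.2.1
    have hy1 := one_le_nr (hy _ hx).ne_zero
    have hmap : ∀ a ∈ A.filter (fun a => d a = d a₀), g a ∈ pdiv (d a₀) := fun a ha =>
      (mem_pdiv hx.ne_zero).2 ⟨hg a (mem_filter.1 ha).1,
        (mem_filter.1 ha).2 ▸ hgd a (mem_filter.1 ha).1⟩
    rw [← sum_fiberwise_of_maps_to hmap]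
    calc _ ≤ ∑ _γ ∈ pdiv (d a₀), C₄ * P * (T / nr f₁) * nr (y (d a₀)) := by
          refine sum_le_sum fun γ hγ => ?_
          obtain ⟨hγ1, hγ2⟩ := (mem_pdiv hx.ne_zero).1 hγ
          have hγ3 := one_le_nr hγ1.ne_zero
          have h6 := h₄ (Q ^ 2) N Z (γ * f₁) (fun z => c z * sym z (d a₀) ^ 12)
            (((A.filter fun a => d a = d a₀).filter fun a => g a = γ).image n) hZ (hZQ.trans hQ2)
            hN (hNQ.trans hQ2) (hγ1.mul hf₁).ne_zero (fun z => ?_) fun t ht => ?_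
          · rw [sum_image fun a ha b hb hab => by
              simp only [coe_filter, mem_filter, Set.mem_ofPred_eq] at ha hb
              exact hinj ha.1.1 hb.1.1 (Prod.ext hab (ha.1.2.trans hb.1.2.symm)), nr_mul] at h6
            rw [sum_congr rfl (g := fun a => ψ (nr γ * nr (y (d a₀))) * ‖Cf (d a₀) (n a)‖ ^ 2)
              fun a ha => by
                simp only [mem_filter] at ha
                simp only [hw, nr_mul, ha.1.2, ha.2], ← mul_sum]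
            refine (mul_le_mul_of_nonneg_left h6 (by positivity)).trans ?_
            have h7 := block_real (K := K) (Z := Z) (by linarith) (by linarith) hN hf1 hγ3 hy1
              ((nr_le_of_dvd hγ2 hx.ne_zero).trans hxE)
            calc _ = C₄ * P * (ψ (nr γ * nr (y (d a₀))) * min (N / (nr γ * nr f₁) * Z ^ 2)
                  ((N / (nr γ * nr f₁) + Z ^ 2) * Z)) := by ring
              _ ≤ C₄ * P * (nr (y (d a₀)) / nr f₁ * T) :=
                  mul_le_mul_of_nonneg_left h7 (by positivity)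
              _ = _ := by ring
          · rw [norm_mul, norm_pow]
            exact mul_le_one₀ (hc z) (by positivity) (pow_le_one₀ (norm_nonneg _) (norm_sym_le _ _))
          · obtain ⟨a, ha, rfl⟩ := mem_image.1 ht
            simp only [mem_filter] at ha
            exact ⟨(hA a ha.1.1).1.ne_zero, ha.2 ▸ hgn a ha.1.1, (hA a ha.1.1).2.2.2.1⟩
      _ ≤ _ := by
          rw [sum_const, nsmul_eq_mul]
          refine (mul_le_mul_of_nonneg_right (h₃ (Q ^ 2) _ hx.ne_zero (hxE.trans (hEQ.trans hQ2)))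
            (by positivity)).trans_eq ?_
          ring
  have s3 : ∑ x ∈ A.image d, nr (y x) ≤ C₅ * P * (E / nr f₂) := by
    refine h₅ (Q ^ 2) E f₂ _ y (hQ.trans hQ2) hE (hEQ.trans hQ2) hf₂ hf₂' fun x hx => ?_
    obtain ⟨a, ha, rfl⟩ := mem_image.1 hx
    obtain ⟨-, -, a3, -, a5, -, -, a8⟩ := hA a ha
    exact ⟨a3.ne_zero, a5, a8, hy _ a3, Dvd.intro_left _ (hdy _ a3).symm⟩
  have s4 : ∑ x ∈ A.image w, (nr x)⁻¹ ≤ C₁ * P := by
    refine h₁ (Q ^ 2) _ (hQ.trans hQ2) fun x hx => ?_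
    obtain ⟨a, ha, rfl⟩ := mem_image.1 hx
    refine ⟨(hwp a ha).ne_zero, le_trans ?_ ((hnd' a ha).trans hNE)⟩
    have := one_le_nr (hwp a ha).ne_zero
    exact (le_self_pow₀ this two_ne_zero).trans (le_mul_of_one_le_left (by positivity)
      (one_le_mul_of_one_le_of_one_le hf1 (one_le_nr (hm a ha).ne_zero)))
  have s5 : ∑ a ∈ A, ψ (nr (w a)) * ‖Cf (d a) (n a)‖ ^ 2 ≤
      C₄ * P * (C₃ * P) * (T / nr f₁) * (C₅ * P * (E / nr f₂)) := by
    rw [← sum_fiberwise_of_maps_to (t := A.image d) (g := d) fun a ha => mem_image_of_mem d ha]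
    refine (sum_le_sum s2).trans ?_
    rw [← mul_sum]
    exact mul_le_mul_of_nonneg_left s3 (by positivity)
  calc _ = ∑ k ∈ sp 6 K, ‖∑ x ∈ A.image w, ∑ a ∈ A.filter (fun a => w a = x),
        β a * quad k (n a * d a) * Cf (d a) (n a)‖ ^ 2 := by
        refine sum_congr rfl fun k _ => ?_
        rw [sum_fiberwise_of_maps_to fun a ha => mem_image_of_mem w ha]
    _ ≤ ∑ k ∈ sp 6 K, (∑ x ∈ A.image w, (nr x)⁻¹) * ∑ x ∈ A.image w, nr x *
        ‖∑ a ∈ A.filter (fun a => w a = x), β a * quad k (n a * d a) * Cf (d a) (n a)‖ ^ 2 := by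
        refine sum_le_sum fun k _ => sq_sum_le_weight _ _ fun x hx => ?_
        obtain ⟨a, ha, rfl⟩ := mem_image.1 hx
        exact nr_pos (hwp a ha).ne_zero
    _ = (∑ x ∈ A.image w, (nr x)⁻¹) * ∑ x ∈ A.image w, nr x * ∑ k ∈ sp 6 K,
        ‖∑ a ∈ A.filter (fun a => w a = x), β a * quad k (n a * d a) * Cf (d a) (n a)‖ ^ 2 := by
        rw [← mul_sum, sum_comm]
        simp only [mul_sum]
    _ ≤ C₁ * P * (C₂ * P * (C₃ * P) * (C₄ * P * (C₃ * P) * (T / nr f₁) * (C₅ * P * (E / nr f₂)))) := by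
        refine mul_le_mul s4 ((sum_le_sum s1).trans ?_) (by positivity) (by positivity)
        rw [← mul_sum, sum_fiberwise_of_maps_to fun a ha => mem_image_of_mem w ha]
        exact mul_le_mul_of_nonneg_left s5 (by positivity)
    _ = _ := by
        rw [← hP6]
        field_simp

end Crest.Agent.R17.En
end
end

-- ▼ part PVc/R17/EnD
section

/-!
# Row 17, module M8 (reflected energy), part D: the bilinear estimate
-/

set_option autoImplicit false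

noncomputable section

namespace Crest.Agent.R17.En

open scoped ComplexConjugate
open MeasureTheory Finset

theorem EnD_sqrt_prod (s : Finset O) :
    ∏ p ∈ s, Real.sqrt (nr p) = Real.sqrt (nr (∏ p ∈ s, p)) := by
  rw [nr, nm_prod, Nat.cast_prod, Real.sqrt_prod _ fun p _ => Nat.cast_nonneg _]

open Classical in
theorem EnD_prod_le (P : Finset O) (hP : ∀ p ∈ P, p ≠ 0) (ν : O) :
    ∏ p ∈ P, ((Real.sqrt (nr p))⁻¹ + if p ∣ ν then Real.sqrt (nr p) else 0) ≤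
      2 ^ P.card * ∏ p ∈ P.filter (· ∣ ν), Real.sqrt (nr p) := by
  rw [Finset.prod_filter, ← Finset.prod_const, ← Finset.prod_mul_distrib]
  refine Finset.prod_le_prod (fun p _ => ?_) fun p hp => ?_
  · split_ifs <;> positivity
  · have h1 : 1 ≤ Real.sqrt (nr p) := Real.one_le_sqrt.2 (one_le_nr (hP p hp))
    have h2 : (Real.sqrt (nr p))⁻¹ ≤ 1 := inv_le_one_of_one_le₀ h1
    split_ifs <;> linarith

/-- parametrisation of the support of the dual coefficients -/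
theorem EnD_param {C₀ : ℝ} {h r : O} {b : O → ℂ} (hr : r ≠ 0) (hC : 0 < C₀)
    (hb : DualB C₀ h r b) (ν : O) (hν : b ν ≠ 0) :
    ∃ (u : O) (j : ℕ) (n d f₁ f₂ : O), IsUnit u ∧ Primary n ∧ Squarefree n ∧ Primary d ∧
      ν = u * lam ^ j * (n * d ^ 3) ∧ f₁ ∈ pdiv r ∧ f₂ ∈ pdiv r ∧ Squarefree f₂ ∧ f₁ ∣ n ∧
      IsCoprime f₁ d ∧ f₂ ∣ d ∧ ‖b ν‖ ≤ C₀ * (3 : ℝ) ^ ((j : ℝ) / 6) * Real.sqrt (nr d) *
        (2 ^ (pf r).card * Real.sqrt (nr f₁ * nr f₂)) := by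
  classical
  obtain ⟨u, j, n, d, hu, hn, hn', hd, rfl, hle⟩ := hb ν hν
  set ν := u * lam ^ j * (n * d ^ 3) with hνdef
  set P := (pf r).filter (fun p => vp p h % 6 = 4) with hPdef
  set s := P.filter (· ∣ ν) with hsdef
  have hlam : lam ^ j ≠ 0 := pow_ne_zero _ prime_lam.ne_zero
  have hnd : n * d ^ 3 ≠ 0 := mul_ne_zero hn.ne_zero (pow_ne_zero _ hd.ne_zero)
  have hν0 : ν ≠ 0 := mul_ne_zero (mul_ne_zero hu.ne_zero hlam) hnd
  have hpf : pf ν = pf n ∪ pf d := by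
    rw [hνdef, mul_assoc, pf_unit_mul hu, pf_mul hlam hnd, BasicB.pf_lam_pow,
      pf_mul hn.ne_zero (pow_ne_zero _ hd.ne_zero), pf_pow (by norm_num), Finset.empty_union]
  have hs : s ⊆ pf r := (Finset.filter_subset _ _).trans (Finset.filter_subset _ _)
  have hs₁ : s.filter (fun p => ¬ p ∣ d) ⊆ pf r := (Finset.filter_subset _ _).trans hs
  have hs₂ : s.filter (fun p => p ∣ d) ⊆ pf r := (Finset.filter_subset _ _).trans hs
  obtain ⟨-, a2, a3⟩ := squarefree_prod_primes fun q hq => BasicB.pf_sub (hs₁ hq)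
  obtain ⟨b1, b2, -⟩ := squarefree_prod_primes fun q hq => BasicB.pf_sub (hs₂ hq)
  refine ⟨u, j, n, d, ∏ p ∈ s.filter (fun p => ¬ p ∣ d), p, ∏ p ∈ s.filter (fun p => p ∣ d), p,
    hu, hn, hn', hd, rfl, (mem_pdiv hr).2 ⟨a2, BasicB.prod_dvd_of_subset hr hs₁⟩,
    (mem_pdiv hr).2 ⟨b2, BasicB.prod_dvd_of_subset hr hs₂⟩, b1,
    BasicB.prod_dvd_of_subset hn.ne_zero fun p hp => ?_,
    isCoprime_of_disjoint_pf a2 hd.ne_zero ?_,
    BasicB.prod_dvd_of_subset hd.ne_zero fun p hp => ?_, hle.trans ?_⟩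
  · obtain ⟨h1, h2⟩ := Finset.mem_filter.1 hp
    obtain ⟨h3, h4⟩ := BasicB.pf_sub (hs h1)
    have h5 : p ∈ pf ν := (mem_pf hν0).2 ⟨h3, h4, (Finset.mem_filter.1 h1).2⟩
    rw [hpf, Finset.mem_union] at h5
    exact h5.resolve_right fun h6 => h2 (BasicB.of_mem_pf h6).2.2
  · rw [a3, Finset.disjoint_left]
    intro p hp h6
    exact (Finset.mem_filter.1 hp).2 (BasicB.of_mem_pf h6).2.2
  · obtain ⟨h1, h2⟩ := Finset.mem_filter.1 hp
    obtain ⟨h3, h4⟩ := BasicB.pf_sub (hs h1)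
    exact (mem_pf hd.ne_zero).2 ⟨h3, h4, h2⟩
  · refine mul_le_mul_of_nonneg_left ?_ (by positivity)
    refine (EnD_prod_le P (fun p hp =>
      (BasicB.pf_sub (Finset.filter_subset _ _ hp)).1.ne_zero) ν).trans ?_
    rw [EnD_sqrt_prod, ← nr_mul, mul_comm (∏ p ∈ s.filter (fun p => ¬ p ∣ d), p),
      Finset.prod_filter_mul_prod_filter_not]
    exact mul_le_mul_of_nonneg_right (pow_le_pow_right₀ one_le_two
      (Finset.card_le_card (Finset.filter_subset _ _))) (Real.sqrt_nonneg _)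

theorem EnD_quad {k : O} (hk : PO k) (w n d : O) :
    quad k (w * (n * d ^ 3)) = quad k w * quad k (n * d) := by
  have h1 : quad k (d ^ 3) = quad k d := by
    rw [← sym_pow_three hk.1, sym_pow_right hk, ← pow_mul, ← sym_pow_three hk.1]
    exact sym_pow_add_six hk.1 d (j := 3) (by norm_num)
  rw [quad_mul_right hk, quad_mul_right hk, quad_mul_right hk, h1]

theorem EnD_sym {z : O} (hz : PO z) (w n d : O) :
    sym z (w * (n * d ^ 3)) ^ 4 = sym z w ^ 4 * sym z d ^ 12 * sym z n ^ 4 := by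
  rw [sym_mul_right hz, sym_mul_right hz, sym_pow_right hz]
  ring

/-- the estimate for one class -/
theorem EnD_class {ε : ℝ} (hε : 0 < ε) : ∃ C : ℝ, 0 < C ∧
    ∀ (Q K Z L C₁ ρ : ℝ) (u f₁ f₂ : O) (j e : ℕ) (A : Finset O) (n d : O → O) (b c : O → ℂ),
      1 ≤ K → K ≤ Q → 1 ≤ Z → Z ≤ Q → 0 ≤ L → L ≤ Q → 0 < C₁ → IsUnit u → Primary f₁ →
      Primary f₂ → nr f₁ ≤ ρ → (∀ z, ‖c z‖ ≤ 1) →
      (∀ a ∈ A, nr a ≤ L ∧ Primary (n a) ∧ Squarefree (n a) ∧ Primary (d a) ∧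
        a = u * lam ^ j * (n a * d a ^ 3) ∧ Nat.log 2 (nm (d a)) = e ∧ Squarefree f₂ ∧ f₁ ∣ n a ∧
        IsCoprime f₁ (d a) ∧ f₂ ∣ d a ∧ ‖b a‖ ≤ C₁ * (3 : ℝ) ^ ((j : ℝ) / 6) *
          Real.sqrt (nr (d a)) * Real.sqrt (nr f₁ * nr f₂)) →
      ∑ k ∈ sp 6 K, ‖∑ a ∈ A, b a * quad k a * ∑ z ∈ sp 6 Z, c z * sym z a ^ 4‖ ^ 2 ≤
        C * C₁ ^ 2 * Q ^ ε * Cb K Z L ρ := by
  classical
  obtain ⟨C, hC, hblock⟩ := block hε
  refine ⟨8 * C * 2 ^ ε, by positivity, ?_⟩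
  intro Q K Z L C₁ ρ u f₁ f₂ j e A n d b c hK hKQ hZ hZQ hL hLQ hC₁ hu hf₁ hf₂ hρ hc hA
  have hN₁ : 0 < nr f₁ := nr_pos hf₁.ne_zero
  have hN₂ : 0 < nr f₂ := nr_pos hf₂.ne_zero
  have hCb : 0 ≤ Cb K Z L ρ := Cb_nonneg (by linarith) (by linarith) hL (by linarith)
  have hQ : 0 < Q := by linarith
  rcases A.eq_empty_or_nonempty with rfl | ⟨a₀, ha₀⟩
  · simp only [Finset.sum_empty, norm_zero, ne_eq, OfNat.ofNat_ne_zero, not_false_eq_true,
      zero_pow, Finset.sum_const_zero]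
    positivity
  set E : ℝ := 2 ^ e with hE
  set t : ℝ := (3 : ℝ) ^ ((j : ℝ) / 6) with ht
  have hE1 : 1 ≤ E := one_le_pow₀ one_le_two
  have ht1 : 1 ≤ t := Real.one_le_rpow (by norm_num) (by positivity)
  have ht6 : (t ^ 2) ^ 3 = 3 ^ j := by
    rw [← pow_mul, ht, ← Real.rpow_natCast, ← Real.rpow_mul (by norm_num), ← Real.rpow_natCast]
    congr 1
    push_cast
    ring
  have h3j : (1 : ℝ) ≤ 3 ^ j := one_le_pow₀ (by norm_num)
  have hnr : ∀ a ∈ A, nr a = 3 ^ j * (nr (n a) * nr (d a) ^ 3) := fun a ha => by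
    obtain ⟨-, -, -, -, h5, -⟩ := hA a ha
    conv_lhs => rw [h5]
    rw [nr_mul, nr_mul, nr_mul, nr_pow, nr_pow, nr, isUnit_iff_nm.1 hu, nr, nm_lam]
    push_cast
    ring
  have hdE : ∀ a ∈ A, E ≤ nr (d a) ∧ nr (d a) ≤ 2 * E := fun a ha => by
    obtain ⟨-, -, -, h4, -, h6, -⟩ := hA a ha
    have h0 : nm (d a) ≠ 0 := fun h => h4.ne_zero (nm_eq_zero.1 h)
    have h1 := Nat.pow_log_le_self 2 h0
    have h2 := Nat.lt_pow_succ_log_self (b := 2) (by norm_num) (nm (d a))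
    rw [h6] at h1 h2
    constructor
    · rw [hE, nr]
      exact_mod_cast h1
    · rw [hE, nr, ← pow_succ']
      exact_mod_cast h2.le
  have hden : 0 < 3 ^ j * E ^ 3 := by positivity
  set N : ℝ := L / (3 ^ j * E ^ 3) with hN
  have hN0 : 0 ≤ N := by positivity
  have hNL : N ≤ L := div_le_self hL (one_le_mul_of_one_le_of_one_le h3j (one_le_pow₀ hE1))
  have hnN : ∀ a ∈ A, nr (n a) ≤ N := fun a ha => by
    rw [hN, le_div_iff₀ hden]
    refine le_trans ?_ (hA a ha).1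
    rw [hnr a ha]
    have h1 : E ^ 3 ≤ nr (d a) ^ 3 := pow_le_pow_left₀ (by linarith) (hdE a ha).1 3
    have h2 : 0 ≤ nr (n a) := Nat.cast_nonneg _
    calc nr (n a) * (3 ^ j * E ^ 3) = 3 ^ j * (nr (n a) * E ^ 3) := by ring
      _ ≤ _ := by gcongr
  have hEQ : E ≤ Q := by
    have h1 := hnr a₀ ha₀
    obtain ⟨h2, h3, -, h4, -⟩ := hA a₀ ha₀
    have h5 := one_le_nr h3.ne_zero
    have h6 := one_le_nr h4.ne_zero
    have h7 : nr (d a₀) ≤ nr (d a₀) ^ 3 := le_self_pow₀ h6 (by norm_num)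
    have h8 : nr (d a₀) ^ 3 ≤ nr (n a₀) * nr (d a₀) ^ 3 := le_mul_of_one_le_left (by positivity) h5
    have h9 : nr (n a₀) * nr (d a₀) ^ 3 ≤ 3 ^ j * (nr (n a₀) * nr (d a₀) ^ 3) :=
      le_mul_of_one_le_left (by positivity) h3j
    linarith [(hdE a₀ ha₀).1]
  set B : ℝ := C₁ * t * Real.sqrt (2 * E) * Real.sqrt (nr f₁ * nr f₂) with hB
  have hB0 : 0 < B := by positivity
  have hB2 : B ^ 2 = C₁ ^ 2 * t ^ 2 * (2 * E) * (nr f₁ * nr f₂) := by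
    rw [hB, mul_pow, mul_pow, mul_pow, Real.sq_sqrt (by positivity), Real.sq_sqrt (by positivity)]
  let β : O → ℂ := fun a => if a ∈ A then b a / B else 0
  have hβ : ∀ a, ‖β a‖ ≤ 1 := fun a => by
    by_cases ha : a ∈ A
    · simp only [β, if_pos ha, norm_div, Complex.norm_real, Real.norm_of_nonneg hB0.le]
      rw [div_le_one hB0]
      refine (hA a ha).2.2.2.2.2.2.2.2.2.2.trans ?_
      rw [hB]
      gcongr
      exact (hdE a ha).2
    · simp [β, ha]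
  have hc' : ∀ z, ‖c z * sym z (u * lam ^ j) ^ 4‖ ≤ 1 := fun z => by
    rw [norm_mul, norm_pow]
    exact mul_le_one₀ (hc z) (by positivity) (pow_le_one₀ (norm_nonneg _) (norm_sym_le _ _))
  have hinj : Set.InjOn (fun a => (n a, d a)) A := fun a ha a' ha' h => by
    obtain ⟨h1, h2⟩ := Prod.ext_iff.1 h
    rw [(hA a ha).2.2.2.2.1, (hA a' ha').2.2.2.2.1]
    exact congrArg₂ (fun x y => u * lam ^ j * (x * y ^ 3)) h1 h2
  have h1 := hblock (2 * Q) K Z N (2 * E) f₁ f₂ A n d β (fun z => c z * sym z (u * lam ^ j) ^ 4)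
    hK (by linarith) hZ (by linarith) hN0 (by linarith) (by linarith) (by linarith) hf₁ hf₂
    (hA a₀ ha₀).2.2.2.2.2.2.1 (fun a ha => by
      obtain ⟨-, h2, h3, h4, -, -, -, h8, h9, h10, -⟩ := hA a ha
      exact ⟨h2, h3, h4, hnN a ha, (hdE a ha).2, h8, h9, h10⟩) hinj hβ hc'
  have h2 := block_le_Cb (K := K) (Z := Z) (L := L) (ρ := ρ) (a := t ^ 2) (E := E) (N := N)
    (f := nr f₁) (by linarith) (by linarith) (one_le_pow₀ ht1) hE1 hN0
    (by rw [ht6, hN]; field_simp) hN₁.le hρ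
  have h3 : ∀ k ∈ sp 6 K, ‖∑ a ∈ A, b a * quad k a * ∑ z ∈ sp 6 Z, c z * sym z a ^ 4‖ ^ 2 ≤
      B ^ 2 * ‖∑ a ∈ A, β a * quad k (n a * d a) * ∑ z ∈ sp 6 Z,
        c z * sym z (u * lam ^ j) ^ 4 * sym z (d a) ^ 12 * sym z (n a) ^ 4‖ ^ 2 := fun k hk => by
    have hk' : PO k := SP.po ((mem_sp (by linarith)).1 hk).1
    have h4 : ∑ a ∈ A, b a * quad k a * ∑ z ∈ sp 6 Z, c z * sym z a ^ 4 =
        quad k (u * lam ^ j) * B * ∑ a ∈ A, β a * quad k (n a * d a) * ∑ z ∈ sp 6 Z,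
          c z * sym z (u * lam ^ j) ^ 4 * sym z (d a) ^ 12 * sym z (n a) ^ 4 := by
      rw [Finset.mul_sum]
      refine Finset.sum_congr rfl fun a ha => ?_
      have h5 := (hA a ha).2.2.2.2.1
      have h6 : quad k a = quad k (u * lam ^ j) * quad k (n a * d a) := by
        conv_lhs => rw [h5]
        exact EnD_quad hk' _ _ _
      have h7 : ∑ z ∈ sp 6 Z, c z * sym z a ^ 4 = ∑ z ∈ sp 6 Z,
          c z * sym z (u * lam ^ j) ^ 4 * sym z (d a) ^ 12 * sym z (n a) ^ 4 := by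
        refine Finset.sum_congr rfl fun z hz => ?_
        have hz' : PO z := SP.po ((mem_sp (by linarith)).1 hz).1
        conv_lhs => rw [h5]
        rw [EnD_sym hz']
        ring
      have h8 : (B : ℂ) ≠ 0 := by exact_mod_cast hB0.ne'
      rw [h6, h7]
      simp only [β, if_pos ha]
      field_simp
    rw [h4, norm_mul, norm_mul, mul_pow, mul_pow, Complex.norm_real, Real.norm_of_nonneg hB0.le]
    have h5 : ‖quad k (u * lam ^ j)‖ ^ 2 ≤ 1 := pow_le_one₀ (norm_nonneg _) (norm_quad_le _ _)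
    exact mul_le_mul_of_nonneg_right (mul_le_of_le_one_left (by positivity) h5) (by positivity)
  refine (Finset.sum_le_sum h3).trans ?_
  rw [← Finset.mul_sum]
  refine (mul_le_mul_of_nonneg_left h1 (by positivity)).trans ?_
  rw [hB2, Real.mul_rpow (by norm_num) hQ.le]
  set X := K * min (N * Z ^ 2) ((N + 2 * E * nr f₁ * Z ^ 2) * Z) +
    N * (2 * E) * min (N * Z ^ 2) ((N + Z ^ 2) * Z) with hX
  calc C₁ ^ 2 * t ^ 2 * (2 * E) * (nr f₁ * nr f₂) *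
        (C * (2 ^ ε * Q ^ ε) * (2 * E / (nr f₁ * nr f₂)) * X)
      = C * 2 ^ ε * C₁ ^ 2 * Q ^ ε * (t ^ 2 * (2 * E) ^ 2 * X) := by field_simp
    _ ≤ C * 2 ^ ε * C₁ ^ 2 * Q ^ ε * (8 * Cb K Z L ρ) :=
        mul_le_mul_of_nonneg_left h2 (by positivity)
    _ = _ := by ring

/-- the bilinear estimate -/
theorem core {ε : ℝ} (hε : 0 < ε) : ∃ C : ℝ, 0 < C ∧
    ∀ (Q K Z L C₀ : ℝ) (h r : O) (b c : O → ℂ), 1 ≤ K → K ≤ Q → 1 ≤ Z → Z ≤ Q → 0 ≤ L → L ≤ Q →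
      r ≠ 0 → nr r ≤ Q → 0 < C₀ → DualB C₀ h r b → (∀ z, ‖c z‖ ≤ 1) →
      ∑ k ∈ sp 6 K, ‖∑ z ∈ sp 6 Z, c z * ∑ ν ∈ ball ⌊L⌋₊, b ν * quad k ν * sym z ν ^ 4‖ ^ 2 ≤
        C * C₀ ^ 2 * Q ^ ε * Cb K Z L (nr r) := by
  classical
  have hε' : 0 < ε / 10 := by positivity
  obtain ⟨C₁, hC₁, h₁⟩ := EnD_class hε'
  obtain ⟨C₂, hC₂, h₂⟩ := log_le hε'
  obtain ⟨C₃, hC₃, h₃⟩ := card_pdiv_le' hε'
  obtain ⟨C₄, hC₄, h₄⟩ := pow_card_pf_le hε' 4
  refine ⟨(6 * C₂ ^ 2 * C₃ ^ 2) ^ 2 * (C₁ * C₄), by positivity, ?_⟩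
  intro Q K Z L C₀ h r b c hK hKQ hZ hZQ hL hLQ hr hrQ hC₀ hb hc
  have hQ : 1 ≤ Q := hK.trans hKQ
  choose! u j n d f₁ f₂ hp using EnD_param hr hC₀ hb
  set A := (ball ⌊L⌋₊).filter (fun ν => b ν ≠ 0) with hAdef
  set J := Nat.log 2 ⌊Q⌋₊ with hJ
  set I : Finset (O × ℕ × ℕ × O × O) := ((range 6).image fun k => (-om) ^ k) ×ˢ range (J + 1) ×ˢ
    range (J + 1) ×ˢ pdiv r ×ˢ pdiv r with hI
  let cl : O → O × ℕ × ℕ × O × O := fun ν => (u ν, j ν, Nat.log 2 (nm (d ν)), f₁ ν, f₂ ν)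
  have hA : ∀ ν ∈ A, nr ν ≤ L ∧ b ν ≠ 0 := fun ν hν =>
    ⟨(mem_ball_floor hL).1 (Finset.mem_filter.1 hν).1, (Finset.mem_filter.1 hν).2⟩
  have hcl : ∀ ν ∈ A, cl ν ∈ I := fun ν hν => by
    obtain ⟨h1, h2⟩ := hA ν hν
    obtain ⟨p1, p2, -, p4, p5, p6, p7, -⟩ := hp ν h2
    have h3 : nm ν ≤ ⌊Q⌋₊ := Nat.le_floor (h1.trans hLQ)
    have h4 : nm ν = 3 ^ j ν * (nm (n ν) * nm (d ν) ^ 3) := by
      conv_lhs => rw [p5]
      rw [nm_mul, nm_mul, nm_mul, nm_pow, nm_pow, isUnit_iff_nm.1 p1, nm_lam, one_mul]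
    have h5 : 0 < nm (n ν) := Nat.pos_of_ne_zero fun h => p2.ne_zero (nm_eq_zero.1 h)
    have h6 : 0 < nm (d ν) := Nat.pos_of_ne_zero fun h => p4.ne_zero (nm_eq_zero.1 h)
    have h7 : 2 ^ j ν ≤ ⌊Q⌋₊ := by
      refine le_trans ?_ h3
      rw [h4]
      exact (Nat.pow_le_pow_left (by norm_num) _).trans (Nat.le_mul_of_pos_right _ (by positivity))
    have h8 : nm (d ν) ≤ ⌊Q⌋₊ := by
      refine le_trans ?_ h3
      rw [h4]
      exact (Nat.le_self_pow (by norm_num) _).trans ((Nat.le_mul_of_pos_left _ h5).trans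
        (Nat.le_mul_of_pos_left _ (by positivity)))
    obtain ⟨k, hk, hk'⟩ := isUnit_iff_pow.1 p1
    simp only [hI, cl, Finset.mem_product, Finset.mem_image, Finset.mem_range]
    exact ⟨⟨k, hk, hk'.symm⟩, Nat.lt_succ_of_le (Nat.le_log_of_pow_le (by norm_num) h7),
      Nat.lt_succ_of_le (Nat.log_mono_right h8), p6, p7⟩
  have hsum : ∀ k, ∑ z ∈ sp 6 Z, c z * ∑ ν ∈ ball ⌊L⌋₊, b ν * quad k ν * sym z ν ^ 4 =
      ∑ i ∈ I, ∑ ν ∈ A.filter (fun ν => cl ν = i),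
        b ν * quad k ν * ∑ z ∈ sp 6 Z, c z * sym z ν ^ 4 := fun k => by
    rw [Finset.sum_fiberwise_of_maps_to hcl, hAdef,
      Finset.sum_filter_of_ne (p := fun ν => b ν ≠ 0) fun ν _ h0 h1 =>
        h0 (by rw [h1, zero_mul, zero_mul])]
    simp only [Finset.mul_sum]
    rw [Finset.sum_comm]
    exact Finset.sum_congr rfl fun ν _ => Finset.sum_congr rfl fun z _ => by ring
  simp only [hsum]
  set q : ℝ := Q ^ (ε / 10) with hq
  have hq0 : 0 < q := by positivity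
  have hq10 : Q ^ ε = q ^ 10 := by
    rw [hq, ← Real.rpow_natCast, ← Real.rpow_mul (by linarith)]
    congr 1
    push_cast
    ring
  have hCb : 0 ≤ Cb K Z L (nr r) := Cb_nonneg (by linarith) (by linarith) hL (Nat.cast_nonneg _)
  have hE := l2_sum_le (sp 6 K) I (fun i k => ∑ ν ∈ A.filter (fun ν => cl ν = i),
    b ν * quad k ν * ∑ z ∈ sp 6 Z, c z * sym z ν ^ 4)
    (E := C₁ * (C₀ * 2 ^ (pf r).card) ^ 2 * q * Cb K Z L (nr r)) (by
      rintro ⟨u₀, j₀, e₀, g₁, g₂⟩ hi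
      simp only [hI, Finset.mem_product, Finset.mem_image, Finset.mem_range] at hi
      obtain ⟨⟨k, hk, hk'⟩, -, -, hg₁, hg₂⟩ := hi
      obtain ⟨hg₁, hg₁'⟩ := (mem_pdiv hr).1 hg₁
      refine h₁ Q K Z L (C₀ * 2 ^ (pf r).card) (nr r) u₀ g₁ g₂ j₀ e₀ _ n d b c hK hKQ hZ hZQ hL hLQ
        (by positivity) (isUnit_iff_pow.2 ⟨k, hk, hk'.symm⟩) hg₁ ((mem_pdiv hr).1 hg₂).1
        (by exact_mod_cast nm_le_of_dvd hg₁' hr) hc fun a ha => ?_
      obtain ⟨ha, hi⟩ := Finset.mem_filter.1 ha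
      obtain ⟨h1, h2⟩ := hA a ha
      obtain ⟨-, p2, p3, p4, p5, -, -, p8, p9, p10, p11, p12⟩ := hp a h2
      simp only [cl, Prod.mk.injEq] at hi
      obtain ⟨rfl, rfl, rfl, rfl, rfl⟩ := hi
      exact ⟨h1, p2, p3, p4, p5, rfl, p8, p9, p10, p11, p12.trans (le_of_eq (by ring))⟩)
  refine hE.trans ?_
  have hcard : (I.card : ℝ) ≤ 6 * C₂ ^ 2 * C₃ ^ 2 * q ^ 4 := by
    have h1 : (((range 6).image fun k => (-om) ^ k).card : ℝ) ≤ 6 := by
      exact_mod_cast Finset.card_image_le.trans (by simp)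
    have h2 : ((J + 1 : ℕ) : ℝ) ≤ C₂ * q := by
      push_cast
      refine h₂ Q J (le_trans ?_ (Nat.floor_le (by linarith)))
      exact_mod_cast Nat.pow_log_le_self 2 (Nat.floor_pos.2 hQ).ne'
    have h3 := h₃ Q r hr hrQ
    rw [hI, Finset.card_product, Finset.card_product, Finset.card_product, Finset.card_product,
      Finset.card_range, Nat.cast_mul, Nat.cast_mul, Nat.cast_mul, Nat.cast_mul]
    calc _ ≤ 6 * ((C₂ * q) * ((C₂ * q) * ((C₃ * q) * (C₃ * q)))) := by gcongr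
      _ = _ := by ring
  have hw : ((2 : ℝ) ^ (pf r).card) ^ 2 ≤ C₄ * q := by
    rw [← pow_mul, mul_comm, pow_mul]
    refine le_trans (by norm_num) ((h₄ r hr).trans ?_)
    rw [hq]
    gcongr
  rw [hq10, mul_pow C₀]
  calc (I.card : ℝ) ^ 2 * (C₁ * (C₀ ^ 2 * (2 ^ (pf r).card) ^ 2) * q * Cb K Z L (nr r))
      ≤ (6 * C₂ ^ 2 * C₃ ^ 2 * q ^ 4) ^ 2 * (C₁ * (C₀ ^ 2 * (C₄ * q)) * q * Cb K Z L (nr r)) := by
        gcongr
    _ = _ := by ring

end Crest.Agent.R17.En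
end
end

-- ▼ part PVc/R17/EnE
section

/-!
# Row 17, module M8 (reflected energy), part E: coprimality of rows and marks
-/

set_option autoImplicit false

noncomputable section

namespace Crest.Agent.R17.En

open scoped ComplexConjugate
open MeasureTheory Finset

open Classical in
/-- the part of the bilinear form in which the marks are multiples of `t` -/
def EnE.G (Z L : ℝ) (b c : O → ℂ) (t k : O) : ℂ :=
  ∑ z ∈ (sp 6 Z).filter (t ∣ ·), c z * ∑ ν ∈ ball ⌊L⌋₊, b ν * quad k ν * sym z ν ^ 4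

open Classical in
theorem EnE.mobius {Z : ℝ} (hZ : 0 ≤ Z) (L : ℝ) (b c : O → ℂ) {k : O} (hk : Primary k) :
    ∑ z ∈ sp 6 Z, (if IsCoprime z k then c z else 0) *
        ∑ ν ∈ ball ⌊L⌋₊, b ν * quad k ν * sym z ν ^ 4 =
      ∑ t ∈ pdiv k, mu t * EnE.G Z L b c t k := by
  unfold EnE.G
  simp_rw [Finset.sum_filter, Finset.mul_sum (s := sp 6 Z)]
  rw [Finset.sum_comm]
  refine Finset.sum_congr rfl fun z hz => ?_
  have hz0 : z ≠ 0 := ((mem_sp hZ).1 hz).1.1.ne_zero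
  have h1 := sum_mu_coprime hk hz0
  rw [Finset.sum_filter] at h1
  have h2 : ∀ t ∈ pdiv k, mu t * (if t ∣ z then
      c z * ∑ ν ∈ ball ⌊L⌋₊, b ν * quad k ν * sym z ν ^ 4 else 0) =
      (if t ∣ z then mu t else 0) * (c z * ∑ ν ∈ ball ⌊L⌋₊, b ν * quad k ν * sym z ν ^ 4) := by
    intro t _
    split_ifs <;> simp
  rw [Finset.sum_congr rfl h2, ← Finset.sum_mul, h1]
  by_cases h : IsCoprime z k
  · rw [if_pos h, if_pos h.symm, one_mul]
  · rw [if_neg h, if_neg (fun h' => h h'.symm), zero_mul, zero_mul]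

open Classical in
theorem EnE.G_mul {Z : ℝ} (hZ : 0 ≤ Z) (L : ℝ) (b c : O → ℂ) {t k : O} (ht : Primary t)
    (hk : k ≠ 0) :
    EnE.G Z L b c t (t * k) = ∑ z ∈ sp 6 (Z / nr t), (if t * z ∈ sp 6 Z then c (t * z) else 0) *
      ∑ ν ∈ ball ⌊L⌋₊, (b ν * quad t ν * sym t ν ^ 4) * quad k ν * sym z ν ^ 4 := by
  unfold EnE.G
  rw [sum_sp_dvd ht hZ]
  refine Finset.sum_congr rfl fun z hz => ?_
  have hz0 : z ≠ 0 :=
    ((mem_sp (div_nonneg hZ (Nat.cast_nonneg _))).1 hz).1.1.ne_zero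
  split_ifs with h
  · congr 1
    refine Finset.sum_congr rfl fun ν _ => ?_
    rw [quad_mul_left ht.ne_zero hk, sym_mul_left ht.ne_zero hz0]
    ring
  · rw [zero_mul]

open Classical in
theorem EnE.fixed {ε : ℝ} (hε : 0 < ε) : ∃ C : ℝ, 0 < C ∧
    ∀ (Q K Z L C₀ : ℝ) (h r : O) (b c : O → ℂ), 1 ≤ K → K ≤ Q → 1 ≤ Z → Z ≤ Q → 0 ≤ L → L ≤ Q →
      r ≠ 0 → nr r ≤ Q → 0 < C₀ → DualB C₀ h r b → (∀ z, ‖c z‖ ≤ 1) → ∀ t ∈ sp 6 K,
      ∑ k ∈ (sp 6 K).filter (t ∣ ·), ‖EnE.G Z L b c t k‖ ^ 2 ≤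
        (nr t)⁻¹ * (C * C₀ ^ 2 * Q ^ ε * Cb K Z L (nr r)) := by
  obtain ⟨C, hC, hcore⟩ := core hε
  refine ⟨C, hC, fun Q K Z L C₀ h r b c hK hKQ hZ hZQ hL hLQ hr hrQ hC₀ hb hc t ht => ?_⟩
  have hK0 : 0 ≤ K := by linarith
  have hZ0 : 0 ≤ Z := by linarith
  have hQ0 : 0 ≤ Q := by linarith
  obtain ⟨htS, htK⟩ := (mem_sp hK0).1 ht
  have htP : Primary t := htS.1
  have ht1 : 1 ≤ nr t := one_le_nr htP.ne_zero
  have ht0 : 0 < nr t := by linarith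
  have hCb : 0 ≤ Cb K Z L (nr r) := Cb_nonneg hK0 hZ0 hL (Nat.cast_nonneg _)
  by_cases htZ : nr t ≤ Z
  · rw [sum_sp_dvd htP hK0 (fun k => ‖EnE.G Z L b c t k‖ ^ 2)]
    have hK' : 1 ≤ K / nr t := (one_le_div ht0).2 htK
    have hZ' : 1 ≤ Z / nr t := (one_le_div ht0).2 htZ
    have hb' : DualB C₀ h r fun ν => b ν * quad t ν * sym t ν ^ 4 := by
      refine dualB_of_le hb fun ν => ?_
      rw [norm_mul, norm_mul, norm_pow, mul_assoc]
      refine mul_le_of_le_one_right (norm_nonneg _) ?_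
      exact mul_le_one₀ (norm_quad_le _ _) (by positivity)
        (pow_le_one₀ (norm_nonneg _) (norm_sym_le _ _))
    have hc' : ∀ z, ‖(if t * z ∈ sp 6 Z then c (t * z) else 0)‖ ≤ 1 := by
      intro z
      split_ifs
      · exact hc _
      · simp
    have h1 := hcore Q (K / nr t) (Z / nr t) L C₀ h r _ _ hK'
      ((div_le_self hK0 ht1).trans hKQ) hZ' ((div_le_self hZ0 ht1).trans hZQ) hL hLQ hr hrQ hC₀
      hb' hc'
    have h2 := Cb_div (ρ := nr r) hK0 hZ0 hL (Nat.cast_nonneg _) ht1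
    calc _ ≤ ∑ k ∈ sp 6 (K / nr t), ‖∑ z ∈ sp 6 (Z / nr t),
            (if t * z ∈ sp 6 Z then c (t * z) else 0) * ∑ ν ∈ ball ⌊L⌋₊,
              (b ν * quad t ν * sym t ν ^ 4) * quad k ν * sym z ν ^ 4‖ ^ 2 := by
          refine Finset.sum_le_sum fun k hk => ?_
          have hk0 : k ≠ 0 := ((mem_sp (by linarith)).1 hk).1.1.ne_zero
          split_ifs
          · rw [EnE.G_mul hZ0 L b c htP hk0]
          · positivity
      _ ≤ C * C₀ ^ 2 * Q ^ ε * Cb (K / nr t) (Z / nr t) L (nr r) := h1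
      _ ≤ C * C₀ ^ 2 * Q ^ ε * ((nr t)⁻¹ * Cb K Z L (nr r)) :=
          mul_le_mul_of_nonneg_left h2 (by positivity)
      _ = _ := by ring
  · have hG : ∀ k, EnE.G Z L b c t k = 0 := by
      intro k
      refine Finset.sum_eq_zero fun z hz => ?_
      obtain ⟨hz1, hz2⟩ := Finset.mem_filter.1 hz
      obtain ⟨hzS, hzZ⟩ := (mem_sp hZ0).1 hz1
      have : nr t ≤ nr z := Nat.cast_le.2 (nm_le_of_dvd hz2 hzS.1.ne_zero)
      exact absurd (this.trans hzZ) htZ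
    simp only [hG, norm_zero, ne_eq, OfNat.ofNat_ne_zero, not_false_eq_true, zero_pow,
      Finset.sum_const_zero]
    positivity

open Classical in
/-- the bilinear estimate with the condition that row and mark are coprime -/
theorem core_cop {ε : ℝ} (hε : 0 < ε) : ∃ C : ℝ, 0 < C ∧
    ∀ (Q K Z L C₀ : ℝ) (h r : O) (b c : O → ℂ), 1 ≤ K → K ≤ Q → 1 ≤ Z → Z ≤ Q → 0 ≤ L → L ≤ Q →
      r ≠ 0 → nr r ≤ Q → 0 < C₀ → DualB C₀ h r b → (∀ z, ‖c z‖ ≤ 1) →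
      ∑ k ∈ sp 6 K, ‖∑ z ∈ sp 6 Z, (if IsCoprime z k then c z else 0) *
          ∑ ν ∈ ball ⌊L⌋₊, b ν * quad k ν * sym z ν ^ 4‖ ^ 2 ≤
        C * C₀ ^ 2 * Q ^ ε * Cb K Z L (nr r) := by
  have hε3 : 0 < ε / 3 := by positivity
  obtain ⟨C₁, hC₁, h₁⟩ := EnE.fixed hε3
  obtain ⟨C₂, hC₂, h₂⟩ := card_pdiv_le' hε3
  obtain ⟨C₃, hC₃, h₃⟩ := sum_inv_le hε3
  refine ⟨C₂ * C₃ * C₁, by positivity,
    fun Q K Z L C₀ h r b c hK hKQ hZ hZQ hL hLQ hr hrQ hC₀ hb hc => ?_⟩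
  have hK0 : 0 ≤ K := by linarith
  have hZ0 : 0 ≤ Z := by linarith
  have hQ1 : 1 ≤ Q := by linarith
  have hQ0 : 0 < Q := by linarith
  have hCb : 0 ≤ Cb K Z L (nr r) := Cb_nonneg hK0 hZ0 hL (Nat.cast_nonneg _)
  have hswap : ∑ k ∈ sp 6 K, ∑ t ∈ pdiv k, ‖EnE.G Z L b c t k‖ ^ 2 =
      ∑ t ∈ sp 6 K, ∑ k ∈ (sp 6 K).filter (t ∣ ·), ‖EnE.G Z L b c t k‖ ^ 2 := by
    refine Finset.sum_comm' fun k t => ?_
    rw [Finset.mem_filter]
    constructor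
    · rintro ⟨hk, ht⟩
      obtain ⟨hkS, hkK⟩ := (mem_sp hK0).1 hk
      obtain ⟨htP, htk⟩ := (mem_pdiv hkS.1.ne_zero).1 ht
      refine ⟨⟨hk, htk⟩, (mem_sp hK0).2 ⟨SP.of_dvd hkS htP htk, le_trans ?_ hkK⟩⟩
      exact Nat.cast_le.2 (nm_le_of_dvd htk hkS.1.ne_zero)
    · rintro ⟨⟨hk, htk⟩, ht⟩
      exact ⟨hk, (mem_pdiv ((mem_sp hK0).1 hk).1.1.ne_zero).2 ⟨((mem_sp hK0).1 ht).1.1, htk⟩⟩
  have hQ3 : Q ^ ε = Q ^ (ε / 3) * Q ^ (ε / 3) * Q ^ (ε / 3) := by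
    rw [← Real.rpow_add hQ0, ← Real.rpow_add hQ0]; congr 1; ring
  calc _ ≤ ∑ k ∈ sp 6 K, C₂ * Q ^ (ε / 3) * ∑ t ∈ pdiv k, ‖EnE.G Z L b c t k‖ ^ 2 := by
        refine Finset.sum_le_sum fun k hk => ?_
        obtain ⟨hkS, hkK⟩ := (mem_sp hK0).1 hk
        rw [EnE.mobius hZ0 L b c hkS.1]
        refine (sq_sum_le_card _ _).trans ?_
        refine mul_le_mul (h₂ Q k hkS.1.ne_zero (hkK.trans hKQ))
          (Finset.sum_le_sum fun t _ => ?_) (by positivity) (by positivity)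
        rw [norm_mul]
        exact pow_le_pow_left₀ (by positivity)
          (mul_le_of_le_one_left (norm_nonneg _) (norm_mu_le t)) 2
    _ = C₂ * Q ^ (ε / 3) *
          ∑ t ∈ sp 6 K, ∑ k ∈ (sp 6 K).filter (t ∣ ·), ‖EnE.G Z L b c t k‖ ^ 2 := by
        rw [← Finset.mul_sum, hswap]
    _ ≤ C₂ * Q ^ (ε / 3) * ∑ t ∈ sp 6 K,
          (nr t)⁻¹ * (C₁ * C₀ ^ 2 * Q ^ (ε / 3) * Cb K Z L (nr r)) := by
        refine mul_le_mul_of_nonneg_left (Finset.sum_le_sum fun t ht => ?_) (by positivity)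
        exact h₁ Q K Z L C₀ h r b c hK hKQ hZ hZQ hL hLQ hr hrQ hC₀ hb hc t ht
    _ ≤ C₂ * Q ^ (ε / 3) *
          (C₃ * Q ^ (ε / 3) * (C₁ * C₀ ^ 2 * Q ^ (ε / 3) * Cb K Z L (nr r))) := by
        rw [← Finset.sum_mul]
        refine mul_le_mul_of_nonneg_left
          (mul_le_mul_of_nonneg_right (h₃ Q _ hQ1 fun n hn => ?_) (by positivity)) (by positivity)
        obtain ⟨hnS, hnK⟩ := (mem_sp hK0).1 hn
        exact ⟨hnS.1.ne_zero, hnK.trans hKQ⟩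
    _ = _ := by rw [hQ3]; ring

end Crest.Agent.R17.En
end
end

-- ▼ part PVc/R17/EnF
section

/-!
# Row 17, module M8 (reflected energy), part F: separation of variables and truncation
-/

set_option autoImplicit false

noncomputable section

namespace Crest.Agent.R17.En

open scoped ComplexConjugate
open MeasureTheory Finset

/-- the unimodular Mellin factor -/
def EnF_e (x u : ℝ) : ℂ := (x : ℂ) ^ (-((((0 : ℕ) : ℂ)) + u * Complex.I))

theorem EnF_e_norm {x : ℝ} (hx : 0 < x) (u : ℝ) : ‖EnF_e x u‖ = 1 := by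
  rw [EnF_e, Complex.norm_cpow_eq_rpow_re_of_pos hx]
  simp

theorem EnF_e_mul {x y : ℝ} (hx : 0 ≤ x) (hy : 0 ≤ y) (u : ℝ) :
    EnF_e (x * y) u = EnF_e x u * EnF_e y u := by
  rw [EnF_e, Complex.ofReal_mul, Complex.mul_cpow_ofReal_nonneg hx hy]
  rfl

theorem EnF_e_cont {x : ℝ} (hx : 0 < x) : Continuous (EnF_e x) :=
  Continuous.const_cpow (by fun_prop) (Or.inl (Complex.ofReal_ne_zero.2 hx.ne'))

theorem EnF_sum_int {α : Type*} {Kr : ℝ → ℂ} (hK : Integrable Kr) (S : Finset α) (w : α → ℂ)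
    (x : α → ℝ) (hx : ∀ i ∈ S, w i ≠ 0 → 0 < x i) (V : ℝ → ℂ)
    (hV : ∀ y, 0 < y → V y = ∫ u, Kr u * EnF_e y u) :
    Integrable (fun u => Kr u * ∑ i ∈ S, w i * EnF_e (x i) u) ∧
      ∑ i ∈ S, w i * V (x i) = ∫ u, Kr u * ∑ i ∈ S, w i * EnF_e (x i) u := by
  have h1 : ∀ i ∈ S, Integrable (fun u => Kr u * (w i * EnF_e (x i) u)) ∧
      w i * V (x i) = ∫ u, Kr u * (w i * EnF_e (x i) u) := by
    intro i hi
    by_cases h : w i = 0
    · simp [h]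
    have hp := hx i hi h
    simp only [mul_left_comm (Kr _) (w i)]
    refine ⟨(hK.mul_bdd (c := 1) (EnF_e_cont hp).aestronglyMeasurable
      (Filter.Eventually.of_forall fun u => (EnF_e_norm hp u).le)).const_mul _, ?_⟩
    rw [integral_const_mul, hV _ hp]
  simp only [Finset.mul_sum]
  refine ⟨integrable_finsetSum _ fun i hi => (h1 i hi).1, ?_⟩
  rw [integral_finsetSum _ fun i hi => (h1 i hi).1]
  exact Finset.sum_congr rfl fun i hi => (h1 i hi).2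

theorem EnF_V_le {Kr : ℝ → ℂ} (σ : ℕ) {x : ℝ} (hx : 0 < x) :
    ‖∫ u : ℝ, Kr u * (x : ℂ) ^ (-((σ : ℂ) + u * Complex.I))‖ ≤ (∫ u, ‖Kr u‖) * x ^ (-(σ : ℝ)) := by
  refine (norm_integral_le_integral_norm _).trans_eq ?_
  rw [← integral_mul_const]
  refine integral_congr_ae (Filter.Eventually.of_forall fun u => ?_)
  simp only [norm_mul, Complex.norm_cpow_eq_rpow_re_of_pos hx]
  simp

theorem EnF_tail {τ : ℝ} (hτ : 1 < τ) : ∃ C : ℝ, 0 < C ∧ ∀ (f : O → ℂ) (D L : ℝ), 0 ≤ D → 0 < L →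
    (∀ ν, ‖f ν‖ ≤ D * nr ν ^ (-τ)) →
    ‖∑' ν, f ν - ∑ ν ∈ ball ⌊L⌋₊, f ν‖ ≤ D * (C * L ^ (1 - τ)) := by
  obtain ⟨C, hC, h⟩ := sum_nr_rpow_tail hτ
  refine ⟨C, hC, fun f D L hD hL hf => ?_⟩
  have hs : Summable fun ν => ‖f ν‖ :=
    Summable.of_nonneg_of_le (fun _ => norm_nonneg _) hf ((summable_nr_rpow hτ).mul_left D)
  rw [← hs.of_norm.sum_add_tsum_compl (s := ball ⌊L⌋₊), add_sub_cancel_left]
  refine (norm_tsum_le_tsum_norm (hs.subtype _)).trans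
    (Real.tsum_le_of_sum_le (fun _ => norm_nonneg _) fun T => ?_)
  refine (Finset.sum_le_sum fun i _ => hf i.1).trans ?_
  rw [← Finset.mul_sum]
  refine mul_le_mul_of_nonneg_left ?_ hD
  have h1 := h (max 1 L) (T.map (Function.Embedding.subtype _)) (le_max_left _ _) fun n hn => by
    obtain ⟨i, -, rfl⟩ := Finset.mem_map.1 hn
    have hi : ¬ nr i.1 ≤ L := fun h' => i.2 ((mem_ball_floor hL.le).2 h')
    refine max_le (one_le_nr fun h0 => hi ?_) (not_le.1 hi).le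
    rw [show i.1 = 0 from h0, nr, nm_eq_zero.2 rfl, Nat.cast_zero]
    exact hL.le
  rw [Finset.sum_map] at h1
  exact h1.trans (mul_le_mul_of_nonneg_left
    (Real.rpow_le_rpow_of_nonpos hL (le_max_right _ _) (by linarith)) hC.le)

theorem EnF_sp {k : O} {K : ℝ} (hK : 1 ≤ K) (hk : k ∈ sp 6 K) : 0 < nr k ∧ nr k ≤ K := by
  obtain ⟨h1, h2⟩ := (mem_sp (by linarith)).1 hk
  exact ⟨nr_pos h1.2.1.ne_zero, h2⟩

/-- size of one term of the dual sum -/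
theorem EnF_term {V : ℝ → ℂ} {I : ℝ} (hI : 0 ≤ I) {σ : ℝ} (hσ : 0 ≤ σ)
    (hV : ∀ x, 0 < x → ‖V x‖ ≤ I * x ^ (-σ)) {K Z A C₀ : ℝ} {h r : O} {b : O → ℂ} (hK : 1 ≤ K)
    (hZ : 1 ≤ Z) (hA : 0 < A) (hr : r ≠ 0) (hC : 0 < C₀) (hb : DualB C₀ h r b) {k z : O}
    (hk : k ∈ sp 6 K) (hz : z ∈ sp 6 Z) (ν : O) :
    ‖b ν * quad k ν * sym z ν ^ 4 * V (nr ν * A / (nr k ^ 2 * nr z))‖ ≤
      (C₀ * nr r * I * (K ^ 2 * Z / A) ^ σ) * nr ν ^ (-(σ - 1)) := by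
  obtain ⟨k0, k1⟩ := EnF_sp hK hk
  obtain ⟨z0, z1⟩ := EnF_sp hZ hz
  have hB : 0 < K ^ 2 * Z / A := by positivity
  have r0 := nr_pos hr
  by_cases hν : ν = 0
  · rw [hν, dualB_zero hb]
    simp only [zero_mul, norm_zero]
    positivity
  have n0 := nr_pos hν
  have hx : nr ν / (K ^ 2 * Z / A) ≤ nr ν * A / (nr k ^ 2 * nr z) := by
    rw [div_div_eq_mul_div]
    gcongr
  have h1 : ‖V (nr ν * A / (nr k ^ 2 * nr z))‖ ≤ I * (nr ν / (K ^ 2 * Z / A)) ^ (-σ) :=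
    (hV _ (by positivity)).trans (mul_le_mul_of_nonneg_left
      (Real.rpow_le_rpow_of_nonpos (by positivity) hx (by linarith)) hI)
  have h2 : ‖sym z ν ^ 4‖ ≤ 1 := by
    rw [norm_pow]
    exact pow_le_one₀ (norm_nonneg _) (norm_sym_le _ _)
  rw [norm_mul, norm_mul, norm_mul]
  calc ‖b ν‖ * ‖quad k ν‖ * ‖sym z ν ^ 4‖ * ‖V (nr ν * A / (nr k ^ 2 * nr z))‖
      ≤ (C₀ * nr r * nr ν) * 1 * 1 * (I * (nr ν / (K ^ 2 * Z / A)) ^ (-σ)) := by
        gcongr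
        · exact dualB_norm_le hC hr hb ν
        · exact norm_quad_le _ _
    _ = _ := by
        rw [Real.div_rpow n0.le hB.le, Real.rpow_neg hB.le, neg_sub, Real.rpow_sub n0,
          Real.rpow_one, Real.rpow_neg n0.le]
        field_simp

open Classical in
/-- the truncated sum after separation of variables -/
theorem EnF_sep {K Z A : ℝ} (hK : 1 ≤ K) (hZ : 1 ≤ Z) (hA : 0 < A) (b c : O → ℂ) (T : Finset O)
    {k : O} (hk : k ∈ sp 6 K) (u : ℝ) :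
    ‖∑ i ∈ sp 6 Z ×ˢ T, ((if IsCoprime i.1 k then c i.1 else 0) *
        (b i.2 * quad k i.2 * sym i.1 i.2 ^ 4)) * EnF_e (nr i.2 * A / (nr k ^ 2 * nr i.1)) u‖ =
      ‖∑ z ∈ sp 6 Z, (if IsCoprime z k then c z * EnF_e (nr z)⁻¹ u else 0) *
        ∑ ν ∈ T, (b ν * EnF_e (nr ν) u) * quad k ν * sym z ν ^ 4‖ := by
  obtain ⟨k0, -⟩ := EnF_sp hK hk
  have hp : 0 < A / nr k ^ 2 := by positivity
  rw [← one_mul ‖∑ z ∈ sp 6 Z, _‖, ← EnF_e_norm hp u, ← norm_mul, Finset.sum_product,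
    Finset.mul_sum]
  congr 1
  refine Finset.sum_congr rfl fun z hz => ?_
  obtain ⟨z0, -⟩ := EnF_sp hZ hz
  rw [Finset.mul_sum, Finset.mul_sum]
  refine Finset.sum_congr rfl fun ν _ => ?_
  have e : nr ν * A / (nr k ^ 2 * nr z) = nr ν * (A / nr k ^ 2 * (nr z)⁻¹) := by
    field_simp
  dsimp only
  rw [e, EnF_e_mul (Nat.cast_nonneg _) (by positivity), EnF_e_mul hp.le (by positivity)]
  split_ifs
  · ring
  · simp

open Classical in
/-- the bilinear estimate with the reflected kernel -/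
theorem mellin_core {Kr : ℂ → ℂ → ℂ} {V : ℝ → ℂ → ℂ} (hV : KernelOK Kr V) {ε : ℝ} (hε : 0 < ε) :
    ∃ (C : ℝ) (J : ℕ), 0 < C ∧
    ∀ (Q K Z A C₀ : ℝ) (h r : O) (b c : O → ℂ) (s : ℂ), 1 ≤ K → K ≤ Q → 1 ≤ Z → Z ≤ Q → 0 < A →
      K ^ 2 * Z / A ≤ Q → r ≠ 0 → nr r ≤ Q → 0 < C₀ → DualB C₀ h r b → (∀ z, ‖c z‖ ≤ 1) →
      |s.re| ≤ 3 →
      ∑ k ∈ sp 6 K, ‖∑ z ∈ sp 6 Z, (if IsCoprime z k then c z else 0) *
          ∑' ν : O, b ν * quad k ν * sym z ν ^ 4 * V (nr ν * A / (nr k ^ 2 * nr z)) s‖ ^ 2 ≤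
        C * C₀ ^ 2 * Q ^ ε * (1 + |s.im|) ^ J * Cb K Z (K ^ 2 * Z / A) (nr r) := by
  obtain ⟨δ, hδ, hδ1, hδε⟩ : ∃ δ : ℝ, 0 < δ ∧ δ ≤ 1 ∧ δ ≤ ε / 4 :=
    ⟨min 1 (ε / 4), lt_min one_pos (by positivity), min_le_left _ _, min_le_right _ _⟩
  obtain ⟨σ, hσ⟩ : ∃ σ : ℕ, 3 / δ + 2 ≤ σ := exists_nat_ge _
  have hδ3 : 3 ≤ 3 / δ := (le_div_iff₀ hδ).2 (by linarith)
  have hσδ : δ * (1 - ((σ : ℝ) - 1)) ≤ -3 := by
    have := (div_le_iff₀ hδ).1 (show 3 / δ ≤ σ - 2 by linarith)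
    linarith
  obtain ⟨C1, J1, h1⟩ := hV σ 3
  obtain ⟨C4, J4, h4⟩ := hV 0 3
  obtain ⟨C2, hC2, h2⟩ := EnF_tail (τ := (σ : ℝ) - 1) (by linarith)
  obtain ⟨C3, hC3, h3⟩ := core_cop (ε := ε / 4) (by positivity)
  refine ⟨2 * (C4 ^ 2 * C3) + 2 * (343 * (C1 * C2) ^ 2) + 1, 2 * J1 + 2 * J4, by positivity,
    fun Q K Z A C₀ h r b c s hK hKQ hZ hZQ hA hBQ hr hrQ hC hb hc hs => ?_⟩
  obtain ⟨-, i1, v1⟩ := h1 s hs
  obtain ⟨k4, i4, v4⟩ := h4 s hs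
  set T : ℝ := 1 + |s.im| with hT
  have hT1 : 1 ≤ T := le_add_of_nonneg_right (abs_nonneg _)
  set B : ℝ := K ^ 2 * Z / A with hBdef
  have hB : 0 < B := by positivity
  have hQ : 1 ≤ Q := hK.trans hKQ
  have hQ0 : 0 < Q := by linarith
  have r0 := nr_pos hr
  have hQδ : 1 ≤ Q ^ δ := Real.one_le_rpow hQ hδ.le
  have hQδ' : Q ^ δ ≤ Q := by
    simpa using Real.rpow_le_rpow_of_exponent_le hQ hδ1
  set L : ℝ := Q ^ δ * B with hLdef
  have hL : 0 < L := by positivity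
  have hI : 0 ≤ C1 * T ^ J1 := (integral_nonneg fun _ => norm_nonneg _).trans i1
  have hCb := le_Cb (ρ := nr r) (by linarith : 0 ≤ K) (by linarith : 0 ≤ Z) hB.le r0.le
  have hCb0 : 0 ≤ Cb K Z B (nr r) := le_trans (by positivity) hCb
  -- the terms
  set t : O → O → O → ℂ := fun k z ν =>
    b ν * quad k ν * sym z ν ^ 4 * V (nr ν * A / (nr k ^ 2 * nr z)) s with ht
  set a : O → O → ℂ := fun k z => if IsCoprime z k then c z else 0 with ha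
  have ha1 : ∀ k z, ‖a k z‖ ≤ 1 := fun k z => by
    simp only [ha]
    split_ifs
    · exact hc z
    · simp
  -- the tail
  have htail : ∀ k ∈ sp 6 K, ∀ z ∈ sp 6 Z,
      ‖a k z * (∑' ν, t k z ν - ∑ ν ∈ ball ⌊L⌋₊, t k z ν)‖ ≤
        C₀ * (C1 * T ^ J1) * C2 * (B ^ 2 / Q ^ 2) := by
    intro k hk z hz
    have h5 := h2 (t k z) (C₀ * nr r * (C1 * T ^ J1) * B ^ (σ : ℝ)) L (by positivity) hL fun ν =>
      EnF_term (V := fun x => V x s) hI (Nat.cast_nonneg σ) (fun x hx => by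
        rw [v1 x hx]
        exact (EnF_V_le σ hx).trans (mul_le_mul_of_nonneg_right i1 (by positivity)))
        hK hZ hA hr hC hb hk hz ν
    have h6 : nr r * (B ^ (σ : ℝ) * L ^ (1 - ((σ : ℝ) - 1))) ≤ B ^ 2 / Q ^ 2 := by
      rw [hLdef, Real.mul_rpow (by positivity) hB.le, mul_left_comm (B ^ (σ : ℝ)),
        ← Real.rpow_add hB, ← Real.rpow_mul hQ0.le,
        show (σ : ℝ) + (1 - ((σ : ℝ) - 1)) = ((2 : ℕ) : ℝ) by push_cast; ring, Real.rpow_natCast]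
      have h7 : Q ^ (δ * (1 - ((σ : ℝ) - 1))) ≤ (Q ^ 3)⁻¹ := by
        refine (Real.rpow_le_rpow_of_exponent_le hQ hσδ).trans_eq ?_
        rw [Real.rpow_neg hQ0.le, ← Real.rpow_natCast]
        norm_num
      calc nr r * (Q ^ (δ * (1 - ((σ : ℝ) - 1))) * B ^ 2) ≤ Q * ((Q ^ 3)⁻¹ * B ^ 2) := by gcongr
        _ = B ^ 2 / Q ^ 2 := by field_simp
    rw [norm_mul]
    calc _ ≤ 1 * (C₀ * nr r * (C1 * T ^ J1) * B ^ (σ : ℝ) * (C2 * L ^ (1 - ((σ : ℝ) - 1)))) := by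
          gcongr
          exact ha1 k z
      _ = C₀ * (C1 * T ^ J1) * C2 * (nr r * (B ^ (σ : ℝ) * L ^ (1 - ((σ : ℝ) - 1)))) := by ring
      _ ≤ _ := by gcongr
  have htail2 : ∑ k ∈ sp 6 K,
      ‖∑ z ∈ sp 6 Z, a k z * (∑' ν, t k z ν - ∑ ν ∈ ball ⌊L⌋₊, t k z ν)‖ ^ 2 ≤
      343 * (C1 * C2) ^ 2 * (C₀ ^ 2 * T ^ (2 * J1) * Cb K Z B (nr r)) := by
    have cK := card_sp 6 (by linarith : 0 ≤ K)
    have cZ := card_sp 6 (by linarith : 0 ≤ Z)
    have h5 : ∀ k ∈ sp 6 K,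
        ‖∑ z ∈ sp 6 Z, a k z * (∑' ν, t k z ν - ∑ ν ∈ ball ⌊L⌋₊, t k z ν)‖ ^ 2 ≤
        (7 * Z * (C₀ * (C1 * T ^ J1) * C2 * (B ^ 2 / Q ^ 2))) ^ 2 := by
      intro k hk
      refine pow_le_pow_left₀ (norm_nonneg _) ((norm_sum_le _ _).trans
        ((Finset.sum_le_card_nsmul _ _ _ (htail k hk)).trans ?_)) 2
      rw [nsmul_eq_mul]
      gcongr
    refine (Finset.sum_le_card_nsmul _ _ _ h5).trans ?_
    rw [nsmul_eq_mul]
    have h6 : Z * B ^ 3 / Q ^ 4 ≤ 1 := by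
      rw [div_le_one (by positivity)]
      calc Z * B ^ 3 ≤ Q * Q ^ 3 := by gcongr
        _ = Q ^ 4 := by ring
    calc _ ≤ 7 * K * (7 * Z * (C₀ * (C1 * T ^ J1) * C2 * (B ^ 2 / Q ^ 2))) ^ 2 := by gcongr
      _ = 343 * (C1 * C2) ^ 2 * (C₀ ^ 2 * T ^ (2 * J1) * (K * B * Z * (Z * B ^ 3 / Q ^ 4))) := by
          field_simp
          ring
      _ ≤ _ := by
          gcongr
          exact (mul_le_of_le_one_right (by positivity) h6).trans hCb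
  -- the main part
  have hmain : ∑ k ∈ sp 6 K, ‖∑ z ∈ sp 6 Z, a k z * ∑ ν ∈ ball ⌊L⌋₊, t k z ν‖ ^ 2 ≤
      C4 ^ 2 * C3 * (C₀ ^ 2 * Q ^ ε * T ^ (2 * J4) * Cb K Z B (nr r)) := by
    have h5 := fun k (hk : k ∈ sp 6 K) => EnF_sum_int k4 (sp 6 Z ×ˢ ball ⌊L⌋₊)
      (fun i => a k i.1 * (b i.2 * quad k i.2 * sym i.1 i.2 ^ 4))
      (fun i => nr i.2 * A / (nr k ^ 2 * nr i.1)) (fun i hi hw => by
        have k0 := (EnF_sp hK hk).1
        have z0 := (EnF_sp hZ (Finset.mem_product.1 hi).1).1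
        have n0 : 0 < nr i.2 := nr_pos fun h0 => hw (by rw [h0, dualB_zero hb]; simp)
        positivity) (fun x => V x s) v4
    have hQ2 : Q ≤ Q ^ 2 := by nlinarith
    have h6 := l2_integral (sp 6 K) k4 (fun k hk => (h5 k hk).1)
      (E := C3 * C₀ ^ 2 * (Q ^ 2) ^ (ε / 4) * Cb K Z L (nr r)) fun u => by
        rw [Finset.sum_congr rfl fun k hk => by
          rw [EnF_sep hK hZ hA b c (ball ⌊L⌋₊) hk u]]
        refine h3 (Q ^ 2) K Z L C₀ h r (fun ν => b ν * EnF_e (nr ν) u)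
          (fun z => if z = 0 then 0 else c z * EnF_e (nr z)⁻¹ u) hK (hKQ.trans hQ2) hZ
          (hZQ.trans hQ2) hL.le (by rw [hLdef, sq]; gcongr) hr (hrQ.trans hQ2) hC
          (dualB_of_le hb fun ν => ?_) (fun z => ?_) |>.trans_eq' ?_
        · by_cases h0 : ν = 0
          · rw [h0, dualB_zero hb]
            simp
          · rw [norm_mul, EnF_e_norm (nr_pos h0), mul_one]
        · split_ifs with h0
          · simp
          · rw [norm_mul, EnF_e_norm (inv_pos.2 (nr_pos h0)), mul_one]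
            exact hc z
        · refine Finset.sum_congr rfl fun k _ => ?_
          congr 2
          refine Finset.sum_congr rfl fun z hz => ?_
          rw [if_neg (c := z = 0) ((mem_sp (by linarith)).1 hz).1.2.1.ne_zero]
    have h7 : (Q ^ 2) ^ (ε / 4) * (Q ^ δ) ^ 2 ≤ Q ^ ε := by
      rw [← Real.rpow_natCast, ← Real.rpow_natCast, ← Real.rpow_mul hQ0.le,
        ← Real.rpow_mul hQ0.le, ← Real.rpow_add hQ0]
      exact Real.rpow_le_rpow_of_exponent_le hQ (by push_cast; linarith)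
    have h8 := Cb_mul (ρ := nr r) (by linarith : 0 ≤ K) (by linarith : 0 ≤ Z) hB.le r0.le hQδ
    have h9 : 0 ≤ ∫ u : ℝ, ‖Kr (((0 : ℕ) : ℂ) + u * Complex.I) s‖ :=
      integral_nonneg fun _ => norm_nonneg _
    calc _ = _ := Finset.sum_congr rfl fun k hk => by
          rw [← (h5 k hk).2, Finset.sum_product]
          congr 2
          refine Finset.sum_congr rfl fun z _ => ?_
          rw [Finset.mul_sum]
          exact Finset.sum_congr rfl fun ν _ => (mul_assoc _ _ _).symm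
      _ ≤ _ := h6
      _ ≤ (C4 * T ^ J4) ^ 2 *
          (C3 * C₀ ^ 2 * (Q ^ 2) ^ (ε / 4) * ((Q ^ δ) ^ 2 * Cb K Z B (nr r))) := by
          have := Cb_nonneg (ρ := nr r) (by linarith : 0 ≤ K) (by linarith : 0 ≤ Z) hL.le r0.le
          gcongr
      _ = C4 ^ 2 * C3 * (C₀ ^ 2 * ((Q ^ 2) ^ (ε / 4) * (Q ^ δ) ^ 2) * T ^ (2 * J4) *
          Cb K Z B (nr r)) := by ring
      _ ≤ _ := by gcongr
  have hadd := l2_add_le (sp 6 K) (fun k => ∑ z ∈ sp 6 Z, a k z * ∑ ν ∈ ball ⌊L⌋₊, t k z ν)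
    fun k => ∑ z ∈ sp 6 Z, a k z * (∑' ν, t k z ν - ∑ ν ∈ ball ⌊L⌋₊, t k z ν)
  simp only [← Finset.sum_add_distrib, ← mul_add, add_sub_cancel] at hadd
  have hQε : 1 ≤ Q ^ ε := Real.one_le_rpow hQ hε.le
  have e1 : C₀ ^ 2 * T ^ (2 * J1) * Cb K Z B (nr r) ≤
      C₀ ^ 2 * Q ^ ε * T ^ (2 * J1 + 2 * J4) * Cb K Z B (nr r) := by
    gcongr
    · exact le_mul_of_one_le_right (by positivity) hQε
    · omega
  have e2 : C₀ ^ 2 * Q ^ ε * T ^ (2 * J4) * Cb K Z B (nr r) ≤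
      C₀ ^ 2 * Q ^ ε * T ^ (2 * J1 + 2 * J4) * Cb K Z B (nr r) := by
    gcongr
    omega
  have e3 : 0 ≤ C₀ ^ 2 * Q ^ ε * T ^ (2 * J1 + 2 * J4) * Cb K Z B (nr r) := by positivity
  have e4 := mul_le_mul_of_nonneg_left e1 (by positivity : 0 ≤ 343 * (C1 * C2) ^ 2)
  have e5 := mul_le_mul_of_nonneg_left e2 (by positivity : 0 ≤ C4 ^ 2 * C3)
  refine hadd.trans ?_
  rw [Finset.sum_add_distrib]
  linarith

end Crest.Agent.R17.En
end
end

-- ▼ part PVc/R17/EnG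
section

/-!
# Row 17, module M8 (reflected energy), part G: one term of the reflection formula
-/

set_option autoImplicit false

noncomputable section

namespace Crest.Agent.R17.En

open scoped ComplexConjugate
open MeasureTheory Finset

namespace GAux

theorem sqrt_mul_sqrt_inv {w Z : ℝ} (hw : 0 < w) (hZ : 0 < Z) :
    Real.sqrt (w / Z) * Real.sqrt (Z / w) = 1 := by
  rw [← Real.sqrt_mul (by positivity), show w / Z * (Z / w) = 1 by field_simp, Real.sqrt_one]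

theorem real_factor {w Na Nk Nr D Z : ℝ} (hw : 0 < w) (hZ : 0 < Z) (ha : 0 < Na) (hk : 0 < Nk)
    (hr : 0 < Nr) :
    (w * Na / Na)⁻¹ * (D * (w * Na) / (Nk * Nr * Na)) * (Real.sqrt Na)⁻¹
      = D / (Nk * Nr) * Real.sqrt (w / Z) * (Real.sqrt (Z / w) / Real.sqrt Na) := by
  have h := sqrt_mul_sqrt_inv hw hZ
  have h1 : D / (Nk * Nr) * Real.sqrt (w / Z) * (Real.sqrt (Z / w) / Real.sqrt Na)
      = D / (Nk * Nr) * (Real.sqrt (w / Z) * Real.sqrt (Z / w)) * (Real.sqrt Na)⁻¹ := by ring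
  rw [h1, h]
  congr 1
  field_simp

theorem arg_eq {w Na Nk Nr D cI n : ℝ} (ha : 0 < Na) (hk : 0 < Nk) (hr : 0 < Nr) (hc : 0 < cI) :
    n * (D * (w * Na)) / (cI * (Nk * Nr * Na) ^ 2)
      = n * (D * w / (cI * Nr ^ 2)) / (Nk ^ 2 * Na) := by
  field_simp

open Classical in
/-- the contribution of a fixed inactive part `zi` -/
theorem fixed_zi {V : ℝ → ℂ → ℂ} {cI : ℝ} (hc : 0 < cI) {K₁ D Z E : ℝ} {r zi : O}
    {b ρ ρ' c : O → ℂ} {Zs S : Finset O} {s : ℂ} (hK₁ : 1 ≤ K₁) (hZ : 1 ≤ Z) (hD : 0 < D)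
    (hr : r ≠ 0) (hzi : zi ≠ 0) (hρ : ∀ x, ‖ρ x‖ ≤ 1) (hρ' : ∀ x, ‖ρ' x‖ ≤ 1)
    (hcc : ∀ z, ‖c z‖ ≤ 1) (hZs : ∀ z ∈ Zs, Z ≤ nr z)
    (hS : ∀ k ∈ S, SP 6 k ∧ K₁ ≤ nr k ∧ nr k ≤ 2 * K₁)
    (hE : ∀ c' : O → ℂ, (∀ z, ‖c' z‖ ≤ 1) →
      ∑ k ∈ sp 6 (2 * K₁), ‖∑ z ∈ sp 6 (2 * Z / nr zi), (if IsCoprime z k then c' z else 0) *
        ∑' ν : O, b ν * quad k ν * sym z ν ^ 4 *
          V (nr ν * (D * nr zi / (cI * nr r ^ 2)) / (nr k ^ 2 * nr z)) s‖ ^ 2 ≤ E) :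
    ∑ k ∈ S, ‖∑ za ∈ sp 6 (2 * Z / nr zi), if zi * za ∈ Zs then
        (if IsCoprime (zi * za) k then c (zi * za) else 0) * (ρ k * ρ' za *
          ((nr (zi * za) / nr za)⁻¹ * (D * nr (zi * za) / (nr k * nr r * nr za)) *
            (Real.sqrt (nr za))⁻¹ : ℝ) *
          ∑' ν : O, b ν * quad k ν * sym za ν ^ 4 *
            V (nr ν * (D * nr (zi * za)) / (cI * (nr k * nr r * nr za) ^ 2)) s) else 0‖ ^ 2 ≤
      (D / (K₁ * nr r)) ^ 2 * (nr zi / Z) * E := by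
  have hw := nr_pos hzi
  have hNr := nr_pos hr
  have hZ0 : 0 < Z := by linarith
  let c' : O → ℂ := fun za => if zi * za ∈ Zs then
    c (zi * za) * ρ' za * (Real.sqrt (Z / nr zi) / Real.sqrt (nr za) : ℝ) else 0
  have hc' : ∀ z, ‖c' z‖ ≤ 1 := by
    intro z
    simp only [c']
    split_ifs with h
    · have h1 : Z / nr zi ≤ nr z := by
        rw [div_le_iff₀ hw, mul_comm, ← nr_mul]
        exact hZs _ h
      have h2 : Real.sqrt (Z / nr zi) / Real.sqrt (nr z) ≤ 1 :=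
        div_le_one_of_le₀ (Real.sqrt_le_sqrt h1) (Real.sqrt_nonneg _)
      rw [norm_mul, norm_mul, Complex.norm_real, Real.norm_of_nonneg (by positivity)]
      exact mul_le_one₀ (mul_le_one₀ (hcc _) (norm_nonneg _) (hρ' _)) (by positivity) h2
    · simp
  have hsub : S ⊆ sp 6 (2 * K₁) := fun k hk =>
    (mem_sp (by linarith)).2 ⟨(hS k hk).1, (hS k hk).2.2⟩
  refine le_trans ?_ (mul_le_mul_of_nonneg_left (hE c' hc') (by positivity))
  refine le_trans ?_ (mul_le_mul_of_nonneg_left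
    (sum_le_sum_of_subset_of_nonneg hsub fun _ _ _ => by positivity) (by positivity))
  rw [mul_sum]
  refine sum_le_sum fun k hk => ?_
  have hNk : 0 < nr k := by linarith [(hS k hk).2.1]
  have e : ∑ za ∈ sp 6 (2 * Z / nr zi), (if zi * za ∈ Zs then
        (if IsCoprime (zi * za) k then c (zi * za) else 0) * (ρ k * ρ' za *
          ((nr (zi * za) / nr za)⁻¹ * (D * nr (zi * za) / (nr k * nr r * nr za)) *
            (Real.sqrt (nr za))⁻¹ : ℝ) *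
          ∑' ν : O, b ν * quad k ν * sym za ν ^ 4 *
            V (nr ν * (D * nr (zi * za)) / (cI * (nr k * nr r * nr za) ^ 2)) s) else 0)
      = ((if IsCoprime zi k then ρ k else 0) * (D / (nr k * nr r) * Real.sqrt (nr zi / Z) : ℝ)) *
        ∑ z ∈ sp 6 (2 * Z / nr zi), (if IsCoprime z k then c' z else 0) *
          ∑' ν : O, b ν * quad k ν * sym z ν ^ 4 *
            V (nr ν * (D * nr zi / (cI * nr r ^ 2)) / (nr k ^ 2 * nr z)) s := by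
    rw [mul_sum]
    refine sum_congr rfl fun za hza => ?_
    have hNa : 0 < nr za := nr_pos ((mem_sp (by positivity)).1 hza).1.1.ne_zero
    simp only [c', nr_mul, real_factor hw hZ0 hNa hNk hNr, arg_eq hNa hNk hNr hc,
      IsCoprime.mul_left_iff]
    by_cases h1 : zi * za ∈ Zs <;> by_cases h2 : IsCoprime zi k <;>
      by_cases h3 : IsCoprime za k <;> simp only [h1, h2, h3, if_true, if_false, and_self,
        and_true, and_false, zero_mul, mul_zero]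
    push_cast
    ring
  rw [e, norm_mul, mul_pow]
  refine mul_le_mul_of_nonneg_right ?_ (by positivity)
  have h1 : ‖if IsCoprime zi k then ρ k else 0‖ ≤ 1 := by
    split_ifs
    · exact hρ k
    · simp
  have h2 : D / (nr k * nr r) ≤ D / (K₁ * nr r) := by
    gcongr
    exact (hS k hk).2.1
  rw [norm_mul, Complex.norm_real, Real.norm_of_nonneg (by positivity)]
  calc (‖if IsCoprime zi k then ρ k else 0‖ * (D / (nr k * nr r) * Real.sqrt (nr zi / Z))) ^ 2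
      ≤ (1 * (D / (K₁ * nr r) * Real.sqrt (nr zi / Z))) ^ 2 := by gcongr
    _ = (D / (K₁ * nr r)) ^ 2 * (nr zi / Z) := by
      rw [one_mul, mul_pow, Real.sq_sqrt (by positivity)]

end GAux

open Classical in
/-- one term `(i, r)` of the reflection formula, summed over the marks -/
theorem piece {Kr : ℂ → ℂ → ℂ} {V : ℝ → ℂ → ℂ} (hV : KernelOK Kr V) {cI : ℝ} (hc : 0 < cI)
    {ε : ℝ} (hε : 0 < ε) : ∃ (C : ℝ) (J : ℕ), 0 < C ∧
    ∀ (Q K D Z C₀ : ℝ) (h r : O) (b ρ ρ' c : O → ℂ) (Zs S : Finset O) (s : ℂ),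
      1 ≤ K → K ≤ Q → 1 ≤ Z → Z ≤ Q → 0 < D → D⁻¹ ≤ Q → r ≠ 0 → nr r ≤ Q → 0 < C₀ →
      DualB C₀ h r b → (∀ x, ‖ρ x‖ ≤ 1) → (∀ x, ‖ρ' x‖ ≤ 1) → (∀ z, ‖c z‖ ≤ 1) →
      (∀ z ∈ Zs, SP 6 z ∧ Z ≤ nr z ∧ nr z ≤ 2 * Z) → (∀ k ∈ S, SP 6 k ∧ nr k ≤ K) → |s.re| ≤ 3 →
      ∑ k ∈ S, ‖∑ z ∈ Zs, (if IsCoprime z k then c z else 0) * ∑ za ∈ pdiv z,
          ρ k * ρ' za *
            ((nr z / nr za)⁻¹ * (D * nr z / (nr k * nr r * nr za)) * (Real.sqrt (nr za))⁻¹ : ℝ) *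
            ∑' ν : O, b ν * quad k ν * sym za ν ^ 4 *
              V (nr ν * (D * nr z) / (cI * (nr k * nr r * nr za) ^ 2)) s‖ ^ 2 ≤
        C * C₀ ^ 2 * Q ^ ε * (1 + |s.im|) ^ J * (D * Z) * Fb K D Z (nr r) := by
  obtain ⟨C1, J, hC1, h1⟩ := mellin_core hV (ε := ε / 8) (by positivity)
  obtain ⟨C2, hC2, h2⟩ := Cb_le_Fb hc
  obtain ⟨C3, hC3, h3⟩ := sum_inv_le (ε := ε / 16) (by positivity)
  obtain ⟨C4, hC4, h4⟩ := dyadic (ε := ε / 8) (by positivity)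
  refine ⟨C4 * (C3 * 2 ^ (ε / 16)) ^ 2 * (C1 * (2 + 8 * cI) ^ (ε / 8) * C2), J, by positivity,
    fun Q K D Z C₀ h r b ρ ρ' c Zs S s hK hKQ hZ hZQ hD hDQ hr hrQ hC₀ hb hρ hρ' hcc hZs hS hs
      => ?_⟩
  have hQ : 1 ≤ Q := hK.trans hKQ
  have hQ0 : 0 < Q := by linarith
  have hNr := one_le_nr hr
  have hQ6 : Q ≤ Q ^ 6 := le_self_pow₀ hQ (by norm_num)
  have hQ' : 2 * Q ≤ (2 + 8 * cI) * Q ^ 6 := by
    have : 0 ≤ 8 * cI * Q ^ 6 := by positivity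
    linarith
  have hF := Fb_nonneg (ρ := nr r) (by linarith : 0 ≤ K) hD (by linarith : 0 ≤ Z)
  set E0 : ℝ := C1 * C₀ ^ 2 * ((2 + 8 * cI) * Q ^ 6) ^ (ε / 8) * (1 + |s.im|) ^ J with hE0
  have hE0n : 0 ≤ E0 := by positivity
  refine (h4 Q K ((C3 * (2 * Q) ^ (ε / 16)) ^ 2 * (E0 * (C2 * (D * Z) * Fb K D Z (nr r)))) S _
    hK hKQ (fun k hk => ⟨(hS k hk).1.1.ne_zero, (hS k hk).2⟩) (fun k => by positivity)
    fun K₁ hK₁ hK₁K => ?_).trans (le_of_eq ?_)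
  · have hsub : Zs ⊆ sp 6 (2 * Z) := fun z hz =>
      (mem_sp (by linarith)).2 ⟨(hZs z hz).1, (hZs z hz).2.2⟩
    simp only [mul_sum]
    simp only [sum_pdiv_sp (by linarith : 0 ≤ 2 * Z) hsub]
    have hsp : ∀ zi ∈ sp 6 (2 * Z), zi ≠ 0 ∧ nr zi ≤ 2 * Z := fun zi hzi =>
      ⟨((mem_sp (by linarith)).1 hzi).1.1.ne_zero, ((mem_sp (by linarith)).1 hzi).2⟩
    refine (l2_sum_le_weight _ _ _ (w := nr) (fun zi hzi => nr_pos (hsp zi hzi).1)
      (E := E0 * (C2 * (D * Z) * Fb K D Z (nr r))) fun zi hzi => ?_).trans ?_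
    · obtain ⟨hzi0, hziZ⟩ := hsp zi hzi
      have hw := one_le_nr hzi0
      have hA : 0 < D * nr zi / (cI * nr r ^ 2) := by positivity
      have hZw : 2 * Z / nr zi ≤ 2 * Z := div_le_self (by linarith) hw
      have hL : (2 * K₁) ^ 2 * (2 * Z / nr zi) / (D * nr zi / (cI * nr r ^ 2))
          ≤ (2 + 8 * cI) * Q ^ 6 := by
        have e1 : (2 * K₁) ^ 2 * (2 * Z / nr zi) / (D * nr zi / (cI * nr r ^ 2))
            = 4 * cI * K₁ ^ 2 * (2 * Z / nr zi) * nr r ^ 2 * D⁻¹ * (nr zi)⁻¹ := by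
          field_simp
          ring
        have e2 : (nr zi)⁻¹ ≤ 1 := inv_le_one_of_one_le₀ hw
        have e3 : K₁ ≤ Q := hK₁K.trans hKQ
        have e4 : 2 * Z / nr zi ≤ 2 * Q := by linarith
        rw [e1]
        calc 4 * cI * K₁ ^ 2 * (2 * Z / nr zi) * nr r ^ 2 * D⁻¹ * (nr zi)⁻¹
            ≤ 4 * cI * Q ^ 2 * (2 * Q) * Q ^ 2 * Q * 1 := by gcongr
          _ = 8 * cI * Q ^ 6 := by ring
          _ ≤ (2 + 8 * cI) * Q ^ 6 := by gcongr; linarith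
      have h5 := GAux.fixed_zi (V := V) hc (b := b) (s := s) (Zs := Zs)
        (S := S.filter fun k => K₁ ≤ nr k ∧ nr k ≤ 2 * K₁) hK₁ hZ hD hr hzi0 hρ hρ' hcc
        (fun z hz => (hZs z hz).2.1)
        (fun k hk => ⟨(hS k (mem_filter.1 hk).1).1, (mem_filter.1 hk).2⟩)
        (fun c' hc' => h1 ((2 + 8 * cI) * Q ^ 6) (2 * K₁) (2 * Z / nr zi) _ C₀ h r b c' s
          (by linarith) (by linarith) ((one_le_div (by linarith)).2 hziZ) (by linarith) hA hL hr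
          (by linarith) hC₀ hb hc' hs)
      refine (mul_le_mul_of_nonneg_left h5 (by positivity)).trans ?_
      have h6 := h2 K₁ D Z (nr r) (nr zi) (by linarith) hD (by linarith) hNr hw
      have h7 := Fb_mono (by linarith : 0 ≤ K₁) hK₁K hD (by linarith : 0 ≤ Z)
        (by linarith : 0 ≤ nr r) le_rfl
      have h8 : C2 * (D * Z) * Fb K₁ D Z (nr r) ≤ C2 * (D * Z) * Fb K D Z (nr r) :=
        mul_le_mul_of_nonneg_left h7 (by positivity)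
      refine le_trans (le_of_eq ?_) (mul_le_mul_of_nonneg_left (h6.trans h8) hE0n)
      rw [hE0]
      ring
    · refine mul_le_mul_of_nonneg_right ?_ (by positivity)
      refine pow_le_pow_left₀ (sum_nonneg fun _ _ => by positivity) ?_ 2
      exact h3 (2 * Q) _ (by linarith) fun n hn => ⟨(hsp n hn).1, by linarith [(hsp n hn).2]⟩
  · have e1 : (2 * Q) ^ (ε / 16) = 2 ^ (ε / 16) * Q ^ (ε / 16) :=
      Real.mul_rpow (by norm_num) hQ0.le
    have e2 : ((2 + 8 * cI) * Q ^ 6) ^ (ε / 8) = (2 + 8 * cI) ^ (ε / 8) * (Q ^ (ε / 16)) ^ 12 := by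
      rw [Real.mul_rpow (by positivity) (by positivity), ← Real.rpow_natCast, ← Real.rpow_natCast,
        ← Real.rpow_mul hQ0.le, ← Real.rpow_mul hQ0.le]
      congr 2
      push_cast
      ring
    have e3 : Q ^ (ε / 8) = (Q ^ (ε / 16)) ^ 2 := by
      rw [← Real.rpow_natCast, ← Real.rpow_mul hQ0.le]
      congr 1
      push_cast
      ring
    have e4 : Q ^ ε = (Q ^ (ε / 16)) ^ 16 := by
      rw [← Real.rpow_natCast, ← Real.rpow_mul hQ0.le]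
      congr 1
      push_cast
      ring
    rw [hE0, e1, e2, e3, e4]
    ring

end Crest.Agent.R17.En
end
end

-- ▼ part PVc/R17/EnH
section

/-!
# Row 17, module M8 (reflected energy), part H: the rows with a fixed frozen part
-/

set_option autoImplicit false

noncomputable section

namespace Crest.Agent.R17.En

open scoped ComplexConjugate
open MeasureTheory Finset

open Classical in
theorem EnH_vanish (φ : O → ℂ) {z a : O} (hz : ¬ IsCoprime z a) (W : O → ℂ) :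
    (∑' n : O, if z ∣ n then th n * φ n * sym n a * W n else 0) = 0 := by
  refine (tsum_congr fun n => ?_).trans tsum_zero
  split_ifs with hzn
  · by_cases hn : Primary n
    · rw [(sym_eq_zero_iff hn).2 fun h => hz (h.of_isCoprime_of_dvd_left hzn)]
      simp
    · have : th n = 0 := by rw [th, if_neg fun h => hn h.1]
      simp [this]
  · rfl

/-- the energy of the rows `k h` with `k` squarefree and prime to `M h` -/
theorem fixed {M : O} (hM : Adm M) {ε : ℝ} (hε : 0 < ε) : ∃ (C : ℝ) (J : ℕ), 0 < C ∧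
    ∀ (Q K D Z : ℝ) (φ : O → ℂ) (h : O) (Zs : Finset O) (c : O → ℂ) (s : ℂ),
      1 ≤ K → K ≤ Q → 1 ≤ Z → Z ≤ Q → 0 < D → D⁻¹ ≤ Q → nr h ≤ Q →
      PerB M φ → Primary h → IsCoprime h M →
      (∀ z ∈ Zs, SP M z ∧ Z ≤ nr z ∧ nr z ≤ 2 * Z) → (∀ z, ‖c z‖ ≤ 1) → |s.re| ≤ 3 →
      ∑ k ∈ sp (M * h) K, ‖Tc φ Zs c D s (k * h)‖ ^ 2 ≤
        C * Q ^ ε * (1 + |s.im|) ^ J * (D * Z) * Fb K D Z (nr (rad h)) := by
  classical
  obtain ⟨I, _, C, cI, Kr, V, hcI, hV, hR⟩ := reflection hM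
  have hε3 : 0 < ε / 3 := by positivity
  choose Cp Jp hCp hp using fun i => piece hV (hcI i) hε3
  obtain ⟨Cd, hCd, hd⟩ := card_pdiv_le' hε3
  have hC0 : 0 < max C 1 := lt_of_lt_of_le one_pos (le_max_right _ _)
  have hS : 0 < ∑ i, Cp i + 1 := by
    have : 0 ≤ ∑ i, Cp i := sum_nonneg fun i _ => (hCp i).le
    linarith
  refine ⟨((Fintype.card I : ℝ) + 1) ^ 2 * Cd ^ 2 * ((∑ i, Cp i + 1) * max C 1 ^ 2),
    univ.sup Jp, by positivity, ?_⟩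
  intro Q K D Z φ h Zs c s hK hKQ hZ hZQ hD hDQ hhQ hφ hh hhM hZs hc hs
  obtain ⟨ρ, ρ', b, hρ, hρ', hb, hrefl⟩ := hR φ hφ h hh hhM
  have hQ : 0 < Q := by linarith
  have hr0 : rad h ≠ 0 := (primary_rad h).ne_zero
  have hrQ : nr (rad h) ≤ Q :=
    le_trans (Nat.cast_le.2 (nm_le_of_dvd (rad_dvd h) hh.ne_zero)) hhQ
  have hF := Fb_nonneg (K := K) (D := D) (Z := Z) (ρ := nr (rad h)) (by linarith) hD (by linarith)
  set Zs' := Zs.filter fun z => IsCoprime z h with hZs'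
  set f : I → O → O → ℂ := fun i r k =>
    ∑ z ∈ Zs', (if IsCoprime z k then c z else 0) * ∑ za ∈ pdiv z,
      ρ i r k * ρ' i r za *
        ((nr z / nr za)⁻¹ * (D * nr z / (nr k * nr r * nr za)) * (Real.sqrt (nr za))⁻¹ : ℝ) *
        ∑' ν : O, b i r ν * quad k ν * sym za ν ^ 4 *
          V (nr ν * (D * nr z) / (cI i * (nr k * nr r * nr za) ^ 2)) s with hf
  have hT : ∀ k ∈ sp (M * h) K, Tc φ Zs c D s (k * h) = ∑ i, ∑ r ∈ pdiv (rad h), f i r k := by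
    intro k hk
    have hk' := ((mem_sp (by linarith)).1 hk).1
    have e1 : Tc φ Zs c D s (k * h) = ∑ z ∈ Zs', (if IsCoprime z k then c z else 0) *
        ∑ i, ∑ r ∈ pdiv (rad h), ∑ za ∈ pdiv z,
          ρ i r k * ρ' i r za *
            ((nr z / nr za)⁻¹ * (D * nr z / (nr k * nr r * nr za)) * (Real.sqrt (nr za))⁻¹ : ℝ) *
            ∑' ν : O, b i r ν * quad k ν * sym za ν ^ 4 *
              V (nr ν * (D * nr z) / (cI i * (nr k * nr r * nr za) ^ 2)) s := by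
      rw [Tc, hZs', sum_filter]
      refine sum_congr rfl fun z hz => ?_
      by_cases h1 : IsCoprime z h
      · rw [if_pos h1]
        by_cases h2 : IsCoprime z k
        · rw [if_pos h2]
          obtain ⟨⟨a1, a2, a3⟩, a4, -⟩ := hZs z hz
          rw [hrefl k z hk' ⟨a1, a2, (a3.mul_right h1).mul_right h2⟩ (D * nr z)
            (mul_pos hD (by linarith)) s]
        · rw [if_neg h2, zero_mul, EnH_vanish φ (fun h3 => h2 h3.of_mul_right_left), mul_zero]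
      · rw [if_neg h1, EnH_vanish φ (fun h3 => h1 h3.of_mul_right_right), mul_zero]
    rw [e1]
    simp only [hf, mul_sum (s := univ), mul_sum (s := pdiv (rad h))]
    rw [sum_comm]
    exact sum_congr rfl fun i _ => sum_comm
  set E : ℝ := (∑ i, Cp i + 1) * max C 1 ^ 2 * Q ^ (ε / 3) * (1 + |s.im|) ^ univ.sup Jp *
    (D * Z) * Fb K D Z (nr (rad h)) with hE
  have hs0 : 0 ≤ 1 + |s.im| := add_nonneg zero_le_one (abs_nonneg _)
  have hQe : 0 ≤ Q ^ (ε / 3) := Real.rpow_nonneg hQ.le _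
  have b5 : 0 ≤ D * Z := mul_nonneg hD.le (by linarith)
  have b6 : 0 ≤ (∑ i, Cp i + 1) * max C 1 ^ 2 * Q ^ (ε / 3) :=
    mul_nonneg (mul_nonneg hS.le (sq_nonneg _)) hQe
  have b7 := mul_nonneg (mul_nonneg b6 (pow_nonneg hs0 (univ.sup Jp))) b5
  have hE0 : 0 ≤ E := mul_nonneg b7 hF
  have hpiece : ∀ i, ∀ r ∈ pdiv (rad h), ∑ k ∈ sp (M * h) K, ‖f i r k‖ ^ 2 ≤ E := by
    intro i r hr
    obtain ⟨r1, r2⟩ := (mem_pdiv hr0).1 hr
    have r3 : nr r ≤ nr (rad h) := Nat.cast_le.2 (nm_le_of_dvd r2 hr0)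
    refine (hp i Q K D Z (max C 1) h r (b i r) (ρ i r) (ρ' i r) c Zs' (sp (M * h) K) s hK hKQ hZ
      hZQ hD hDQ r1.ne_zero (r3.trans hrQ) hC0 (dualB_mono (hb i r) (le_max_left _ _)) (hρ i r)
      (hρ' i r) hc (fun z hz => ?_) (fun k hk => ?_) hs).trans ?_
    · obtain ⟨a1, a2⟩ := hZs z (mem_filter.1 hz).1
      exact ⟨SP.six (h := 1) hM (by rwa [mul_one]), a2⟩
    · obtain ⟨a1, a2⟩ := (mem_sp (by linarith)).1 hk
      exact ⟨SP.six hM a1, a2⟩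
    · have b1 : Cp i ≤ ∑ i, Cp i + 1 :=
        (single_le_sum (fun j _ => (hCp j).le) (mem_univ i)).trans (by linarith)
      have b2 : (1 + |s.im|) ^ Jp i ≤ (1 + |s.im|) ^ univ.sup Jp :=
        pow_le_pow_right₀ (by linarith [abs_nonneg s.im]) (le_sup (mem_univ i))
      have b3 : Fb K D Z (nr r) ≤ Fb K D Z (nr (rad h)) :=
        Fb_mono (by linarith) le_rfl hD (by linarith) (Nat.cast_nonneg _) r3
      have b4 := Fb_nonneg (K := K) (D := D) (Z := Z) (ρ := nr r) (by linarith) hD (by linarith)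
      exact mul_le_mul (mul_le_mul_of_nonneg_right (mul_le_mul (mul_le_mul_of_nonneg_right
        (mul_le_mul_of_nonneg_right b1 (sq_nonneg _)) hQe) b2 (pow_nonneg hs0 _) b6) b5) b3 b4 b7
  have h1 := l2_sum_le (sp (M * h) K) univ (fun i k => ∑ r ∈ pdiv (rad h), f i r k)
    (E := ((pdiv (rad h)).card : ℝ) ^ 2 * E)
    fun i _ => l2_sum_le (sp (M * h) K) (pdiv (rad h)) (f i) (hpiece i)
  rw [sum_congr rfl fun k hk => by rw [hT k hk]]
  refine h1.trans ?_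
  have h2 := hd Q (rad h) hr0 hrQ
  have h3 : ((univ : Finset I).card : ℝ) ≤ Fintype.card I + 1 := by
    rw [card_univ]; linarith
  have h4 : Q ^ ε = (Q ^ (ε / 3)) ^ 3 := by
    rw [← Real.rpow_natCast, ← Real.rpow_mul hQ.le]; congr 1; push_cast; ring
  calc ((univ : Finset I).card : ℝ) ^ 2 * (((pdiv (rad h)).card : ℝ) ^ 2 * E)
      ≤ ((Fintype.card I : ℝ) + 1) ^ 2 * ((Cd * Q ^ (ε / 3)) ^ 2 * E) :=
        mul_le_mul (pow_le_pow_left₀ (Nat.cast_nonneg _) h3 2)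
          (mul_le_mul_of_nonneg_right (pow_le_pow_left₀ (Nat.cast_nonneg _) h2 2) hE0)
          (mul_nonneg (sq_nonneg _) hE0) (sq_nonneg _)
    _ = _ := by rw [hE, h4]; ring

end Crest.Agent.R17.En
end
end

-- ▼ part PVc/R17/Energy

/-!
# Row 17, module M8: the reflected energy estimate
-/

set_option autoImplicit false

noncomputable section

namespace Crest.Agent.R17

open scoped ComplexConjugate

namespace EnergyAux

open Finset

theorem pf_prod_subset {s : Finset O} (hs : ∀ q ∈ s, Prime q ∧ Primary q) (e : O → ℕ) :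
    pf (∏ q ∈ s, q ^ e q) ⊆ s := by
  intro p hp
  have h1 := BasicB.vp_ne_zero hp
  have h2 := BasicB.pf_sub hp
  rw [vp_prod_pow hs _ h2.1 h2.2] at h1
  by_contra h
  exact h1 (if_neg h)

theorem decomp {M h₀ k : O} (hM : M ≠ 0) (h0 : h₀ ≠ 0) (hk : k ≠ 0) :
    ∃ s h₃ q k₁ : O, k = s * h₃ * q * k₁ ∧ pf s ⊆ pf M ∧ Primary h₃ ∧ IsCoprime h₃ M ∧
      pf h₃ ⊆ pf h₀ ∧ Powerful q ∧ IsCoprime q M ∧ SP (M * (h₃ * q * h₀)) k₁ := by
  classical
  obtain ⟨u, j, hu, e⟩ := exists_eq_unit_lam_primary hk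
  set A := (pf k).filter (· ∈ pf M) with hA
  set B := ((pf k).filter (· ∉ pf M)).filter (· ∈ pf h₀) with hB
  set C := ((pf k).filter (· ∉ pf M)).filter (· ∉ pf h₀) with hC
  have hA' : ∀ q ∈ A, Prime q ∧ Primary q := fun q hq => BasicB.pf_sub (mem_filter.1 hq).1
  have hB' : ∀ q ∈ B, Prime q ∧ Primary q := fun q hq =>
    BasicB.pf_sub (mem_filter.1 (mem_filter.1 hq).1).1
  have hC' : ∀ q ∈ C, Prime q ∧ Primary q := fun q hq =>
    BasicB.pf_sub (mem_filter.1 (mem_filter.1 hq).1).1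
  have pA := BasicB.primary_prod_pow hA' fun p => vp p k
  have pB := BasicB.primary_prod_pow hB' fun p => vp p k
  have pC := BasicB.primary_prod_pow hC' fun p => vp p k
  have sA := pf_prod_subset hA' fun p => vp p k
  have sB := pf_prod_subset hB' fun p => vp p k
  have sC := pf_prod_subset hC' fun p => vp p k
  obtain ⟨k₁, q, h1, h2, h3, h4, h5⟩ := exists_sqfree_powerful pC
  have c1 : IsCoprime (k₁ * q) M := h5 ▸ isCoprime_of_disjoint_pf pC hM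
    (disjoint_left.2 fun p hp => (mem_filter.1 (mem_filter.1 (sC hp)).1).2)
  have c2 : IsCoprime (k₁ * q) h₀ := h5 ▸ isCoprime_of_disjoint_pf pC h0
    (disjoint_left.2 fun p hp => (mem_filter.1 (sC hp)).2)
  have c3 : IsCoprime (k₁ * q) (∏ p ∈ B, p ^ vp p k) := h5 ▸ isCoprime_of_disjoint_pf pC pB.ne_zero
    (disjoint_left.2 fun p hp hp' => (mem_filter.1 (sC hp)).2 (mem_filter.1 (sB hp')).2)
  refine ⟨u * lam ^ j * ∏ p ∈ A, p ^ vp p k, ∏ p ∈ B, p ^ vp p k, q, k₁, ?_, ?_, pB,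
    isCoprime_of_disjoint_pf pB hM
      (disjoint_left.2 fun p hp => (mem_filter.1 (mem_filter.1 (sB hp)).1).2),
    fun p hp => (mem_filter.1 (sB hp)).2, h3, c1.of_mul_left_right, h1, h2,
    c1.of_mul_left_left.mul_right
      ((c3.of_mul_left_left.mul_right h4).mul_right c2.of_mul_left_left)⟩
  · conv_lhs => rw [e, ← prod_filter_mul_prod_filter_not (pf k) (· ∈ pf M),
      ← prod_filter_mul_prod_filter_not ((pf k).filter (· ∉ pf M)) (· ∈ pf h₀), ← hA, ← hB, ← hC,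
      h5]
    ring
  · rw [mul_assoc, pf_unit_mul hu, pf_mul (pow_ne_zero _ prime_lam.ne_zero) pA.ne_zero,
      BasicB.pf_lam_pow, empty_union]
    exact fun p hp => (mem_filter.1 (sA hp)).2

theorem twist {M s : O} (hM : Adm M) (hs : s ≠ 0) (h : pf s ⊆ pf M) {φ : O → ℂ} (hφ : PerB M φ) :
    ∃ φ' : O → ℂ, PerB M φ' ∧ ∀ (Zs : Finset O) (c : O → ℂ) (D : ℝ) (s' : ℂ) (r : O),
      Tc φ Zs c D s' (s * r) = Tc φ' Zs c D s' r := by
  obtain ⟨ν, hν⟩ := exists_chr_sym hM hs fun p hp => (BasicB.of_mem_pf (h hp)).2.2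
  refine ⟨fun n => φ n * ev ν n, ⟨fun n => ?_, fun n n' hn => ?_, fun n hn => ?_⟩,
    fun Zs c D s' r => ?_⟩
  · rw [norm_mul]
    exact mul_le_one₀ (hφ.1 n) (norm_nonneg _) (norm_ev_le hM.1 ν n)
  · simp only [hφ.2.1 n n' hn, ev_congr ν hn]
  · simp only [hφ.2.2 n hn, zero_mul]
  · refine sum_congr rfl fun z _ => congrArg _ (tsum_congr fun n => ?_)
    split_ifs with hz
    · by_cases h1 : Primary n
      · by_cases h2 : IsCoprime n M
        · simp only [sym_mul_right (PO.of_adm hM h1 h2), hν n h1 h2]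
          ring
        · simp only [hφ.2.2 n h2, mul_zero, zero_mul]
      · have : th n = 0 := if_neg fun h' => h1 h'.1
        simp only [this, zero_mul]
    · rfl

theorem rad_sq_le {h₃ q h₀ : O} (h3 : h₃ ≠ 0) (h0 : h₀ ≠ 0) (hq : Powerful q)
    (h : pf h₃ ⊆ pf h₀) : nr (rad (h₃ * q * h₀)) ^ 2 ≤ nr q * nr h₀ ^ 2 := by
  classical
  have q0 : q ≠ 0 := hq.1.ne_zero
  have r0 : rad q ≠ 0 := (primary_rad q).ne_zero
  have h1 : rad (h₃ * q * h₀) ∣ rad q * h₀ := by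
    refine BasicB.prod_dvd_of_subset (mul_ne_zero r0 h0) ?_
    rw [pf_mul (mul_ne_zero h3 q0) h0, pf_mul h3 q0, pf_mul r0 h0, pf_rad]
    exact union_subset (union_subset (h.trans subset_union_right) subset_union_left)
      subset_union_right
  have h2 := En.nr_le_of_dvd h1 (mul_ne_zero r0 h0)
  rw [nr_mul] at h2
  refine (pow_le_pow_left₀ (Nat.cast_nonneg _) h2 2).trans ?_
  rw [mul_pow]
  exact mul_le_mul_of_nonneg_right hq.nr_rad_sq_le (sq_nonneg _)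

end EnergyAux

open EnergyAux Finset

/-- **Reflected energy.**  With `B'' = K² Z / D`:
`∑_{0 < N k ≤ K} |T(k h₀)|² ≪ D Z (K + B'' + min(Z² √K, K Z²/√D) + min(K Z, √K Z D^{1/4}))`. -/
theorem energy {M : O} (hM : Adm M) {ε : ℝ} (hε : 0 < ε) : ∃ (C : ℝ) (J : ℕ), 0 < C ∧
    ∀ (R K D Z : ℝ) (φ : O → ℂ) (h₀ : O) (Zs : Finset O) (c : O → ℂ) (s : ℂ),
      1 ≤ K → K ≤ R → 1 ≤ Z → Z ≤ R → 0 < D → D ≤ R → D⁻¹ ≤ R → nr h₀ ≤ R →
      PerB M φ → Primary h₀ → IsCoprime h₀ M →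
      (∀ z ∈ Zs, SP M z ∧ Z ≤ nr z ∧ nr z ≤ 2 * Z) → (∀ z, ‖c z‖ ≤ 1) → |s.re| ≤ 3 →
      ∑ k ∈ (ball ⌊K⌋₊).erase 0, ‖Tc φ Zs c D s (k * h₀)‖ ^ 2 ≤
        C * R ^ ε * nr h₀ ^ J * (1 + |s.im|) ^ J * (D * Z) *
          (K + K ^ 2 * Z / D + min (Z ^ 2 * Real.sqrt K) (K * Z ^ 2 / Real.sqrt D) +
            min (K * Z) (Real.sqrt K * Z * D ^ (1 / 4 : ℝ))) := by
  classical
  have hε' : 0 < ε / 7 := by positivity
  obtain ⟨C₁, J, hC₁, h₁⟩ := En.fixed hM hε'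
  obtain ⟨C₂, hC₂, h₂⟩ := card_smooth_le hε'
  obtain ⟨C₃, hC₃, h₃⟩ := sum_powerful_le hε'
  have hNM := nr_pos hM.1
  refine ⟨C₁ * C₂ * C₂ * C₃ * nr M ^ (ε / 7), J + 2, by positivity,
    fun R K D Z φ h₀ Zs c s hK hKR hZ hZR hD hDR hDR' hh hφ hp hc hZs hc1 hs => ?_⟩
  set F := K + K ^ 2 * Z / D + min (Z ^ 2 * Real.sqrt K) (K * Z ^ 2 / Real.sqrt D) +
    min (K * Z) (Real.sqrt K * Z * D ^ (1 / 4 : ℝ)) with hF
  have hK0 : 0 ≤ K := by linarith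
  have hZ0 : 0 ≤ Z := by linarith
  have hR : 1 ≤ R := hK.trans hKR
  have hR0 : 0 < R := by linarith
  have hF0 : 0 ≤ F := by positivity
  have hR3 : R ≤ R ^ 3 := le_self_pow₀ hR three_ne_zero
  have h0 := hp.ne_zero
  have hN0 := one_le_nr h0
  have hX : 1 ≤ ⌊K⌋₊ := (Nat.one_le_floor_iff K).2 hK
  have hXR : (⌊K⌋₊ : ℝ) ≤ R := (Nat.floor_le hK0).trans hKR
  set As := (ball ⌊K⌋₊).filter (fun j => j ≠ 0 ∧ pf j ⊆ pf M) with hAs
  set Ah := (ball ⌊K⌋₊).filter (fun j => j ≠ 0 ∧ pf j ⊆ pf h₀) with hAh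
  set Pw := (ball ⌊K⌋₊).filter Powerful with hPw
  set T := (As ×ˢ Ah ×ˢ Pw).filter
    (fun t => Primary t.2.1 ∧ IsCoprime t.2.1 M ∧ IsCoprime t.2.2 M) with hT
  set B := C₁ * (R ^ 3) ^ (ε / 7) * (1 + |s.im|) ^ J * (D * Z) * (nr h₀ ^ 2 * F) with hB
  have hB0 : 0 ≤ B := by positivity
  have hsub : (ball ⌊K⌋₊).erase 0 ⊆
      (T.sigma fun t => sp (M * (t.2.1 * t.2.2 * h₀)) (K / nr t.2.2)).image
        fun x => x.1.1 * x.1.2.1 * x.1.2.2 * x.2 := by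
    intro k hk
    obtain ⟨hk0, hk⟩ := mem_erase.1 hk
    rw [En.mem_ball_floor hK0] at hk
    obtain ⟨s₀, h3, q, k₁, e, a1, a2, a3, a4, a5, a6, a7⟩ := decomp hM.1 h0 hk0
    have s0 : s₀ ≠ 0 := fun h => hk0 (by rw [e, h]; ring)
    have hb : ∀ y, y ∣ k → y ∈ ball ⌊K⌋₊ := fun y hy =>
      (En.mem_ball_floor hK0).2 ((En.nr_le_of_dvd hy hk0).trans hk)
    have hq := nr_pos a5.1.ne_zero
    refine mem_image.2 ⟨⟨(s₀, h3, q), k₁⟩, mem_sigma.2 ⟨mem_filter.2 ⟨mem_product.2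
      ⟨mem_filter.2 ⟨hb _ ⟨h3 * q * k₁, by rw [e]; ring⟩, s0, a1⟩, mem_product.2
        ⟨mem_filter.2 ⟨hb _ ⟨s₀ * q * k₁, by rw [e]; ring⟩, a2.ne_zero, a4⟩,
          mem_filter.2 ⟨hb _ ⟨s₀ * h3 * k₁, by rw [e]; ring⟩, a5⟩⟩⟩, a2, a3, a6⟩,
      (En.mem_sp (by positivity)).2 ⟨a7, ?_⟩⟩, e.symm⟩
    rw [le_div_iff₀ hq, ← nr_mul]
    exact (En.nr_le_of_dvd ⟨s₀ * h3, by rw [e]; ring⟩ hk0).trans hk
  have hfib : ∀ t ∈ T, ∑ k₁ ∈ sp (M * (t.2.1 * t.2.2 * h₀)) (K / nr t.2.2),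
      ‖Tc φ Zs c D s (t.1 * t.2.1 * t.2.2 * k₁ * h₀)‖ ^ 2 ≤ B * nr t.2.2 ^ (-(1 / 2 : ℝ)) := by
    rintro ⟨s₀, h3, q⟩ ht
    obtain ⟨ht, a2, a3, a6⟩ := mem_filter.1 ht
    obtain ⟨t1, ht⟩ := mem_product.1 ht
    obtain ⟨t2, t3⟩ := mem_product.1 ht
    obtain ⟨-, s0, a1⟩ := mem_filter.1 t1
    obtain ⟨b2, -, a4⟩ := mem_filter.1 t2
    obtain ⟨b3, a5⟩ := mem_filter.1 t3
    rw [En.mem_ball_floor hK0] at b2 b3
    simp only at *
    have hq := one_le_nr a5.1.ne_zero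
    obtain ⟨φ', hφ', hT'⟩ := twist hM s0 a1 hφ
    have e : ∀ k₁, Tc φ Zs c D s (s₀ * h3 * q * k₁ * h₀) =
        Tc φ' Zs c D s (k₁ * (h3 * q * h₀)) := fun k₁ => by
      rw [← hT']
      congr 1
      ring
    simp only [e]
    refine (h₁ (R ^ 3) (K / nr q) D Z φ' (h3 * q * h₀) Zs c s
      ((one_le_div (by linarith)).2 b3) ((div_le_self hK0 hq).trans (hKR.trans hR3)) hZ
      (hZR.trans hR3) hD (hDR'.trans hR3) ?_ hφ' ((a2.mul a5.1).mul hp)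
      ((a3.mul_left a6).mul_left hc) hZs hc1 hs).trans ?_
    · rw [nr_mul, nr_mul, pow_three']
      have := b2.trans hKR
      have := b3.trans hKR
      gcongr
    · refine (mul_le_mul_of_nonneg_left (En.Fb_le hD hZ0 hq b3 hN0
        (rad_sq_le a2.ne_zero h0 a5 a4)) (by positivity)).trans_eq ?_
      rw [hB]
      ring
  have hA1 : (As.card : ℝ) ≤ C₂ * (R ^ (ε / 7) * nr M ^ (ε / 7)) := by
    refine (h₂ M _ hM.1 hX).trans ?_
    rw [← Real.mul_rpow hR0.le hNM.le]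
    gcongr
  have hA2 : (Ah.card : ℝ) ≤ C₂ * (R ^ (ε / 7) * R ^ (ε / 7)) := by
    refine (h₂ h₀ _ h0 hX).trans ?_
    rw [← Real.mul_rpow hR0.le hR0.le]
    gcongr
  have hA3 : ∑ q ∈ Pw, nr q ^ (-(1 / 2 : ℝ)) ≤ C₃ * R ^ (ε / 7) := by
    refine (h₃ _ hX).trans ?_
    gcongr
  have e7 : R ^ ε = (R ^ (ε / 7)) ^ 7 := by
    rw [← Real.rpow_natCast, ← Real.rpow_mul hR0.le]
    congr 1
    push_cast
    ring
  have e3 : (R ^ 3) ^ (ε / 7) = (R ^ (ε / 7)) ^ 3 := by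
    rw [← Real.rpow_natCast, ← Real.rpow_natCast, ← Real.rpow_mul hR0.le, ← Real.rpow_mul hR0.le,
      mul_comm]
  have h1s : 1 ≤ 1 + |s.im| := le_add_of_nonneg_right (abs_nonneg _)
  refine (sum_le_sum_of_subset_of_nonneg hsub fun _ _ _ => sq_nonneg _).trans
    ((sum_image_le_of_nonneg fun _ _ => sq_nonneg _).trans ?_)
  calc _ ≤ ∑ t ∈ T, B * nr t.2.2 ^ (-(1 / 2 : ℝ)) := by
        rw [sum_sigma]
        exact sum_le_sum hfib
    _ ≤ ∑ t ∈ As ×ˢ Ah ×ˢ Pw, B * nr t.2.2 ^ (-(1 / 2 : ℝ)) :=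
        sum_le_sum_of_subset_of_nonneg (filter_subset _ _) fun _ _ _ => by positivity
    _ = As.card * (Ah.card * (B * ∑ q ∈ Pw, nr q ^ (-(1 / 2 : ℝ)))) := by
        simp only [sum_product, sum_const, nsmul_eq_mul, ← mul_sum]
        ring
    _ ≤ C₂ * (R ^ (ε / 7) * nr M ^ (ε / 7)) * (C₂ * (R ^ (ε / 7) * R ^ (ε / 7)) *
          (B * (C₃ * R ^ (ε / 7)))) := by
        have : 0 ≤ ∑ q ∈ Pw, nr q ^ (-(1 / 2 : ℝ)) := sum_nonneg fun _ _ => by positivity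
        gcongr
    _ = C₁ * C₂ * C₂ * C₃ * nr M ^ (ε / 7) * R ^ ε * nr h₀ ^ 2 * (1 + |s.im|) ^ J * (D * Z) *
          F := by
        rw [hB, e7, e3]
        ring
    _ ≤ _ := by gcongr <;> omega

end Crest.Agent.R17
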