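import Crest.Agent.PVc.R17.Gauss
import Crest.Agent.PVc.R17.RecipG4

-- ▼ part PVc/R17/RecipAuxA
section

/-!
# Row 17: cubic reciprocity and its supplements
-/

set_option autoImplicit false

noncomputable section

namespace Crest.Agent.R17.RecipA

open scoped ComplexConjugate

/-! ## conjugation -/

theorem cj_eq (z : O) : cj z = (starRingAut : O ≃+* O) z := by
  ext <;> simp [cj, sub_eq_add_neg]

theorem cj_cj (z : O) : cj (cj z) = z := by
  ext <;> simp [cj]

theorem prime_cj {p : O} (hp : Prime p) : Prime (cj p) := by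
  rw [cj_eq]
  exact (MulEquiv.prime_iff (starRingAut : O ≃+* O)).2 hp

theorem primary_cj {p : O} (h : Primary p) : Primary (cj p) := by
  have := map_dvd (starRingAut : O ≃+* O) h
  rwa [map_sub, map_one, map_ofNat, ← cj_eq] at this

/-! ## algebraic integers -/

theorem omC_cube : omC ^ 3 = 1 := by
  rw [← ι_om, ← map_pow, om_cube, map_one]

theorem omC_ne : omC ≠ 0 := fun h => by simpa [h] using omC_cube

theorem eq_omC_pow {z : ℂ} (h : z ^ 3 = 1) : ∃ j : ℕ, z = omC ^ j := by
  have : (z - 1) * ((z - omC) * (z - omC ^ 2)) = 0 := by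
    linear_combination h + (z - z ^ 2) * omC_mul + (z - 1) * omC_cube
  rcases mul_eq_zero.1 this with h1 | h1
  · exact ⟨0, by rw [pow_zero]; exact sub_eq_zero.1 h1⟩
  · rcases mul_eq_zero.1 h1 with h2 | h2
    · exact ⟨1, by rw [pow_one]; exact sub_eq_zero.1 h2⟩
    · exact ⟨2, sub_eq_zero.1 h2⟩

theorem int_of_pow {z : ℂ} {n : ℕ} (hn : 0 < n) (h : z ^ n = 1) : IsIntegral ℤ z :=
  IsIntegral.of_pow hn (h ▸ isIntegral_one)

theorem int_ι (z : O) : IsIntegral ℤ (ι z) := by
  have h : ι z = algebraMap ℤ ℂ z.re + algebraMap ℤ ℂ z.im * omC := rfl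
  rw [h]
  exact isIntegral_algebraMap.add (isIntegral_algebraMap.mul (int_of_pow (by norm_num) omC_cube))

theorem not_unit {q : O} (hq : Prime q) {α : ℂ} (hα : IsIntegral ℤ α) : ι q * α ≠ 1 := by
  intro h
  have h0 : (nm q : ℂ) = ι q * conj (ι q) := by rw [← ι_cj, ← map_mul, mul_cj, map_natCast]
  have h1 : (nm q : ℂ) * (α * conj α) = 1 := by
    have := congrArg conj h
    rw [map_mul, map_one] at this
    rw [h0]
    linear_combination conj (ι q) * conj α * h + this
  have h2 : IsIntegral ℤ (α * conj α) :=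
    hα.mul (hα.map ((starRingEnd ℂ).toIntAlgHom))
  have hn : (nm q : ℚ) ≠ 0 := Nat.cast_ne_zero.2 fun e => hq.ne_zero (nm_eq_zero.1 e)
  have h3 : α * conj α = algebraMap ℚ ℂ ((nm q : ℚ)⁻¹) := by
    rw [map_inv₀, map_natCast]
    exact eq_inv_of_mul_eq_one_right h1
  rw [h3, isIntegral_algebraMap_iff (algebraMap ℚ ℂ).injective] at h2
  obtain ⟨y, hy⟩ := IsIntegrallyClosed.isIntegral_iff.1 h2
  have h4 : (nm q : ℤ) * y = 1 := by
    have : ((nm q : ℤ) * y : ℤ) = (1 : ℚ) := by
      push_cast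
      rw [show (y : ℚ) = (nm q : ℚ)⁻¹ from hy, mul_inv_cancel₀ hn]
    exact_mod_cast this
  have h5 : nm q = 1 := by
    have := Int.eq_one_of_mul_eq_one_right (Int.natCast_nonneg _) h4
    exact_mod_cast this
  exact hq.not_isUnit (isUnit_iff_nm.2 h5)

theorem dvd_of_int {q a : O} (hq : Prime q) {α : ℂ} (hα : IsIntegral ℤ α) (h : ι a = ι q * α) :
    q ∣ a := by
  by_contra hn
  obtain ⟨u, v, e⟩ := (hq.irreducible.coprime_iff_not_dvd).2 hn
  refine not_unit hq ((int_ι u).add ((int_ι v).mul hα)) ?_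
  have := congrArg ι e
  rw [map_add, map_mul, map_mul, map_one, h] at this
  linear_combination this

theorem sum_pow_prime {l : ℕ} (hl : l.Prime) (n : ℕ) (s : Finset O) (f : O → ℂ)
    (hf : ∀ x, IsIntegral ℤ (f x)) :
    ∃ α, IsIntegral ℤ α ∧ (∑ x ∈ s, f x) ^ l ^ n = ∑ x ∈ s, f x ^ l ^ n + l * α := by
  classical
  induction s using Finset.induction_on with
  | empty => exact ⟨0, isIntegral_zero, by simp [hl.ne_zero]⟩
  | insert a s ha ih =>
    obtain ⟨α, hα, e⟩ := ih
    obtain ⟨r, hr⟩ := exists_add_pow_prime_pow_eq hl (⟨f a, hf a⟩ : integralClosure ℤ ℂ)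
      ⟨∑ x ∈ s, f x, IsIntegral.sum _ fun x _ => hf x⟩ n
    have hr' := congrArg Subtype.val hr
    push_cast at hr'
    refine ⟨α + f a * (∑ x ∈ s, f x) * r,
      hα.add (((hf a).mul (IsIntegral.sum _ fun x _ => hf x)).mul r.2), ?_⟩
    rw [Finset.sum_insert ha, Finset.sum_insert ha, hr', e]
    ring

theorem exists_char {q : O} (hq : Prime q) : ∃ l f : ℕ, l.Prime ∧ q ∣ (l : O) ∧ nm q = l ^ f := by
  have h1 : ∀ n : ℕ, n ≠ 0 → q ∣ (n : O) → ∃ l : ℕ, l.Prime ∧ q ∣ (l : O) := by
    intro n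
    induction n using Nat.recOnMul with
    | zero => intro h; exact absurd rfl h
    | one => intro _ h; exact absurd (isUnit_of_dvd_one (by simpa using h)) hq.not_isUnit
    | prime p hp => intro _ h; exact ⟨p, hp, h⟩
    | mul a b iha ihb =>
      intro h0 h
      rw [Nat.cast_mul] at h
      rcases hq.dvd_or_dvd h with h | h
      · exact iha (left_ne_zero_of_mul h0) h
      · exact ihb (right_ne_zero_of_mul h0) h
  obtain ⟨l, hl, h⟩ := h1 (nm q) (fun e => hq.ne_zero (nm_eq_zero.1 e)) ⟨cj q, (mul_cj q).symm⟩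
  have h2 := nm_dvd_of_dvd h
  rw [nm_natCast] at h2
  obtain ⟨f, -, hf⟩ := (Nat.dvd_prime_pow hl).1 h2
  exact ⟨l, f, hl, h, hf⟩

theorem eq_nat_mul (k : ℕ) (x n : O) : eq (k * x) n = eq x n ^ k := by
  induction k with
  | zero => simp [eq]
  | succ k ih => rw [Nat.cast_succ, add_mul, one_mul, eq_add, ih, pow_succ]

theorem cub_pow_succ {n : O} (hn : Primary n) (a : O) (k : ℕ) : cub n a ^ (3 * k + 1) = cub n a := by
  by_cases h : IsCoprime n a
  · rw [pow_succ, pow_mul, cub_pow_three hn h, one_pow, one_mul]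
  · rw [(cub_eq_zero_iff hn).2 h, pow_succ, mul_zero]

theorem int_term {p : O} (h : Primary p) (x : O) : IsIntegral ℤ (cub p x * eq (1 * x) p) := by
  refine IsIntegral.mul ?_ ?_
  · by_cases hc : IsCoprime p x
    · exact int_of_pow (by norm_num) (cub_pow_three h hc)
    · rw [(cub_eq_zero_iff h).2 hc]
      exact isIntegral_zero
  · refine int_of_pow (n := nm p) (Nat.pos_of_ne_zero fun e => h.ne_zero (nm_eq_zero.1 e)) ?_
    rw [← eq_nat_mul, eq_congr (y := 0) ⟨cj p * (1 * x), by rw [← mul_cj]; ring⟩]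
    simp [eq]

/-- The Frobenius acting on the cubic Gauss sum. -/
theorem frob {p q : O} (hp : Prime p) (hp' : Primary p) (hq : Prime q) (hq' : Primary q)
    (h1 : IsCoprime q (p * nm p)) (h2 : IsCoprime (nm q : O) p) :
    cub q (p * nm p) = conj (cub p (nm q)) := by
  obtain ⟨l, f, hl, ⟨c, hc⟩, hf⟩ := exists_char hq
  obtain ⟨k, hk⟩ : ∃ k, nm q = 3 * k + 1 := ⟨nm q / 3, by have := nm_prime_mod hq hq'; omega⟩
  have hk' : (nm q - 1) / 3 = k := by omega
  obtain ⟨α, hα, e⟩ := sum_pow_prime hl f (res p) _ (int_term hp')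
  have hg : IsIntegral ℤ (gc p 1) := IsIntegral.sum _ fun x _ => int_term hp' x
  have e1 : ∑ x ∈ res p, (cub p x * eq (1 * x) p) ^ l ^ f = conj (cub p (nm q)) * gc p 1 := by
    rw [← gc_mul_unit hp' h2, gc]
    refine Finset.sum_congr rfl fun x _ => ?_
    rw [mul_pow, ← eq_nat_mul, ← hf, one_mul, one_mul]
    nth_rewrite 1 [hk]
    rw [cub_pow_succ hp']
  have e2 : gc p 1 ^ 3 = ι (-(p * nm p)) := by
    rw [gc_prime_cube hp hp', map_neg, map_mul, map_natCast, neg_mul]
  have e3 : (l : ℂ) = ι q * ι c := by rw [← map_mul, ← hc, map_natCast]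
  rw [e1, ← hf, hk, pow_succ, pow_mul, e3] at e
  change (gc p 1 ^ 3) ^ k * gc p 1 = _ at e
  obtain ⟨j, hj⟩ : ∃ j : ℕ, conj (cub p (nm q)) = omC ^ j :=
    eq_omC_pow (by rw [← map_pow, cub_pow_three hp' h2.symm, map_one])
  have h3 : q ∣ -(p * nm p) * ((-(p * nm p)) ^ k - om ^ j) := by
    refine dvd_of_int hq (((int_ι c).mul hα).mul (hg.pow 2)) ?_
    rw [map_mul, map_sub, map_pow, map_pow, ι_om, ← hj, ← e2]
    rw [← hk] at e
    linear_combination gc p 1 ^ 2 * e
  have h4 := h1.neg_right.dvd_of_dvd_mul_left h3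
  rw [← hk', ← cub1_eq_pow_iff hq hq', ← cub_prime hq hq', neg_eq_neg_one_mul, cub_mul_right,
    cub_neg_one, one_mul] at h4
  rw [h4, hj]

theorem recip_prime {p q : O} (hp : Prime p) (hp' : Primary p) (hq : Prime q) (hq' : Primary q)
    (h : IsCoprime q (nm p)) : cub q p = cub p q := by
  rw [← mul_cj] at h
  have c1 : IsCoprime q p := h.of_mul_right_left
  have c2 : IsCoprime q (cj p) := h.of_mul_right_right
  have c3 : IsCoprime p (cj q) := by
    have : IsCoprime ((starRingAut : O ≃+* O) (cj p)) ((starRingAut : O ≃+* O) q) :=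
      c2.symm.map ((starRingAut : O ≃+* O) : O →+* O)
    rwa [← cj_eq, ← cj_eq, cj_cj] at this
  have a1 := frob hp hp' hq hq' (by rw [← mul_cj]; exact c1.mul_right h)
    (by rw [← mul_cj]; exact c1.mul_left c3.symm)
  have a2 := frob hq hq' hp hp' (by rw [← mul_cj]; exact c1.symm.mul_right (c1.symm.mul_right c3))
    (by rw [← mul_cj]; exact h.symm)
  rw [← mul_cj, ← mul_cj, conj_cub] at a1 a2
  simp only [cub_mul_right] at a1 a2
  have b1 := cub_pow_three hq' c1
  have b2 := cub_pow_three hq' c2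
  have b3 := cub_pow_three hp' c1.symm
  have b4 := cub_pow_three hp' c3
  generalize cub q p = a at *
  generalize cub q (cj p) = b at *
  generalize cub p q = c at *
  generalize cub p (cj q) = d at *
  have d1 : a * (a * b * c * d) = 1 := by
    linear_combination c * d * a1 + d ^ 3 * b3 + b4
  have d2 : c * (a * b * c * d) = 1 := by
    linear_combination a * b * a2 + b ^ 3 * b1 + b2
  exact mul_right_cancel₀ (right_ne_zero_of_mul_eq_one d1) (d1.trans d2.symm)

theorem recip_coprime {p : O} (hp : Prime p) (hp' : Primary p) {m : O} (hm : Primary m) :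
    IsCoprime m (nm p) → cub m p = cub p m := by
  refine Primary.induction (P := fun m => IsCoprime m (nm p) → cub m p = cub p m) (by simp)
    (fun q n hq hq' hn ih h => ?_) hm
  rw [cub_mul_left hq.ne_zero hn.ne_zero, cub_mul_right, ih h.of_mul_left_right,
    recip_prime hp hp' hq hq' h.of_mul_left_left]

theorem recip_cj {p : O} (hp : Prime p) (hp' : Primary p) : cub (cj p) p = cub p (cj p) := by
  by_cases h : p ∣ cj p
  · rw [← hp'.eq_of_associated (primary_cj hp') (hp.associated_of_dvd (prime_cj hp) h)]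
  have c1 : IsCoprime p (cj p) := (hp.irreducible.coprime_iff_not_dvd).2 h
  have ht : Primary (-(p + cj p)) := by
    obtain ⟨a, ha⟩ := hp'
    obtain ⟨b, hb⟩ := primary_cj ⟨a, ha⟩
    exact ⟨-a - b - 1, by linear_combination -ha - hb⟩
  have hc : IsCoprime (-(p + cj p)) (nm p) := by
    rw [← mul_cj]
    refine (IsCoprime.mul_right ?_ ?_).neg_left
    · simpa [add_comm] using c1.symm.add_mul_left_left 1
    · simpa using c1.add_mul_left_left 1
  have e1 : cub p (cj p) = cub (-(p + cj p)) p := by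
    rw [recip_coprime hp hp' ht hc, neg_eq_neg_one_mul, cub_mul_right, cub_neg_one, one_mul]
    exact cub_congr ((rad_dvd p).trans ⟨-1, by ring⟩)
  have e2 : cj (-(p + cj p)) = -(p + cj p) := by
    ext <;> simp [cj]
  have e3 : conj (cub (-(p + cj p)) p) = cub (-(p + cj p)) p := by
    rw [← cub_cj, e2, ← one_mul (cub _ p), ← cub_neg_one (-(p + cj p)), ← cub_mul_right]
    exact cub_congr ((rad_dvd _).trans ⟨-1, by ring⟩)
  have e4 := cub_cj p (cj p)
  rw [cj_cj] at e4
  rw [e4, e1, e3]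

theorem recip_primes {p q : O} (hp : Prime p) (hp' : Primary p) (hq : Prime q) (hq' : Primary q) :
    cub q p = cub p q := by
  by_cases h : q ∣ (nm p : O)
  · rw [← mul_cj] at h
    rcases hq.dvd_or_dvd h with h | h
    · rw [hq'.eq_of_associated hp' (hq.associated_of_dvd hp h)]
    · rw [hq'.eq_of_associated (primary_cj hp') (hq.associated_of_dvd (prime_cj hp) h)]
      exact recip_cj hp hp'
  · exact recip_prime hp hp' hq hq' ((hq.irreducible.coprime_iff_not_dvd).2 h)

theorem recip {m n : O} (hm : Primary m) (hn : Primary n) : cub m n = cub n m := by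
  refine Primary.induction (P := fun m => cub m n = cub n m) (by simp)
    (fun q m hq hq' hm ih => ?_) hm
  rw [cub_mul_left hq.ne_zero hm.ne_zero, cub_mul_right, ih]
  congr 1
  refine Primary.induction (P := fun n => cub q n = cub n q) (by simp)
    (fun p n hp hp' hn ih => ?_) hn
  rw [cub_mul_left hp.ne_zero hn.ne_zero, cub_mul_right, ih, recip_primes hp hp' hq hq']

/-! ## supplements -/

theorem cub_om {n : O} (hn : Primary n) : ∃ k, nm n = 3 * k + 1 ∧ cub n om = omC ^ k := by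
  refine Primary.induction (P := fun n => ∃ k, nm n = 3 * k + 1 ∧ cub n om = omC ^ k)
    ⟨0, by simp, by simp⟩ (fun p n hp hp' hn ih => ?_) hn
  obtain ⟨k, hk, e⟩ := ih
  obtain ⟨j, hj⟩ : ∃ j, nm p = 3 * j + 1 := ⟨nm p / 3, by have := nm_prime_mod hp hp'; omega⟩
  have e1 : cub p om = omC ^ j := by
    rw [cub_prime hp hp', cub1_eq_pow_iff hp hp', show (nm p - 1) / 3 = j by omega, sub_self]
    exact dvd_zero _
  refine ⟨3 * (j * k) + j + k, by rw [nm_mul, hj, hk]; ring, ?_⟩
  rw [cub_mul_left hp.ne_zero hn.ne_zero, e, e1, pow_add, pow_add, pow_mul, omC_cube, one_pow,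
    one_mul]

theorem om_congr {n n' : O} (hn : Primary n) (hn' : Primary n') (h : 3 * lam ∣ n - n') :
    cub n om = cub n' om := by
  obtain ⟨k, hk, e⟩ := cub_om hn
  obtain ⟨k', hk', e'⟩ := cub_om hn'
  obtain ⟨w, hw⟩ := h
  rw [show 3 * lam = ⟨3, 6⟩ from rfl] at hw
  have h1 : n.re = n'.re + 3 * (w.re - 2 * w.im) := by
    have := congrArg QuadraticAlgebra.re hw
    simp at this
    linarith
  have h2 : n.im = n'.im + 3 * (2 * w.re - w.im) := by
    have := congrArg QuadraticAlgebra.im hw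
    simp at this
    linarith
  have h3 := nm_cast n
  have h4 := nm_cast n'
  rw [h1, h2, hk] at h3
  rw [hk'] at h4
  push_cast at h3 h4
  obtain ⟨T, hT⟩ : ∃ T : ℤ, 3 * (k : ℤ) = 3 * (k' + 3 * T) :=
    ⟨n'.im * w.re - n'.re * w.im + 3 * (w.re ^ 2 - w.re * w.im + w.im ^ 2), by
      linear_combination h3 - h4⟩
  rw [e, e', pow_eq_pow_mod k omC_cube, pow_eq_pow_mod k' omC_cube]
  congr 1
  omega

theorem nine_dvd {z : O} (h : (9 : O) ∣ z) : 3 * lam ∣ z :=
  Dvd.dvd.trans ⟨-lam, by linear_combination 3 * lam_sq⟩ h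

theorem unit_congr {n n' u : O} (hn : Primary n) (hn' : Primary n') (h : (9 : O) ∣ n - n')
    (hu : IsUnit u) : cub n u = cub n' u := by
  obtain ⟨k, -, rfl⟩ := isUnit_iff_pow.1 hu
  rw [cub_pow_right, cub_pow_right, neg_eq_neg_one_mul, cub_mul_right, cub_mul_right, cub_neg_one,
    cub_neg_one, om_congr hn hn' (nine_dvd h)]

theorem lam_eq {n y u : O} (hn : Primary n) (hu : IsUnit u) (hy : Primary (u * y))
    (e : n - om = lam * y) : cub n lam * cub (u * y) om = cub n u * cub n om := by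
  obtain ⟨v, hv⟩ := hu.exists_left_inv
  have e1 : cub (u * y) om = cub n (u * y) := by
    rw [recip hn hy]
    exact cub_congr ((rad_dvd _).trans ⟨-(lam * v), by linear_combination -e + lam * y * hv⟩)
  have e2 : cub n om = cub n (lam * y) := by
    rw [← one_mul (cub n om), ← cub_neg_one n, ← cub_mul_right]
    exact cub_congr ((rad_dvd _).trans ⟨-1, by linear_combination e⟩)
  rw [e1, e2, cub_mul_right, cub_mul_right]
  ring

theorem lam_congr {n n' : O} (hn : Primary n) (hn' : Primary n') (h : (9 : O) ∣ n - n') :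
    cub n lam = cub n' lam := by
  have hl : lam = 1 + 2 * om := rfl
  obtain ⟨z, hz⟩ := id hn'
  obtain ⟨w, hw⟩ := id h
  have e' : n' - om = lam * (om ^ 2 - lam * z) := by
    linear_combination hz + z * lam_sq - om ^ 2 * hl - om_sq_add - 2 * om_cube
  have e : n - om = lam * (om ^ 2 - lam * z + 3 * lam * (-w)) := by
    linear_combination e' + hw + 3 * w * lam_sq
  have hnd : ¬ lam ∣ om ^ 2 - lam * z := fun hd =>
    prime_lam.not_isUnit (isUnit_of_dvd_one (by
      have h1 : lam ∣ om ^ 2 := by simpa using dvd_add hd (dvd_mul_right lam z)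
      have := h1.mul_right om
      rwa [← pow_succ, om_cube] at this))
  obtain ⟨u, hu, hy'⟩ := exists_unit_primary hnd
  have hy : Primary (u * (om ^ 2 - lam * z + 3 * lam * (-w))) := by
    obtain ⟨t, ht⟩ := hy'
    exact ⟨t - u * lam * w, by linear_combination ht⟩
  have a := lam_eq hn hu hy e
  have a' := lam_eq hn' hu hy' e'
  rw [unit_congr hn hn' h hu, om_congr hn hn' (nine_dvd h), ← a',
    om_congr hy hy' ⟨-(u * w), by ring⟩] at a
  obtain ⟨k, -, hk⟩ := cub_om hy'
  exact mul_right_cancel₀ (by rw [hk]; exact pow_ne_zero _ omC_ne) a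

theorem periodic {c n n' : O} (hc : c ≠ 0) (hn : Primary n) (hn' : Primary n')
    (h : 9 * c ∣ n - n') : cub n c = cub n' c := by
  obtain ⟨u, j, hu, e⟩ := exists_eq_unit_lam_primary hc
  have h0 : Primary (∏ p ∈ pf c, p ^ vp p c) :=
    Primary.prod fun p hp => ((mem_pf hc).1 hp).2.1.pow _
  generalize ∏ p ∈ pf c, p ^ vp p c = c₀ at e h0
  have h9 : (9 : O) ∣ n - n' := (dvd_mul_right _ _).trans h
  have hd : rad c₀ ∣ n - n' :=
    (rad_dvd _).trans (((e ▸ dvd_mul_left _ _ : c₀ ∣ c).mul_left 9).trans h)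
  rw [e]
  simp only [cub_mul_right, cub_pow_right]
  rw [unit_congr hn hn' h9 hu, lam_congr hn hn' h9, recip hn h0, recip hn' h0, cub_congr hd]

end Crest.Agent.R17.RecipA
end
end

-- ▼ part PVc/R17/RecipQuad
section

/-! Quadratic reciprocity in `O` from the evaluation of quadratic Gauss sums. -/

set_option autoImplicit false

noncomputable section

namespace Crest.Agent.R17.RecipB

open Complex
open scoped Real ComplexConjugate

def Q (a n : O) : ℂ := ∑ x ∈ res n, eq (a * x ^ 2) n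

theorem Q_one {n : O} (hn : n ≠ 0) : Q 1 n = (Real.sqrt (nr n) : ℂ) * G4 n := by
  simp only [Q, one_mul, sum_sq_eq' hn]

theorem Q_crt {m n : O} (hm : m ≠ 0) (hn : n ≠ 0) (h : IsCoprime m n) :
    Q 1 (m * n) = Q n m * Q m n := by
  rw [Q, sum_res_crt hm hn h _ fun x y hxy => eq_congr (hxy.trans ⟨x + y, by ring⟩), Q, Q,
    Finset.sum_mul_sum]
  refine Finset.sum_congr rfl fun x _ => Finset.sum_congr rfl fun y _ => ?_
  rw [← eq_crt hm hn]
  exact eq_congr ⟨2 * x * y, by ring⟩

theorem quad_prime {p : O} (hp : Prime p) (h : Primary p) (a : O) : quad p a = quad1 p a := by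
  rw [quad, pf_prime hp h, Finset.prod_singleton, vp_self hp, pow_one]

theorem ne_neg_two {p : O} (h : PO p) : p ≠ -2 := by
  rintro rfl
  exact prime_neg_two.not_isUnit (h.2.isUnit_of_dvd' dvd_rfl ⟨-1, by ring⟩)

theorem field_facts {p : O} (hp : Prime p) (h : PO p) :
    quad p 2 = (ZMod.χ₈ (nm p : ZMod 8) : ℤ) ∧
      ∀ f : O → ℂ, (∀ x y, p ∣ x - y → f x = f y) →
        ∑ x ∈ res p, f (x ^ 2) = ∑ x ∈ res p, (quad p x + 1) * f x := by
  classical
  have hp0 := hp.ne_zero
  have : Fact (p ≠ 0) := ⟨hp0⟩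
  have : (Ideal.span {p}).IsMaximal :=
    PrincipalIdealRing.isMaximal_of_irreducible hp.irreducible
  let : Field (O ⧸ Ideal.span {p}) := Ideal.Quotient.field _
  let : Fintype (O ⧸ Ideal.span {p}) := Fintype.ofFinite _
  have hc : Fintype.card (O ⧸ Ideal.span {p}) = nm p := by
    rw [← Nat.card_eq_fintype_card, card_quot hp0]
  have h6 := (nm_prime_mod_six hp h.1 (ne_neg_two h)).1
  have hF : ringChar (O ⧸ Ideal.span {p}) ≠ 2 := by
    rw [Ne, FiniteField.even_card_iff_char_two, hc]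
    omega
  have hq : ∀ a, quad p a =
      (quadraticChar (O ⧸ Ideal.span {p}) (Ideal.Quotient.mk _ a) : ℤ) := by
    intro a
    rw [quad_prime hp h.1, quad1]
    by_cases ha : p ∣ a
    · rw [if_pos ha, Ideal.Quotient.eq_zero_iff_mem.2 (Ideal.mem_span_singleton.2 ha)]
      simp
    · have ha' : Ideal.Quotient.mk (Ideal.span {p}) a ≠ 0 := fun h0 =>
        ha (Ideal.mem_span_singleton.1 (Ideal.Quotient.eq_zero_iff_mem.1 h0))
      rw [if_neg ha, quadraticChar_eq_pow_of_char_ne_two hF ha', hc,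
        show nm p / 2 = (nm p - 1) / 2 by omega, ← map_pow,
        ← map_one (Ideal.Quotient.mk (Ideal.span {p})), Ideal.Quotient.mk_eq_mk_iff_sub_mem,
        Ideal.mem_span_singleton]
      split_ifs <;> simp
  refine ⟨?_, fun f hf => ?_⟩
  · rw [hq, map_ofNat, quadraticChar_two hF, hc]
  · let g : O ⧸ Ideal.span {p} → ℂ := fun t => f (Quotient.out t)
    have hg : ∀ x, g (Ideal.Quotient.mk _ x) = f x := fun x => hf _ _
      (Ideal.mem_span_singleton.1 ((Ideal.Quotient.mk_eq_mk_iff_sub_mem _ _).1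
        (Ideal.Quotient.mk_out _)))
    have h1 := sum_res_eq_quot hp0 fun t => g (t ^ 2)
    have h2 := sum_res_eq_quot hp0 fun t =>
      (((quadraticChar (O ⧸ Ideal.span {p}) t : ℤ) : ℂ) + 1) * g t
    simp only [← map_pow, hg, ← hq] at h1 h2
    rw [h1, h2, ← Finset.sum_fiberwise Finset.univ (fun t : O ⧸ Ideal.span {p} => t ^ 2)]
    refine Finset.sum_congr rfl fun t _ => ?_
    rw [Finset.sum_congr rfl (g := fun _ => g t) fun x hx => by rw [(Finset.mem_filter.1 hx).2],
      Finset.sum_const, nsmul_eq_mul]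
    have h3 := quadraticChar_card_sqrts hF t
    rw [Set.toFinset_ofPred] at h3
    congr 1
    exact_mod_cast h3

theorem Q_prime {p : O} (hp : Prime p) (h : PO p) {a : O} (ha : IsCoprime a p) :
    Q a p = quad p a * gs 3 p 1 := by
  have h1 := (field_facts hp h).2 (fun x => eq (a * x) p) fun x y hxy =>
    eq_congr (by rw [← mul_sub]; exact hxy.mul_left _)
  have h2 := sum_res_eq_char hp.ne_zero a
  rw [if_neg fun hd => hp.not_isUnit (ha.isUnit_of_dvd' hd dvd_rfl)] at h2
  have h3 := gs_mul_unit 3 h ha 1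
  rw [one_mul, sym_pow_three h.1, conj_quad] at h3
  rw [← h3, Q, h1, gs]
  simp only [add_mul, one_mul, Finset.sum_add_distrib, h2, add_zero,
    sym_pow_add_six h.1 _ three_ne_zero, sym_pow_three h.1]

theorem sqrt_ne {n : O} (hn : n ≠ 0) : (Real.sqrt (nr n) : ℂ) ≠ 0 := by
  exact_mod_cast (Real.sqrt_pos.2 (nr_pos hn)).ne'

theorem sqrt_mul (m n : O) :
    (Real.sqrt (nr (m * n)) : ℂ) = (Real.sqrt (nr m) : ℂ) * (Real.sqrt (nr n) : ℂ) := by
  rw [nr_mul, Real.sqrt_mul (Nat.cast_nonneg _), ofReal_mul]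

theorem gs_prime {p : O} (hp : Prime p) (h : PO p) :
    gs 3 p 1 = (Real.sqrt (nr p) : ℂ) * G4 p := by
  rw [← Q_one hp.ne_zero, Q_prime hp h isCoprime_one_left, quad_one_right, one_mul]

theorem quad_eq_zero {n a : O} (hn : Primary n) (h : ¬ IsCoprime n a) : quad n a = 0 := by
  rw [← sym_pow_three hn, (sym_eq_zero_iff hn).2 h]
  simp

theorem RS_eq {m n : O} (hm : IsCoprime m 2) (hn : IsCoprime n 2) {c : ℂ}
    (h : G4 (m * n) = c * G4 m * G4 n) : RS m n = c := by
  rw [RS, h]
  linear_combination (c * (G4 n * conj (G4 n))) * G4_mul_conj hm + c * G4_mul_conj hn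

theorem recip_prime {p q : O} (hp : Prime p) (h : PO p) (hq : Prime q) (h' : PO q) :
    quad p q = RS p q * quad q p := by
  by_cases hc : IsCoprime p q
  · have h1 := Q_crt hp.ne_zero hq.ne_zero hc
    rw [Q_one (mul_ne_zero hp.ne_zero hq.ne_zero), Q_prime hp h hc.symm, Q_prime hq h' hc,
      gs_prime hp h, gs_prime hq h', sqrt_mul] at h1
    have h2 : G4 (p * q) = quad p q * quad q p * G4 p * G4 q :=
      mul_left_cancel₀ (mul_ne_zero (sqrt_ne hp.ne_zero) (sqrt_ne hq.ne_zero))
        (by rw [h1]; ring)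
    rw [RS_eq h.2 h'.2 h2]
    linear_combination (-quad p q) * quad_sq h'.1 hc.symm
  · rw [quad_eq_zero h.1 hc, quad_eq_zero h'.1 fun h0 => hc h0.symm, mul_zero]

theorem PO_induction {P : O → Prop} (h1 : P 1)
    (hmul : ∀ p n, Prime p → PO p → PO n → P n → P (p * n)) {n : O} (hn : PO n) : P n :=
  Primary.induction (P := fun n => IsCoprime n 2 → P n) (fun _ => h1)
    (fun p n hp hp' hn ih h => hmul p n hp ⟨hp', h.of_mul_left_left⟩ ⟨hn, h.of_mul_left_right⟩
      (ih h.of_mul_left_right)) hn.1 hn.2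

theorem recip {m n : O} (hm : PO m) (hn : PO n) : quad m n = RS m n * quad n m := by
  refine PO_induction (P := fun m => quad m n = RS m n * quad n m) ?_ ?_ hm
  · rw [quad_one_left, RS_one_left hn.2, quad_one_right, one_mul]
  · intro p m hp hp' hm ih
    have h : quad p n = RS p n * quad n p := by
      refine PO_induction (P := fun n => quad p n = RS p n * quad n p) ?_ ?_ hn
      · rw [quad_one_left, RS_comm, RS_one_left hp'.2, quad_one_right, one_mul]
      · intro q n hq hq' hn ih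
        rw [quad_mul_right hp', quad_mul_left hq.ne_zero hn.1.ne_zero, ih,
          recip_prime hp hp' hq hq', RS_mul_right hp'.2 hq'.2 hn.2]
        ring
    rw [quad_mul_left hp.ne_zero hm.1.ne_zero, quad_mul_right hn, ih, h,
      RS_mul_left hp'.2 hm.2 hn.2]
    ring

theorem gam_three {n : O} (hn : PO n) (hs : Squarefree n) : gam 3 n = G4 n := by
  refine PO_induction (P := fun n => Squarefree n → gam 3 n = G4 n) ?_ ?_ hn hs
  · intro _
    rw [gam_one, G4_one]
  · intro p n hp hp' hn ih hs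
    have hc : IsCoprime p n := (squarefree_mul_iff.1 hs).1.isCoprime
    have h1 := ih (squarefree_mul_iff.1 hs).2.2
    rw [gam, div_eq_iff (sqrt_ne hn.1.ne_zero)] at h1
    rw [gam, div_eq_iff (sqrt_ne (hp'.mul hn).1.ne_zero), gs_mul 3 hp' hn hc, h1, gs_prime hp hp',
      sym_pow_three hp'.1, sym_pow_three hn.1, recip hp' hn, sqrt_mul, G4_mul hp'.2 hn.2]
    linear_combination (RS p n * G4 p * G4 n * (Real.sqrt (nr p) : ℂ) * (Real.sqrt (nr n) : ℂ)) *
      quad_sq hn.1 hc.symm

theorem quad_of_prime {c : O} (hc : IsCoprime c 2)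
    (h : ∀ p, Prime p → PO p → quad p c = RS c p) {n : O} (hn : PO n) : quad n c = RS c n := by
  refine PO_induction (P := fun n => quad n c = RS c n) ?_ ?_ hn
  · rw [quad_one_left, RS_comm, RS_one_left hc]
  · intro p n hp hp' hn ih
    rw [quad_mul_left hp.ne_zero hn.1.ne_zero, ih, h p hp hp', RS_mul_right hc hp'.2 hn.2]

theorem quad_neg_one {n : O} (hn : PO n) : quad n (-1) = RS (-1) n := by
  refine quad_of_prime isCoprime_one_left.neg_left (fun p hp h => ?_) hn
  refine (RS_eq isCoprime_one_left.neg_left h.2 ?_).symm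
  have h1 : Q (-1) p = conj (Q 1 p) := by
    rw [Q, Q, map_sum]
    exact Finset.sum_congr rfl fun x _ => by rw [← eq_neg, neg_mul]
  rw [Q_prime hp h isCoprime_one_left.neg_left, Q_one hp.ne_zero, gs_prime hp h, map_mul,
    conj_ofReal] at h1
  rw [neg_one_mul, G4_neg, G4_neg, G4_one, map_one, mul_one]
  exact mul_left_cancel₀ (sqrt_ne hp.ne_zero) (by rw [← h1]; ring)

theorem lam_odd : IsCoprime lam 2 := ⟨1, -om, by decide⟩

theorem quad_lam {n : O} (hn : PO n) : quad n lam = RS lam n := by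
  refine quad_of_prime lam_odd (fun p hp h => ?_) hn
  refine (RS_eq lam_odd h.2 ?_).symm
  have hl := prime_lam.ne_zero
  have hc : IsCoprime lam p := (prime_lam.coprime_iff_not_dvd).2 h.1.not_lam_dvd
  have h1 := Q_crt hl hp.ne_zero hc
  have h2 : Q p lam = Q 1 lam := Finset.sum_congr rfl fun x _ => eq_congr (by
    rw [← sub_mul]
    exact ((show lam ∣ 3 from ⟨-lam, by linear_combination lam_sq⟩).trans h.1).mul_right _)
  rw [h2, Q_one (mul_ne_zero hl hp.ne_zero), Q_one hl, Q_prime hp h hc, gs_prime hp h,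
    sqrt_mul] at h1
  exact mul_left_cancel₀ (mul_ne_zero (sqrt_ne hl) (sqrt_ne hp.ne_zero)) (by rw [h1]; ring)

theorem quad_om {n : O} (hn : PO n) : quad n om = 1 := by
  have h : om = om ^ 2 * om ^ 2 := by linear_combination (-om) * om_cube
  have hu : IsCoprime n (om ^ 2) := ⟨0, om, by linear_combination om_cube⟩
  rw [h, quad_mul_right hn, ← sq, quad_sq hn.1 hu]

theorem quad_two {n : O} (hn : PO n) : quad n 2 = (ZMod.χ₈ (nm n : ZMod 8) : ℤ) := by
  refine PO_induction (P := fun n => quad n 2 = (ZMod.χ₈ (nm n : ZMod 8) : ℤ)) ?_ ?_ hn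
  · simp
  · intro p n hp hp' hn ih
    rw [quad_mul_left hp.ne_zero hn.1.ne_zero, ih, (field_facts hp hp').1, nm_mul, Nat.cast_mul,
      map_mul, Int.cast_mul]

theorem nm_congr {n n' : O} (h : (8 : O) ∣ n - n') : (nm n : ZMod 8) = nm n' := by
  obtain ⟨h1, h2⟩ := (int_dvd_iff 8 _).1 h
  have h3 : (n.re : ZMod 8) = n'.re := (ZMod.intCast_eq_intCast_iff_dvd_sub _ _ 8).2 (by
    simpa using h1.neg_right)
  have h4 : (n.im : ZMod 8) = n'.im := (ZMod.intCast_eq_intCast_iff_dvd_sub _ _ 8).2 (by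
    simpa using h2.neg_right)
  rw [← Int.cast_natCast, nm_cast, ← Int.cast_natCast, nm_cast]
  push_cast
  rw [h3, h4]

theorem gen_induction {P : O → Prop} (hmul : ∀ a b, a ≠ 0 → b ≠ 0 → P a → P b → P (a * b))
    (h1 : P 1) (hneg : P (-1)) (hom : P om) (hlam : P lam)
    (hp : ∀ p, Prime p → Primary p → P p) {a : O} (ha : a ≠ 0) : P a := by
  have hpow : ∀ b, b ≠ 0 → P b → ∀ k : ℕ, P (b ^ k) := fun b hb h k => by
    induction k with
    | zero => simpa using h1
    | succ k ih => rw [pow_succ]; exact hmul _ _ (pow_ne_zero _ hb) hb ih h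
  obtain ⟨u, j, hu, h⟩ := exists_eq_unit_lam_primary ha
  have hn : Primary (∏ p ∈ pf a, p ^ vp p a) :=
    Primary.prod fun p hp => ((mem_pf ha).1 hp).2.1.pow _
  have hl := prime_lam.ne_zero
  have hom0 : om ≠ 0 := by decide
  rw [h]
  refine hmul _ _ (mul_ne_zero hu.ne_zero (pow_ne_zero _ hl)) hn.ne_zero
    (hmul _ _ hu.ne_zero (pow_ne_zero _ hl) ?_ (hpow _ hl hlam _))
    (Primary.induction h1 (fun p n hp' hp'' hn ih =>
      hmul _ _ hp'.ne_zero hn.ne_zero (hp p hp' hp'') ih) hn)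
  obtain ⟨k, -, rfl⟩ := isUnit_iff_pow.1 hu
  refine hpow _ (neg_ne_zero.2 hom0) ?_ _
  rw [← neg_one_mul]
  exact hmul _ _ (by simp) hom0 hneg hom

theorem po_or {p : O} (hp : Prime p) (h : Primary p) : p = -2 ∨ PO p := by
  by_cases h2 : p ∣ 2
  · exact Or.inl (h.eq_of_associated ⟨-1, by ring⟩
      (hp.associated_of_dvd prime_neg_two h2.neg_right))
  · exact Or.inr ⟨h, (hp.coprime_iff_not_dvd).2 h2⟩

theorem quad_neg_two_congr {n n' : O} (hn : PO n) (hn' : PO n') (h : (8 : O) ∣ n - n') :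
    quad n (-2) = quad n' (-2) := by
  rw [← neg_one_mul, quad_mul_right hn, quad_mul_right hn', quad_neg_one hn, quad_neg_one hn',
    quad_two hn, quad_two hn', nm_congr h,
    RS_congr (m' := -1) (by simp) ((show (4 : O) ∣ 8 from ⟨2, by norm_num⟩).trans h)]



end Crest.Agent.R17.RecipB
end
end

-- ▼ part PVc/R17/Recip

/-!
# Row 17, module M2 (part B): reciprocity laws

Cubic reciprocity with its supplements, quadratic reciprocity in `O` (through the evaluation of
quadratic Gauss sums by theta inversion), the sign `Rs` and the class function `Gf`.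
-/

set_option autoImplicit false

noncomputable section

namespace Crest.Agent.R17

open scoped ComplexConjugate

/-- Cubic reciprocity. -/
theorem cub_recip {m n : O} (hm : Primary m) (hn : Primary n) : cub m n = cub n m :=
  RecipA.recip hm hn

/-- Supplements: `(ω/n)₃` and `(λ/n)₃` only depend on `n` modulo `9`. -/
theorem cub_om_congr {n n' : O} (hn : Primary n) (hn' : Primary n') (h : (9 : O) ∣ n - n') :
    cub n om = cub n' om := RecipA.om_congr hn hn' (RecipA.nine_dvd h)
theorem cub_lam_congr {n n' : O} (hn : Primary n) (hn' : Primary n') (h : (9 : O) ∣ n - n') :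
    cub n lam = cub n' lam := RecipA.lam_congr hn hn' h

/-- `n ↦ (c/n)₃` is periodic modulo `9c` on primary elements. -/
theorem cub_periodic {c n n' : O} (hc : c ≠ 0) (hn : Primary n) (hn' : Primary n')
    (h : 9 * c ∣ n - n') : cub n c = cub n' c := RecipA.periodic hc hn hn' h


/-- The quadratic Gauss sum as a function of the class modulo `4`:
`g4 n = (1/2) ∑_{y mod 2} e(-n y² / 4)`. -/
def g4 (n : O) : ℂ := (1 / 2) * ∑ y ∈ res 2, eq (-(n * y ^ 2)) 4

theorem g4_congr {n n' : O} (h : (4 : O) ∣ n - n') : g4 n = g4 n' :=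
  RecipB.G4_congr h
theorem norm_g4 {n : O} (hn : IsCoprime n 2) : ‖g4 n‖ = 1 :=
  RecipB.norm_G4 hn
theorem g4_mul_sq {n y : O} (hy : IsCoprime y 2) : g4 (n * y ^ 2) = g4 n :=
  RecipB.G4_mul_sq hy
theorem g4_one : g4 1 = 1 :=
  RecipB.G4_one
/-- Evaluation of the quadratic Gauss sum. -/
theorem gam_three {n : O} (hn : PO n) (hs : Squarefree n) : gam 3 n = g4 n :=
  RecipB.gam_three hn hs

/-- The reciprocity sign; a function of the classes modulo `4`. -/
def Rs (m n : O) : ℂ := g4 (m * n) * conj (g4 m) * conj (g4 n)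

theorem Rs_congr {m m' n n' : O} (hm : (4 : O) ∣ m - m') (hn : (4 : O) ∣ n - n') :
    Rs m n = Rs m' n' :=
  RecipB.RS_congr hm hn
theorem Rs_comm (m n : O) : Rs m n = Rs n m :=
  RecipB.RS_comm m n
theorem Rs_sq {m n : O} (hm : IsCoprime m 2) (hn : IsCoprime n 2) : Rs m n ^ 2 = 1 :=
  RecipB.RS_sq hm hn
theorem Rs_mul_left {m m' n : O} (hm : IsCoprime m 2) (hm' : IsCoprime m' 2) (hn : IsCoprime n 2) :
    Rs (m * m') n = Rs m n * Rs m' n :=
  RecipB.RS_mul_left hm hm' hn
theorem Rs_one_left {n : O} (hn : IsCoprime n 2) : Rs 1 n = 1 :=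
  RecipB.RS_one_left hn
theorem Rs_self {n : O} (hn : PO n) : Rs n n = sym n (-1) := by
  rw [sym, cub_neg_one, map_one, mul_one, RecipB.quad_neg_one hn]
  exact RecipB.RS_self_eq hn.2
/-- Quadratic reciprocity. -/
theorem quad_recip {m n : O} (hm : PO m) (hn : PO n) : quad m n = Rs m n * quad n m :=
  RecipB.recip hm hn
/-- Sextic reciprocity. -/
theorem sym_recip {m n : O} (hm : PO m) (hn : PO n) : sym m n = Rs m n * sym n m := by
  rw [sym, sym, quad_recip hm hn, cub_recip hm.1 hn.1, mul_assoc]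

theorem RecipB.sym_per {M n n' : O} (h72 : (72 : O) ∣ M) (hn : PO n) (hn' : PO n')
    (h : M ∣ n - n') {a : O} (ha : a ≠ 0) (hp : ∀ p ∈ pf a, p ∣ M) : sym n a = sym n' a := by
  have h4 : (4 : O) ∣ n - n' := ((show (4 : O) ∣ 72 from ⟨18, by norm_num⟩).trans h72).trans h
  have h8 : (8 : O) ∣ n - n' := ((show (8 : O) ∣ 72 from ⟨9, by norm_num⟩).trans h72).trans h
  have h9 : (9 : O) ∣ n - n' := ((show (9 : O) ∣ 72 from ⟨8, by norm_num⟩).trans h72).trans h
  refine RecipB.gen_induction (P := fun a => (∀ p ∈ pf a, p ∣ M) → sym n a = sym n' a)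
    ?_ ?_ ?_ ?_ ?_ ?_ ha hp
  · intro a b ha hb iha ihb hp
    rw [pf_mul ha hb] at hp
    rw [sym_mul_right hn, sym_mul_right hn', iha fun p h => hp p (Finset.mem_union_left _ h),
      ihb fun p h => hp p (Finset.mem_union_right _ h)]
  · intro _
    rw [sym_one_right, sym_one_right]
  · intro _
    rw [← Rs_self hn, ← Rs_self hn', Rs_congr h4 h4]
  · intro _
    rw [sym, sym, RecipB.quad_om hn, RecipB.quad_om hn', cub_om_congr hn.1 hn'.1 h9]
  · intro _
    rw [sym, sym, RecipB.quad_lam hn, RecipB.quad_lam hn', cub_lam_congr hn.1 hn'.1 h9,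
      RecipB.RS_congr (m' := lam) (by simp) h4]
  · intro p hp hp' hM
    have hd : rad p ∣ n - n' :=
      (rad_dvd p).trans ((hM p ((mem_pf hp.ne_zero).2 ⟨hp, hp', dvd_rfl⟩)).trans h)
    rcases RecipB.po_or hp hp' with rfl | h2
    · rw [sym, sym, RecipB.quad_neg_two_congr hn hn' h8, cub_recip hn.1 hp', cub_recip hn'.1 hp',
        cub_congr hd]
    · rw [sym_recip hn h2, sym_recip hn' h2, Rs_congr (n' := p) h4 (by simp), sym_congr hd]

/-- `n ↦ χ_n(a)` is periodic modulo `72 · rad a` on odd primary elements. -/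
theorem sym_periodic {a n n' : O} (ha : a ≠ 0) (hn : PO n) (hn' : PO n')
    (h : 72 * rad a ∣ n - n') : sym n a = sym n' a :=
  RecipB.sym_per (dvd_mul_right _ _) hn hn' h ha fun _ hp =>
    (Finset.dvd_prod_of_mem (fun p => p) hp).mul_left _

/-- If all primes of `s` divide `M` then `n ↦ χ_n(s)` is a character modulo `M`. -/
theorem exists_chr_sym {M s : O} (hM : Adm M) (hs : s ≠ 0) (h : ∀ p ∈ pf s, p ∣ M) :
    ∃ ν : Chr M, ∀ n, Primary n → IsCoprime n M → ev ν n = sym n s := by
  have h72 := hM.2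
  have hM1 : ¬ IsUnit M := fun hu => prime_lam.not_isUnit (isUnit_of_dvd_unit
    ((show lam ∣ 72 from ⟨-24 * lam, by linear_combination 24 * lam_sq⟩).trans h72) hu)
  have h0 : ∀ n, IsCoprime n M → n ≠ 0 := by
    rintro n hn rfl
    exact hM1 (isCoprime_zero_left.1 hn)
  have hu1 : ∀ u n : O, IsUnit u → n ≠ 0 → sym (u * n) s = sym n s := fun u n hu hn => by
    have : pf u = ∅ := by simpa using pf_unit_mul (n := 1) hu
    rw [sym_mul_left hu.ne_zero hn, sym_eq_prod u, this, Finset.prod_empty, one_mul]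
  obtain ⟨ν, hν⟩ := exists_chr (M := M) (fun n => sym n s) (sym_one_left s)
    (fun m n hm hn => sym_mul_left (h0 m hm) (h0 n hn) s) (fun m n hm hmn => by
      have hn : IsCoprime n M := by
        obtain ⟨t, ht⟩ := hmn
        rw [sub_eq_iff_eq_add'.1 ht] at hm
        exact hm.of_add_mul_left_left
      have hl : ¬ lam ∣ m := fun hd => prime_lam.not_isUnit (hm.isUnit_of_dvd' hd
        ((show lam ∣ 72 from ⟨-24 * lam, by linear_combination 24 * lam_sq⟩).trans h72))
      obtain ⟨u, hu, hum⟩ := exists_unit_primary hl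
      have hd : M ∣ u * m - u * n := by
        rw [← mul_sub]
        exact hmn.mul_left _
      have hun : Primary (u * n) := by
        have h3 := ((show (3 : O) ∣ 72 from ⟨24, by norm_num⟩).trans h72).trans hd
        have := dvd_sub hum h3
        rwa [show u * m - 1 - (u * m - u * n) = u * n - 1 by ring] at this
      have hc : ∀ x, IsCoprime x M → IsCoprime (u * x) M := fun x hx =>
        (isCoprime_mul_unit_left_left hu x M).2 hx
      show sym m s = sym n s
      rw [← hu1 u m hu (h0 m hm), ← hu1 u n hu (h0 n hn)]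
      exact RecipB.sym_per h72 (PO.of_adm hM hum (hc m hm)) (PO.of_adm hM hun (hc n hn)) hd hs h)
  exact ⟨ν, fun n _ hn => hν n hn⟩

/-- The class function `G(n) = (2/n)₃ · g4 n` (a function of `n` modulo `4`). -/
def Gf (n : O) : ℂ := cub n 2 * g4 n

theorem Gf_congr {n n' : O} (hn : PO n) (hn' : PO n') (h : (4 : O) ∣ n - n') : Gf n = Gf n' := by
  have h2 : Primary (-2) := ⟨-1, by ring⟩
  have key : ∀ n, Primary n → cub n 2 = cub (-2) n := fun n hn => by
    rw [← cub_recip hn h2, ← neg_one_mul (2 : O), cub_mul_right, cub_neg_one, one_mul]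
  rw [Gf, Gf, g4_congr h, key n hn.1, key n' hn'.1,
    cub_congr (((rad_dvd (-2)).trans ⟨-2, by ring⟩).trans h)]
theorem norm_Gf {n : O} (hn : PO n) : ‖Gf n‖ = 1 := by
  rw [Gf, norm_mul, norm_cub hn.1 hn.2, norm_g4 hn.2, one_mul]
theorem Gf_mul {m n : O} (hm : PO m) (hn : PO n) : Gf (m * n) = Gf m * Gf n * Rs m n := by
  have h : g4 (m * n) = g4 m * g4 n * Rs m n := RecipB.G4_mul hm.2 hn.2
  rw [Gf, Gf, Gf, cub_mul_left hm.1.ne_zero hn.1.ne_zero, h]
  ring
theorem Gf_one : Gf 1 = 1 := by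
  rw [Gf, g4_one, cub_one_left, one_mul]
/-- The conversion of Möbius coefficients into theta coefficients. -/
theorem mu_gam_five {n : O} (hn : PO n) (hs : Squarefree n) :
    mu n * gam 5 n = Gf n * th n := by
  have hth : ∀ n, Primary n → Squarefree n →
      th n = gc n 1 / (Real.sqrt (nr n) : ℂ) * conj (arg n) := fun n hn hs => by
    obtain ⟨h1, h2, h3⟩ := sq1_cu hn hs primary_one
    rw [one_pow, mul_one] at h1 h2 h3
    rw [th, if_pos ⟨hn, h3⟩, h1, h2]
    simp [nr]
  rw [hth n hn.1 hs]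
  refine RecipB.PO_induction (P := fun n => Squarefree n →
    mu n * gam 5 n = Gf n * (gc n 1 / (Real.sqrt (nr n) : ℂ) * conj (arg n))) ?_ ?_ hn hs
  · intro _
    simp [Gf_one, arg]
  · intro p n hp hp' hn ih hs
    have hc : IsCoprime p n := (squarefree_mul_iff.1 hs).1.isCoprime
    have h1 := ih (squarefree_mul_iff.1 hs).2.2
    have h2 := mu_gam_five_prime hp hp'
    have h3 : sym p 4 = cub p 2 := by
      rw [← sym_sq hp'.1, ← sym_pow_right hp']
      norm_num
    rw [h3, gam_three hp' hp.squarefree, ← Gf, gam.eq_1 2, gs_two hp'.1] at h2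
    have h4 : gam 5 (p * n) = sym p n ^ 5 * sym n p ^ 5 * gam 5 p * gam 5 n := by
      rw [gam, gam, gam, gs_mul 5 hp' hn hc, RecipB.sqrt_mul]
      ring
    have h5 : sym p n ^ 5 * sym n p ^ 5 = Rs p n * (cub p n * cub n p) := by
      have hR := Rs_sq hp'.2 hn.2
      have h6 := sym_pow_six hn.1 hc.symm
      rw [← sym_sq hp'.1, ← sym_sq hn.1, sym_recip hp' hn]
      generalize Rs p n = R at *
      generalize sym n p = t at *
      linear_combination (R ^ 5 * t ^ 4) * h6 + (R ^ 3 * t ^ 4) * hR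
    rw [mu_mul hp'.1 hn.1 hc, mu_prime hp hp'.1, h4, h5, Gf_mul hp' hn, gc_mul hp'.1 hn.1 hc,
      arg_mul, map_mul, RecipB.sqrt_mul]
    calc _ = Rs p n * (cub p n * cub n p) * (-gam 5 p) * (mu n * gam 5 n) := by ring
      _ = _ := by rw [h1, h2]; ring

end Crest.Agent.R17
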