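import Crest.Agent.PVc.R17.Defs

/-!
# Row 17: proofs for the first section of `Weight.lean` (log-Gaussian weight, Mellin, Gamma)
-/

set_option autoImplicit false

noncomputable section

namespace Crest.Agent.R17.WA

open scoped ComplexConjugate
open MeasureTheory

theorem norm_Wc {y : ℝ} (s : ℂ) :
    ‖Wc y s‖ = Real.exp (-(Real.log y) ^ 2 + s.re * Real.log y) := by
  rw [Wc, Complex.norm_exp]
  congr 1
  generalize Real.log y = L
  simp [sq]

theorem norm_Wc_le (y : ℝ) (s : ℂ) : ‖Wc y s‖ ≤ Real.exp (s.re ^ 2 / 4) := by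
  rw [norm_Wc]
  exact Real.exp_le_exp.2 (by nlinarith [sq_nonneg (Real.log y - s.re / 2)])

theorem cpow_eq {y : ℝ} (hy : 0 < y) (t : ℂ) :
    (y : ℂ) ^ t = Complex.exp (t * (Real.log y : ℂ)) := by
  rw [Complex.cpow_def_of_ne_zero (by exact_mod_cast hy.ne'), Complex.ofReal_log hy.le, mul_comm]

theorem Wc_add {y : ℝ} (hy : 0 < y) (s t : ℂ) : Wc y (s + t) = Wc y s * (y : ℂ) ^ t := by
  rw [cpow_eq hy, Wc, Wc, ← Complex.exp_add]
  congr 1
  ring

theorem conj_Wc (y : ℝ) (s : ℂ) : conj (Wc y s) = Wc y (conj s) := by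
  rw [Wc, Wc, ← Complex.exp_conj]
  generalize Real.log y = L
  simp

theorem Wc_shift {y : ℝ} (hy : 0 < y) (s : ℂ) (σ : ℝ) :
    Wc y (s + σ) = Complex.exp ((σ : ℂ) ^ 2 / 4 + s * σ / 2) * Wc (y / Real.exp (σ / 2)) s := by
  rw [Wc, Wc, ← Complex.exp_add, Real.log_div hy.ne' (Real.exp_pos _).ne', Real.log_exp]
  congr 1
  generalize Real.log y = L
  push_cast
  ring

theorem norm_Wc_le_rpow (A B : ℝ) : ∃ C : ℝ, 0 < C ∧ ∀ (y : ℝ) (s : ℂ), 0 < y → |s.re| ≤ B →
    ‖Wc y s‖ ≤ C * y ^ A := by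
  refine ⟨Real.exp ((B + |A|) ^ 2 / 4), Real.exp_pos _, fun y s hy hs => ?_⟩
  rw [norm_Wc, Real.rpow_def_of_pos hy, ← Real.exp_add]
  refine Real.exp_le_exp.2 ?_
  have h1 : |s.re - A| ≤ B + |A| := (abs_sub _ _).trans (by linarith)
  have h2 : (s.re - A) ^ 2 ≤ (B + |A|) ^ 2 := by
    rw [← sq_abs (s.re - A)]
    exact pow_le_pow_left₀ (abs_nonneg _) h1 2
  nlinarith [sq_nonneg (Real.log y - (s.re - A) / 2)]

theorem cpow_half {x : ℝ} (hx : 0 ≤ x) : (x : ℂ) ^ (1 / 2 : ℂ) = (Real.sqrt x : ℂ) := by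
  rw [Real.sqrt_eq_rpow, Complex.ofReal_cpow hx]
  norm_num

theorem gauss_one (c d : ℂ) : ∫ x : ℝ, Complex.exp (-1 * (x : ℂ) ^ 2 + c * x + d) =
    (Real.sqrt Real.pi : ℂ) * Complex.exp (d + c ^ 2 / 4) := by
  rw [integral_cexp_quadratic (by simp), neg_neg, div_one, cpow_half Real.pi_pos.le]
  congr 2
  ring


theorem Wc_eq_integral {y : ℝ} (hy : 0 < y) (σ : ℝ) (t : ℂ) :
    Wc y t = (1 / (2 * Real.pi) : ℂ) *
      ∫ u : ℝ, Wm (σ + u * Complex.I + t) * (y : ℂ) ^ (-(σ + u * Complex.I)) := by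
  have h : ∀ u : ℝ, Wm (σ + u * Complex.I + t) * (y : ℂ) ^ (-(σ + u * Complex.I)) =
      (Real.sqrt Real.pi : ℂ) * Complex.exp (-(1 / 4) * (u : ℂ) ^ 2 +
        (Complex.I * ((σ + t) / 2 - Real.log y)) * u + ((σ + t) ^ 2 / 4 - σ * Real.log y)) := by
    intro u
    rw [cpow_eq hy, Wm, mul_assoc, ← Complex.exp_add]
    congr 2
    linear_combination ((u : ℂ) ^ 2 / 4) * Complex.I_sq
  simp_rw [h]
  rw [integral_const_mul, integral_cexp_quadratic (by norm_num)]
  have h1 : ((Real.pi : ℂ) / -(-(1 / 4))) = ((4 * Real.pi : ℝ) : ℂ) := by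
    push_cast; ring
  have h2 : Real.sqrt (4 * Real.pi) = 2 * Real.sqrt Real.pi := by
    rw [Real.sqrt_mul (by norm_num), show (4 : ℝ) = 2 ^ 2 by norm_num, Real.sqrt_sq (by norm_num)]
  have h3 : (Real.sqrt Real.pi : ℂ) * Real.sqrt Real.pi = Real.pi := by
    exact_mod_cast Real.mul_self_sqrt Real.pi_pos.le
  have h4 : (Real.pi : ℂ) ≠ 0 := by exact_mod_cast Real.pi_ne_zero
  have h5 : ((σ : ℂ) + t) ^ 2 / 4 - σ * Real.log y -
      (Complex.I * ((σ + t) / 2 - Real.log y)) ^ 2 / (4 * -(1 / 4)) =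
      -((Real.log y : ℂ)) ^ 2 + t * (Real.log y : ℂ) := by
    rw [mul_pow, Complex.I_sq]
    ring
  rw [h1, cpow_half (by positivity), h2, h5, Wc]
  push_cast
  field_simp
  linear_combination -h3

theorem norm_Wm (s : ℂ) :
    ‖Wm s‖ = Real.sqrt Real.pi * Real.exp ((s.re ^ 2 - s.im ^ 2) / 4) := by
  rw [Wm, norm_mul, Complex.norm_exp, Complex.norm_real, Real.norm_of_nonneg (Real.sqrt_nonneg _)]
  congr 2
  simp [sq]

theorem Wm_ne_zero (s : ℂ) : Wm s ≠ 0 :=
  mul_ne_zero (by exact_mod_cast (Real.sqrt_pos.2 Real.pi_pos).ne') (Complex.exp_ne_zero _)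

theorem differentiable_Wm : Differentiable ℂ Wm := by
  unfold Wm
  fun_prop

theorem integral_Wc_scale {y : ℝ} (hy : 0 < y) :
    ∫ v : ℝ, Wc (y / Real.exp v) 0 = (Real.sqrt Real.pi : ℂ) := by
  have h : ∀ v : ℝ, Wc (y / Real.exp v) 0 = Complex.exp (-1 * (v : ℂ) ^ 2 +
      (2 * Real.log y) * v + -(Real.log y : ℂ) ^ 2) := by
    intro v
    rw [Wc, Real.log_div hy.ne' (Real.exp_pos _).ne', Real.log_exp]
    congr 1
    generalize Real.log y = L
    push_cast
    ring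
  simp_rw [h]
  rw [gauss_one, show -(Real.log y : ℂ) ^ 2 + (2 * Real.log y) ^ 2 / 4 = 0 by ring,
    Complex.exp_zero, mul_one]

theorem norm_Gamma_le {s : ℂ} (hs : 0 < s.re) : ‖Complex.Gamma s‖ ≤ Real.Gamma s.re := by
  rw [Complex.Gamma_eq_integral hs, Real.Gamma_eq_integral hs, Complex.GammaIntegral]
  refine (norm_integral_le_integral_norm _).trans (le_of_eq ?_)
  refine setIntegral_congr_fun measurableSet_Ioi fun x hx => ?_
  have hx' : 0 < x := hx
  simp only [norm_mul, Complex.norm_real, Real.norm_of_nonneg (Real.exp_pos _).le,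
    Complex.norm_cpow_eq_rpow_re_of_pos hx', Complex.sub_re, Complex.one_re]

theorem norm_Gamma_mul_pow_le {s : ℂ} (hs : 0 < s.re) (n : ℕ) :
    ‖Complex.Gamma s‖ * ‖s‖ ^ n ≤ ‖Complex.Gamma (s + n)‖ := by
  induction n with
  | zero => simp
  | succ n ih =>
    have hre : 0 < (s + n).re := by simp; positivity
    have hne : s + n ≠ 0 := fun h => by rw [h] at hre; simp at hre
    have h1 : ‖s‖ ≤ ‖s + n‖ := by
      rw [← sq_le_sq₀ (norm_nonneg _) (norm_nonneg _), Complex.sq_norm, Complex.sq_norm,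
        Complex.normSq_apply, Complex.normSq_apply]
      simp only [Complex.add_re, Complex.natCast_re, Complex.add_im, Complex.natCast_im, add_zero]
      have : (0 : ℝ) ≤ n := n.cast_nonneg
      nlinarith
    rw [Nat.cast_succ, ← add_assoc, Complex.Gamma_add_one _ hne, norm_mul, pow_succ, ← mul_assoc,
      mul_comm ‖s + n‖]
    exact mul_le_mul ih h1 (norm_nonneg _) (norm_nonneg _)

theorem continuous_Gamma_line {σ : ℝ} (hσ : 0 < σ) :
    Continuous fun u : ℝ => Complex.Gamma (σ + u * Complex.I) := by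
  rw [continuous_iff_continuousAt]
  intro u
  refine ContinuousAt.comp (f := fun u : ℝ => (σ : ℂ) + u * Complex.I)
    (Complex.continuousAt_Gamma _ fun m h => ?_) (by fun_prop)
  have := congrArg Complex.re h
  simp at this
  have : (0 : ℝ) ≤ m := m.cast_nonneg
  linarith

theorem integrable_Gamma_mul_pow {σ : ℝ} (hσ : 0 < σ) (J : ℕ) :
    Integrable (fun u : ℝ => ‖Complex.Gamma (σ + u * Complex.I)‖ * (1 + |u|) ^ J) := by
  set c : ℝ := 1 / σ + 1 with hc
  have hc0 : 0 < c := by positivity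
  refine (integrable_inv_one_add_sq.const_mul
    (Real.Gamma (σ + (J + 2 : ℕ)) * c ^ (J + 2))).mono' ?_ (Filter.Eventually.of_forall fun u => ?_)
  · exact ((continuous_Gamma_line hσ).norm.mul (by fun_prop)).aestronglyMeasurable
  · set s : ℂ := σ + u * Complex.I with hs
    have hre : s.re = σ := by simp [hs]
    have him : s.im = u := by simp [hs]
    have h1 : σ ≤ ‖s‖ := hre ▸ Complex.re_le_norm s
    have h2 : |u| ≤ ‖s‖ := him ▸ Complex.abs_im_le_norm s
    have h3 : 1 + |u| ≤ c * ‖s‖ := by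
      have : 1 ≤ 1 / σ * ‖s‖ := by
        rw [one_div, ← div_eq_inv_mul, le_div_iff₀ hσ]; linarith
      rw [hc]; linarith
    have h4 := (norm_Gamma_mul_pow_le (s := s) (by rw [hre]; exact hσ) (J + 2)).trans
      (norm_Gamma_le (by simp [hre]; positivity))
    have h5 : (s + ((J + 2 : ℕ) : ℂ)).re = σ + (J + 2 : ℕ) := by simp [hre]
    rw [h5] at h4
    have h6 : (1 + |u|) ^ (J + 2) ≤ c ^ (J + 2) * ‖s‖ ^ (J + 2) := by
      rw [← mul_pow]
      exact pow_le_pow_left₀ (by positivity) h3 _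
    have h7 : 1 + u ^ 2 ≤ (1 + |u|) ^ 2 := by
      rw [← sq_abs u]; nlinarith [abs_nonneg u]
    rw [Real.norm_of_nonneg (by positivity), ← div_eq_mul_inv, le_div_iff₀ (by positivity)]
    calc ‖Complex.Gamma s‖ * (1 + |u|) ^ J * (1 + u ^ 2)
        ≤ ‖Complex.Gamma s‖ * (1 + |u|) ^ J * (1 + |u|) ^ 2 := by gcongr
      _ = ‖Complex.Gamma s‖ * (1 + |u|) ^ (J + 2) := by ring
      _ ≤ ‖Complex.Gamma s‖ * (c ^ (J + 2) * ‖s‖ ^ (J + 2)) := by gcongr
      _ = ‖Complex.Gamma s‖ * ‖s‖ ^ (J + 2) * c ^ (J + 2) := by ring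
      _ ≤ Real.Gamma (σ + (J + 2 : ℕ)) * c ^ (J + 2) := by gcongr

theorem gw_eq_integral {x σ : ℝ} (hx : 0 < x) (hσ : 0 < σ) :
    (gw x : ℂ) = (1 / (2 * Real.pi) : ℂ) * ∫ u : ℝ, Complex.Gamma (σ + u * Complex.I) *
      ((2 * Real.pi / Real.sqrt 3 * x : ℝ) : ℂ) ^ (-(σ + u * Complex.I)) := by
  have hX : 0 < 2 * Real.pi / Real.sqrt 3 * x := by positivity
  have hm : ∀ u : ℝ, mellin (fun x : ℝ => (Real.exp (-x) : ℂ)) (σ + u * Complex.I) =
      Complex.Gamma (σ + u * Complex.I) := by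
    intro u
    rw [← Complex.GammaIntegral_eq_mellin, Complex.Gamma_eq_integral (by simpa using hσ)]
  have h := mellinInv_mellin_eq σ (fun x : ℝ => (Real.exp (-x) : ℂ)) hX
    (by
      have := Complex.GammaIntegral_convergent (s := σ) (by simpa using hσ)
      simpa only [MellinConvergent, smul_eq_mul, mul_comm] using this)
    (by
      have h0 := integrable_Gamma_mul_pow hσ 0
      simp only [pow_zero, mul_one] at h0
      simp only [Complex.VerticalIntegrable, hm]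
      exact (integrable_norm_iff (continuous_Gamma_line hσ).aestronglyMeasurable).1 h0)
    (by fun_prop)
  rw [gw, neg_mul, ← h, mellinInv]
  simp only [hm, smul_eq_mul, Complex.real_smul]
  congr 1
  · push_cast
    rfl
  · exact integral_congr_ae (Filter.Eventually.of_forall fun u => mul_comm _ _)

theorem integrable_Wm_mul_pow (σ : ℝ) (J : ℕ) :
    Integrable (fun u : ℝ => ‖Wm (σ + u * Complex.I)‖ * (1 + |u|) ^ J) := by
  refine ((integrable_exp_neg_mul_sq (b := 1 / 8) (by norm_num)).const_mul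
    (Real.sqrt Real.pi * Real.exp (σ ^ 2 / 4 + 2 * J ^ 2))).mono' ?_
    (Filter.Eventually.of_forall fun u => ?_)
  · exact ((differentiable_Wm.continuous.comp (by fun_prop)).norm.mul
      (by fun_prop)).aestronglyMeasurable
  · rw [Real.norm_of_nonneg (by positivity), norm_Wm]
    have hre : ((σ : ℂ) + u * Complex.I).re = σ := by simp
    have him : ((σ : ℂ) + u * Complex.I).im = u := by simp
    have h1 : (1 + |u|) ^ J ≤ Real.exp (J * |u|) := by
      rw [Real.exp_nat_mul]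
      exact pow_le_pow_left₀ (by positivity) (by linarith [Real.add_one_le_exp |u|]) _
    rw [hre, him, mul_assoc, mul_assoc, ← Real.exp_add]
    refine mul_le_mul_of_nonneg_left ?_ (Real.sqrt_nonneg _)
    refine (mul_le_mul_of_nonneg_left h1 (Real.exp_pos _).le).trans ?_
    rw [← Real.exp_add, Real.exp_le_exp, ← sq_abs u]
    nlinarith [sq_nonneg (|u| - 4 * J)]

end Crest.Agent.R17.WA
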