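import Crest.Agent.PVc.R17.Poisson
import Crest.Agent.PVc.R17.Contour
import Crest.Agent.PVc.R17.LBasicAuxG
import Crest.Agent.PVc.R17.LBasicAuxA
import Crest.Agent.PVc.R17.LS2Ker
import Crest.Agent.PVc.R17.Recip
import Crest.Agent.PVc.R17.Weight

-- ▼ part PVc/R17/LBasicAuxD1
section

/-!
# Row 17, reflection of plain sums (`Pln_reflect`): the Hankel transform of `Wc`
-/

set_option autoImplicit false

noncomputable section

namespace Crest.Agent.R17.LBD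

open scoped ComplexConjugate
open MeasureTheory Complex Classical

/-- The gamma factor of the functional equation. -/
def gamR (w : ℂ) : ℂ :=
  ((2 * Real.pi / Real.sqrt 3 : ℝ) : ℂ) ^ (2 * w - 1) * Gamma (1 - w) / Gamma w

/-- The Mellin density of the Hankel transform of `Wc · s`. -/
def Kg (w s : ℂ) : ℂ := (1 / (2 * Real.pi) : ℂ) * Wm (w + s) * gamR w

/-- The Hankel transform of `Wc · s`. -/
def Vg (y : ℝ) (s : ℂ) : ℂ :=
  ∫ u : ℝ, Kg (1 / 2 + u * I) s * (y : ℂ) ^ ((1 / 2 + u * I : ℂ) - 1)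

/-! ### Auxiliary facts on `gamR` -/

theorem c0_pos : 0 < 2 * Real.pi / Real.sqrt 3 := lt_of_lt_of_le (by norm_num) pois_three_le

theorem c0_ne : ((2 * Real.pi / Real.sqrt 3 : ℝ) : ℂ) ≠ 0 := ofReal_ne_zero.2 c0_pos.ne'

theorem one_sub_ne {w : ℂ} (hw : w.re < 1) (m : ℕ) : 1 - w ≠ -m := fun h => by
  have h1 := congrArg Complex.re h
  simp only [sub_re, one_re, neg_re, natCast_re] at h1
  have : (0 : ℝ) ≤ m := m.cast_nonneg
  linarith

theorem differentiableAt_gamR {w : ℂ} (hw : w.re < 1) : DifferentiableAt ℂ gamR w := by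
  have h1 : DifferentiableAt ℂ
      (fun w : ℂ => ((2 * Real.pi / Real.sqrt 3 : ℝ) : ℂ) ^ (2 * w - 1)) w :=
    DifferentiableAt.const_cpow (by fun_prop) (Or.inl c0_ne)
  have h2 : DifferentiableAt ℂ (fun w : ℂ => Gamma (1 - w)) w :=
    (differentiableAt_Gamma _ (one_sub_ne hw)).comp w (f := fun w : ℂ => 1 - w) (by fun_prop)
  have h3 : DifferentiableAt ℂ (fun w : ℂ => (Gamma w)⁻¹) w := differentiable_one_div_Gamma w
  have e : gamR = fun w : ℂ => ((2 * Real.pi / Real.sqrt 3 : ℝ) : ℂ) ^ (2 * w - 1) *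
      Gamma (1 - w) * (Gamma w)⁻¹ := by
    funext w
    rw [gamR, div_eq_mul_inv]
  rw [e]
  exact (h1.mul h2).mul h3

theorem inv_Gamma_eq {w : ℂ} (hw : w.re < 1) :
    (Gamma w)⁻¹ = Gamma (1 - w) * Complex.sin (Real.pi * w) / Real.pi := by
  have g2 := Gamma_ne_zero (one_sub_ne hw)
  have h3 := Gamma_mul_Gamma_one_sub w
  have hpi : (Real.pi : ℂ) ≠ 0 := ofReal_ne_zero.2 Real.pi_ne_zero
  by_cases g3 : Complex.sin (Real.pi * w) = 0
  · rw [g3, div_zero] at h3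
    rw [(mul_eq_zero.1 h3).resolve_right g2, g3]
    simp
  · have g1 : Gamma w ≠ 0 := fun h => by
      rw [h, zero_mul] at h3
      exact div_ne_zero hpi g3 h3.symm
    rw [eq_div_iff g3] at h3
    rw [eq_div_iff hpi, inv_mul_eq_iff_eq_mul₀ g1, ← mul_assoc, h3]

/-- A crude bound for the gamma factor in a strip left of `Re w = 1/2`. -/
theorem norm_gamR_strip (σ₀ : ℝ) : ∃ K : ℝ, 0 < K ∧ ∀ w : ℂ, σ₀ ≤ w.re → w.re ≤ 1 / 2 →
    ‖gamR w‖ ≤ K * Real.exp (4 * |w.im|) := by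
  obtain ⟨K, hK, hK'⟩ := LG.Gamma_bdd (σ₀ := 1 / 2) (σ₁ := 1 - σ₀) (by norm_num)
  refine ⟨K * K, by positivity, fun w h0 h1 => ?_⟩
  have hw : w.re < 1 := by linarith
  have h4 : ‖Gamma (1 - w)‖ ≤ K := by
    refine (WA.norm_Gamma_le ?_).trans (hK' _ ?_ ?_)
    all_goals simp only [sub_re, one_re]; linarith
  have h5 : ‖Complex.sin (Real.pi * w)‖ ≤ Real.exp (4 * |w.im|) := by
    refine (LG.norm_sin_le _).trans (Real.exp_le_exp.2 ?_)
    rw [im_ofReal_mul, abs_mul, abs_of_pos Real.pi_pos]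
    exact mul_le_mul_of_nonneg_right Real.pi_lt_four.le (abs_nonneg _)
  have h6 : ‖((2 * Real.pi / Real.sqrt 3 : ℝ) : ℂ) ^ (2 * w - 1)‖ ≤ 1 := by
    rw [norm_cpow_line c0_pos]
    refine Real.rpow_le_one_of_one_le_of_nonpos (le_trans (by norm_num) pois_three_le) ?_
    simp only [sub_re, mul_re, re_ofNat, im_ofNat, one_re]
    linarith
  have h7 : ‖(Gamma w)⁻¹‖ ≤ K * Real.exp (4 * |w.im|) := by
    rw [inv_Gamma_eq hw, norm_div, norm_mul, Complex.norm_real, Real.norm_of_nonneg Real.pi_pos.le]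
    refine (div_le_self (by positivity) (by linarith [Real.pi_gt_three])).trans ?_
    exact mul_le_mul h4 h5 (norm_nonneg _) hK.le
  rw [gamR, div_eq_mul_inv, norm_mul, norm_mul]
  calc _ ≤ 1 * K * (K * Real.exp (4 * |w.im|)) := by gcongr
    _ = _ := by ring

theorem norm_gamR_half (u : ℝ) : ‖gamR (1 / 2 + u * I)‖ = 1 := by
  have e : (1 : ℂ) - (1 / 2 + u * I) = conj (1 / 2 + u * I) := by
    apply Complex.ext <;> simp
    norm_num
  have hne : Gamma (1 / 2 + u * I) ≠ 0 := Gamma_ne_zero_of_re_pos (by simp)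
  have e2 : (2 * (1 / 2 + u * I) - 1 : ℂ).re = 0 := by simp
  rw [gamR, norm_div, norm_mul, norm_cpow_line c0_pos, e2, Real.rpow_zero, one_mul, e, Gamma_conj,
    Complex.norm_conj, div_self (norm_ne_zero_iff.2 hne)]

theorem norm_gamR_sub_one {w : ℂ} (hw : w.re < 1) : ‖gamR (w - 1)‖ ≤ ‖w - 1‖ ^ 2 * ‖gamR w‖ := by
  have h1 : (1 : ℂ) - w ≠ 0 := by simpa using one_sub_ne hw 0
  have h2 : w - 1 ≠ 0 := fun h => h1 (by linear_combination -h)
  have e1 : Gamma (1 - (w - 1)) = (1 - w) * Gamma (1 - w) := by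
    rw [← Gamma_add_one _ h1]; congr 1; ring
  have e2 : (Gamma (w - 1))⁻¹ = (w - 1) * (Gamma w)⁻¹ := by
    have := Gamma_add_one _ h2
    rw [sub_add_cancel] at this
    rw [this, mul_inv, ← mul_assoc, mul_inv_cancel₀ h2, one_mul]
  have h3 : ‖((2 * Real.pi / Real.sqrt 3 : ℝ) : ℂ) ^ (2 * (w - 1) - 1)‖ ≤
      ‖((2 * Real.pi / Real.sqrt 3 : ℝ) : ℂ) ^ (2 * w - 1)‖ := by
    rw [norm_cpow_line c0_pos, norm_cpow_line c0_pos]
    refine Real.rpow_le_rpow_of_exponent_le (le_trans (by norm_num) pois_three_le) ?_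
    simp only [sub_re, mul_re, re_ofNat, im_ofNat, one_re, sub_im, one_im]
    linarith
  rw [gamR, gamR, div_eq_mul_inv _ (Gamma (w - 1)), div_eq_mul_inv _ (Gamma w), e1, e2]
  simp only [norm_mul]
  rw [norm_sub_rev 1 w]
  calc _ ≤ ‖((2 * Real.pi / Real.sqrt 3 : ℝ) : ℂ) ^ (2 * w - 1)‖ * (‖w - 1‖ * ‖Gamma (1 - w)‖) *
        (‖w - 1‖ * ‖(Gamma w)⁻¹‖) := by gcongr
    _ = _ := by ring

theorem Kg_mul_eq (w s : ℂ) {y : ℝ} (hy : 0 < y) : Kg w s * (y : ℂ) ^ (w - 1) =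
    Wm (w + s) * (y : ℂ) ^ w * ((1 / (2 * Real.pi) : ℂ) * (y : ℂ)⁻¹ * gamR w) := by
  have : (y : ℂ) ≠ 0 := ofReal_ne_zero.2 hy.ne'
  rw [Kg, cpow_sub _ _ this, cpow_one]
  ring

theorem continuous_Kg_half (s : ℂ) : Continuous fun u : ℝ => Kg (1 / 2 + u * I) s := by
  have h1 : Continuous fun u : ℝ => gamR (1 / 2 + u * I) := by
    refine continuous_iff_continuousAt.2 fun u => ?_
    exact ContinuousAt.comp (f := fun u : ℝ => (1 / 2 + u * I : ℂ))
      (differentiableAt_gamR (by simp; norm_num)).continuousAt (by fun_prop)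
  have h2 : Continuous fun u : ℝ => Wm (1 / 2 + u * I + s) :=
    differentiable_Wm.continuous.comp (by fun_prop)
  exact (continuous_const.mul h2).mul h1

theorem norm_Kg_half (u τ : ℝ) : ‖Kg (1 / 2 + u * I) (τ * I)‖ ≤ Real.exp (-(u + τ) ^ 2 / 4) := by
  have e1 : (1 / 2 + u * I + τ * I : ℂ).re = 1 / 2 := by simp
  have e2 : (1 / 2 + u * I + τ * I : ℂ).im = u + τ := by simp
  have hpi := Real.pi_gt_three
  have e3 : ‖(1 / (2 * Real.pi) : ℂ)‖ = 1 / (2 * Real.pi) := by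
    rw [norm_div, norm_mul, Complex.norm_real, Real.norm_of_nonneg Real.pi_pos.le]
    simp
  rw [Kg, norm_mul, norm_mul, norm_gamR_half, mul_one, norm_Wm, e1, e2, e3,
    show ((1 / 2 : ℝ) ^ 2 - (u + τ) ^ 2) / 4 = 1 / 16 + -(u + τ) ^ 2 / 4 by ring, Real.exp_add]
  have h1 : √Real.pi ≤ 2 := by
    rw [Real.sqrt_le_left (by norm_num)]
    linarith [Real.pi_lt_four]
  have h2 : Real.exp (1 / 16) ≤ 3 :=
    (Real.exp_le_exp.2 (by norm_num : (1 / 16 : ℝ) ≤ 1)).trans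
      (by linarith [Real.exp_one_lt_d9])
  calc _ ≤ 1 / (2 * 3) * (2 * (3 * Real.exp (-(u + τ) ^ 2 / 4))) := by gcongr
    _ = _ := by ring

/-- The line of integration may be moved to `Re w = 1/2 - k`. -/
theorem Vg_eq (k : ℕ) {y : ℝ} (hy : 0 < y) (s : ℂ) :
    Vg y s = ∫ u : ℝ, Kg ((1 / 2 - k : ℝ) + u * I) s *
      (y : ℂ) ^ ((((1 / 2 - k : ℝ) : ℂ) + u * I) - 1) := by
  have hk : (0 : ℝ) ≤ k := k.cast_nonneg
  obtain ⟨K, hK, hK'⟩ := norm_gamR_strip (1 / 2 - k)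
  have hy' : (y : ℂ) ≠ 0 := ofReal_ne_zero.2 hy.ne'
  have hd : DifferentiableOn ℂ (fun w : ℂ => Kg w s * (y : ℂ) ^ (w - 1))
      (strip (1 / 2 - k) (1 / 2)) := fun w hw => by
    refine DifferentiableAt.differentiableWithinAt ?_
    have h1 : DifferentiableAt ℂ (fun w : ℂ => Wm (w + s)) w :=
      (differentiable_Wm.comp (differentiable_id.add_const s)) w
    exact (((differentiableAt_const _).mul h1).mul
      (differentiableAt_gamR (by linarith [hw.2]))).mul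
      (DifferentiableAt.const_cpow (by fun_prop) (Or.inl hy'))
  set B : ℝ := k + 1 / 2 + |s.re| with hB
  set Y : ℝ := y ^ (1 / 2 - k - 1 : ℝ) + y ^ (1 / 2 - 1 : ℝ) with hY
  have hb : ∀ w ∈ strip (1 / 2 - k) (1 / 2), (0 : ℝ) ≤ |w.im| →
      ‖Kg w s * (y : ℂ) ^ (w - 1)‖ ≤ (‖(1 / (2 * Real.pi) : ℂ)‖ * √Real.pi * K * Y *
        Real.exp (B ^ 2 / 4 + 36 + 6 * |s.im|)) / (1 + w.im ^ 2) := fun w hw _ => by
    have h3 : ‖(y : ℂ) ^ (w - 1)‖ ≤ Y := by
      rw [norm_cpow_line hy]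
      have p0 := Real.rpow_nonneg hy.le (1 / 2 - k - 1 : ℝ)
      have p1 := Real.rpow_nonneg hy.le (1 / 2 - 1 : ℝ)
      have q0 : (1 / 2 - k - 1 : ℝ) ≤ (w - 1).re := by
        simp only [sub_re, one_re]; linarith [hw.1]
      have q1 : (w - 1).re ≤ (1 / 2 - 1 : ℝ) := by
        simp only [sub_re, one_re]; linarith [hw.2]
      rcases le_total 1 y with h | h
      · linarith [Real.rpow_le_rpow_of_exponent_le h q1]
      · linarith [Real.rpow_le_rpow_of_exponent_ge hy h q0]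
    have h4 : |(w + s).re| ≤ B := by
      rw [add_re]
      refine (abs_add_le _ _).trans (add_le_add_left ?_ _)
      rw [abs_le]
      constructor <;> linarith [hw.1, hw.2]
    have h5 : (w + s).re ^ 2 ≤ B ^ 2 := by rw [← sq_abs]; gcongr
    have h6 : 1 + w.im ^ 2 ≤ Real.exp (2 * |w.im|) := by
      have := Real.add_one_le_exp |w.im|
      have a0 := abs_nonneg w.im
      rw [two_mul, Real.exp_add, ← sq_abs]
      nlinarith
    have h7 : |w.im| ≤ |w.im + s.im| + |s.im| := by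
      have := abs_sub_abs_le_abs_sub w.im (-s.im)
      rw [abs_neg, sub_neg_eq_add] at this
      linarith
    have hYn : 0 ≤ Y := (norm_nonneg _).trans h3
    rw [le_div_iff₀ (by positivity), Kg, norm_mul, norm_mul, norm_mul, norm_Wm]
    calc _ ≤ ‖(1 / (2 * Real.pi) : ℂ)‖ * (√Real.pi *
          Real.exp (((w + s).re ^ 2 - (w + s).im ^ 2) / 4)) * (K * Real.exp (4 * |w.im|)) * Y *
          Real.exp (2 * |w.im|) := by
          gcongr
          exact hK' w hw.1 hw.2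
      _ = ‖(1 / (2 * Real.pi) : ℂ)‖ * √Real.pi * K * Y *
          Real.exp (((w + s).re ^ 2 - (w + s).im ^ 2) / 4 + 4 * |w.im| + 2 * |w.im|) := by
          rw [Real.exp_add, Real.exp_add]; ring
      _ ≤ _ := by
          refine mul_le_mul_of_nonneg_left (Real.exp_le_exp.2 ?_) (by positivity)
          rw [add_im, ← sq_abs (w.im + s.im)]
          nlinarith [sq_nonneg (|w.im + s.im| / 2 - 6)]
  have h := contour_shift (F := fun w : ℂ => Kg w s * (y : ℂ) ^ (w - 1)) (by linarith) hd hb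
  rw [← h, Vg]
  simp only [one_div, ofReal_inv, ofReal_ofNat]

theorem norm_gamR_le (k : ℕ) : ∃ C : ℝ, 0 < C ∧ ∀ u : ℝ,
    ‖gamR ((1 / 2 - k : ℝ) + u * I)‖ ≤ C * (1 + |u|) ^ (2 * k) := by
  induction k with
  | zero =>
    refine ⟨1, one_pos, fun u => ?_⟩
    have := norm_gamR_half u
    simp only [CharP.cast_eq_zero, sub_zero, one_div, ofReal_inv, ofReal_ofNat, mul_zero, pow_zero,
      mul_one] at this ⊢
    exact this.le
  | succ k ih =>
    obtain ⟨C, hC, h⟩ := ih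
    have hk : (0 : ℝ) ≤ k := k.cast_nonneg
    refine ⟨(k + 1) ^ 2 * C, by positivity, fun u => ?_⟩
    have e : (((1 / 2 - (k + 1 : ℕ) : ℝ) : ℂ) + u * I) = (((1 / 2 - k : ℝ) : ℂ) + u * I) - 1 := by
      push_cast; ring
    have h1 : ‖(((1 / 2 - k : ℝ) : ℂ) + u * I) - 1‖ ≤ (k + 1) * (1 + |u|) := by
      refine (norm_le_abs_re_add_abs_im _).trans ?_
      have e1 : ((((1 / 2 - k : ℝ) : ℂ) + u * I) - 1).re = 1 / 2 - k - 1 := by simp
      have e2 : ((((1 / 2 - k : ℝ) : ℂ) + u * I) - 1).im = u := by simp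
      rw [e1, e2, abs_of_nonpos (by linarith)]
      nlinarith [abs_nonneg u]
    have hw : (((1 / 2 - k : ℝ) : ℂ) + u * I).re < 1 := by
      have e1 : (((1 / 2 - k : ℝ) : ℂ) + u * I).re = 1 / 2 - k := by simp
      rw [e1]; linarith
    rw [e]
    refine (norm_gamR_sub_one hw).trans ?_
    calc _ ≤ ((k + 1) * (1 + |u|)) ^ 2 * (C * (1 + |u|) ^ (2 * k)) := by
          gcongr
          exact h u
      _ = _ := by ring

theorem norm_Vg_le (k : ℕ) : ∃ C : ℝ, 0 < C ∧ ∀ y τ : ℝ, 0 < y →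
    ‖Vg y (τ * I)‖ ≤ C * (1 + |τ|) ^ (2 * k) * y ^ (-(1 / 2 + k : ℝ)) := by
  obtain ⟨C, hC, h⟩ := norm_gamR_le k
  obtain ⟨A, hA, hA'⟩ := norm_integral_Wm_le |(1 / 2 - k : ℝ)| (2 * k)
  have hc : 0 < ‖(1 / (2 * Real.pi) : ℂ)‖ := norm_pos_iff.2
    (one_div_ne_zero (mul_ne_zero two_ne_zero (ofReal_ne_zero.2 Real.pi_ne_zero)))
  refine ⟨A * (‖(1 / (2 * Real.pi) : ℂ)‖ * C), by positivity, fun y τ hy => ?_⟩
  have h1 := hA' (fun u : ℝ => (1 / (2 * Real.pi) : ℂ) * (y : ℂ)⁻¹ *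
      gamR ((1 / 2 - k : ℝ) + u * I)) (1 / 2 - k) (‖(1 / (2 * Real.pi) : ℂ)‖ * y⁻¹ * C) y (τ * I) hy
      (by simp) fun u => by
    rw [norm_mul, norm_mul, norm_inv, Complex.norm_real, Real.norm_of_nonneg hy.le, mul_assoc _ C]
    gcongr
    exact h u
  rw [Vg_eq k hy]
  simp_rw [Kg_mul_eq _ _ hy]
  refine h1.trans_eq ?_
  have e1 : ((τ : ℂ) * I).im = τ := by simp
  rw [e1, show (-(1 / 2 + k) : ℝ) = (1 / 2 - k) - 1 by ring, Real.rpow_sub hy (1 / 2 - k) 1,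
    Real.rpow_one]
  ring

theorem summable_Vg {b : O → ℂ} {H : ℝ} (h0 : b 0 = 0) (hb : ∀ h, ‖b h‖ ≤ H) {Z : ℝ} (hZ : 0 < Z)
    (τ : ℝ) : Summable fun h : O => b h * Vg (Z * nr h) (τ * I) := by
  obtain ⟨C, hC, h⟩ := norm_Vg_le 1
  have hH : 0 ≤ H := (norm_nonneg _).trans (hb 0)
  refine Summable.of_norm_bounded ((summable_nr_rpow (σ := 3 / 2) (by norm_num)).mul_left
    (H * (C * (1 + |τ|) ^ (2 * 1) * Z ^ (-(3 / 2) : ℝ)))) fun n => ?_
  by_cases hn : n = 0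
  · rw [hn, h0, zero_mul, norm_zero]
    positivity
  · have hp := nr_pos hn
    have h1 := h (Z * nr n) τ (mul_pos hZ hp)
    rw [show (-(1 / 2 + (1 : ℕ)) : ℝ) = -(3 / 2) by norm_num, Real.mul_rpow hZ.le hp.le] at h1
    rw [norm_mul]
    calc _ ≤ H * (C * (1 + |τ|) ^ (2 * 1) * (Z ^ (-(3 / 2) : ℝ) * nr n ^ (-(3 / 2) : ℝ))) :=
          mul_le_mul (hb n) h1 (norm_nonneg _) hH
      _ = _ := by ring

end Crest.Agent.R17.LBD
end
end

-- ▼ part PVc/R17/LBasicAuxD2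
section

/-!
# Row 17, reflection of plain sums (`Pln_reflect`): Poisson summation against `Wc`
-/

set_option autoImplicit false

noncomputable section

namespace Crest.Agent.R17.LBD

open scoped ComplexConjugate
open MeasureTheory Complex Classical

namespace D2

open Set

/-- The entire function `Wm (w + s) / Γ(w)`. -/
def E (s w : ℂ) : ℂ := Wm (w + s) * (Gamma w)⁻¹

/-- The inverse Mellin transform of `h` on the line `σ`. -/
def K (h : ℝ → ℂ) (σ x : ℝ) : ℂ := ∫ u : ℝ, h u * (x : ℂ) ^ ((σ : ℂ) + u * I - 1)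

theorem differentiable_E (s : ℂ) : Differentiable ℂ (E s) :=
  (differentiable_Wm.comp (differentiable_id.add_const s)).mul
    (by simpa only [one_div] using differentiable_one_div_Gamma)

theorem E_bound (τ : ℝ) : ∃ C : ℝ, 0 < C ∧ ∀ w ∈ strip (-1 / 2) (3 / 2), 1 ≤ |w.im| →
    ‖E (τ * I) w‖ ≤ C / (1 + w.im ^ 2) := by
  obtain ⟨C, hC, h⟩ := LG.norm_inv_Gamma_le
  have hp := Real.pi_pos
  refine ⟨√Real.pi * C * Real.exp (37 + 6 * |τ|), by positivity, fun w hw h1 => ?_⟩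
  have h2 := h w (by linarith [hw.1]) (by linarith [hw.2]) h1
  have h3 : 1 + w.im ^ 2 ≤ Real.exp (2 * |w.im|) := by
    rw [two_mul, Real.exp_add, ← sq_abs]
    nlinarith [Real.add_one_le_exp |w.im|, abs_nonneg w.im]
  rw [le_div_iff₀ (by positivity), E, norm_mul, norm_Wm]
  have e1 : (w + τ * I).re = w.re := by simp
  have e2 : (w + τ * I).im = w.im + τ := by simp
  rw [e1, e2]
  calc _ ≤ √Real.pi * Real.exp ((w.re ^ 2 - (w.im + τ) ^ 2) / 4) *
        (C * Real.exp (4 * |w.im|)) * Real.exp (2 * |w.im|) := by gcongr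
    _ = √Real.pi * C * Real.exp ((w.re ^ 2 - (w.im + τ) ^ 2) / 4 + 4 * |w.im| + 2 * |w.im|) := by
        rw [Real.exp_add, Real.exp_add]; ring
    _ ≤ _ := by
        refine mul_le_mul_of_nonneg_left (Real.exp_le_exp.2 ?_) (by positivity)
        have a1 := abs_sub_abs_le_abs_sub w.im (-τ)
        rw [abs_neg, sub_neg_eq_add] at a1
        rw [← sq_abs (w.im + τ)]
        nlinarith [hw.1, hw.2, sq_nonneg (|w.im + τ| - 12)]

theorem integrable_E (τ : ℝ) {σ : ℝ} (h0 : -1 / 2 ≤ σ) (h1 : σ ≤ 3 / 2) :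
    Integrable fun u : ℝ => E (τ * I) (σ + u * I) := by
  obtain ⟨C, -, h⟩ := E_bound τ
  obtain ⟨C', h'⟩ := Contour.bound_of_far (differentiable_E _).continuous.continuousOn h
  exact Contour.integrable_line h0 h1 (differentiable_E _).continuous.continuousOn h'

theorem K_shift (τ : ℝ) {σ₀ σ₁ : ℝ} (h0 : -1 / 2 ≤ σ₀) (h01 : σ₀ ≤ σ₁) (h1 : σ₁ ≤ 3 / 2) {x : ℝ}
    (hx : 0 < x) : K (fun u => E (τ * I) (σ₁ + u * I)) σ₁ x =
      K (fun u => E (τ * I) (σ₀ + u * I)) σ₀ x := by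
  obtain ⟨C, hC, h⟩ := E_bound τ
  refine contour_shift (F := fun w => E (τ * I) w * (x : ℂ) ^ (w - 1)) (T := 1)
    (K := C * (x ^ (-3 / 2 : ℝ) + x ^ (1 / 2 : ℝ))) h01
    ((differentiable_E _).mul ((differentiable_id.sub_const 1).const_cpow
      (Or.inl (by exact_mod_cast hx.ne')))).differentiableOn fun w hw h2 => ?_
  have a0 : -1 / 2 ≤ w.re := h0.trans hw.1
  have a1 : w.re ≤ 3 / 2 := hw.2.trans h1
  rw [norm_mul, norm_cpow_line hx, mul_div_right_comm]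
  refine mul_le_mul (h w ⟨a0, a1⟩ h2) ?_ (by positivity) (by positivity)
  rw [sub_re, one_re]
  rcases le_total x 1 with hx1 | hx1
  · exact (Real.rpow_le_rpow_of_exponent_ge hx hx1 (by linarith)).trans
      (le_add_of_nonneg_right (by positivity))
  · exact (Real.rpow_le_rpow_of_exponent_le hx1 (by linarith)).trans
      (le_add_of_nonneg_left (by positivity))

theorem norm_term {x : ℝ} (hx : 0 < x) (σ u : ℝ) (a b : ℂ) :
    ‖a * (b * (x : ℂ) ^ ((σ : ℂ) + u * I - 1))‖ = ‖(x : ℂ) ^ ((σ : ℂ) - 1) • a‖ * ‖b‖ := by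
  simp only [norm_mul, norm_smul, norm_cpow_line hx, sub_re, add_re, ofReal_re, mul_re, I_re,
    ofReal_im, I_im, mul_zero, zero_mul, sub_zero, add_zero]
  ring

/-- Pairing of a function with an inverse Mellin transform. -/
theorem pair {g h : ℝ → ℂ} {σ : ℝ} (hg : Measurable g) (hm : MellinConvergent g σ)
    (hc : Continuous h) (hi : Integrable h) :
    IntegrableOn (fun x => g x * K h σ x) (Ioi 0) ∧
      (∫ x in Ioi (0 : ℝ), g x * K h σ x = ∫ u : ℝ, h u * mellin g (σ + u * I)) ∧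
      ∫ x in Ioi (0 : ℝ), ‖g x * K h σ x‖ ≤
        (∫ x in Ioi (0 : ℝ), ‖(x : ℂ) ^ ((σ : ℂ) - 1) • g x‖) * ∫ u, ‖h u‖ := by
  have hh := hc.measurable
  have hF : Integrable (Function.uncurry fun x u : ℝ =>
      g x * (h u * (x : ℂ) ^ ((σ : ℂ) + u * I - 1))) ((volume.restrict (Ioi 0)).prod volume) := by
    refine (hm.norm.mul_prod hi.norm).mono' (Measurable.aestronglyMeasurable ?_) ?_
    · unfold Function.uncurry
      fun_prop
    · filter_upwards [Measure.quasiMeasurePreserving_fst.ae (ae_restrict_mem measurableSet_Ioi)]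
        with p hp
      exact (norm_term hp σ p.2 _ _).le
  have h1 : IntegrableOn (fun x => g x * K h σ x) (Ioi 0) := by
    simpa only [Function.uncurry, integral_const_mul, IntegrableOn, K] using hF.integral_prod_left
  refine ⟨h1, ?_, ?_⟩
  · have := integral_integral_swap hF
    simp only [integral_const_mul] at this
    refine this.trans (integral_congr_ae (Filter.Eventually.of_forall fun u => ?_))
    simp only [mellin, smul_eq_mul, ← integral_const_mul]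
    exact integral_congr_ae (Filter.Eventually.of_forall fun x => by ring)
  · rw [← integral_mul_const]
    refine setIntegral_mono_on h1.norm (hm.norm.mul_const _) measurableSet_Ioi fun x hx => ?_
    rw [K, ← integral_const_mul, ← integral_const_mul]
    exact (norm_integral_le_integral_norm _).trans_eq
      (integral_congr_ae (Filter.Eventually.of_forall fun u => norm_term hx σ u _ _))

theorem integral_norm_eq {g : ℝ → ℝ} (h0 : ∀ x, 0 < x → 0 ≤ g x) (σ : ℝ) :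
    ∫ x in Ioi (0 : ℝ), ‖(x : ℂ) ^ ((σ : ℂ) - 1) • (g x : ℂ)‖ =
      ‖mellin (fun x => (g x : ℂ)) σ‖ := by
  have e : ∀ x ∈ Ioi (0 : ℝ), (x : ℂ) ^ ((σ : ℂ) - 1) • (g x : ℂ) =
      ((‖(x : ℂ) ^ ((σ : ℂ) - 1) • (g x : ℂ)‖ : ℝ) : ℂ) := fun x hx => by
    rw [norm_smul, norm_cpow_line hx, norm_real, Real.norm_of_nonneg (h0 x hx), ofReal_mul,
      ofReal_cpow (le_of_lt hx), smul_eq_mul]
    simp
  rw [mellin, setIntegral_congr_fun measurableSet_Ioi e, integral_complex_ofReal, norm_real,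
    Real.norm_of_nonneg (integral_nonneg fun _ => norm_nonneg _)]

/-- Interchange of sum and integral. -/
theorem swap {a : O → ℂ} {H β σ : ℝ} (h0 : a 0 = 0) (hb : ∀ n, ‖a n‖ ≤ H) (hβ : 0 < β)
    {P : ℝ → ℝ → ℝ} (hP : ∀ b, Measurable (P b)) (hP0 : ∀ b x, 0 < x → 0 ≤ P b x)
    (hM : ∀ b, 0 < b → HasMellin (fun x => (P b x : ℂ)) σ
      ((1 / b : ℂ) ^ (3 / 2 : ℂ) * Gamma (3 / 2)))
    {h : ℝ → ℂ} (hc : Continuous h) (hi : Integrable h) :
    ∑' n, a n * ∫ x in Ioi (0 : ℝ), P (β * nr n) x * K h σ x =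
      ∫ x in Ioi (0 : ℝ), (∑' n, a n * P (β * nr n) x) * K h σ x := by
  have hp := fun b (hb : 0 < b) => pair (measurable_ofReal.comp (hP b)) (hM b hb).1 hc hi
  simp only [← integral_const_mul, ← tsum_mul_right, mul_assoc]
  refine integral_tsum_of_summable_integral_norm (fun n => ?_) ?_
  · rcases eq_or_ne n 0 with rfl | hn
    · simp [h0]
    · exact (hp _ (mul_pos hβ (nr_pos hn))).1.const_mul _
  · refine Summable.of_nonneg_of_le (fun n => integral_nonneg fun _ => norm_nonneg _) (fun n => ?_)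
      ((summable_nr_rpow (σ := 3 / 2) (by norm_num)).mul_left
        (|H| * (β ^ (-(3 / 2) : ℝ) * ‖Gamma (3 / 2)‖ * ∫ u, ‖h u‖)))
    have i0 : 0 ≤ ∫ u, ‖h u‖ := integral_nonneg fun _ => norm_nonneg _
    rcases eq_or_ne n 0 with rfl | hn
    · simp only [h0, zero_mul, norm_zero, integral_zero]
      positivity
    · have p := mul_pos hβ (nr_pos hn)
      have h3 := (hp _ p).2.2
      simp only [Function.comp_def] at h3
      rw [integral_norm_eq (hP0 _), (hM _ p).2, norm_mul, ← ofReal_one, ← ofReal_div,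
        norm_cpow_line (by positivity), one_div, Real.inv_rpow p.le, ← Real.rpow_neg p.le,
        Real.mul_rpow hβ.le (nr_pos hn).le] at h3
      simp only [norm_mul (a n), integral_const_mul]
      refine (mul_le_mul ((hb n).trans (le_abs_self H)) h3
        (integral_nonneg fun _ => norm_nonneg _) (abs_nonneg H)).trans_eq ?_
      norm_num
      ring

/-- The two profiles. -/
def p1 (b x : ℝ) : ℝ := Real.exp (-(b * x))
def p2 (b x : ℝ) : ℝ := x⁻¹ * Real.exp (-(b * x⁻¹))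

theorem mellin_p1 {b : ℝ} (hb : 0 < b) {w : ℂ} (hw : 0 < w.re) :
    HasMellin (fun x => (p1 b x : ℂ)) w ((1 / b : ℂ) ^ w * Gamma w) := by
  have e : mellin (fun x => (p1 b x : ℂ)) w = (1 / b : ℂ) ^ w * Gamma w := by
    rw [← integral_cpow_mul_exp_neg_mul_Ioi hw hb, mellin]
    simp [p1]
  refine ⟨Integrable.of_integral_ne_zero (fun h => ?_), e⟩
  have h2 : (1 / b : ℂ) ^ w * Gamma w = 0 := e.symm.trans h
  rcases mul_eq_zero.1 h2 with h | h
  · exact one_div_ne_zero (ofReal_ne_zero.2 hb.ne') ((cpow_eq_zero_iff _ _).1 h).1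
  · exact Gamma_ne_zero_of_re_pos hw h

theorem mellin_p2 {b : ℝ} (hb : 0 < b) {w : ℂ} (hw : w.re < 1) :
    HasMellin (fun x => (p2 b x : ℂ)) w ((1 / b : ℂ) ^ (1 - w) * Gamma (1 - w)) := by
  have h := mellin_p1 hb (w := 1 - w) (by simpa using hw)
  have e : (fun x => (p2 b x : ℂ)) =
      fun x : ℝ => (fun t : ℝ => (t : ℂ) ^ (1 : ℂ) • (p1 b t : ℂ)) (x ^ (-1 : ℝ)) := by
    ext x
    simp [p1, p2, Real.rpow_neg_one]
  have e2 : w / ((-1 : ℝ) : ℂ) + 1 = 1 - w := by push_cast; ring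
  rw [e]
  refine ⟨?_, ?_⟩
  · refine (MellinConvergent.comp_rpow (f := fun t : ℝ => (t : ℂ) ^ (1 : ℂ) • (p1 b t : ℂ))
      (by norm_num)).2 ?_
    rw [MellinConvergent.cpow_smul, e2]
    exact h.1
  · refine (mellin_comp_rpow (fun t : ℝ => (t : ℂ) ^ (1 : ℂ) • (p1 b t : ℂ)) _ _).trans ?_
    rw [mellin_cpow_smul, e2, h.2]
    simp

end D2

open D2 Set in
/-- Poisson summation for the weight `Wc`. -/
theorem hankel {q : O} (hq : q ≠ 0) {f : O → ℂ} (hf : ∀ x y, q ∣ x - y → f x = f y)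
    (hb : ∀ x, ‖f x‖ ≤ 1) (h0 : f 0 = 0) (hm : ft q f 0 = 0) {X : ℝ} (hX : 0 < X) (τ : ℝ) :
    Sm f X (τ * I) = (X / nr q : ℝ) * ∑' h : O, ft q f h * Vg (X / nr q * nr h) (τ * I) := by
  set c : ℝ := 2 * Real.pi / Real.sqrt 3 with hc
  have c0 : 0 < c := by positivity
  have q0 := nr_pos hq
  have hZ : 0 < X / nr q := by positivity
  have cE : ∀ σ : ℝ, Continuous fun u : ℝ => E (τ * I) (σ + u * I) := fun σ =>
    (differentiable_E _).continuous.comp (by fun_prop)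
  have m1 : ∀ b, Measurable (p1 b) := fun b => by unfold p1; fun_prop
  have m2 : ∀ b, Measurable (p2 b) := fun b => by unfold p2; fun_prop
  have i1 := integrable_E τ (σ := 3 / 2) (by norm_num) le_rfl
  have i2 := integrable_E τ (σ := 1 / 2) (by norm_num) (by norm_num)
  have i3 := integrable_E τ (σ := -1 / 2) le_rfl (by norm_num)
  have s1 := swap h0 hb (inv_pos.2 hX) m1 (fun _ _ _ => (Real.exp_pos _).le) (σ := 3 / 2)
    (fun b hb => by simpa using mellin_p1 hb (w := 3 / 2) (by norm_num)) (cE _) i1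
  have s2 := swap (a := ft q f) (H := nr q) hm (fun n => by
      refine (norm_sum_le _ _).trans ((Finset.sum_le_card_nsmul _ _ 1 fun x _ => ?_).trans_eq ?_)
      · rw [norm_mul, norm_eq, mul_one]; exact hb x
      · rw [card_res hq, nsmul_eq_mul, mul_one])
    (β := c ^ 2 * (X / nr q)) (by positivity) m2
    (fun _ x hx => by unfold p2; positivity) (σ := -1 / 2)
    (fun b hb => by
      have := mellin_p2 hb (w := ((-1 / 2 : ℝ) : ℂ)) (by norm_num)
      rwa [show 1 - ((-1 / 2 : ℝ) : ℂ) = 3 / 2 by norm_num] at this) (cE _) i3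
  have e1 : ∀ y : ℝ, 0 < y → Wc y (τ * I) = (1 / (2 * Real.pi) : ℂ) * ∫ x in Ioi (0 : ℝ),
      p1 y x * K (fun u => E (τ * I) ((3 / 2 : ℝ) + u * I)) (3 / 2 : ℝ) x := fun y hy => by
    rw [(pair (σ := 3 / 2) (g := fun x => p1 y x) (measurable_ofReal.comp (m1 y))
      (mellin_p1 hy (by norm_num)).1 (cE _) i1).2.1, Wc_eq_integral hy (3 / 2)]
    congr 1
    refine integral_congr_ae (Filter.Eventually.of_forall fun u => ?_)
    have hw : 0 < (((3 / 2 : ℝ) : ℂ) + u * I).re := by simp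
    beta_reduce
    rw [(mellin_p1 hy hw).2, E, one_div, inv_cpow _ _ (by
      rw [arg_ofReal_of_nonneg hy.le]; exact Real.pi_ne_zero.symm), cpow_neg]
    have := Gamma_ne_zero_of_re_pos hw
    generalize Gamma (((3 / 2 : ℝ) : ℂ) + u * I) = G at this
    field_simp
  have e2 : ∀ y : ℝ, 0 < y → Vg y (τ * I) = (1 / (2 * Real.pi) : ℂ) * (c * ∫ x in Ioi (0 : ℝ),
      p2 (c ^ 2 * y) x * K (fun u => E (τ * I) ((-1 / 2 : ℝ) + u * I)) (-1 / 2 : ℝ) x) := by
    intro y hy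
    have p : 0 < c ^ 2 * y := by positivity
    rw [setIntegral_congr_fun measurableSet_Ioi fun x hx => by
      rw [← K_shift τ le_rfl (σ₁ := 1 / 2) (by norm_num) (by norm_num) hx]]
    rw [(pair (σ := 1 / 2) (g := fun x => p2 (c ^ 2 * y) x) (measurable_ofReal.comp (m2 _))
      (mellin_p2 p (by norm_num)).1 (cE _) i2).2.1,
      ← integral_const_mul, ← integral_const_mul, Vg]
    refine integral_congr_ae (Filter.Eventually.of_forall fun u => ?_)
    have hw : (((1 / 2 : ℝ) : ℂ) + u * I).re < 1 := by simp; norm_num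
    beta_reduce
    rw [(mellin_p2 p hw).2, E, Kg, gamR, ← hc]
    have e : ((1 / 2 : ℝ) : ℂ) = 1 / 2 := by norm_num
    rw [e]
    generalize (1 / 2 + u * I : ℂ) = w
    have c1 : (c : ℂ) ≠ 0 := ofReal_ne_zero.2 c0.ne'
    rw [one_div ((c ^ 2 * y : ℝ) : ℂ), inv_cpow _ _ (by
        rw [arg_ofReal_of_nonneg p.le]; exact Real.pi_ne_zero.symm), ← cpow_neg, neg_sub, sq,
      ofReal_mul, ofReal_mul, ← ofReal_mul, mul_cpow_ofReal_nonneg (by positivity) hy.le,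
      ofReal_mul, mul_cpow_ofReal_nonneg c0.le c0.le,
      show 2 * w - 1 = (w - 1) + (w - 1) + 1 by ring, cpow_add _ _ c1, cpow_add _ _ c1, cpow_one]
    ring
  have e3 : ∀ x ∈ Ioi (0 : ℝ), (∑' n, f n * p1 (X⁻¹ * nr n) x) *
      K (fun u => E (τ * I) ((3 / 2 : ℝ) + u * I)) (3 / 2 : ℝ) x = ((X / nr q : ℝ) : ℂ) * c *
      ((∑' n, ft q f n * p2 (c ^ 2 * (X / nr q) * nr n) x) *
        K (fun u => E (τ * I) ((-1 / 2 : ℝ) + u * I)) (-1 / 2 : ℝ) x) := fun x (hx : 0 < x) => by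
    have a1 : ∀ n : O, p1 (X⁻¹ * nr n) x = gw (nr n / (c * X / x)) := fun n => by
      rw [p1, gw, ← hc]; congr 1; field_simp
    have a2 : ∀ n : O, (p2 (c ^ 2 * (X / nr q) * nr n) x : ℂ) =
        gw (c * X / x * nr n / nr q) * (x : ℂ)⁻¹ := fun n => by
      rw [p2, gw, ← hc, mul_comm, ofReal_mul, ofReal_inv]; congr 3; field_simp
    simp only [a1, a2, ← mul_assoc, tsum_mul_right]
    rw [poisson hq f hf (by positivity), K_shift τ le_rfl (by norm_num) le_rfl hx]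
    push_cast
    ring
  calc Sm f X (τ * I) = (1 / (2 * Real.pi) : ℂ) * ∑' n, f n * ∫ x in Ioi (0 : ℝ),
        p1 (X⁻¹ * nr n) x * K (fun u => E (τ * I) ((3 / 2 : ℝ) + u * I)) (3 / 2 : ℝ) x := by
        rw [Sm, ← tsum_mul_left]
        refine tsum_congr fun n => ?_
        rcases eq_or_ne n 0 with rfl | hn
        · simp [h0]
        · rw [e1 _ (div_pos (nr_pos hn) hX), div_eq_inv_mul]; ring
    _ = _ := by
        rw [s1, setIntegral_congr_fun measurableSet_Ioi e3, integral_const_mul, ← s2,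
          ← tsum_mul_left, ← tsum_mul_left, ← tsum_mul_left]
        refine tsum_congr fun n => ?_
        rcases eq_or_ne n 0 with rfl | hn
        · simp [hm]
        · rw [e2 _ (mul_pos hZ (nr_pos hn)), mul_assoc (c ^ 2)]; ring

end Crest.Agent.R17.LBD
end
end

-- ▼ part PVc/R17/LBasicAuxD3
section

/-!
# Row 17, reflection of plain sums (`Pln_reflect`): arithmetic
-/

set_option autoImplicit false

noncomputable section

namespace Crest.Agent.R17.LBD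

open scoped ComplexConjugate
open MeasureTheory Complex Classical

/-- The primes of the row which contribute to the conductor. -/
def act (M a : O) : Finset O := (pf a).filter (fun p => ¬ p ∣ M ∧ ¬ 6 ∣ vp p a)

/-- The primes of the row at which the row character is only punctured. -/
def pun (M a : O) : Finset O := (pf a).filter (fun p => ¬ p ∣ M ∧ 6 ∣ vp p a)

/-- The active part of the row. -/
def rr (M a : O) : O := ∏ p ∈ act M a, p ^ vp p a

/-- The row character after reciprocity, without the puncture. -/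
def Fr {M : O} (ν : Chr M) (r n : O) : ℂ := if Primary n then ev ν n * conj (sym r n) else 0

theorem D3_mem_act {M a p : O} (h : p ∈ act M a) : p ∈ pf a ∧ ¬ p ∣ M ∧ ¬ 6 ∣ vp p a :=
  Finset.mem_filter.1 h

theorem D3_mem_pun {M a p : O} (h : p ∈ pun M a) : p ∈ pf a ∧ ¬ p ∣ M ∧ 6 ∣ vp p a :=
  Finset.mem_filter.1 h

theorem D3_act_sub (M a : O) : ∀ q ∈ act M a, Prime q ∧ Primary q :=
  fun _ hq => BasicB.pf_sub (D3_mem_act hq).1

theorem D3_primary_rr (M a : O) : Primary (rr M a) := BasicB.primary_prod_pow (D3_act_sub M a) _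

theorem D3_vp_rr {M a p : O} (hp : Prime p) (hp' : Primary p) :
    vp p (rr M a) = if p ∈ act M a then vp p a else 0 := by
  unfold rr
  convert vp_prod_pow (D3_act_sub M a) (fun q => vp q a) hp hp'

theorem D3_pf_rr (M a : O) : pf (rr M a) = act M a := by
  ext p
  constructor
  · intro h
    obtain ⟨h1, h2⟩ := BasicB.pf_sub h
    have h3 := BasicB.vp_ne_zero h
    rw [D3_vp_rr h1 h2] at h3
    by_contra h4
    exact h3 (if_neg h4)
  · intro h
    obtain ⟨h1, h2⟩ := D3_act_sub M a p h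
    rw [BasicB.mem_pf_iff (D3_primary_rr M a).ne_zero h1 h2, D3_vp_rr h1 h2, if_pos h]
    exact BasicB.vp_ne_zero (D3_mem_act h).1

theorem D3_rad_rr (M a : O) : rad (rr M a) = ∏ p ∈ act M a, p := by
  rw [rad, D3_pf_rr]

theorem D3_cop_act {M a p : O} (h : p ∈ act M a) : IsCoprime p M :=
  (D3_act_sub M a p h).1.coprime_iff_not_dvd.2 (D3_mem_act h).2.1

theorem D3_cop_rr (M a : O) : IsCoprime (rr M a) M :=
  IsCoprime.prod_left fun _ hp => (D3_cop_act hp).pow_left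

theorem D3_po_rr {M : O} (hM : Adm M) (a : O) : PO (rr M a) :=
  PO.of_adm hM (D3_primary_rr M a) (D3_cop_rr M a)

theorem D3_sym_rr (M a x : O) : sym (rr M a) x = ∏ p ∈ act M a, sym p x ^ vp p a := by
  rw [sym_eq_prod, D3_pf_rr]
  refine Finset.prod_congr rfl fun p hp => ?_
  obtain ⟨h1, h2⟩ := D3_act_sub M a p hp
  rw [D3_vp_rr h1 h2, if_pos hp]

theorem nr_act (M a : O) : nr (∏ p ∈ act M a, p) = cond M a := by
  unfold cond
  rw [nr, nm_prod, Nat.cast_prod]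
  rfl

theorem cond_mul_le {M a : O} (ha : a ≠ 0) {E : Finset O} (hE : E ⊆ pun M a) :
    cond M a * nr (∏ p ∈ E, p) ≤ nr a := by
  have hd : Disjoint (act M a) E :=
    Finset.disjoint_left.2 fun p hp hp' => (D3_mem_act hp).2.2 (D3_mem_pun (hE hp')).2.2
  have hs : act M a ∪ E ⊆ pf a :=
    Finset.union_subset (fun p hp => (D3_mem_act hp).1) fun p hp => (D3_mem_pun (hE hp)).1
  have h := nm_le_of_dvd (BasicB.prod_dvd_of_subset ha hs) ha
  rw [← nr_act, ← nr_mul, ← Finset.prod_union hd]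
  exact Nat.cast_le.2 h

theorem D3_Fr_pos {M : O} (ν : Chr M) (r : O) {n : O} (h : Primary n) :
    Fr ν r n = ev ν n * conj (sym r n) := if_pos h

theorem D3_Fr_neg {M : O} (ν : Chr M) (r : O) {n : O} (h : ¬ Primary n) : Fr ν r n = 0 := if_neg h

theorem Fr_zero {M : O} (ν : Chr M) (r : O) : Fr ν r 0 = 0 := by
  exact D3_Fr_neg ν r fun h => h.ne_zero rfl

theorem norm_Fr_le {M : O} (hM : Adm M) (ν : Chr M) (r n : O) : ‖Fr ν r n‖ ≤ 1 := by
  by_cases hn : Primary n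
  · rw [D3_Fr_pos ν r hn, norm_mul, Complex.norm_conj]
    exact mul_le_one₀ (norm_ev_le hM.1 ν n) (norm_nonneg _) (norm_sym_le r n)
  · rw [D3_Fr_neg ν r hn, norm_zero]
    exact zero_le_one

theorem Fr_mul {M : O} (hM : Adm M) (ν : Chr M) (a : O) {e : O} (he : Primary e) (n : O) :
    Fr ν (rr M a) (e * n) = Fr ν (rr M a) e * Fr ν (rr M a) n := by
  by_cases hn : Primary n
  · rw [D3_Fr_pos ν _ he, D3_Fr_pos ν _ hn, D3_Fr_pos ν _ (he.mul hn), ev_mul,
      sym_mul_right (D3_po_rr hM a), map_mul]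
    ring
  · rw [D3_Fr_neg ν _ hn, D3_Fr_neg ν _ fun h => hn (he.of_mul h), mul_zero]

theorem D3_three_dvd {M : O} (hM : Adm M) : (3 : O) ∣ M := Dvd.dvd.trans ⟨24, by norm_num⟩ hM.2

theorem Fr_periodic {M : O} (hM : Adm M) (ν : Chr M) (a : O) (x y : O)
    (h : M * ∏ p ∈ act M a, p ∣ x - y) : Fr ν (rr M a) x = Fr ν (rr M a) y := by
  have h1 : M ∣ x - y := (dvd_mul_right _ _).trans h
  have h2 : rad (rr M a) ∣ x - y := by
    rw [D3_rad_rr]
    exact (dvd_mul_left _ _).trans h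
  by_cases hx : Primary x
  · rw [D3_Fr_pos ν _ hx, D3_Fr_pos ν _ (LBA.primary_congr ((D3_three_dvd hM).trans h1) hx),
      ev_congr ν h1, sym_congr h2]
  · rw [D3_Fr_neg ν _ hx, D3_Fr_neg ν _ fun hy =>
      hx (LBA.primary_congr ((D3_three_dvd hM).trans (dvd_sub_comm.1 h1)) hy)]

theorem sym_rr_zero {M a : O} (h : ¬ Exc M a) : sym (rr M a) 0 = 0 := by
  simp only [Exc, not_forall] at h
  obtain ⟨p, hp, hpM, hv⟩ := h
  have h1 : p ∈ pf (rr M a) := by
    rw [D3_pf_rr]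
    exact Finset.mem_filter.2 ⟨hp, hpM, hv⟩
  obtain ⟨h2, -, h3⟩ := BasicB.of_mem_pf h1
  exact (sym_eq_zero_iff (D3_primary_rr M a)).2 fun hc =>
    h2.not_isUnit (hc.isUnit_of_dvd' h3 (dvd_zero p))

theorem sym_rr_mul {M : O} (hM : Adm M) (a x y : O) :
    sym (rr M a) (x * y) = sym (rr M a) x * sym (rr M a) y := by
  exact sym_mul_right (D3_po_rr hM a) x y

theorem D3_split (M : O) {a : O} (ha : a ≠ 0) : ∃ s : O, s ≠ 0 ∧ (∀ p ∈ pf s, p ∣ M) ∧
    a = s * rr M a * (∏ p ∈ pun M a, p ^ (vp p a / 6)) ^ 6 := by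
  obtain ⟨u, j, hu, he⟩ := exists_eq_unit_lam_primary ha
  have e1 : (∏ p ∈ pun M a, p ^ (vp p a / 6)) ^ 6 = ∏ p ∈ pun M a, p ^ vp p a := by
    rw [← Finset.prod_pow]
    refine Finset.prod_congr rfl fun p hp => ?_
    rw [← pow_mul, Nat.div_mul_cancel (D3_mem_pun hp).2.2]
  have e2 : rr M a * ∏ p ∈ pun M a, p ^ vp p a =
      ∏ p ∈ (pf a).filter (fun p => ¬ p ∣ M), p ^ vp p a := by
    rw [← Finset.prod_filter_mul_prod_filter_not ((pf a).filter (fun p => ¬ p ∣ M))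
      (fun p => 6 ∣ vp p a), Finset.filter_filter, Finset.filter_filter, mul_comm]
    rfl
  have e : a = (u * lam ^ j * ∏ p ∈ (pf a).filter (· ∣ M), p ^ vp p a) * rr M a *
      (∏ p ∈ pun M a, p ^ (vp p a / 6)) ^ 6 := by
    rw [e1, mul_assoc _ (rr M a), e2, mul_assoc (u * lam ^ j),
      Finset.prod_filter_mul_prod_filter_not]
    exact he
  refine ⟨_, left_ne_zero_of_mul (left_ne_zero_of_mul (e ▸ ha)), fun p hp => ?_, e⟩
  obtain ⟨h1, h2, h3⟩ := BasicB.of_mem_pf hp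
  rcases h1.dvd_or_dvd h3 with h4 | h4
  · rcases h1.dvd_or_dvd h4 with h5 | h5
    · exact absurd (isUnit_of_dvd_unit h5 hu) h1.not_isUnit
    · exact absurd (h1.associated_of_dvd prime_lam (h1.dvd_of_dvd_pow h5)).symm.dvd h2.not_lam_dvd
  · obtain ⟨q, hq, h5⟩ := (Prime.dvd_finsetProd_iff h1 _).1 h4
    exact (h1.dvd_of_dvd_pow h5).trans (Finset.mem_filter.1 hq).2

/-- Reciprocity. -/
theorem rc_eq_Fr {M : O} (hM : Adm M) {a : O} (ha : a ≠ 0) : ∃ ψ : Chr M, ∀ (ν : Chr M) (n : O),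
    rc ν a n = if ∀ p ∈ pun M a, ¬ p ∣ n then Fr (ν * ψ) (rr M a) n else 0 := by
  obtain ⟨s, hs, hsM, e⟩ := D3_split M ha
  obtain ⟨ν₀, h0⟩ := exists_chr_sym hM hs hsM
  have hr := D3_po_rr hM a
  have h2 : ∀ n, IsCoprime n M → IsCoprime n 2 := fun n hn =>
    hn.of_isCoprime_of_dvd_right (Dvd.dvd.trans ⟨36, by norm_num⟩ hM.2)
  obtain ⟨ν₁, h1⟩ := exists_chr (M := M) (fun n => Rs n (rr M a)) (Rs_one_left hr.2)
    (fun m n hm hn => Rs_mul_left (h2 m hm) (h2 n hn) hr.2)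
    fun m n _ h => Rs_congr ((Dvd.dvd.trans ⟨18, by norm_num⟩ hM.2).trans h) (by simp)
  refine ⟨ν₀⁻¹ * ν₁⁻¹, fun ν n => ?_⟩
  split_ifs with hp
  · by_cases hn : Primary n
    · rw [LBA.rc_pos ν a hn, D3_Fr_pos _ _ hn]
      by_cases hc : IsCoprime n M
      · have hpo := PO.of_adm hM hn hc
        have hc' : IsCoprime n (∏ p ∈ pun M a, p ^ (vp p a / 6)) :=
          IsCoprime.prod_right fun p hp' =>
            ((BasicB.pf_sub (D3_mem_pun hp').1).1.coprime_iff_not_dvd.2 (hp p hp')).symm.pow_right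
        have e' : sym n a = sym n s * (Rs n (rr M a) * sym (rr M a) n) := by
          conv_lhs => rw [e]
          rw [sym_mul_right hpo, sym_mul_right hpo, sym_pow_right hpo, sym_pow_six hn hc', mul_one,
            sym_recip hpo hr]
        rw [e', ev_mul_chr, ev_mul_chr, ev_inv hM.1, ev_inv hM.1, h0 n hn hc, h1 n hc, map_mul,
          map_mul]
        ring
      · rw [ev_eq_zero ν hc, ev_eq_zero _ hc, zero_mul, zero_mul]
    · rw [LBA.rc_neg ν a hn, D3_Fr_neg _ _ hn]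
  · simp only [not_forall, not_not] at hp
    obtain ⟨p, hp, hpn⟩ := hp
    obtain ⟨h3, -, h4⟩ := BasicB.of_mem_pf (D3_mem_pun hp).1
    exact LBA.rc_eq_zero ν fun hc => h3.not_isUnit (hc.isUnit_of_dvd' hpn (h4.mul_left M))

/-- Primitivity of products of non-trivial powers of prime symbols. -/
theorem D3_prim (e : O → ℕ) {s : Finset O} (hs : ∀ p ∈ s, Prime p ∧ PO p ∧ ¬ 6 ∣ e p) (k : O) :
    Gauss_G (fun x => ∏ p ∈ s, sym p x ^ e p) (∏ p ∈ s, p) k =
      conj (∏ p ∈ s, sym p k ^ e p) * Gauss_G (fun x => ∏ p ∈ s, sym p x ^ e p) (∏ p ∈ s, p) 1 := by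
  induction s using Finset.induction_on with
  | empty =>
    simp only [Finset.prod_empty, Gauss_G, one_mul, map_one]
    have h1 := sum_res_eq_char one_ne_zero k
    have h2 := sum_res_eq_char one_ne_zero (1 : O)
    simp only [one_dvd, if_true, one_mul] at h1 h2
    rw [h1, h2]
  | insert p s hp ih =>
    have hs' : ∀ q ∈ s, Prime q ∧ PO q ∧ ¬ 6 ∣ e q := fun q hq => hs q (Finset.mem_insert_of_mem hq)
    obtain ⟨p1, p2, p3⟩ := hs p (Finset.mem_insert_self _ _)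
    have hprim : Primary (∏ q ∈ s, q) := Primary.prod fun q hq => (hs' q hq).2.1.1
    have hc : IsCoprime p (∏ q ∈ s, q) := IsCoprime.prod_right fun q hq =>
      p1.coprime_iff_not_dvd.2 fun h =>
        hp (BasicB.eq_of_dvd p1 (hs' q hq).1 p2.1 (hs' q hq).2.1.1 h ▸ hq)
    have hG : ∀ k, Gauss_G (fun x => sym p x ^ e p) p k = gs (e p) p k := fun k =>
      Finset.sum_congr rfl fun x _ => by rw [sym_pow_add_six p2.1 x (by omega)]
    have key := Gauss_crt (f := fun x => sym p x ^ e p) (g := fun x => ∏ q ∈ s, sym q x ^ e q)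
      p1.ne_zero hprim.ne_zero hc (Gauss_sym_per p _)
      (fun x y h => Finset.prod_congr rfl fun q hq =>
        Gauss_sym_per q _ x y ((Finset.dvd_prod_of_mem _ hq).trans h))
      (fun x y => by rw [sym_mul_right p2, mul_pow])
      (fun x y => by
        rw [← Finset.prod_mul_distrib]
        exact Finset.prod_congr rfl fun q hq => by rw [sym_mul_right (hs' q hq).2.1, mul_pow])
    simp only [Finset.prod_insert hp]
    rw [key k, key 1, ih hs', hG, hG, gs_sqfree p3 p2 p1.squarefree k, map_mul]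
    ring

theorem D3_conj_sym_rr (M a x : O) :
    conj (sym (rr M a) x) = ∏ p ∈ act M a, sym p x ^ (5 * vp p a) := by
  rw [D3_sym_rr, map_prod]
  refine Finset.prod_congr rfl fun p hp => ?_
  rw [map_pow, conj_sym (D3_act_sub M a p hp).2, ← pow_mul]

theorem D3_gauss {M : O} (hM : Adm M) (a k : O) :
    Gauss_G (fun x => conj (sym (rr M a) x)) (∏ p ∈ act M a, p) k =
      conj (conj (sym (rr M a) k)) *
        Gauss_G (fun x => conj (sym (rr M a) x)) (∏ p ∈ act M a, p) 1 := by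
  simp only [D3_conj_sym_rr]
  refine D3_prim (fun p => 5 * vp p a) (fun p hp => ⟨(D3_act_sub M a p hp).1,
    PO.of_adm hM (D3_act_sub M a p hp).2 (D3_cop_act hp), ?_⟩) k
  have := (D3_mem_act hp).2.2
  omega

/-- The finite Fourier transform of `Fr`. -/
theorem ft_Fr {M : O} (hM : Adm M) (ν : Chr M) (a : O) : ∃ (τ₀ : ℂ) (Φ : O → ℂ),
    ‖τ₀‖ ≤ Real.sqrt (cond M a) ∧ (∀ x, ‖Φ x‖ ≤ nr M) ∧ (∀ x y, M ∣ x - y → Φ x = Φ y) ∧
      ∀ h, ft (M * ∏ p ∈ act M a, p) (Fr ν (rr M a)) h = τ₀ * Φ h * sym (rr M a) h := by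
  have hρ : (∏ p ∈ act M a, p) ≠ 0 := (Primary.prod fun p hp => (D3_act_sub M a p hp).2).ne_zero
  have hc : IsCoprime M (∏ p ∈ act M a, p) := IsCoprime.prod_right fun p hp => (D3_cop_act hp).symm
  have hχ : ∀ x y, (∏ p ∈ act M a, p) ∣ x - y → conj (sym (rr M a) x) = conj (sym (rr M a) y) :=
    fun x y h => by rw [sym_congr (by rwa [D3_rad_rr])]
  set φ : O → ℂ := fun n => if Primary n then ev ν n else 0 with hφ
  have hφ1 : ∀ n, ‖φ n‖ ≤ 1 := fun n => by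
    simp only [hφ]
    split_ifs
    · exact norm_ev_le hM.1 ν n
    · simp
  have hφ2 : ∀ x y, M ∣ x - y → φ x = φ y := fun x y h => by
    simp only [hφ]
    by_cases hx : Primary x
    · rw [if_pos hx, if_pos (LBA.primary_congr ((D3_three_dvd hM).trans h) hx), ev_congr ν h]
    · rw [if_neg hx, if_neg fun hy =>
        hx (LBA.primary_congr ((D3_three_dvd hM).trans (dvd_sub_comm.1 h)) hy)]
  have hF : Fr ν (rr M a) = fun x => φ x * conj (sym (rr M a) x) := funext fun x => by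
    simp only [hφ, Fr]
    split_ifs <;> simp
  have hN := Gauss_norm hρ hχ (by rw [sym_one_right, map_one]) (D3_gauss hM a)
  refine ⟨conj (sym (rr M a) M) * Gauss_G (fun x => conj (sym (rr M a) x)) (∏ p ∈ act M a, p) 1,
    ft M (fun x => φ ((∏ p ∈ act M a, p) * x)), ?_, fun k => ?_, fun x y h => ?_, fun k => ?_⟩
  · rw [norm_mul, hN, nr_act, Complex.norm_conj]
    exact mul_le_of_le_one_left (Real.sqrt_nonneg _) (norm_sym_le _ _)
  · refine (norm_sum_le _ _).trans ((Finset.sum_le_card_nsmul _ _ 1 fun x _ => ?_).trans ?_)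
    · rw [norm_mul, norm_eq, mul_one]
      exact hφ1 _
    · rw [card_res hM.1, nsmul_eq_mul, mul_one]
  · exact Finset.sum_congr rfl fun z _ => by
      rw [eq_congr (show M ∣ x * z - y * z from sub_mul x y z ▸ h.mul_right z)]
  · rw [hF, ft_mul hM.1 hρ hc φ _ hφ2 hχ k]
    have e : ft (∏ p ∈ act M a, p) (fun y => conj (sym (rr M a) (M * y))) k =
        conj (sym (rr M a) M) * Gauss_G (fun x => conj (sym (rr M a) x)) (∏ p ∈ act M a, p) k := by
      rw [ft, Gauss_G, Finset.mul_sum]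
      refine Finset.sum_congr rfl fun x _ => ?_
      rw [sym_rr_mul hM, map_mul, mul_assoc]
    rw [e, D3_gauss hM a k, Complex.conj_conj]
    ring

end Crest.Agent.R17.LBD
end
end

-- ▼ part PVc/R17/LBasicAuxD4
section

/-!
# Row 17, reflection of plain sums (`Pln_reflect`): splitting the dual sum
-/

set_option autoImplicit false

noncomputable section

namespace Crest.Agent.R17.LBD

open scoped ComplexConjugate
open MeasureTheory Complex Classical

theorem D4_exists_split {m : O} (hm : m ≠ 0) (x : O) : x ≠ 0 →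
    ∃ g h : O, (g ≠ 0 ∧ pf g ⊆ pf m) ∧ (Primary h ∧ IsCoprime h m) ∧ x = g * h := by
  induction x using UniqueFactorizationMonoid.induction_on_prime with
  | h₁ => exact fun h => (h rfl).elim
  | h₂ x hx =>
    exact fun h0 => ⟨x, 1, ⟨h0, by rw [BasicB.pf_unit hx]; exact Finset.empty_subset _⟩,
      ⟨primary_one, isCoprime_one_left⟩, (mul_one x).symm⟩
  | h₃ a p ha hp ih =>
    intro _
    obtain ⟨g, h, ⟨hg, hg'⟩, ⟨hh, hh'⟩, rfl⟩ := ih ha
    by_cases hc : lam ∣ p ∨ p ∣ m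
    · refine ⟨p * g, h, ⟨mul_ne_zero hp.ne_zero hg, ?_⟩, ⟨hh, hh'⟩, (mul_assoc _ _ _).symm⟩
      rw [pf_mul hp.ne_zero hg]
      refine Finset.union_subset (fun q hq => ?_) hg'
      obtain ⟨q1, q2, q3⟩ := BasicB.of_mem_pf hq
      rcases hc with hc | hc
      · exact (q2.not_lam_dvd (hc.trans (q1.associated_of_dvd hp q3).symm.dvd)).elim
      · exact (mem_pf hm).2 ⟨q1, q2, q3.trans hc⟩
    · rw [not_or] at hc
      obtain ⟨u, hu, hup⟩ := exists_unit_primary hc.1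
      obtain ⟨v, hv⟩ := hu.exists_right_inv
      have hv' : IsUnit v := IsUnit.of_mul_eq_one_right u hv
      refine ⟨v * g, u * p * h, ⟨mul_ne_zero hv'.ne_zero hg, by rwa [pf_unit_mul hv']⟩,
        ⟨hup.mul hh, IsCoprime.mul_left ?_ hh'⟩, by linear_combination (-(p * g * h)) * hv⟩
      exact (isCoprime_mul_unit_left_left hu _ _).2 (hp.coprime_iff_not_dvd.2 hc.2)

theorem D4_dvd {m g h g' h' : O} (hg' : g' ≠ 0 ∧ pf g' ⊆ pf m) (hh : Primary h ∧ IsCoprime h m)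
    (e : g * h = g' * h') : h ∣ h' :=
  (isCoprime_of_disjoint_pf hh.1 hg'.1
    ((disjoint_pf hh.2).mono_right hg'.2)).dvd_of_dvd_mul_left (e ▸ dvd_mul_left h g)

theorem D4_injective (m : O) : Function.Injective
    fun z : {g : O // g ≠ 0 ∧ pf g ⊆ pf m} × {h : O // Primary h ∧ IsCoprime h m} =>
      z.1.1 * z.2.1 := by
  rintro ⟨⟨g, hg⟩, ⟨h, hh⟩⟩ ⟨⟨g', hg'⟩, ⟨h', hh'⟩⟩ e
  simp only at e
  obtain rfl : h = h' := hh.1.eq_of_associated hh'.1
    (associated_of_dvd_dvd (D4_dvd hg' hh e) (D4_dvd hg hh' e.symm))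
  obtain rfl : g = g' := mul_right_cancel₀ hh.1.ne_zero e
  rfl

/-- Every non-zero element is uniquely `g h` with `pf g ⊆ pf m` and `h` primary, prime to `m`. -/
theorem norm_tsum_smooth_le {m : O} (hm : m ≠ 0) {G : O → ℂ} (hG : Summable G) (h0 : G 0 = 0)
    {w : O → ℝ} {B : ℝ}
    (h : ∀ g : O, g ≠ 0 → pf g ⊆ pf m →
      ‖∑' h : O, if Primary h ∧ IsCoprime h m then G (g * h) else 0‖ ≤ w g)
    (hw : ∀ S : Finset O, (∀ g ∈ S, g ≠ 0 ∧ pf g ⊆ pf m) → ∑ g ∈ S, w g ≤ B) :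
    ‖∑' h : O, G h‖ ≤ B := by
  have hinj := D4_injective m
  have hsupp : Function.support G ⊆ Set.range
      fun z : {g : O // g ≠ 0 ∧ pf g ⊆ pf m} × {h : O // Primary h ∧ IsCoprime h m} =>
        z.1.1 * z.2.1 := by
    intro x hx
    obtain ⟨g, k, hg, hk, rfl⟩ := D4_exists_split hm x (fun h' => hx (h' ▸ h0))
    exact ⟨(⟨g, hg⟩, ⟨k, hk⟩), rfl⟩
  have hs2 : Summable
      fun z : {g : O // g ≠ 0 ∧ pf g ⊆ pf m} × {h : O // Primary h ∧ IsCoprime h m} =>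
        G (z.1.1 * z.2.1) := hG.comp_injective hinj
  rw [← hinj.tsum_eq hsupp, hs2.tsum_prod]
  have hb : ∀ g : {g : O // g ≠ 0 ∧ pf g ⊆ pf m},
      ‖∑' k : {h : O // Primary h ∧ IsCoprime h m}, G (g.1 * k.1)‖ ≤ w g.1 := by
    intro g
    have e := tsum_subtype {h : O | Primary h ∧ IsCoprime h m} fun k => G (g.1 * k)
    refine le_of_eq_of_le (congrArg norm (e.trans (tsum_congr fun k => ?_))) (h g.1 g.2.1 g.2.2)
    rw [Set.indicator_apply]
    rfl
  have hw0 : ∀ g : {g : O // g ≠ 0 ∧ pf g ⊆ pf m}, 0 ≤ w g.1 := fun g =>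
    (norm_nonneg _).trans (hb g)
  have hw1 : ∀ S : Finset {g : O // g ≠ 0 ∧ pf g ⊆ pf m}, ∑ g ∈ S, w g.1 ≤ B := by
    intro S
    have := hw (S.map (Function.Embedding.subtype _)) fun g hg => by
      obtain ⟨g', -, rfl⟩ := Finset.mem_map.1 hg
      exact g'.2
    rwa [Finset.sum_map] at this
  have hs : Summable fun g : {g : O // g ≠ 0 ∧ pf g ⊆ pf m} => w g.1 := summable_of_sum_le hw0 hw1
  exact (tsum_of_norm_bounded hs.hasSum hb).trans (hs.tsum_le_of_sum_le hw1)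

/-- The dual coefficients on the elements prime to `M ∏ pun` are combinations of row characters. -/
theorem dual_expand {M : O} (hM : Adm M) [Fintype (Chr M)] {a : O} (ha : a ≠ 0) {Φ : O → ℂ}
    (hΦ : ∀ x, ‖Φ x‖ ≤ nr M) (hp : ∀ x y, M ∣ x - y → Φ x = Φ y) (g : O) :
    ∃ β : Chr M → ℂ, (∀ ν, ‖β ν‖ ≤ nr M) ∧ ∀ h : O,
      (if Primary h ∧ IsCoprime h (M * ∏ p ∈ pun M a, p) then Φ (g * h) * sym (rr M a) (g * h)
        else 0) = ∑ ν, β ν * conj (rc ν a h) := by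
  obtain ⟨ψ, hψ⟩ := rc_eq_Fr hM ha
  have hN : 0 < nr M := nr_pos hM.1
  have hN' : ((nr M : ℝ) : ℂ) ≠ 0 := Complex.ofReal_ne_zero.2 hN.ne'
  have hper : PerB M fun h => if IsCoprime h M then conj (Φ (g * h)) / ((nr M : ℝ) : ℂ) else 0 := by
    refine ⟨fun n => ?_, fun n n' hn => ?_, fun n hn => if_neg hn⟩
    · dsimp only
      split_ifs
      · rw [norm_div, Complex.norm_conj, Complex.norm_real, Real.norm_of_nonneg hN.le,
          div_le_one hN]
        exact hΦ _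
      · simp
    · by_cases hc : IsCoprime n M
      · simp only [if_pos hc, if_pos (LBA.coprime_congr hn hc)]
        rw [hp (g * n) (g * n') (by rw [← mul_sub]; exact hn.mul_left _)]
      · simp only [if_neg hc, if_neg fun h' => hc (LBA.coprime_congr (dvd_sub_comm.1 hn) h')]
  obtain ⟨b, hb, hb'⟩ := hper.expand hM.1
  refine ⟨fun ν => ((nr M : ℝ) : ℂ) * conj (b (ν * ψ)) * sym (rr M a) g, fun ν => ?_, fun h => ?_⟩
  · rw [norm_mul, norm_mul, Complex.norm_conj, Complex.norm_real, Real.norm_of_nonneg hN.le,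
      mul_assoc]
    exact mul_le_of_le_one_right hN.le (mul_le_one₀ (hb _) (norm_nonneg _) (norm_sym_le _ _))
  have hiff : IsCoprime h (M * ∏ p ∈ pun M a, p) ↔ IsCoprime h M ∧ ∀ p ∈ pun M a, ¬ p ∣ h := by
    rw [IsCoprime.mul_right_iff, IsCoprime.prod_right_iff]
    refine and_congr_right fun _ => forall₂_congr fun p hp' => ?_
    rw [isCoprime_comm]
    exact (BasicB.pf_sub (Finset.mem_filter.1 hp').1).1.coprime_iff_not_dvd
  have hFr : ∀ (ν : Chr M) (r n : O),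
      Fr ν r n = if Primary n then ev ν n * conj (sym r n) else 0 := fun _ _ _ => rfl
  simp only [hψ, hFr]
  by_cases h1 : Primary h
  swap
  · simp [h1]
  by_cases h2 : ∀ p ∈ pun M a, ¬ p ∣ h
  swap
  · rw [if_neg fun h' => h2 (hiff.1 h'.2).2]
    simp only [if_neg h2, map_zero, mul_zero, Finset.sum_const_zero]
  simp only [if_pos h2, if_pos h1]
  have e : ∑ ν : Chr M, ((nr M : ℝ) : ℂ) * conj (b (ν * ψ)) * sym (rr M a) g *
        conj (ev (ν * ψ) h * conj (sym (rr M a) h))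
      = ((nr M : ℝ) : ℂ) * sym (rr M a) (g * h) * conj (∑ ν : Chr M, b ν * ev ν h) := by
    rw [← Equiv.sum_comp (Equiv.mulRight ψ) fun ν => b ν * ev ν h, map_sum, Finset.mul_sum,
      sym_rr_mul hM]
    refine Finset.sum_congr rfl fun ν _ => ?_
    simp only [map_mul, Complex.conj_conj, Equiv.coe_mulRight]
    ring
  rw [e, ← hb' h]
  by_cases h3 : IsCoprime h M
  · rw [if_pos ⟨h1, hiff.2 ⟨h3, h2⟩⟩]
    simp only [if_pos h3, map_div₀, Complex.conj_conj, Complex.conj_ofReal]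
    field_simp
  · rw [if_neg fun h' => h3 (hiff.1 h'.2).1]
    simp only [if_neg h3, map_zero, mul_zero]

end Crest.Agent.R17.LBD
end
end

-- ▼ part PVc/R17/LBasicAuxD5
section

/-!
# Row 17, reflection of plain sums (`Pln_reflect`): cutting the dual sum into smooth sums
-/

set_option autoImplicit false

noncomputable section

namespace Crest.Agent.R17.LBD

open scoped ComplexConjugate
open MeasureTheory Complex Classical

namespace D5

open Set

theorem integrable_W {y : ℝ} (hy : 0 < y) : Integrable fun v : ℝ => Wc (y / Real.exp v) 0 := by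
  refine Integrable.of_integral_ne_zero ?_
  rw [integral_Wc_scale hy]
  exact ofReal_ne_zero.2 (Real.sqrt_pos.2 Real.pi_pos).ne'

theorem split3 {y : ℝ} (hy : 0 < y) {v₀ v₁ : ℝ} (h : v₀ ≤ v₁) :
    (Real.sqrt Real.pi : ℂ) = (∫ v in Iic v₀, Wc (y / Real.exp v) 0) +
      (∫ v in Ioc v₀ v₁, Wc (y / Real.exp v) 0) + ∫ v in Ioi v₁, Wc (y / Real.exp v) 0 := by
  have hi := integrable_W hy
  rw [← integral_Wc_scale hy, ← intervalIntegral.integral_Iic_add_Ioi (b := v₁) hi.integrableOn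
    hi.integrableOn, ← setIntegral_union (Iic_disjoint_Ioc le_rfl) measurableSet_Ioc
    hi.integrableOn hi.integrableOn, Iic_union_Ioc_eq_Iic h]

theorem tail_left {B : ℝ} (hB : 1 ≤ B) : ∃ C : ℝ, 0 < C ∧ ∀ y v₀ : ℝ, 0 < y →
    ‖∫ v in Iic v₀, Wc (y / Real.exp v) 0‖ ≤ C * y ^ (-B) * Real.exp (B * v₀) := by
  obtain ⟨C, hC, h⟩ := norm_Wc_le_rpow (-B) 0
  refine ⟨C, hC, fun y v₀ hy => ?_⟩
  have hB0 : 0 < B := by linarith
  refine (norm_integral_le_of_norm_le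
    ((integrableOn_exp_mul_Iic hB0 v₀).const_mul (C * y ^ (-B)))
    (Filter.Eventually.of_forall fun v => ?_)).trans ?_
  · refine (h _ 0 (by positivity) (by simp)).trans_eq ?_
    rw [Real.div_rpow hy.le (Real.exp_pos _).le, ← Real.exp_mul, div_eq_mul_inv, ← Real.exp_neg]
    ring_nf
  · rw [integral_const_mul, integral_exp_mul_Iic hB0]
    gcongr
    exact div_le_self (Real.exp_pos _).le hB

theorem tail_right {B : ℝ} (hB : 1 ≤ B) : ∃ C : ℝ, 0 < C ∧ ∀ y v₁ : ℝ, 0 < y →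
    ‖∫ v in Ioi v₁, Wc (y / Real.exp v) 0‖ ≤ C * y ^ B * Real.exp (-(B * v₁)) := by
  obtain ⟨C, hC, h⟩ := norm_Wc_le_rpow B 0
  refine ⟨C, hC, fun y v₁ hy => ?_⟩
  have hB0 : -B < 0 := by linarith
  refine (norm_integral_le_of_norm_le
    ((integrableOn_exp_mul_Ioi hB0 v₁).const_mul (C * y ^ B))
    (Filter.Eventually.of_forall fun v => ?_)).trans ?_
  · refine (h _ 0 (by positivity) (by simp)).trans_eq ?_
    rw [Real.div_rpow hy.le (Real.exp_pos _).le, ← Real.exp_mul, div_eq_mul_inv, ← Real.exp_neg]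
    ring_nf
  · rw [integral_const_mul, integral_exp_mul_Ioi hB0, neg_div_neg_eq, neg_mul]
    gcongr
    exact div_le_self (Real.exp_pos _).le hB

theorem re_w (u : ℝ) : ((1 / 2 + u * I : ℂ) - 1).re = -(1 / 2) := by
  simp; norm_num

theorem im_w (u : ℝ) : ((1 / 2 + u * I : ℂ) - 1).im = u := by
  simp

theorem integrable_gauss {a : ℝ} (ha : 0 < a) (τ : ℝ) :
    Integrable fun u : ℝ => Real.exp (-a * (u + τ) ^ 2) :=
  (integrable_exp_neg_mul_sq ha).comp_add_right τ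

theorem norm_K {y : ℝ} (hy : 0 < y) (u τ : ℝ) :
    ‖Kg (1 / 2 + u * I) (τ * I) * (y : ℂ) ^ ((1 / 2 + u * I : ℂ) - 1)‖ ≤
      y ^ (-(1 / 2 : ℝ)) * Real.exp (-(1 / 4) * (u + τ) ^ 2) := by
  rw [norm_mul, norm_cpow_line hy, re_w, mul_comm]
  gcongr
  refine (norm_Kg_half u τ).trans_eq ?_
  congr 1; ring

theorem integrable_K {y : ℝ} (hy : 0 < y) (τ : ℝ) : Integrable fun u : ℝ =>
    Kg (1 / 2 + u * I) (τ * I) * (y : ℂ) ^ ((1 / 2 + u * I : ℂ) - 1) := by
  refine ((integrable_gauss (a := 1 / 4) (by norm_num) τ).const_mul _).mono'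
    (Continuous.aestronglyMeasurable ?_) (Filter.Eventually.of_forall fun u => norm_K hy u τ)
  refine (continuous_Kg_half _).mul ?_
  exact Continuous.const_cpow (by fun_prop) (Or.inl (ofReal_ne_zero.2 hy.ne'))

/-- The slice of the dual sum at scale `e^v` as an integral of smooth sums. -/
theorem D_eq {b : O → ℂ} (hb : PolyB b 1 0) {Z : ℝ} (hZ : 0 < Z) (τ : ℝ) {X : ℝ} (hX : 0 < X) :
    ∑' h : O, b h * Vg (Z * nr h) (τ * I) * Wc (nr h / X) 0 =
      ∫ u : ℝ, Kg (1 / 2 + u * I) (τ * I) * ((Z * X : ℝ) : ℂ) ^ ((1 / 2 + u * I : ℂ) - 1) *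
        Sm b X ((1 / 2 + u * I : ℂ) - 1) := by
  have e1 : ∀ h : O, b h * Vg (Z * nr h) (τ * I) * Wc (nr h / X) 0 =
      ∫ u : ℝ, b h * Wc (nr h / X) 0 * (Kg (1 / 2 + u * I) (τ * I) *
        ((Z * nr h : ℝ) : ℂ) ^ ((1 / 2 + u * I : ℂ) - 1)) := fun h => by
    rw [integral_const_mul, Vg]; ring
  simp only [e1]
  rw [integral_tsum_of_summable_integral_norm]
  · refine integral_congr_ae (Filter.Eventually.of_forall fun u => ?_)
    beta_reduce
    rw [Sm, ← tsum_mul_left]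
    refine tsum_congr fun h => ?_
    rcases eq_or_ne h 0 with rfl | hh
    · simp [hb.1]
    · have hp : 0 < nr h / X := div_pos (nr_pos hh) hX
      have e2 : Z * nr h = Z * X * (nr h / X) := by field_simp
      generalize (1 / 2 + u * I : ℂ) - 1 = t
      have e3 := Wc_add hp 0 t
      rw [zero_add] at e3
      rw [e3, e2, ofReal_mul (Z * X), mul_cpow_ofReal_nonneg (by positivity) hp.le]
      ring
  · intro h
    rcases eq_or_ne h 0 with rfl | hh
    · simp [hb.1]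
    · exact (integrable_K (mul_pos hZ (nr_pos hh)) τ).const_mul _
  · refine Summable.of_nonneg_of_le (fun h => integral_nonneg fun _ => norm_nonneg _) (fun h => ?_)
      ((summable_Sm hb hX 0).mul_right
        (Z ^ (-(1 / 2 : ℝ)) * ∫ u : ℝ, Real.exp (-(1 / 4) * (u + τ) ^ 2)))
    rcases eq_or_ne h 0 with rfl | hh
    · simp [hb.1]
    · simp only [norm_mul (b h * Wc (nr h / X) 0), integral_const_mul]
      refine mul_le_mul_of_nonneg_left ?_ (norm_nonneg _)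
      rw [← integral_const_mul]
      refine integral_mono (integrable_K (mul_pos hZ (nr_pos hh)) τ).norm
        ((integrable_gauss (a := 1 / 4) (by norm_num) τ).const_mul _) fun u => ?_
      refine (norm_K (mul_pos hZ (nr_pos hh)) u τ).trans ?_
      refine mul_le_mul_of_nonneg_right ?_ (Real.exp_pos _).le
      exact Real.rpow_le_rpow_of_nonpos hZ (le_mul_of_one_le_right hZ.le (one_le_nr hh))
        (by norm_num)

theorem D_le (A : ℝ) (hA : 0 ≤ A) : ∃ C : ℝ, 0 < C ∧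
    ∀ (b : O → ℂ) (Z τ v v₁ L S : ℝ), PolyB b 1 0 → 0 < Z → v ≤ v₁ → 0 ≤ S →
      (∀ u : ℝ, |u + τ| ≤ L → ‖Sm b (Real.exp (v - 1 / 4)) (u * I)‖ ≤ S * Real.exp (v / 2)) →
      ‖∑' h : O, b h * Vg (Z * nr h) (τ * I) * Wc (nr h / Real.exp v) 0‖ ≤
        C * Z ^ (-(1 / 2 : ℝ)) * (S + Real.exp (v₁ / 2 - A * L)) := by
  obtain ⟨C₀, hC₀, h₀⟩ := tsum_norm_Sm_le 0 0 0 le_rfl
  set G : ℝ := ∫ u : ℝ, Real.exp (-(1 / 8) * u ^ 2) with hG
  have hG0 : 0 ≤ G := integral_nonneg fun _ => (Real.exp_pos _).le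
  set M : ℝ := Real.exp (1 / 16) * Real.exp (2 * A ^ 2) * (1 + C₀) with hM
  have hM0 : 0 < M := by positivity
  refine ⟨M * (G + 1), by positivity, fun b Z τ v v₁ L S hb hZ hv hS hyp => ?_⟩
  set E : ℝ := Real.exp (v₁ / 2 - A * L) with hE
  have hE0 : 0 < E := Real.exp_pos _
  rw [D_eq hb hZ τ (Real.exp_pos v)]
  refine (norm_integral_le_of_norm_le ((integrable_gauss (a := 1 / 8) (by norm_num) τ).const_mul
    (M * Z ^ (-(1 / 2 : ℝ)) * (S + E))) (Filter.Eventually.of_forall fun u => ?_)).trans ?_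
  · have h1 := norm_K (mul_pos hZ (Real.exp_pos v)) u τ
    have h2 : ‖Sm b (Real.exp v) ((1 / 2 + u * I : ℂ) - 1)‖ =
        Real.exp (1 / 16) * ‖Sm b (Real.exp (v - 1 / 4)) (u * I)‖ := by
      rw [WeightB.norm_Sm_eq b hb.1 (Real.exp_pos v), re_w, im_w, ← Real.exp_add,
        show (-(1 / 2 : ℝ)) ^ 2 / 4 = 1 / 16 by norm_num,
        show v + -(1 / 2) / 2 = v - 1 / 4 by ring]
    have h3 : ‖Sm b (Real.exp (v - 1 / 4)) (u * I)‖ ≤
        Real.exp (v / 2) * ((1 + C₀) * (S + E) * Real.exp (A * |u + τ|)) := by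
      have e1 : 1 ≤ Real.exp (A * |u + τ|) := Real.one_le_exp (by positivity)
      rcases le_or_gt |u + τ| L with hL | hL
      · refine (hyp u hL).trans ?_
        rw [mul_comm]
        refine mul_le_mul_of_nonneg_left ?_ (Real.exp_pos _).le
        calc S = 1 * S * 1 := by ring
          _ ≤ _ := by gcongr <;> linarith
      · have h4 := h₀ b 1 (Real.exp (v - 1 / 4)) (u * I) hb (Real.exp_pos _) (by simp)
        have h5 : ‖Sm b (Real.exp (v - 1 / 4)) (u * I)‖ ≤ C₀ * Real.exp (v - 1 / 4) := by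
          refine (norm_tsum_le_tsum_norm (summable_Sm hb (Real.exp_pos _) _)).trans (h4.trans ?_)
          simp
        refine h5.trans ?_
        have h6 : Real.exp (v - 1 / 4) ≤ Real.exp (v / 2) * (E * Real.exp (A * |u + τ|)) := by
          rw [hE, ← Real.exp_add, ← Real.exp_add]
          refine Real.exp_le_exp.2 ?_
          nlinarith [mul_le_mul_of_nonneg_left hL.le hA]
        calc C₀ * Real.exp (v - 1 / 4)
            ≤ C₀ * (Real.exp (v / 2) * (E * Real.exp (A * |u + τ|))) := by gcongr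
          _ = Real.exp (v / 2) * (C₀ * E * Real.exp (A * |u + τ|)) := by ring
          _ ≤ _ := by gcongr <;> linarith
    have h7 : (Z * Real.exp v) ^ (-(1 / 2 : ℝ)) * Real.exp (v / 2) = Z ^ (-(1 / 2 : ℝ)) := by
      rw [Real.mul_rpow hZ.le (Real.exp_pos _).le, ← Real.exp_mul, mul_assoc, ← Real.exp_add]
      rw [show v * -(1 / 2) + v / 2 = 0 by ring, Real.exp_zero, mul_one]
    have h8 : Real.exp (-(1 / 4) * (u + τ) ^ 2) * Real.exp (A * |u + τ|) ≤
        Real.exp (2 * A ^ 2) * Real.exp (-(1 / 8) * (u + τ) ^ 2) := by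
      rw [← Real.exp_add, ← Real.exp_add]
      refine Real.exp_le_exp.2 ?_
      rw [← sq_abs (u + τ)]
      nlinarith [sq_nonneg (|u + τ| - 4 * A)]
    rw [norm_mul, h2]
    calc _ ≤ (Z * Real.exp v) ^ (-(1 / 2 : ℝ)) * Real.exp (-(1 / 4) * (u + τ) ^ 2) *
          (Real.exp (1 / 16) * (Real.exp (v / 2) *
            ((1 + C₀) * (S + E) * Real.exp (A * |u + τ|)))) := by gcongr
      _ = ((Z * Real.exp v) ^ (-(1 / 2 : ℝ)) * Real.exp (v / 2)) * Real.exp (1 / 16) *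
          ((1 + C₀) * (S + E)) *
          (Real.exp (-(1 / 4) * (u + τ) ^ 2) * Real.exp (A * |u + τ|)) := by ring
      _ ≤ Z ^ (-(1 / 2 : ℝ)) * Real.exp (1 / 16) * ((1 + C₀) * (S + E)) *
          (Real.exp (2 * A ^ 2) * Real.exp (-(1 / 8) * (u + τ) ^ 2)) := by
          rw [h7]; gcongr
      _ = _ := by rw [hM]; ring
  · rw [integral_const_mul,
      integral_add_right_eq_self (fun u : ℝ => Real.exp (-(1 / 8) * u ^ 2)) τ, ← hG]
    calc M * Z ^ (-(1 / 2 : ℝ)) * (S + E) * G ≤ M * Z ^ (-(1 / 2 : ℝ)) * (S + E) * (G + 1) := by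
          gcongr; linarith
      _ = _ := by ring

theorem norm_tsum_le {f : O → ℂ} {K σ : ℝ} (hσ : 1 < σ) (h : ∀ n, ‖f n‖ ≤ K * nr n ^ (-σ)) :
    Summable f ∧ ‖∑' n, f n‖ ≤ K * ∑' n : O, nr n ^ (-σ) := by
  have hs := (summable_nr_rpow hσ).mul_left K
  refine ⟨Summable.of_norm_bounded hs h, ?_⟩
  rw [← tsum_mul_left]
  exact tsum_of_norm_bounded hs.hasSum h

end D5

open D5 Set in
/-- The dual sum is bounded by the smooth sums of length in `[e^{v₀ - 1/4}, e^{v₁ - 1/4}]` and height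
within `L` of `-τ`, up to tails. -/
theorem cut_raw (A B : ℝ) (hA : 0 ≤ A) (hB : 1 ≤ B) (k : ℕ) (hk : 2 ≤ k) : ∃ C : ℝ, 0 < C ∧
    ∀ (b : O → ℂ) (Z τ v₀ v₁ L S : ℝ), PolyB b 1 0 → 0 < Z → v₀ ≤ v₁ → 0 ≤ S →
      (∀ v u : ℝ, v₀ ≤ v → v ≤ v₁ → |u + τ| ≤ L →
        ‖Sm b (Real.exp (v - 1 / 4)) (u * I)‖ ≤ S * Real.exp (v / 2)) →
      ‖∑' h : O, b h * Vg (Z * nr h) (τ * I)‖ ≤ C * Z ^ (-(1 / 2 : ℝ)) *
        ((v₁ - v₀) * (S + Real.exp (v₁ / 2 - A * L)) + Real.exp (B * v₀) +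
          (1 + |τ|) ^ (2 * k) * Z ^ (-(k : ℝ)) * Real.exp (-((k - 1 : ℝ) * v₁))) := by
  have hk' : (1 : ℝ) ≤ k - 1 := by
    have : (2 : ℝ) ≤ k := by exact_mod_cast hk
    linarith
  obtain ⟨C₁, hC₁, h₁⟩ := tail_left hB
  obtain ⟨C₃, hC₃, h₃⟩ := tail_right hk'
  obtain ⟨C₂, hC₂, h₂⟩ := D_le A hA
  obtain ⟨V₀, hV₀, g₀⟩ := norm_Vg_le 0
  obtain ⟨V₁, hV₁, g₁⟩ := norm_Vg_le k
  set K₁ : ℝ := ∑' n : O, nr n ^ (-(B + 1 / 2)) with hK₁
  set K₃ : ℝ := ∑' n : O, nr n ^ (-(3 / 2 : ℝ)) with hK₃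
  have hK₁0 : 0 ≤ K₁ := tsum_nonneg fun _ => by positivity
  have hK₃0 : 0 ≤ K₃ := tsum_nonneg fun _ => by positivity
  refine ⟨C₂ + V₀ * C₁ * K₁ + V₁ * C₃ * K₃, by positivity,
    fun b Z τ v₀ v₁ L S hb hZ hv hS hyp => ?_⟩
  have hb1 : ∀ h, ‖b h‖ ≤ 1 := fun h => by simpa using hb.2 h
  set a : O → ℂ := fun h => b h * Vg (Z * nr h) (τ * I) with ha
  have a0 : a 0 = 0 := by simp [ha, hb.1]
  have sa : Summable a := summable_Vg hb.1 hb1 hZ τ
  obtain ⟨s1, n1⟩ := norm_tsum_le (σ := B + 1 / 2) (by linarith)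
    (f := fun h => a h * ∫ v in Iic v₀, Wc (nr h / Real.exp v) 0)
    (K := V₀ * C₁ * Z ^ (-(1 / 2 : ℝ)) * Real.exp (B * v₀)) fun h => by
      rcases eq_or_ne h 0 with rfl | hh
      · rw [a0, zero_mul, norm_zero]; positivity
      · have p := nr_pos hh
        have e1 := g₀ _ τ (mul_pos hZ p)
        rw [mul_zero, pow_zero, mul_one, Nat.cast_zero, add_zero, Real.mul_rpow hZ.le p.le] at e1
        rw [norm_mul, ha, norm_mul, neg_add, Real.rpow_add p]
        calc _ ≤ 1 * (V₀ * (Z ^ (-(1 / 2 : ℝ)) * nr h ^ (-(1 / 2 : ℝ)))) *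
              (C₁ * nr h ^ (-B) * Real.exp (B * v₀)) := by
              gcongr
              · exact hb1 h
              · exact h₁ _ _ p
          _ = _ := by ring
  obtain ⟨s3, n3⟩ := norm_tsum_le (σ := 3 / 2) (by norm_num)
    (f := fun h => a h * ∫ v in Ioi v₁, Wc (nr h / Real.exp v) 0)
    (K := V₁ * C₃ * Z ^ (-(1 / 2 : ℝ)) * ((1 + |τ|) ^ (2 * k) * Z ^ (-(k : ℝ)) *
      Real.exp (-((k - 1 : ℝ) * v₁)))) fun h => by
      rcases eq_or_ne h 0 with rfl | hh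
      · rw [a0, zero_mul, norm_zero]; positivity
      · have p := nr_pos hh
        have e1 := g₁ _ τ (mul_pos hZ p)
        rw [Real.mul_rpow hZ.le p.le, neg_add, Real.rpow_add hZ] at e1
        rw [norm_mul, ha, norm_mul, show -(3 / 2 : ℝ) = (-(1 / 2) + -(k : ℝ)) + (k - 1) by ring,
          Real.rpow_add p]
        calc _ ≤ 1 * (V₁ * (1 + |τ|) ^ (2 * k) * (Z ^ (-(1 / 2 : ℝ)) * Z ^ (-(k : ℝ)) *
              nr h ^ (-(1 / 2 : ℝ) + -(k : ℝ)))) *
              (C₃ * nr h ^ (k - 1 : ℝ) * Real.exp (-((k - 1 : ℝ) * v₁))) := by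
              gcongr
              · exact hb1 h
              · exact h₃ _ _ p
          _ = _ := by ring
  have W1 : ∀ y : ℝ, ‖Wc y 0‖ ≤ 1 := fun y => by simpa using norm_Wc_le y 0
  have vol : (volume (Ioc v₀ v₁)) < ⊤ := by simp
  have volr : (volume.real (Ioc v₀ v₁)) = v₁ - v₀ := Real.volume_real_Ioc_of_le hv
  have s2 : Summable fun h => a h * ∫ v in Ioc v₀ v₁, Wc (nr h / Real.exp v) 0 := by
    refine Summable.of_norm_bounded (sa.norm.mul_right (1 * volume.real (Ioc v₀ v₁))) fun h => ?_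
    rw [norm_mul]
    exact mul_le_mul_of_nonneg_left
      (norm_setIntegral_le_of_norm_le_const vol fun v _ => W1 _) (norm_nonneg _)
  have n2 : ‖∑' h, a h * ∫ v in Ioc v₀ v₁, Wc (nr h / Real.exp v) 0‖ ≤
      C₂ * Z ^ (-(1 / 2 : ℝ)) * (S + Real.exp (v₁ / 2 - A * L)) * (v₁ - v₀) := by
    simp only [← integral_const_mul]
    rw [integral_tsum_of_summable_integral_norm, ← volr]
    · exact norm_setIntegral_le_of_norm_le_const vol fun v hv' =>
        h₂ b Z τ v v₁ L S hb hZ hv'.2 hS fun u hu => hyp v u hv'.1.le hv'.2 hu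
    · intro h
      rcases eq_or_ne h 0 with rfl | hh
      · simp [a0]
      · exact ((integrable_W (nr_pos hh)).const_mul _).integrableOn
    · refine Summable.of_nonneg_of_le (fun h => integral_nonneg fun _ => norm_nonneg _)
        (fun h => ?_) (sa.norm.mul_right (1 * volume.real (Ioc v₀ v₁)))
      simp only [norm_mul, integral_const_mul]
      refine mul_le_mul_of_nonneg_left ((le_abs_self _).trans ?_) (norm_nonneg _)
      rw [← Real.norm_eq_abs]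
      exact norm_setIntegral_le_of_norm_le_const vol fun v _ => by simpa using W1 _
  have key : (∑' h, a h) * (Real.sqrt Real.pi : ℂ) =
      (∑' h, a h * ∫ v in Iic v₀, Wc (nr h / Real.exp v) 0) +
      (∑' h, a h * ∫ v in Ioc v₀ v₁, Wc (nr h / Real.exp v) 0) +
      ∑' h, a h * ∫ v in Ioi v₁, Wc (nr h / Real.exp v) 0 := by
    rw [← s1.tsum_add s2, ← (s1.add s2).tsum_add s3, ← tsum_mul_right]
    refine tsum_congr fun h => ?_
    rcases eq_or_ne h 0 with rfl | hh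
    · simp [a0]
    · rw [split3 (nr_pos hh) hv]; ring
  have hpi : 1 ≤ ‖(Real.sqrt Real.pi : ℂ)‖ := by
    rw [norm_real, Real.norm_of_nonneg (Real.sqrt_nonneg _)]
    exact Real.one_le_sqrt.2 (by linarith [Real.pi_gt_three])
  have hv' : 0 ≤ v₁ - v₀ := by linarith
  set P := (v₁ - v₀) * (S + Real.exp (v₁ / 2 - A * L)) with hP
  set Q := (1 + |τ|) ^ (2 * k) * Z ^ (-(k : ℝ)) * Real.exp (-((k - 1 : ℝ) * v₁)) with hQ
  set T := Real.exp (B * v₀) with hT
  have P0 : 0 ≤ P := by positivity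
  have Q0 : 0 ≤ Q := by positivity
  have T0 : 0 ≤ T := by positivity
  calc ‖∑' h, a h‖ ≤ ‖(∑' h, a h) * (Real.sqrt Real.pi : ℂ)‖ := by
        rw [norm_mul]; exact le_mul_of_one_le_right (norm_nonneg _) hpi
    _ ≤ V₀ * C₁ * Z ^ (-(1 / 2 : ℝ)) * T * K₁ +
        C₂ * Z ^ (-(1 / 2 : ℝ)) * (S + Real.exp (v₁ / 2 - A * L)) * (v₁ - v₀) +
        V₁ * C₃ * Z ^ (-(1 / 2 : ℝ)) * Q * K₃ := by
        rw [key]
        exact norm_add₃_le.trans (add_le_add (add_le_add n1 n2) n3)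
    _ = Z ^ (-(1 / 2 : ℝ)) * (C₂ * P + V₀ * C₁ * K₁ * T + V₁ * C₃ * K₃ * Q) := by
        rw [hP]; ring
    _ ≤ Z ^ (-(1 / 2 : ℝ)) * (C₂ * (P + T + Q) + V₀ * C₁ * K₁ * (P + T + Q) +
        V₁ * C₃ * K₃ * (P + T + Q)) := by
        gcongr <;> linarith
    _ = _ := by ring

theorem cut {ε c : ℝ} (hε : 0 < ε) (hc : 1 ≤ c) (J : ℝ) : ∃ C : ℝ, 0 < C ∧
    ∀ (b : O → ℂ) (R Z τ Y₁ S : ℝ), PolyB b 1 0 → 1 ≤ R → |τ| ≤ R → 0 < Z → Z⁻¹ ≤ c * R ^ 2 →
      R⁻¹ ≤ Y₁ → Y₁ ≤ 4 * R ^ (4 + ε) → R ^ ε * (1 + |τ|) ^ 2 ≤ c * Z * Y₁ → 0 ≤ S →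
      (∀ Y u : ℝ, R⁻¹ ≤ Y → Y ≤ Y₁ → |u| ≤ |τ| + Real.log R →
        ‖Sm b Y (u * I)‖ ≤ S * Real.sqrt Y) →
      ‖∑' h : O, b h * Vg (Z * nr h) (τ * I)‖ ≤
        C * Z ^ (-(1 / 2 : ℝ)) * (R ^ (ε / 3) * S + R ^ (-J)) := by
  obtain ⟨m, hm⟩ := exists_nat_ge ((4 + |J|) / ε + 1)
  have hJ := abs_nonneg J
  have hJ' := le_abs_self J
  have hm1 : (1 : ℝ) ≤ m := le_trans (le_add_of_nonneg_left (by positivity)) hm
  have hm2 : 4 + |J| ≤ ε * m := by
    have : (4 + |J|) / ε ≤ m := by linarith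
    rwa [div_le_iff₀' hε] at this
  obtain ⟨C, hC, h⟩ := cut_raw (|J| + 4 + 2 * ε) (|J| + 1) (by positivity) (by linarith) (m + 1)
    (by have : 1 ≤ m := by exact_mod_cast hm1
        omega)
  set δ : ℝ := ε / 3 / (5 + ε) with hδ
  have δ0 : 0 < δ := by positivity
  set D : ℝ := 4 ^ δ / δ with hD
  have D0 : 0 < D := by positivity
  refine ⟨C * (D + D * (4 * Real.exp (1 / 8)) + Real.exp ((|J| + 1) / 4) + 4 * c ^ (m + 1)),
    by positivity, fun b R Z τ Y₁ S hb hR hτ hZ hZ' hY hY' hT hS hyp => ?_⟩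
  have R0 : 0 < R := by linarith
  have Y0 : 0 < Y₁ := lt_of_lt_of_le (inv_pos.2 R0) hY
  have c0 : 0 < c := by linarith
  have lR := Real.log_nonneg hR
  have hl : -Real.log R ≤ Real.log Y₁ := by
    rw [← Real.log_inv]; exact Real.log_le_log (inv_pos.2 R0) hY
  have mono : ∀ {s t : ℝ}, s ≤ t → R ^ s ≤ R ^ t := fun h => Real.rpow_le_rpow_of_exponent_le hR h
  have RJ : 0 < R ^ (-J) := by positivity
  refine (h b Z τ (1 / 4 - Real.log R) (1 / 4 + Real.log Y₁) (Real.log R) S hb hZ (by linarith) hS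
    fun v u h0 h1 hu => ?_).trans ?_
  · refine (hyp _ u ?_ ?_ ?_).trans (mul_le_mul_of_nonneg_left ?_ hS)
    · rw [← Real.exp_log (inv_pos.2 R0), Real.log_inv]
      exact Real.exp_le_exp.2 (by linarith)
    · rw [← Real.exp_log Y0]
      exact Real.exp_le_exp.2 (by linarith)
    · have := abs_sub_abs_le_abs_sub u (-τ)
      rw [abs_neg, sub_neg_eq_add] at this
      linarith
    · rw [Real.sqrt_le_iff, ← Real.exp_nat_mul]
      exact ⟨(Real.exp_pos _).le, Real.exp_le_exp.2 (by push_cast; linarith)⟩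
  have b1 : 1 / 4 + Real.log Y₁ - (1 / 4 - Real.log R) ≤ D * R ^ (ε / 3) := by
    have e1 : 1 / 4 + Real.log Y₁ - (1 / 4 - Real.log R) = Real.log (Y₁ * R) := by
      rw [Real.log_mul Y0.ne' R0.ne']; ring
    rw [e1]
    refine (Real.log_le_rpow_div (by positivity) δ0).trans ?_
    have e2 : Y₁ * R ≤ 4 * R ^ (5 + ε) := by
      rw [show 5 + ε = 4 + ε + 1 by ring, Real.rpow_add_one R0.ne', ← mul_assoc]
      gcongr
    calc (Y₁ * R) ^ δ / δ ≤ (4 * R ^ (5 + ε)) ^ δ / δ := by gcongr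
      _ = _ := by
        rw [Real.mul_rpow (by norm_num) (by positivity), ← Real.rpow_mul R0.le, hD,
          show (5 + ε) * δ = ε / 3 by rw [hδ]; field_simp]
        ring
  have b2 : R ^ (ε / 3) * Real.exp ((1 / 4 + Real.log Y₁) / 2 - (|J| + 4 + 2 * ε) * Real.log R) ≤
      4 * Real.exp (1 / 8) * R ^ (-J) := by
    have e1 : Real.log Y₁ ≤ Real.log 4 + (4 + ε) * Real.log R := by
      rw [← Real.log_rpow R0, ← Real.log_mul (by norm_num) (by positivity)]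
      exact Real.log_le_log Y0 hY'
    have e2 : 0 ≤ Real.log 4 := Real.log_nonneg (by norm_num)
    have e3 : (4 : ℝ) = Real.exp (Real.log 4) := (Real.exp_log (by norm_num)).symm
    rw [Real.rpow_def_of_pos R0, Real.rpow_def_of_pos R0, e3, ← Real.exp_add, ← Real.exp_add,
      ← Real.exp_add, ← e3]
    refine Real.exp_le_exp.2 ?_
    nlinarith [mul_nonneg hε.le lR, mul_le_mul_of_nonneg_right hJ' lR]
  have b3 : Real.exp ((|J| + 1) * (1 / 4 - Real.log R)) ≤ Real.exp ((|J| + 1) / 4) * R ^ (-J) := by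
    rw [Real.rpow_def_of_pos R0, ← Real.exp_add]
    refine Real.exp_le_exp.2 ?_
    nlinarith [mul_le_mul_of_nonneg_right hJ' lR]
  have b4 : (1 + |τ|) ^ (2 * (m + 1)) * Z ^ (-((m + 1 : ℕ) : ℝ)) *
      Real.exp (-((((m + 1 : ℕ) : ℝ) - 1) * (1 / 4 + Real.log Y₁))) ≤
      4 * c ^ (m + 1) * R ^ (-J) := by
    have e1 : Real.exp (-((((m + 1 : ℕ) : ℝ) - 1) * (1 / 4 + Real.log Y₁))) ≤ (Y₁⁻¹) ^ m := by
      rw [← Real.exp_log (inv_pos.2 Y0), ← Real.exp_nat_mul, Real.log_inv]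
      refine Real.exp_le_exp.2 ?_
      push_cast
      nlinarith
    have e2 : (1 + |τ|) ^ 2 * Z⁻¹ * Y₁⁻¹ ≤ c * R ^ (-ε) := by
      have p : 0 < R ^ ε := by positivity
      rw [Real.rpow_neg R0.le, mul_assoc, ← mul_inv, ← div_eq_mul_inv, ← div_eq_mul_inv,
        div_le_div_iff₀ (by positivity) p]
      linarith
    have e3 : (1 + |τ|) ^ 2 ≤ (2 * R) ^ 2 := by gcongr; linarith
    have e4 : R ^ 4 * (R ^ (-ε)) ^ m ≤ R ^ (-J) := by
      rw [← Real.rpow_natCast, ← Real.rpow_natCast, ← Real.rpow_mul R0.le, ← Real.rpow_add R0]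
      refine mono ?_
      push_cast
      linarith
    rw [Real.rpow_neg hZ.le, Real.rpow_natCast, ← inv_pow]
    calc _ ≤ (1 + |τ|) ^ (2 * (m + 1)) * Z⁻¹ ^ (m + 1) * Y₁⁻¹ ^ m := by gcongr
      _ = (1 + |τ|) ^ 2 * Z⁻¹ * ((1 + |τ|) ^ 2 * Z⁻¹ * Y₁⁻¹) ^ m := by
          rw [mul_pow, mul_pow, ← pow_mul]; ring
      _ ≤ (2 * R) ^ 2 * (c * R ^ 2) * (c * R ^ (-ε)) ^ m := by gcongr
      _ = 4 * c ^ (m + 1) * (R ^ 4 * (R ^ (-ε)) ^ m) := by rw [mul_pow]; ring
      _ ≤ _ := by gcongr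
  rw [mul_right_comm C (_ + _ + _ + 4 * c ^ (m + 1)), mul_assoc (C * Z ^ (-(1 / 2 : ℝ)))]
  refine mul_le_mul_of_nonneg_left ?_ (by positivity)
  set E := Real.exp ((1 / 4 + Real.log Y₁) / 2 - (|J| + 4 + 2 * ε) * Real.log R) with hE
  have E0 : 0 < E := Real.exp_pos _
  have X0 : 0 ≤ R ^ (ε / 3) * S := by positivity
  calc _ ≤ D * R ^ (ε / 3) * (S + E) + Real.exp ((|J| + 1) / 4) * R ^ (-J) +
        4 * c ^ (m + 1) * R ^ (-J) := by gcongr
    _ = D * (R ^ (ε / 3) * S) + D * (R ^ (ε / 3) * E) + Real.exp ((|J| + 1) / 4) * R ^ (-J) +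
        4 * c ^ (m + 1) * R ^ (-J) := by ring
    _ ≤ D * (R ^ (ε / 3) * S + R ^ (-J)) +
        D * (4 * Real.exp (1 / 8) * (R ^ (ε / 3) * S + R ^ (-J))) +
        Real.exp ((|J| + 1) / 4) * (R ^ (ε / 3) * S + R ^ (-J)) +
        4 * c ^ (m + 1) * (R ^ (ε / 3) * S + R ^ (-J)) := by
        have f1 : R ^ (-J) ≤ R ^ (ε / 3) * S + R ^ (-J) := by linarith
        have f2 : R ^ (ε / 3) * S ≤ R ^ (ε / 3) * S + R ^ (-J) := by linarith
        have f3 : R ^ (ε / 3) * E ≤ 4 * Real.exp (1 / 8) * (R ^ (ε / 3) * S + R ^ (-J)) :=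
          b2.trans (by gcongr)
        exact add_le_add (add_le_add (add_le_add (mul_le_mul_of_nonneg_left f2 D0.le)
          (mul_le_mul_of_nonneg_left f3 D0.le))
          (mul_le_mul_of_nonneg_left f1 (Real.exp_pos _).le))
          (mul_le_mul_of_nonneg_left f1 (by positivity))
    _ = _ := by ring

end Crest.Agent.R17.LBD
end
end

-- ▼ part PVc/R17/LBasicAuxD6
section

/-!
# Row 17, reflection of plain sums (`Pln_reflect`): assembly
-/

set_option autoImplicit false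

noncomputable section

namespace Crest.Agent.R17.LBD

open scoped ComplexConjugate
open MeasureTheory Complex Classical

theorem pun_primes (M a : O) : ∀ p ∈ pun M a, Prime p ∧ Primary p :=
  fun _ hp => BasicB.pf_sub (Finset.mem_filter.1 hp).1

theorem act_primes (M a : O) : ∀ p ∈ act M a, Prime p ∧ Primary p :=
  fun _ hp => BasicB.pf_sub (Finset.mem_filter.1 hp).1

theorem polyB_Fr {M : O} (hM : Adm M) (ν : Chr M) (r : O) : PolyB (Fr ν r) 1 0 :=
  ⟨Fr_zero ν r, fun n => by simpa using norm_Fr_le hM ν r n⟩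

theorem Pln_sieve {M : O} (hM : Adm M) {a : O} {ψ : Chr M} (ν : Chr M)
    (hψ : ∀ n : O, rc ν a n = if ∀ p ∈ pun M a, ¬ p ∣ n then Fr ψ (rr M a) n else 0)
    {N : ℝ} (hN : 0 < N) (s : ℂ) :
    Pln ν a N s = ∑ E ∈ (pun M a).powerset, (-1) ^ E.card * (Fr ψ (rr M a) (∏ p ∈ E, p) *
      Sm (Fr ψ (rr M a)) (N / nr (∏ p ∈ E, p)) s) := by
  have hs := (summable_Sm (polyB_Fr hM ψ (rr M a)) hN s).of_norm
  have h := LS2.tsum_sieve (pun_primes M a) hs
  rw [Pln]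
  simp only [hψ, ite_mul, zero_mul]
  rw [h]
  refine Finset.sum_congr rfl fun E hE => ?_
  have he : Primary (∏ p ∈ E, p) :=
    (squarefree_prod_primes fun p hp => pun_primes M a p (Finset.mem_powerset.1 hE hp)).2.1
  congr 1
  rw [Sm, ← tsum_mul_left]
  refine tsum_congr fun n => ?_
  rw [Fr_mul hM ψ a he, nr_mul, mul_assoc, div_div_eq_mul_div, mul_comm (nr n)]

theorem conj_Pln {M : O} (ν : Chr M) (a : O) (Y u : ℝ) :
    Sm (fun h => conj (rc ν a h)) Y (u * I) = conj (Pln ν a Y ((-u : ℝ) * I)) := by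
  rw [Pln, Sm, Complex.conj_tsum]
  refine tsum_congr fun n => ?_
  rw [map_mul, conj_Wc]
  simp

theorem polyB_conj_rc {M : O} (hM : Adm M) (ν : Chr M) (a : O) :
    PolyB (fun h => conj (rc ν a h)) 1 0 :=
  ⟨by simp [LBA.rc_zero], fun n => by simpa using LBA.norm_rc_le hM ν a n⟩

/-- The bound for the unpunctured sum. -/
theorem Sm_Fr_le {M : O} (hM : Adm M) {ε : ℝ} (hε : 0 < ε) (J : ℝ) : ∃ C : ℝ, 0 < C ∧
    ∀ (R N e τ S : ℝ) (ψ : Chr M) (a : O), 1 ≤ R → ¬ Exc M a → nr a ≤ R → R⁻¹ ≤ N → N ≤ R →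
      |τ| ≤ R → 0 ≤ S → 1 ≤ e → cond M a * e ≤ nr a →
      (∀ (ν' : Chr M) (Y t : ℝ), R⁻¹ ≤ Y → Y ≤ cond M a * e * R ^ ε * (1 + |τ|) ^ 2 / N →
        |t| ≤ |τ| + Real.log R → Real.sqrt (N / (e * Y)) * ‖Pln ν' a Y (t * I)‖ ≤ S) →
      ‖Sm (Fr ψ (rr M a)) (N / e) (τ * I)‖ ≤ C * R ^ (ε / 3) * (R ^ (ε / 3) * S + R * R ^ (-J)) := by
  have hNM := one_le_nr hM.1
  have := finite_chr hM.1
  let _ : Fintype (Chr M) := Fintype.ofFinite _
  obtain ⟨C₁, hC₁, h₁⟩ := cut hε hNM J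
  obtain ⟨C₂, hC₂, h₂⟩ := sum_smooth_le (ε := ε / 3) (σ := 1 / 2) (by positivity) (by norm_num)
  have hcard : (0 : ℝ) < Fintype.card (Chr M) := by exact_mod_cast Fintype.card_pos
  refine ⟨Fintype.card (Chr M) * nr M * C₁ * (C₂ * nr M ^ (ε / 3)), by positivity,
    fun R N e τ S ψ a hR ha haR hN1 hN2 hτ hS he hce hP => ?_⟩
  have ha0 := LBA.ne_zero_of_not_exc ha
  have hR0 : 0 < R := by linarith
  have hN : 0 < N := lt_of_lt_of_le (inv_pos.2 hR0) hN1
  have hc1 := LBA.one_le_cond M a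
  have he0 : 0 < e := by linarith
  have hρ : (∏ p ∈ act M a, p) ≠ 0 :=
    (squarefree_prod_primes (act_primes M a)).2.1.ne_zero
  have hc : (∏ p ∈ pun M a, p) ≠ 0 :=
    (squarefree_prod_primes (pun_primes M a)).2.1.ne_zero
  obtain ⟨τ₀, Φ, hτ₀, hΦ, hΦp, hft⟩ := ft_Fr hM ψ a
  set X : ℝ := N / e with hX
  have hX0 : 0 < X := by positivity
  have hXR : X ≤ R := (div_le_self hN.le he).trans hN2
  have hq : nr (M * ∏ p ∈ act M a, p) = nr M * cond M a := by rw [nr_mul, nr_act]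
  set Z : ℝ := X / (nr M * cond M a) with hZ
  have hZ0 : 0 < Z := by positivity
  have hft0 : ft (M * ∏ p ∈ act M a, p) (Fr ψ (rr M a)) 0 = 0 := by
    rw [hft, sym_rr_zero ha, mul_zero]
  rw [hankel (mul_ne_zero hM.1 hρ) (Fr_periodic hM ψ a) (norm_Fr_le hM ψ _) (Fr_zero ψ _) hft0
    hX0, hq, ← hZ, norm_mul, Complex.norm_real, Real.norm_of_nonneg hZ0.le]
  set T : ℝ := R ^ (ε / 3) * (S / Real.sqrt X) + R ^ (-J) with hT
  have hT0 : 0 ≤ T := by positivity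
  set K : ℝ := Real.sqrt (cond M a) * (Fintype.card (Chr M) * nr M * C₁) * Z ^ (-(1 / 2 : ℝ)) * T
    with hK
  have hK0 : 0 ≤ K := by positivity
  have hsum : Summable fun h : O =>
      ft (M * ∏ p ∈ act M a, p) (Fr ψ (rr M a)) h * Vg (Z * nr h) (τ * I) :=
    summable_Vg (H := Real.sqrt (cond M a) * nr M) hft0 (fun h => by
      rw [hft, norm_mul, norm_mul]
      exact (mul_le_of_le_one_right (by positivity) (norm_sym_le _ _)).trans
        (mul_le_mul hτ₀ (hΦ h) (norm_nonneg _) (Real.sqrt_nonneg _))) hZ0 τ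
  have hceR : cond M a * e ≤ R := hce.trans haR
  have hNi : N⁻¹ ≤ R := by rwa [inv_le_comm₀ hN hR0]
  have hT2 : (1 + |τ|) ^ 2 ≤ 4 * R ^ 2 := by nlinarith [abs_nonneg τ]
  have hT1 : 1 ≤ (1 + |τ|) ^ 2 := by nlinarith [abs_nonneg τ]
  have hRε : 1 ≤ R ^ ε := Real.one_le_rpow hR hε.le
  have key := norm_tsum_smooth_le (mul_ne_zero hM.1 hc) hsum (by rw [hft0, zero_mul])
    (w := fun g => K * nr g ^ (-(1 / 2 : ℝ)))
    (B := K * (C₂ * nr (M * ∏ p ∈ pun M a, p) ^ (ε / 3))) (fun g hg _ => by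
      obtain ⟨β, hβ, hexp⟩ := dual_expand hM ha0 hΦ hΦp g
      have hg1 := one_le_nr hg
      have hZg : 0 < Z * nr g := by positivity
      have hs' : ∀ ν' : Chr M, Summable fun h : O =>
          conj (rc ν' a h) * Vg (Z * nr g * nr h) (τ * I) := fun ν' =>
        summable_Vg (H := 1) (by simp [LBA.rc_zero])
          (fun h => by simpa using LBA.norm_rc_le hM ν' a h) hZg τ
      have e1 : ∀ h : O, (if Primary h ∧ IsCoprime h (M * ∏ p ∈ pun M a, p) then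
          ft (M * ∏ p ∈ act M a, p) (Fr ψ (rr M a)) (g * h) * Vg (Z * nr (g * h)) (τ * I)
          else 0) = ∑ ν' : Chr M, τ₀ * β ν' *
            (conj (rc ν' a h) * Vg (Z * nr g * nr h) (τ * I)) := by
        intro h
        have e2 : ∑ ν' : Chr M, τ₀ * β ν' * (conj (rc ν' a h) * Vg (Z * nr g * nr h) (τ * I)) =
            τ₀ * (∑ ν' : Chr M, β ν' * conj (rc ν' a h)) * Vg (Z * nr g * nr h) (τ * I) := by
          rw [Finset.mul_sum, Finset.sum_mul]
          exact Finset.sum_congr rfl fun _ _ => by ring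
        rw [e2, ← hexp h, hft, nr_mul, ← mul_assoc Z]
        split_ifs
        · ring
        · simp
      simp only [e1]
      rw [Summable.tsum_finsetSum fun ν' _ => (hs' ν').mul_left _]
      refine (norm_sum_le _ _).trans ?_
      have hb : ∀ ν' : Chr M, ‖∑' h : O, τ₀ * β ν' *
          (conj (rc ν' a h) * Vg (Z * nr g * nr h) (τ * I))‖ ≤
          Real.sqrt (cond M a) * nr M * (C₁ * (Z * nr g) ^ (-(1 / 2 : ℝ)) * T) := by
        intro ν'
        rw [tsum_mul_left, norm_mul, norm_mul]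
        refine mul_le_mul (mul_le_mul hτ₀ (hβ ν') (norm_nonneg _) (Real.sqrt_nonneg _)) ?_
          (norm_nonneg _) (by positivity)
        refine h₁ _ R (Z * nr g) τ (cond M a * e * R ^ ε * (1 + |τ|) ^ 2 / N) (S / Real.sqrt X)
          (polyB_conj_rc hM ν' a) hR hτ hZg ?_ ?_ ?_ ?_ (by positivity) ?_
        · calc (Z * nr g)⁻¹ ≤ Z⁻¹ := inv_anti₀ hZ0 (le_mul_of_one_le_right hZ0.le hg1)
            _ = nr M * ((cond M a * e) * N⁻¹) := by rw [hZ, hX]; field_simp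
            _ ≤ nr M * (R * R) := by gcongr
            _ = _ := by ring
        · rw [le_div_iff₀ hN]
          calc R⁻¹ * N ≤ R⁻¹ * R := by gcongr
            _ = 1 * 1 * 1 * 1 := by field_simp
            _ ≤ _ := by gcongr
        · calc _ = cond M a * e * R ^ ε * (1 + |τ|) ^ 2 * N⁻¹ := div_eq_mul_inv _ _
            _ ≤ R * R ^ ε * (4 * R ^ 2) * R := by gcongr
            _ = _ := by
              rw [Real.rpow_add hR0, show (4 : ℝ) = ((4 : ℕ) : ℝ) by norm_num, Real.rpow_natCast]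
              ring
        · calc R ^ ε * (1 + |τ|) ^ 2
              = nr M * (Z * 1) * (cond M a * e * R ^ ε * (1 + |τ|) ^ 2 / N) := by
                rw [hZ, hX]; field_simp
            _ ≤ _ := by gcongr
        · intro Y u hY1 hY2 hu
          have hY : 0 < Y := lt_of_lt_of_le (inv_pos.2 hR0) hY1
          have := hP ν' Y (-u) hY1 hY2 (by rwa [abs_neg])
          rw [conj_Pln, Complex.norm_conj]
          rw [← div_div, ← hX, Real.sqrt_div hX0.le, div_mul_eq_mul_div,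
            div_le_iff₀ (Real.sqrt_pos.2 hY)] at this
          rw [div_mul_eq_mul_div, le_div_iff₀ (Real.sqrt_pos.2 hX0)]
          linarith
      refine (Finset.sum_le_sum fun ν' _ => hb ν').trans (le_of_eq ?_)
      rw [Finset.sum_const, Finset.card_univ, nsmul_eq_mul, hK,
        Real.mul_rpow hZ0.le (by linarith)]
      ring)
    (fun S' hS' => by
      rw [← Finset.mul_sum]
      exact mul_le_mul_of_nonneg_left (h₂ _ S' (mul_ne_zero hM.1 hc) hS') hK0)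
  have hm : nr (M * ∏ p ∈ pun M a, p) ^ (ε / 3) ≤ nr M ^ (ε / 3) * R ^ (ε / 3) := by
    rw [← Real.mul_rpow (by positivity) hR0.le, nr_mul]
    have h1 := cond_mul_le (M := M) ha0 (Finset.Subset.refl _)
    have h2 : nr (∏ p ∈ pun M a, p) ≤ R :=
      (le_mul_of_one_le_left (Nat.cast_nonneg _) hc1).trans (h1.trans haR)
    gcongr
  have hZs : Z * (Real.sqrt (cond M a) * Z ^ (-(1 / 2 : ℝ))) ≤ Real.sqrt X := by
    have e1 : Z * Z ^ (-(1 / 2 : ℝ)) = Real.sqrt Z := by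
      rw [Real.sqrt_eq_rpow, ← Real.rpow_one_add' hZ0.le (by norm_num)]
      norm_num
    rw [mul_left_comm, e1, ← Real.sqrt_mul (by linarith)]
    refine Real.sqrt_le_sqrt ?_
    rw [hZ, mul_div_assoc', div_le_iff₀ (by positivity)]
    nlinarith [mul_pos hX0 (lt_of_lt_of_le one_pos hc1)]
  have hsX : Real.sqrt X ≤ R := by
    rw [Real.sqrt_le_left hR0.le]; nlinarith
  have hsX0 : 0 < Real.sqrt X := Real.sqrt_pos.2 hX0
  have hTX : Real.sqrt X * T ≤ R ^ (ε / 3) * S + R * R ^ (-J) := by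
    have : Real.sqrt X * T = R ^ (ε / 3) * S + Real.sqrt X * R ^ (-J) := by
      rw [hT]; field_simp
    rw [this]; gcongr
  calc _ ≤ Z * (K * (C₂ * nr (M * ∏ p ∈ pun M a, p) ^ (ε / 3))) :=
        mul_le_mul_of_nonneg_left key hZ0.le
    _ ≤ Z * (K * (C₂ * (nr M ^ (ε / 3) * R ^ (ε / 3)))) := by gcongr
    _ = Fintype.card (Chr M) * nr M * C₁ * (C₂ * nr M ^ (ε / 3)) * R ^ (ε / 3) *
          (Z * (Real.sqrt (cond M a) * Z ^ (-(1 / 2 : ℝ))) * T) := by rw [hK]; ring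
    _ ≤ Fintype.card (Chr M) * nr M * C₁ * (C₂ * nr M ^ (ε / 3)) * R ^ (ε / 3) *
          (Real.sqrt X * T) := by gcongr
    _ ≤ _ := by gcongr

theorem reflect_bound {M : O} (hM : Adm M) {ε : ℝ} (hε : 0 < ε) (J : ℝ) : ∃ C : ℝ, 0 < C ∧
    ∀ (R N τ S : ℝ) (ν : Chr M) (a : O), 1 ≤ R → ¬ Exc M a → nr a ≤ R → R⁻¹ ≤ N → N ≤ R →
      |τ| ≤ R → 0 ≤ S →
      (∀ (ν' : Chr M) (e Y t : ℝ), 1 ≤ e → cond M a * e ≤ nr a → R⁻¹ ≤ Y →
        Y ≤ cond M a * e * R ^ ε * (1 + |τ|) ^ 2 / N → |t| ≤ |τ| + Real.log R →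
        Real.sqrt (N / (e * Y)) * ‖Pln ν' a Y (t * I)‖ ≤ S) →
      ‖Pln ν a N (τ * I)‖ ≤ C * R ^ ε * S + C * R ^ (-J) := by
  obtain ⟨C₁, hC₁, h₁⟩ := Sm_Fr_le hM hε (J + 1 + ε)
  obtain ⟨C₂, hC₂, h₂⟩ := pow_card_pf_le (ε := ε / 3) (by positivity) 2
  refine ⟨C₂ * C₁, by positivity, fun R N τ S ν a hR ha haR hN1 hN2 hτ hS hP => ?_⟩
  have ha0 := LBA.ne_zero_of_not_exc ha
  have hR0 : 0 < R := by linarith
  have hN : 0 < N := lt_of_lt_of_le (inv_pos.2 hR0) hN1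
  obtain ⟨ψ, hψ⟩ := rc_eq_Fr hM ha0
  rw [Pln_sieve hM ν (hψ ν) hN]
  set T : ℝ := C₁ * R ^ (ε / 3) * (R ^ (ε / 3) * S + R * R ^ (-(J + 1 + ε))) with hT
  have hT0 : 0 ≤ T := by positivity
  have hb : ∀ E ∈ (pun M a).powerset, ‖(-1 : ℂ) ^ E.card * (Fr (ν * ψ) (rr M a) (∏ p ∈ E, p) *
      Sm (Fr (ν * ψ) (rr M a)) (N / nr (∏ p ∈ E, p)) (τ * I))‖ ≤ T := by
    intro E hE
    rw [Finset.mem_powerset] at hE
    have he : (∏ p ∈ E, p) ≠ 0 :=
      (squarefree_prod_primes fun p hp => pun_primes M a p (hE hp)).2.1.ne_zero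
    rw [norm_mul, norm_mul, norm_pow, norm_neg, norm_one, one_pow, one_mul]
    refine (mul_le_of_le_one_left (norm_nonneg _) (norm_Fr_le hM _ _ _)).trans ?_
    exact h₁ R N _ τ S (ν * ψ) a hR ha haR hN1 hN2 hτ hS (one_le_nr he) (cond_mul_le ha0 hE)
      fun ν' Y t => hP ν' _ Y t (one_le_nr he) (cond_mul_le ha0 hE)
  refine ((norm_sum_le _ _).trans (Finset.sum_le_sum hb)).trans ?_
  rw [Finset.sum_const, Finset.card_powerset, nsmul_eq_mul]
  have hc : ((2 ^ (pun M a).card : ℕ) : ℝ) ≤ C₂ * R ^ (ε / 3) := by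
    push_cast
    refine (pow_le_pow_right₀ (by norm_num) (Finset.card_filter_le _ _)).trans
      ((h₂ a ha0).trans ?_)
    gcongr
  have e1 : R ^ (ε / 3) * R ^ (ε / 3) * R ^ (ε / 3) = R ^ ε := by
    rw [← Real.rpow_add hR0, ← Real.rpow_add hR0]; congr 1; ring
  have e2 : R ^ (ε / 3) * R ^ (ε / 3) * (R * R ^ (-(J + 1 + ε))) ≤ R ^ (-J) := by
    rw [← Real.rpow_add hR0, mul_comm R, ← Real.rpow_add_one hR0.ne', ← Real.rpow_add hR0]
    exact Real.rpow_le_rpow_of_exponent_le hR (by linarith)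
  calc _ ≤ C₂ * R ^ (ε / 3) * T := by gcongr
    _ = C₂ * C₁ * (R ^ (ε / 3) * R ^ (ε / 3) * R ^ (ε / 3)) * S +
        C₂ * C₁ * (R ^ (ε / 3) * R ^ (ε / 3) * (R * R ^ (-(J + 1 + ε)))) := by rw [hT]; ring
    _ ≤ _ := by rw [e1]; gcongr

theorem Pln_reflect {M : O} (hM : Adm M) {ε : ℝ} (hε : 0 < ε) (J : ℝ) : ∃ C : ℝ, 0 < C ∧
    ∀ (R N τ : ℝ) (ν : Chr M) (a : O), 1 ≤ R → ¬ Exc M a → nr a ≤ R → R⁻¹ ≤ N → N ≤ R →
      |τ| ≤ R → ∃ (ν' : Chr M) (e Y t : ℝ), 1 ≤ e ∧ cond M a * e ≤ nr a ∧ R⁻¹ ≤ Y ∧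
        Y ≤ cond M a * e * R ^ ε * (1 + |τ|) ^ 2 / N ∧ |t| ≤ |τ| + Real.log R ∧
        ‖Pln ν a N (τ * Complex.I)‖ ≤
          C * R ^ ε * Real.sqrt (N / (e * Y)) * ‖Pln ν' a Y (t * Complex.I)‖ + C * R ^ (-J) := by
  obtain ⟨C, hC, h⟩ := reflect_bound hM hε J
  refine ⟨2 * C, by positivity, fun R N τ ν a hR ha haR hN1 hN2 hτ => ?_⟩
  have ha0 := LBA.ne_zero_of_not_exc ha
  have hR0 : 0 < R := by linarith
  have hN : 0 < N := lt_of_lt_of_le (inv_pos.2 hR0) hN1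
  have hRε : 1 ≤ R ^ ε := Real.one_le_rpow hR hε.le
  have hRJ : 0 < R ^ (-J) := by positivity
  by_contra hcon
  push Not at hcon
  set S : ℝ := (‖Pln ν a N (τ * I)‖ - 2 * C * R ^ (-J)) / (2 * C * R ^ ε) with hS
  have hlt : ∀ (ν' : Chr M) (e Y t : ℝ), 1 ≤ e → cond M a * e ≤ nr a → R⁻¹ ≤ Y →
      Y ≤ cond M a * e * R ^ ε * (1 + |τ|) ^ 2 / N → |t| ≤ |τ| + Real.log R →
      Real.sqrt (N / (e * Y)) * ‖Pln ν' a Y (t * I)‖ < S := by
    intro ν' e Y t h1 h2 h3 h4 h5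
    have := hcon ν' e Y t h1 h2 h3 h4 h5
    rw [hS, lt_div_iff₀ (by positivity)]
    linarith
  have hS0 : 0 < S := by
    have hc1 := LBA.one_le_cond M a
    have hT1 : 1 ≤ (1 + |τ|) ^ 2 := by nlinarith [abs_nonneg τ]
    refine lt_of_le_of_lt (by positivity) (hlt ν 1 R⁻¹ 0 le_rfl
      (by rw [mul_one]; exact LBA.cond_le M ha0) le_rfl ?_ ?_)
    · rw [le_div_iff₀ hN]
      calc R⁻¹ * N ≤ R⁻¹ * R := by gcongr
        _ = 1 * 1 * 1 * 1 := by field_simp
        _ ≤ _ := by gcongr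
    · rw [abs_zero]
      exact add_nonneg (abs_nonneg _) (Real.log_nonneg hR)
  have h1 := h R N τ S ν a hR ha haR hN1 hN2 hτ hS0.le
    fun ν' e Y t h1 h2 h3 h4 h5 => (hlt ν' e Y t h1 h2 h3 h4 h5).le
  have h2 : 2 * C * R ^ ε * S = ‖Pln ν a N (τ * I)‖ - 2 * C * R ^ (-J) := by
    rw [hS]; field_simp
  have h3 : 0 < C * R ^ ε * S := by positivity
  have h4 : 0 < C * R ^ (-J) := by positivity
  linarith

theorem Pln_decay {M : O} (hM : Adm M) {ε : ℝ} (hε : 0 < ε) (J : ℝ) : ∃ C : ℝ, 0 < C ∧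
    ∀ (R N : ℝ) (s : ℂ) (ν : Chr M) (a : O), 1 ≤ R → ¬ Exc M a →
      nr a * R ^ ε * (1 + |s.im|) ^ 2 ≤ N → N ≤ R →
      |s.re| ≤ 3 → |s.im| ≤ R → ‖Pln ν a N s‖ ≤ C * R ^ (-J) := by
  obtain ⟨C₁, hC₁, h₁⟩ := Pln_reflect hM (ε := ε / 2) (by positivity) |J|
  set A : ℝ := 2 * (|J| + 1) / ε with hA
  have hA0 : 0 ≤ A := by positivity
  obtain ⟨C₂, hC₂, h₂⟩ := tsum_norm_Sm_le A 0 0 le_rfl
  set c : ℝ := Real.exp 2 with hc
  have hc1 : 1 ≤ c := Real.one_le_exp (by norm_num)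
  refine ⟨Real.exp (9 / 4) * (C₁ * c ^ (ε / 2) * c * (C₂ * (c ^ (ε / 2) * c) ^ (1 + A)) + C₁),
    by positivity, fun R N s ν a hR ha hN1 hN2 hs1 hs2 => ?_⟩
  have ha0 := LBA.ne_zero_of_not_exc ha
  have hR0 : 0 < R := by linarith
  have hRε : 1 ≤ R ^ ε := Real.one_le_rpow hR hε.le
  have hT1 : 1 ≤ (1 + |s.im|) ^ 2 := by nlinarith [abs_nonneg s.im]
  have ha1 := one_le_nr ha0
  have haN : nr a ≤ N := le_trans (by
    calc nr a = nr a * 1 * 1 := by ring
      _ ≤ _ := by gcongr) hN1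
  have hN : 0 < N := by linarith
  have hb0 : rc ν a 0 = 0 := LBA.rc_zero ν a
  have e1 : ‖Pln ν a N s‖ = Real.exp (s.re ^ 2 / 4) *
      ‖Pln ν a (N * Real.exp (s.re / 2)) (s.im * I)‖ := WeightB.norm_Sm_eq _ hb0 hN s
  have hs3 := abs_le.1 hs1
  have x1 : Real.exp (s.re / 2) ≤ c := Real.exp_le_exp.2 (by linarith)
  have x2 : c⁻¹ ≤ Real.exp (s.re / 2) := by
    rw [hc, ← Real.exp_neg]; exact Real.exp_le_exp.2 (by linarith)
  have x3 : Real.exp (s.re ^ 2 / 4) ≤ Real.exp (9 / 4) := Real.exp_le_exp.2 (by nlinarith)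
  have hc0 : 0 < c := by linarith
  have hRc : R ≤ c * R := le_mul_of_one_le_left hR0.le hc1
  set N' : ℝ := N * Real.exp (s.re / 2) with hN'
  have hN'0 : 0 < N' := by positivity
  have hN'1 : N' ≤ c * R := by rw [mul_comm c, hN']; gcongr
  have hN'2 : N * c⁻¹ ≤ N' := by rw [hN']; gcongr
  obtain ⟨ν', e, Y, t, he, hce, hY1, hY2, -, hb⟩ := h₁ (c * R) N' s.im ν a (hR.trans hRc) ha
    ((haN.trans hN2).trans hRc) (by
      refine le_trans ?_ hN'2
      rw [mul_inv, mul_comm]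
      gcongr
      exact (inv_le_one_of_one_le₀ hR).trans (ha1.trans haN)) hN'1 (hs2.trans hRc)
  have hY0 : 0 < Y := lt_of_lt_of_le (by positivity) hY1
  have hY3 : Y ≤ c ^ (ε / 2) * c * R ^ (-(ε / 2)) := by
    refine hY2.trans ?_
    rw [div_le_iff₀ hN'0, Real.mul_rpow hc0.le hR0.le]
    have e2 : R ^ (-(ε / 2)) * R ^ ε = R ^ (ε / 2) := by
      rw [← Real.rpow_add hR0]; congr 1; ring
    calc _ ≤ nr a * (c ^ (ε / 2) * R ^ (ε / 2)) * (1 + |s.im|) ^ 2 := by gcongr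
      _ = c ^ (ε / 2) * c * R ^ (-(ε / 2)) * (nr a * R ^ ε * (1 + |s.im|) ^ 2 * c⁻¹) := by
          rw [← e2]; field_simp
      _ ≤ _ := by gcongr; exact le_trans (by gcongr) hN'2
  have hP : ‖Pln ν' a Y (t * I)‖ ≤ C₂ * (c ^ (ε / 2) * c) ^ (1 + A) * R ^ (-(ε / 2) * (1 + A)) := by
    have hp := LBA.polyB_rc hM ν' a
    have := h₂ _ 1 Y (t * I) hp hY0 (by simp)
    refine (norm_tsum_le_tsum_norm (summable_Sm hp hY0 _)).trans (this.trans ?_)
    rw [mul_one, mul_assoc, Real.rpow_mul hR0.le, ← Real.mul_rpow (by positivity) (by positivity)]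
    refine mul_le_mul_of_nonneg_left ((min_le_right _ _).trans ?_) hC₂.le
    rw [zero_add, abs_of_nonneg hA0]
    gcongr
  have hsq : Real.sqrt (N' / (e * Y)) ≤ c * R := by
    rw [Real.sqrt_le_left (by positivity), div_le_iff₀ (by positivity)]
    have : 1 ≤ c * R * Y := by
      have := mul_le_mul_of_nonneg_left hY1 (show 0 ≤ c * R by positivity)
      rwa [mul_inv_cancel₀ (by positivity)] at this
    calc N' ≤ c * R * 1 * 1 := by linarith
      _ ≤ c * R * (c * R * Y) * e := by gcongr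
      _ = _ := by ring
  have hJ : R ^ (-|J|) ≤ R ^ (-J) :=
    Real.rpow_le_rpow_of_exponent_le hR (neg_le_neg (le_abs_self J))
  have y1 : (c * R) ^ (-|J|) ≤ R ^ (-J) :=
    (Real.rpow_le_rpow_of_nonpos hR0 hRc (neg_nonpos.2 (abs_nonneg J))).trans hJ
  have y2 : R ^ (ε / 2) * R * R ^ (-(ε / 2) * (1 + A)) ≤ R ^ (-J) := by
    rw [← Real.rpow_add_one hR0.ne', ← Real.rpow_add hR0]
    refine le_trans (le_of_eq ?_) hJ
    congr 1
    rw [hA]; field_simp; ring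
  rw [e1]
  calc _ ≤ Real.exp (9 / 4) * (C₁ * (c * R) ^ (ε / 2) * (c * R) *
          (C₂ * (c ^ (ε / 2) * c) ^ (1 + A) * R ^ (-(ε / 2) * (1 + A))) + C₁ * R ^ (-J)) := by
        refine mul_le_mul x3 (hb.trans ?_) (norm_nonneg _) (by positivity)
        gcongr
    _ = Real.exp (9 / 4) * (C₁ * c ^ (ε / 2) * c * (C₂ * (c ^ (ε / 2) * c) ^ (1 + A)) *
          (R ^ (ε / 2) * R * R ^ (-(ε / 2) * (1 + A))) + C₁ * R ^ (-J)) := by
        rw [Real.mul_rpow hc0.le hR0.le]; ring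
    _ ≤ Real.exp (9 / 4) * (C₁ * c ^ (ε / 2) * c * (C₂ * (c ^ (ε / 2) * c) ^ (1 + A)) *
          R ^ (-J) + C₁ * R ^ (-J)) := by gcongr
    _ = _ := by ring

end Crest.Agent.R17.LBD
end
end

-- ▼ part PVc/R17/LBasicAuxB
section

/-!
# Row 17, module M9, part B: continuation and functional equation for periodic coefficients
-/

set_option autoImplicit false

noncomputable section

namespace Crest.Agent.R17.LBB

open scoped ComplexConjugate
open Filter Topology Asymptotics Set MeasureTheory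

/-- The constant `c = 2π/√3` of the Gaussian `gw x = exp (-c x)`. -/
def cc : ℝ := 2 * Real.pi / Real.sqrt 3

theorem cc_pos : 0 < cc := by
  have h3 : 0 < Real.sqrt 3 := Real.sqrt_pos.2 (by norm_num)
  have := Real.pi_pos
  unfold cc; positivity

theorem gw_eq (x : ℝ) : gw x = Real.exp (-cc * x) := rfl

/-- The theta function `∑_n f n · gw (r t N n)`. -/
def Th (f : O → ℂ) (r t : ℝ) : ℂ := ∑' n : O, f n * (gw (r * t * nr n) : ℂ)

theorem summable_gw_mul {Y : ℝ} (hY : 0 < Y) : Summable fun n : O => gw (Y * nr n) := by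
  have := summable_gw' (inv_pos.2 hY)
  simpa only [div_inv_eq_mul, mul_comm _ Y] using this

theorem norm_term_le {f : O → ℂ} {B : ℝ} (hf : ∀ n, ‖f n‖ ≤ B) (x : ℝ) (n : O) :
    ‖f n * (gw x : ℂ)‖ ≤ B * gw x := by
  rw [norm_mul, Complex.norm_real, Real.norm_of_nonneg (gw_pos _).le]
  exact mul_le_mul_of_nonneg_right (hf n) (gw_pos _).le

theorem summable_Th {f : O → ℂ} {B : ℝ} (hf : ∀ n, ‖f n‖ ≤ B) {Y : ℝ} (hY : 0 < Y) :
    Summable fun n : O => f n * (gw (Y * nr n) : ℂ) :=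
  Summable.of_norm_bounded ((summable_gw_mul hY).mul_left B) fun n => norm_term_le hf _ n

theorem continuousOn_Th {f : O → ℂ} {B : ℝ} (hf : ∀ n, ‖f n‖ ≤ B) {r : ℝ} (hr : 0 < r) :
    ContinuousOn (Th f r) (Ioi 0) := by
  have hB : 0 ≤ B := (norm_nonneg _).trans (hf 0)
  intro t ht
  have ht : 0 < t := ht
  have h1 : ContinuousOn (Th f r) (Ici (t / 2)) := by
    refine continuousOn_tsum (u := fun n : O => B * gw (r * (t / 2) * nr n)) (fun n => ?_)
      ((summable_gw_mul (by positivity)).mul_left B) fun n x hx => ?_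
    · simp only [gw]
      fun_prop
    · refine (norm_term_le hf _ n).trans (mul_le_mul_of_nonneg_left (gw_antitone ?_) hB)
      have hx : t / 2 ≤ x := hx
      gcongr
  exact (h1.continuousAt (Ici_mem_nhds (by linarith))).continuousWithinAt

theorem Th_sub {f : O → ℂ} {B : ℝ} (hf : ∀ n, ‖f n‖ ≤ B) {r t : ℝ} (hr : 0 < r) (ht : 0 < t) :
    HasSum (fun n : O => (if n = 0 then 0 else f n) * (gw (r * t * nr n) : ℂ))
      (Th f r t - f 0) := by
  classical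
  have h := hasSum_ite_sub_hasSum (summable_Th hf (mul_pos hr ht)).hasSum 0
  simp only [nr, nm_zero, Nat.cast_zero, mul_zero, gw_zero, Complex.ofReal_one, mul_one] at h
  refine h.congr_fun fun n => ?_
  split_ifs <;> simp

theorem isBigO_Th {f : O → ℂ} {B : ℝ} (hf : ∀ n, ‖f n‖ ≤ B) {r : ℝ} (hr : 0 < r) (ρ : ℝ) :
    (fun t => Th f r t - f 0) =O[atTop] (fun t : ℝ => t ^ ρ) := by
  have hB : 0 ≤ B := (norm_nonneg _).trans (hf 0)
  obtain ⟨C, hC, h⟩ := tsum_gw_ne_zero_le (-ρ)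
  refine IsBigO.of_bound (B * C * r ^ ρ) ?_
  filter_upwards [eventually_ge_atTop r⁻¹] with t ht
  have ht0 : 0 < t := (inv_pos.2 hr).trans_le ht
  have h1 : 1 ≤ r * t := by
    have := mul_le_mul_of_nonneg_left ht hr.le
    rwa [mul_inv_cancel₀ hr.ne'] at this
  have h2 := h _ h1
  have hs : Summable fun n : O => (if n = 0 then 0 else gw (r * t * nr n)) := by
    refine Summable.of_nonneg_of_le (fun n => ?_) (fun n => ?_) (summable_gw_mul (mul_pos hr ht0))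
    · split_ifs
      · exact le_rfl
      · exact (gw_pos _).le
    · split_ifs
      · exact (gw_pos _).le
      · exact le_rfl
  have h3 : ‖Th f r t - f 0‖ ≤ B * ∑' n : O, (if n = 0 then 0 else gw (r * t * nr n)) := by
    refine (Th_sub hf hr ht0).norm_le_of_bounded (hs.hasSum.mul_left B) fun n => ?_
    split_ifs
    · simp
    · exact norm_term_le hf _ n
  rw [neg_neg, Real.mul_rpow hr.le ht0.le] at h2
  rw [Real.norm_of_nonneg (Real.rpow_nonneg ht0.le _)]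
  calc _ ≤ B * (C * (r ^ ρ * t ^ ρ)) := h3.trans (mul_le_mul_of_nonneg_left h2 hB)
    _ = _ := by ring


theorem mellin_Th {f : O → ℂ} {B : ℝ} (hf : ∀ n, ‖f n‖ ≤ B) {r : ℝ} (hr : 0 < r) {s : ℂ}
    (hs : 1 < s.re) : mellin (fun t => Th f r t - f 0) s =
      Complex.Gamma s * ((cc * r : ℝ) : ℂ) ^ (-s) * ∑' n : O, f n * (nr n : ℂ) ^ (-s) := by
  have hc : 0 < cc * r := mul_pos cc_pos hr
  have hs0 : s ≠ 0 := by rintro rfl; norm_num at hs
  have H := hasSum_mellin (a := fun n : O => if n = 0 then 0 else f n)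
    (p := fun n => cc * r * nr n) (F := fun t => Th f r t - f 0) (s := s) (fun n => ?_)
    (by linarith) (fun t ht => ?_) ?_
  · rw [← H.tsum_eq, ← tsum_mul_left]
    refine tsum_congr fun n => ?_
    split_ifs with hn
    · subst hn
      simp [nr, hs0]
    · rw [Complex.ofReal_mul (cc * r), Complex.mul_cpow_ofReal_nonneg hc.le (nr_pos hn).le,
        Complex.cpow_neg, Complex.cpow_neg]
      ring
  · by_cases hn : n = 0
    · left; exact if_pos hn
    · right; exact mul_pos hc (nr_pos hn)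
  · convert Th_sub hf hr ht using 4 with n
    rw [gw_eq]; congr 1; ring
  · refine Summable.of_nonneg_of_le (fun n => by positivity) (fun n => ?_)
      ((summable_nr_rpow hs).mul_left (B * (cc * r) ^ (-s.re)))
    have hB : 0 ≤ B := (norm_nonneg _).trans (hf 0)
    split_ifs with hn
    · simp only [norm_zero, zero_div]; positivity
    · have := nr_pos hn
      rw [Real.mul_rpow hc.le this.le, Real.rpow_neg hc.le, Real.rpow_neg this.le, div_eq_mul_inv,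
        mul_inv, ← mul_assoc]
      gcongr
      exact hf n

theorem bound_of_periodic {q : O} (hq : q ≠ 0) {f : O → ℂ} (hf : ∀ x y, q ∣ x - y → f x = f y)
    (k : O) : ‖f k‖ ≤ ∑ x ∈ res q, ‖f x‖ := by
  obtain ⟨r, ⟨hr, hr'⟩, -⟩ := exists_unique_res hq k
  rw [hf k r hr']
  exact Finset.single_le_sum (f := fun x => ‖f x‖) (fun _ _ => norm_nonneg _) hr

theorem norm_ft_le (q : O) (f : O → ℂ) (h : O) : ‖ft q f h‖ ≤ ∑ x ∈ res q, ‖f x‖ := by
  refine (norm_sum_le _ _).trans (le_of_eq (Finset.sum_congr rfl fun x _ => ?_))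
  rw [norm_mul, norm_eq, mul_one]

theorem ft_zero (q : O) (f : O → ℂ) : ft q f 0 = ∑ x ∈ res q, f x := by
  simp [ft, eq_zero_left]

/-- The functional-equation pair of a periodic function. -/
def pair {q : O} (hq : q ≠ 0) {f : O → ℂ} (hf : ∀ x y, q ∣ x - y → f x = f y) : WeakFEPair ℂ where
  f := Th f 1
  g := Th (ft q f) (nr q)⁻¹
  k := 1
  ε := ((nr q)⁻¹ : ℝ)
  f₀ := f 0
  g₀ := ft q f 0
  hf_int := (continuousOn_Th (bound_of_periodic hq hf) one_pos).locallyIntegrableOn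
    measurableSet_Ioi
  hg_int := (continuousOn_Th (norm_ft_le q f) (inv_pos.2 (nr_pos hq))).locallyIntegrableOn
    measurableSet_Ioi
  hk := one_pos
  hε := Complex.ofReal_ne_zero.2 (inv_pos.2 (nr_pos hq)).ne'
  h_feq := fun x hx => by
    have hx : 0 < x := hx
    have H := poisson hq f hf hx
    unfold Th
    simp only [Real.rpow_one, smul_eq_mul]
    have e1 : ∀ n : O, 1 * (1 / x) * nr n = nr n / x := fun n => by ring
    have e2 : ∀ n : O, (nr q)⁻¹ * x * nr n = x * nr n / nr q := fun n => by ring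
    simp only [e1, e2, H]
    congr 1
    push_cast; ring
  hf_top := isBigO_Th (bound_of_periodic hq hf) one_pos
  hg_top := isBigO_Th (norm_ft_le q f) (inv_pos.2 (nr_pos hq))

/-- `Λ₀` is bounded on vertical strips. -/
theorem Λ₀_bounded (P : WeakFEPair ℂ) (a b : ℝ) :
    ∃ C : ℝ, ∀ s : ℂ, a ≤ s.re → s.re ≤ b → ‖P.Λ₀ s‖ ≤ C := by
  have hc : ∀ s : ℂ, MellinConvergent P.f_modif s := fun s =>
    (P.isStrongFEPair_toStrongFEPair.hasMellin s).1
  have ha := (hc a).norm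
  have hb := (hc b).norm
  refine ⟨∫ t in Ioi (0 : ℝ), (‖(t : ℂ) ^ ((a : ℂ) - 1) • P.f_modif t‖ +
    ‖(t : ℂ) ^ ((b : ℂ) - 1) • P.f_modif t‖), fun s h1 h2 => ?_⟩
  refine norm_integral_le_of_norm_le (ha.add hb) ?_
  refine (ae_restrict_iff' measurableSet_Ioi).2 (Eventually.of_forall fun t ht => ?_)
  have ht : 0 < t := ht
  simp only [norm_smul, Complex.norm_cpow_eq_rpow_re_of_pos ht, Complex.sub_re, Complex.ofReal_re,
    Complex.one_re]
  rw [← add_mul]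
  refine mul_le_mul_of_nonneg_right ?_ (norm_nonneg _)
  have p1 := Real.rpow_pos_of_pos ht (a - 1)
  have p2 := Real.rpow_pos_of_pos ht (b - 1)
  rcases le_total 1 t with h | h
  · have := Real.rpow_le_rpow_of_exponent_le h (show s.re - 1 ≤ b - 1 by linarith)
    linarith
  · have := Real.rpow_le_rpow_of_exponent_ge ht h (show a - 1 ≤ s.re - 1 by linarith)
    linarith

open Classical in
/-- The entire part of the completed L-function of a function `f` periodic modulo `q`. -/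
def Lam0 (q : O) (f : O → ℂ) : ℂ → ℂ :=
  if h : q ≠ 0 ∧ ∀ x y, q ∣ x - y → f x = f y then (pair h.1 h.2).Λ₀ else 0

/-- The mean value of `f` modulo `q`. -/
def avg (q : O) (f : O → ℂ) : ℂ := (∑ x ∈ res q, f x) / (nr q : ℂ)

/-- The continuation of `∑_{n ≠ 0} f n · N n^{-s}` for `f` periodic modulo `q`. -/
def Lf (q : O) (f : O → ℂ) (s : ℂ) : ℂ :=
  (cc : ℂ) ^ s * ((Complex.Gamma s)⁻¹ * (Lam0 q f s + avg q f / (s - 1)) -
    (Complex.Gamma (s + 1))⁻¹ * f 0)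

/-- `(s - 1) L(s)` as an entire function. -/
def GLf (q : O) (f : O → ℂ) (s : ℂ) : ℂ :=
  (cc : ℂ) ^ s * ((Complex.Gamma s)⁻¹ * ((s - 1) * Lam0 q f s + avg q f) -
    (s - 1) * (Complex.Gamma (s + 1))⁻¹ * f 0)

theorem Lam0_eq {q : O} (hq : q ≠ 0) {f : O → ℂ} (hf : ∀ x y, q ∣ x - y → f x = f y) :
    Lam0 q f = (pair hq hf).Λ₀ := dif_pos ⟨hq, hf⟩

theorem differentiable_Lam0 (q : O) (f : O → ℂ) : Differentiable ℂ (Lam0 q f) := by
  unfold Lam0
  split_ifs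
  · exact WeakFEPair.differentiable_Λ₀ _
  · exact differentiable_const _

/-- `Lam0` is bounded on every vertical strip. -/
theorem Lam0_bounded (q : O) (f : O → ℂ) (a b : ℝ) :
    ∃ C : ℝ, ∀ s : ℂ, a ≤ s.re → s.re ≤ b → ‖Lam0 q f s‖ ≤ C := by
  unfold Lam0
  split_ifs
  · exact Λ₀_bounded _ a b
  · exact ⟨0, fun s _ _ => by simp⟩

theorem differentiable_cc_pow : Differentiable ℂ fun s : ℂ => (cc : ℂ) ^ s :=
  fun _ => differentiableAt_id.const_cpow (Or.inl (Complex.ofReal_ne_zero.2 cc_pos.ne'))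

theorem differentiable_inv_Gamma_add_one :
    Differentiable ℂ fun s : ℂ => (Complex.Gamma (s + 1))⁻¹ :=
  Complex.differentiable_one_div_Gamma.comp (differentiable_id.add_const 1)

theorem differentiable_GLf (q : O) (f : O → ℂ) : Differentiable ℂ (GLf q f) :=
  differentiable_cc_pow.mul ((Complex.differentiable_one_div_Gamma.mul
    (((differentiable_id.sub_const 1).mul (differentiable_Lam0 q f)).add_const _)).sub
    (((differentiable_id.sub_const 1).mul differentiable_inv_Gamma_add_one).mul_const _))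

theorem GLf_one (q : O) (f : O → ℂ) : GLf q f 1 = cc * avg q f := by
  simp [GLf]

theorem GLf_eq (q : O) (f : O → ℂ) {s : ℂ} (hs : s ≠ 1) : GLf q f s = (s - 1) * Lf q f s := by
  have : s - 1 ≠ 0 := sub_ne_zero.2 hs
  unfold GLf Lf
  field_simp

theorem differentiableAt_Lf (q : O) (f : O → ℂ) {s : ℂ} (hs : s ≠ 1 ∨ avg q f = 0) :
    DifferentiableAt ℂ (Lf q f) s := by
  have h1 : DifferentiableAt ℂ (fun s : ℂ => avg q f / (s - 1)) s := by
    rcases hs with hs | hs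
    · exact (differentiableAt_const _).div (differentiableAt_id.sub_const 1) (sub_ne_zero.2 hs)
    · simp [hs]
  exact (differentiable_cc_pow s).mul (((Complex.differentiable_one_div_Gamma s).mul
    ((differentiable_Lam0 q f s).add h1)).sub ((differentiable_inv_Gamma_add_one s).mul_const _))

theorem Lf_eq_Λ {q : O} (hq : q ≠ 0) {f : O → ℂ} (hf : ∀ x y, q ∣ x - y → f x = f y) {s : ℂ}
    (hs : s ≠ 0) : Lf q f s = (cc : ℂ) ^ s * (Complex.Gamma s)⁻¹ * (pair hq hf).Λ s := by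
  unfold Lf WeakFEPair.Λ avg
  rw [Lam0_eq hq hf, Complex.Gamma_add_one s hs, ← ft_zero]
  simp only [pair, smul_eq_mul, Complex.ofReal_one, Complex.ofReal_inv]
  rw [← neg_sub s 1, div_neg]
  ring

/-- `Lf` is the Dirichlet series for `Re s > 1`. -/
theorem Lf_eq_tsum {q : O} (hq : q ≠ 0) {f : O → ℂ} (hf : ∀ x y, q ∣ x - y → f x = f y) {s : ℂ}
    (hs : 1 < s.re) : Lf q f s = ∑' n : O, f n * (nr n : ℂ) ^ (-s) := by
  have hs0 : s ≠ 0 := by rintro rfl; norm_num at hs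
  have h1 := ((pair hq hf).hasMellin (s := s) hs).2
  have h2 := mellin_Th (bound_of_periodic hq hf) one_pos hs
  have h3 : (pair hq hf).Λ s = _ := h1.symm.trans h2
  have h4 : Complex.Gamma s ≠ 0 := Complex.Gamma_ne_zero_of_re_pos (by linarith)
  have h5 : (cc : ℂ) ^ s ≠ 0 := by
    rw [Ne, Complex.cpow_eq_zero_iff, not_and_or]
    exact Or.inl (Complex.ofReal_ne_zero.2 cc_pos.ne')
  rw [Lf_eq_Λ hq hf hs0, h3, mul_one, Complex.cpow_neg]
  field_simp

/-- The functional equation. -/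
theorem Lf_fe {q : O} (hq : q ≠ 0) {f : O → ℂ} (hf : ∀ x y, q ∣ x - y → f x = f y) {s : ℂ}
    (hs : s.re < 0) : Lf q f s = (nr q : ℂ) ^ (-s) * (cc : ℂ) ^ (2 * s - 1) *
      (Complex.Gamma (1 - s) / Complex.Gamma s) * ∑' h : O, ft q f h * (nr h : ℂ) ^ (s - 1) := by
  have hs0 : s ≠ 0 := by rintro rfl; norm_num at hs
  have hs1 : 1 < (1 - s).re := by simp only [Complex.sub_re, Complex.one_re]; linarith
  have hq0 := nr_pos hq
  have h1 := ((pair hq hf).symm.hasMellin (s := 1 - s) hs1).2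
  have h2 := mellin_Th (norm_ft_le q f) (inv_pos.2 hq0) hs1
  have h3 : (pair hq hf).symm.Λ (1 - s) = _ := h1.symm.trans h2
  have h4 := (pair hq hf).functional_equation (1 - s)
  have h5 : ((pair hq hf).k : ℂ) - (1 - s) = s := by simp [pair]
  rw [h5, h3] at h4
  rw [Lf_eq_Λ hq hf hs0, h4]
  have hc : (cc : ℂ) ≠ 0 := Complex.ofReal_ne_zero.2 cc_pos.ne'
  have hq1 : (nr q : ℂ) ≠ 0 := Complex.ofReal_ne_zero.2 hq0.ne'
  have e1 : ((cc * (nr q)⁻¹ : ℝ) : ℂ) ^ (-(1 - s)) =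
      (cc : ℂ) ^ (s - 1) * ((nr q : ℂ) * (nr q : ℂ) ^ (-s)) := by
    rw [Complex.ofReal_mul, Complex.mul_cpow_ofReal_nonneg cc_pos.le (inv_pos.2 hq0).le, neg_sub,
      Complex.ofReal_inv, Complex.inv_cpow _ _ (by
        rw [Complex.arg_ofReal_of_nonneg hq0.le]; exact Real.pi_pos.ne), ← Complex.cpow_neg,
      show -(s - 1) = 1 + -s by ring, Complex.cpow_add _ _ hq1, Complex.cpow_one]
  have e2 : (cc : ℂ) ^ (2 * s - 1) = (cc : ℂ) ^ s * (cc : ℂ) ^ (s - 1) := by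
    rw [← Complex.cpow_add _ _ hc]; congr 1; ring
  rw [e1, e2, neg_sub]
  simp only [pair, smul_eq_mul, Complex.ofReal_inv]
  field_simp

/-! ## Row characters -/

theorem eq_of_eq_right {L L' : ℂ → ℂ} (h : DifferentiableOn ℂ L {1}ᶜ)
    (h' : DifferentiableOn ℂ L' {1}ᶜ) (he : ∀ s : ℂ, 1 < s.re → L s = L' s) {s : ℂ} (hs : s ≠ 1) :
    L s = L' s := by
  have ho : IsOpen ({1}ᶜ : Set ℂ) := isOpen_compl_singleton
  have hp : IsPreconnected ({1}ᶜ : Set ℂ) :=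
    (isConnected_compl_singleton_of_one_lt_rank (by simp) (1 : ℂ)).isPreconnected
  refine (h.analyticOnNhd ho).eqOn_of_preconnected_of_eventuallyEq (h'.analyticOnNhd ho) hp
    (z₀ := 2) (by norm_num) ?_ hs
  have : {s : ℂ | 1 < s.re} ∈ 𝓝 (2 : ℂ) :=
    (isOpen_lt continuous_const Complex.continuous_re).mem_nhds (by norm_num)
  filter_upwards [this] with s hs using he s hs

theorem eq_of_eq_right' {L L' : ℂ → ℂ} (h : Differentiable ℂ L) (h' : Differentiable ℂ L')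
    (he : ∀ s : ℂ, 1 < s.re → L s = L' s) (s : ℂ) : L s = L' s := by
  refine (h.differentiableOn.analyticOnNhd isOpen_univ).eqOn_of_preconnected_of_eventuallyEq
    (h'.differentiableOn.analyticOnNhd isOpen_univ) isPreconnected_univ
    (z₀ := 2) (mem_univ _) ?_ (mem_univ s)
  have : {s : ℂ | 1 < s.re} ∈ 𝓝 (2 : ℂ) :=
    (isOpen_lt continuous_const Complex.continuous_re).mem_nhds (by norm_num)
  filter_upwards [this] with s hs using he s hs

theorem IsL_unique {M : O} {ν : Chr M} {a : O} {L L' : ℂ → ℂ} (h : IsL ν a L) (h' : IsL ν a L')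
    {s : ℂ} (hs : s ≠ 1 ∨ ¬ Princ ν a) : L s = L' s := by
  have he : ∀ s : ℂ, 1 < s.re → L s = L' s := fun s hs => (h.2.1 s hs).trans (h'.2.1 s hs).symm
  rcases hs with hs | hs
  · exact eq_of_eq_right h.1 h'.1 he hs
  · exact eq_of_eq_right' (h.2.2 hs) (h'.2.2 hs) he s

theorem mul_rad_ne_zero {M : O} (hM : Adm M) (a : O) : M * rad a ≠ 0 :=
  mul_ne_zero hM.1 (primary_rad a).ne_zero

theorem rc_per {M : O} (hM : Adm M) (ν : Chr M) {a : O} (ha : a ≠ 0) :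
    ∀ x y, M * rad a ∣ x - y → rc ν a x = rc ν a y := fun _ _ h => LBA.rc_periodic hM ν ha h

theorem avg_rc_eq_zero {M : O} (hM : Adm M) (ν : Chr M) {a : O} (ha : a ≠ 0) (h : ¬ Princ ν a) :
    avg (M * rad a) (rc ν a) = 0 := by
  rw [avg, LBA.sum_rc_eq_zero hM ν ha h, zero_div]

theorem isL_Lf {M : O} (hM : Adm M) (ν : Chr M) {a : O} (ha : a ≠ 0) :
    IsL ν a (Lf (M * rad a) (rc ν a)) :=
  ⟨fun _ hs => (differentiableAt_Lf _ _ (Or.inl hs)).differentiableWithinAt,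
    fun _ hs => Lf_eq_tsum (mul_rad_ne_zero hM a) (rc_per hM ν ha) hs,
    fun h _ => differentiableAt_Lf _ _ (Or.inr (avg_rc_eq_zero hM ν ha h))⟩

theorem isL_Lc {M : O} (hM : Adm M) (ν : Chr M) {a : O} (ha : a ≠ 0) : IsL ν a (Lc ν a) :=
  Classical.epsilon_spec (p := IsL ν a) ⟨_, isL_Lf hM ν ha⟩

theorem Lc_eq_Lf {M : O} (hM : Adm M) (ν : Chr M) {a : O} (ha : a ≠ 0) {s : ℂ}
    (hs : s ≠ 1 ∨ ¬ Princ ν a) : Lc ν a s = Lf (M * rad a) (rc ν a) s :=
  IsL_unique (isL_Lc hM ν ha) (isL_Lf hM ν ha) hs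

/-- `L(s) = c^s Γ(s)⁻¹ (Λ₀(s) + r/(s-1))`, with `Λ₀ = Lam0 ..` entire (`differentiable_Lam0`) and
bounded on vertical strips (`Lam0_bounded`). -/
theorem Lc_eq_Lam0 {M : O} (hM : Adm M) (ν : Chr M) {a : O} (ha : a ≠ 0) {s : ℂ}
    (hs : s ≠ 1 ∨ ¬ Princ ν a) : Lc ν a s = (cc : ℂ) ^ s * (Complex.Gamma s)⁻¹ *
      (Lam0 (M * rad a) (rc ν a) s + avg (M * rad a) (rc ν a) / (s - 1)) := by
  rw [Lc_eq_Lf hM ν ha hs, Lf, LBA.rc_zero]
  ring

/-- The functional equation of the row L-function. -/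
theorem Lc_fe {M : O} (hM : Adm M) (ν : Chr M) {a : O} (ha : a ≠ 0) {s : ℂ} (hs : s.re < 0) :
    Lc ν a s = (nr (M * rad a) : ℂ) ^ (-s) * (cc : ℂ) ^ (2 * s - 1) *
      (Complex.Gamma (1 - s) / Complex.Gamma s) *
      ∑' h : O, ft (M * rad a) (rc ν a) h * (nr h : ℂ) ^ (s - 1) := by
  have h1 : s ≠ 1 := by rintro rfl; norm_num at hs
  rw [Lc_eq_Lf hM ν ha (Or.inl h1), Lf_fe (mul_rad_ne_zero hM a) (rc_per hM ν ha) hs]

theorem rc_princ {M : O} {ν : Chr M} {a : O} (h : Princ ν a) (n : O) :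
    rc ν a n = 0 ∨ rc ν a n = 1 := by
  by_cases h1 : Primary n
  · by_cases h2 : IsCoprime n (M * a)
    · exact Or.inr (h n h1 h2)
    · exact Or.inl (LBA.rc_eq_zero ν h2)
  · exact Or.inl (LBA.rc_neg ν a h1)

theorem avg_princ {M : O} (hM : Adm M) (ν : Chr M) {a : O} (ha : a ≠ 0) (h : Princ ν a) :
    ∃ κ : ℝ, 0 < κ ∧ κ ≤ 1 ∧ avg (M * rad a) (rc ν a) = κ := by
  classical
  have hq := mul_rad_ne_zero hM a
  have hq0 := nr_pos hq
  set S := (res (M * rad a)).filter fun x => rc ν a x = 1 with hS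
  have e : ∑ x ∈ res (M * rad a), rc ν a x = (S.card : ℂ) := by
    rw [hS, Finset.card_filter]
    push_cast
    refine Finset.sum_congr rfl fun x _ => ?_
    rcases rc_princ h x with h1 | h1 <;> simp [h1]
  obtain ⟨r, ⟨hr, hr'⟩, -⟩ := exists_unique_res hq 1
  have h1 : r ∈ S := Finset.mem_filter.2 ⟨hr, by rw [← rc_per hM ν ha 1 r hr', LBA.rc_one]⟩
  have h2 : (0 : ℝ) < S.card := Nat.cast_pos.2 (Finset.card_pos.2 ⟨r, h1⟩)
  refine ⟨S.card / nr (M * rad a), div_pos h2 hq0, ?_, ?_⟩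
  · rw [div_le_one hq0, nr, ← card_res hq]
    exact Nat.cast_le.2 (Finset.card_filter_le _ _)
  · rw [avg, e]; push_cast; rfl

theorem princ_pole {M : O} (hM : Adm M) (ν : Chr M) {a : O} (ha : a ≠ 0) (h : Princ ν a) :
    ∃ (κ : ℝ) (G : ℂ → ℂ), 0 < κ ∧ Differentiable ℂ G ∧ G 1 = κ ∧
      ∀ s, s ≠ 1 → G s = (s - 1) * Lc ν a s := by
  obtain ⟨κ, hκ, -, hκ'⟩ := avg_princ hM ν ha h
  refine ⟨cc * κ, GLf (M * rad a) (rc ν a), mul_pos cc_pos hκ, differentiable_GLf _ _, ?_,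
    fun s hs => ?_⟩
  · rw [GLf_one, hκ']; push_cast; rfl
  · rw [GLf_eq _ _ hs, Lc_eq_Lf hM ν ha (Or.inl hs)]

theorem zeroFree_one : ZeroFree 1 := by
  intro M hM ν a ha s hs _ h0
  have h := LBA.Lser_mul_mob hM ν a hs
  rw [← (isL_Lc hM ν ha).2.1 s hs, h0, zero_mul] at h
  exact zero_ne_one h

theorem zeroFree_iff_one (β : ℝ) : ZeroFree β ↔ ∀ (M : O), Adm M → ∀ (ψ : Chr M) (s : ℂ),
    β < s.re → (s ≠ 1 ∨ ¬ Princ ψ 1) → Lc ψ 1 s ≠ 0 := by
  refine ⟨fun h M hM ψ s => h M hM ψ 1 one_ne_zero s, fun h M hM ν a ha s hs hs' => ?_⟩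
  obtain ⟨hM', ν', hν⟩ := LBA.exists_chr_row hM ν ha
  have hP : Princ ν' 1 ↔ Princ ν a := by
    unfold Princ
    rw [hν, mul_one]
  have hL : IsL ν' 1 = IsL ν a := by
    ext L
    unfold IsL Lser
    rw [hP, hν]
  have hc : Lc ν' 1 = Lc ν a := by
    unfold Lc
    rw [hL]
  rw [← hc]
  exact h _ hM' ν' s hs (by rwa [hP])

end Crest.Agent.R17.LBB
end
end

-- ▼ part PVc/R17/LBasicAuxC
section

/-!
# Row 17, module M9, part C: main terms of smooth sums (abstract lemmas for `Pln_exc`)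
-/

set_option autoImplicit false

noncomputable section

namespace Crest.Agent.R17

namespace LBC

open MeasureTheory Filter Topology Complex

/-- Main term from the continuation `G(w) / (w - 1)` of the Dirichlet series. -/
theorem Sm_main {θ : ℝ} (hθ : 0 < θ) (hθ1 : θ < 1) (J : ℕ) : ∃ A : ℝ, 0 < A ∧
    ∀ (b : O → ℂ) (G : ℂ → ℂ) (C : ℝ), PolyB b 1 0 → Differentiable ℂ G →
      (∀ w : ℂ, w.re = 2 → ∑' n : O, b n * (nr n : ℂ) ^ (-w) = G w / (w - 1)) →
      (∀ w : ℂ, 0 ≤ w.re → w.re ≤ 2 → w ≠ 1 → ‖G w‖ ≤ C * (1 + |w.im|) ^ J) →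
      ‖G 1‖ ≤ C ∧ ∀ (X : ℝ) (s : ℂ), 0 < X → |s.re| ≤ 3 →
        ‖Sm b X s - G 1 * X * Wm (1 + s)‖ ≤ A * C * (1 + |s.im|) ^ J * X ^ θ := by
  obtain ⟨A, hA, h⟩ := norm_integral_Wm_le 4 J
  have h1θ : 0 < 1 - θ := by linarith
  refine ⟨A / (1 - θ), by positivity, fun b G C hb hG hD hC => ⟨?_, fun X s hX hs => ?_⟩⟩
  · have hc : Tendsto (fun t : ℝ => ‖G t‖) (𝓝[>] 1) (𝓝 ‖G 1‖) := by
      have : Continuous fun t : ℝ => ‖G t‖ := (hG.continuous.comp continuous_ofReal).norm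
      simpa using (this.tendsto 1).mono_left nhdsWithin_le_nhds
    refine le_of_tendsto hc ?_
    filter_upwards [Ioo_mem_nhdsGT (show (1 : ℝ) < 2 by norm_num)] with t ht
    simpa using hC t (by simp; linarith [ht.1]) (by simpa using ht.2.le)
      (by exact_mod_cast ht.1.ne')
  · have e1 := Sm_eq_integral hb (σ := 2) hX (by norm_num) s
    have e2 := Wm_shift_pole (G := G) (σ₀ := θ) (σ₁ := 2) (C := C) (T := 1) (J := J) (ρ := 1)
      (by simpa using hθ1) (by simp) hX s hG.differentiableOn fun w hw hT =>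
        hC w (hθ.le.trans hw.1) hw.2 (by rintro rfl; norm_num at hT)
    have e3 : ∀ u : ℝ, Wm ((2 : ℝ) + u * I + s) * (X : ℂ) ^ (((2 : ℝ) : ℂ) + u * I) *
        ∑' n : O, b n * (nr n : ℂ) ^ (-(((2 : ℝ) : ℂ) + u * I)) =
        Wm ((2 : ℝ) + u * I + s) * (X : ℂ) ^ (((2 : ℝ) : ℂ) + u * I) * G ((2 : ℝ) + u * I) /
          ((2 : ℝ) + u * I - 1) := fun u => by
      rw [hD _ (by simp), mul_div_assoc]
    simp_rw [e3] at e1
    have hC0 : 0 ≤ C := by simpa using (norm_nonneg _).trans (hC 2 (by simp) (by simp) (by norm_num))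
    have e4 := h (fun u => G (θ + u * I) / (θ + u * I - 1)) θ (C / (1 - θ)) X s hX
      ((abs_add_le _ _).trans (by rw [abs_of_pos hθ]; linarith)) fun u => by
        have k1 : 1 - θ ≤ ‖(θ : ℂ) + u * I - 1‖ := by
          have := abs_re_le_norm ((θ : ℂ) + u * I - 1)
          simp only [sub_re, add_re, ofReal_re, mul_re, I_re, mul_zero, ofReal_im, I_im, mul_one,
            sub_self, add_zero, one_re] at this
          rwa [abs_sub_comm, abs_of_pos h1θ] at this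
        have k2 := hC (θ + u * I) (by simpa using hθ.le) (by simp; linarith) fun h => by
          have := congrArg Complex.re h
          simp at this
          linarith
        have k3 : ((θ : ℂ) + u * I).im = u := by simp
        rw [k3] at k2
        rw [norm_div, div_mul_eq_mul_div]
        gcongr
    simp_rw [← mul_div_assoc] at e4
    have hpi := Real.pi_pos
    have hpi' : (Real.pi : ℂ) ≠ 0 := by exact_mod_cast hpi.ne'
    have e5 : Sm b X s - G 1 * X * Wm (1 + s) = (1 / (2 * Real.pi) : ℂ) *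
        ∫ u : ℝ, Wm (θ + u * I + s) * (X : ℂ) ^ ((θ : ℂ) + u * I) * G (θ + u * I) /
          (θ + u * I - 1) := by
      rw [e1, e2, cpow_one]
      generalize (∫ u : ℝ, Wm (θ + u * I + s) * (X : ℂ) ^ ((θ : ℂ) + u * I) * G (θ + u * I) /
          (θ + u * I - 1)) = Z
      field_simp
      ring
    have e6 : ‖(1 / (2 * Real.pi) : ℂ)‖ ≤ 1 := by
      rw [norm_div, norm_one, norm_mul, Complex.norm_real, Real.norm_of_nonneg hpi.le,
        div_le_one (by simpa using hpi)]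
      simp only [Complex.norm_ofNat]
      linarith [Real.pi_gt_three]
    rw [e5, norm_mul]
    refine (mul_le_of_le_one_left (norm_nonneg _) e6).trans (e4.trans_eq ?_)
    ring

open Classical in
/-- The function `χ` restricted to the elements without prime factor in `S`. -/
def punct (χ : O → ℂ) (S : Finset O) (n : O) : ℂ := if ∀ p ∈ S, ¬ p ∣ n then χ n else 0

theorem polyB_punct {χ : O → ℂ} (hχ : PolyB χ 1 0) (S : Finset O) : PolyB (punct χ S) 1 0 := by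
  refine ⟨by simp [punct, hχ.1], fun n => ?_⟩
  unfold punct
  split_ifs
  · exact hχ.2 n
  · simp

theorem Sm_insert {χ : O → ℂ} (hχ : PolyB χ 1 0) {S : Finset O} [DecidableEq O] {p : O}
    (hp : Prime p) (hS : ∀ q ∈ S, Prime q ∧ ¬ q ∣ p) (hm : ∀ c, χ (p * c) = χ p * χ c) {X : ℝ}
    (hX : 0 < X) (s : ℂ) :
    Sm (punct χ (insert p S)) X s = Sm (punct χ S) X s - χ p * Sm (punct χ S) (X / nr p) s := by
  classical
  have h1 := (summable_Sm (polyB_punct hχ S) hX s).of_norm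
  have h2 := (summable_Sm (polyB_punct hχ (insert p S)) hX s).of_norm
  have hinj : Function.Injective fun c : O => p * c := mul_right_injective₀ hp.ne_zero
  have e := hinj.tsum_eq (f := fun n => punct χ S n * Wc (nr n / X) s -
    punct χ (insert p S) n * Wc (nr n / X) s) (fun n hn => by
      by_contra hc
      have hpn : ¬ p ∣ n := fun ⟨c, hc'⟩ => hc ⟨c, hc'.symm⟩
      exact hn (by simp [punct, hpn]))
  rw [h1.tsum_sub h2] at e
  have e2 : ∀ c : O, punct χ S (p * c) * Wc (nr (p * c) / X) s -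
      punct χ (insert p S) (p * c) * Wc (nr (p * c) / X) s =
      χ p * (punct χ S c * Wc (nr c / (X / nr p)) s) := fun c => by
    have k1 : punct χ (insert p S) (p * c) = 0 := by simp [punct]
    have k2 : (∀ q ∈ S, ¬ q ∣ p * c) ↔ ∀ q ∈ S, ¬ q ∣ c := forall₂_congr fun q hq => by
      rw [(hS q hq).1.dvd_mul, not_or, and_iff_right (hS q hq).2]
    have k3 : punct χ S (p * c) = χ p * punct χ S c := by
      simp only [punct, k2, hm]
      split_ifs <;> simp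
    have k4 : nr (p * c) / X = nr c / (X / nr p) := by
      rw [nr_mul, div_div_eq_mul_div, mul_comm]
    rw [k1, k3, k4]
    ring
  simp_rw [e2] at e
  rw [tsum_mul_left] at e
  unfold Sm
  linear_combination e

/-- Removing the primes of `S` multiplies the main term by Euler factors and the error by
`2 ^ |S|`. -/
theorem Sm_sieve {χ : O → ℂ} (hχ : PolyB χ 1 0) {κ s : ℂ} {E θ : ℝ} (hθ : 0 ≤ θ)
    (h : ∀ X : ℝ, 0 < X → ‖Sm χ X s - κ * X * Wm (1 + s)‖ ≤ E * X ^ θ) (S : Finset O)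
    (hS : ∀ p ∈ S, Prime p ∧ Primary p) (hm : ∀ p ∈ S, ∀ c, χ (p * c) = χ p * χ c) :
    ∀ X : ℝ, 0 < X → ‖Sm (punct χ S) X s - (κ * ∏ p ∈ S, (1 - χ p / nr p)) * X * Wm (1 + s)‖ ≤
      2 ^ S.card * E * X ^ θ := by
  classical
  have hE : 0 ≤ E := by simpa using (norm_nonneg _).trans (h 1 one_pos)
  induction S using Finset.induction_on with
  | empty =>
    have : punct χ ∅ = χ := funext fun n => by simp [punct]
    simpa [this] using h
  | insert p S hpS ih =>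
    intro X hX
    have hp := hS p (Finset.mem_insert_self _ _)
    have hS' : ∀ q ∈ S, Prime q ∧ Primary q := fun q hq => hS q (Finset.mem_insert_of_mem hq)
    have ih' := ih hS' fun q hq => hm q (Finset.mem_insert_of_mem hq)
    have h1 := one_le_nr hp.1.ne_zero
    have h0 : (nr p : ℂ) ≠ 0 := by exact_mod_cast (nr_pos hp.1.ne_zero).ne'
    have i1 := ih' X hX
    have i2 := ih' (X / nr p) (by positivity)
    have hχp : ‖χ p‖ ≤ 1 := by simpa using hχ.2 p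
    rw [Sm_insert hχ hp.1 (fun q hq => ⟨(hS' q hq).1, fun hd => hpS
        (BasicB.eq_of_dvd (hS' q hq).1 hp.1 (hS' q hq).2 hp.2 hd ▸ hq)⟩)
      (hm p (Finset.mem_insert_self _ _)) hX, Finset.prod_insert hpS, Finset.card_insert_of_notMem hpS]
    have e : Sm (punct χ S) X s - χ p * Sm (punct χ S) (X / nr p) s -
        κ * ((1 - χ p / nr p) * ∏ p ∈ S, (1 - χ p / nr p)) * X * Wm (1 + s) =
        (Sm (punct χ S) X s - (κ * ∏ p ∈ S, (1 - χ p / nr p)) * X * Wm (1 + s)) -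
        χ p * (Sm (punct χ S) (X / nr p) s -
          (κ * ∏ p ∈ S, (1 - χ p / nr p)) * ((X / nr p : ℝ) : ℂ) * Wm (1 + s)) := by
      push_cast
      ring
    have i3 : (X / nr p) ^ θ ≤ X ^ θ :=
      Real.rpow_le_rpow (by positivity) (div_le_self hX.le h1) hθ
    rw [e]
    refine (norm_sub_le _ _).trans ?_
    rw [norm_mul]
    have i4 := (mul_le_of_le_one_left (norm_nonneg _) hχp).trans
      (i2.trans (mul_le_mul_of_nonneg_left i3 (by positivity)))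
    rw [pow_succ]
    linarith

/-- For values in `{0, 1}` the Euler factors lie in `(0, 1]`. -/
theorem euler_factor {χ : O → ℂ} {S : Finset O} (hS : ∀ p ∈ S, Prime p)
    (h : ∀ p ∈ S, χ p = 0 ∨ χ p = 1) :
    ‖∏ p ∈ S, (1 - χ p / nr p)‖ ≤ 1 ∧ ∏ p ∈ S, (1 - χ p / nr p) ≠ 0 := by
  have key : ∀ p ∈ S, ‖1 - χ p / nr p‖ ≤ 1 ∧ 1 - χ p / nr p ≠ 0 := fun p hp => by
    rcases h p hp with h0 | h0 <;> rw [h0]
    · simp
    · have h1 := one_le_nr (hS p hp).ne_zero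
      have h2 : nr p ≠ 1 := fun h => (hS p hp).not_isUnit (isUnit_iff_nm.2 (by exact_mod_cast h))
      have h3 : 1 / nr p < 1 := (div_lt_one (by linarith)).2 (lt_of_le_of_ne h1 h2.symm)
      have h4 : 0 ≤ 1 / nr p := by positivity
      have e : (1 : ℂ) - 1 / nr p = ((1 - 1 / nr p : ℝ) : ℂ) := by push_cast; rfl
      rw [e, Complex.norm_real, Real.norm_of_nonneg (by linarith)]
      exact ⟨by linarith, by exact_mod_cast (by linarith : 1 - 1 / nr p ≠ 0)⟩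
  rw [norm_prod]
  exact ⟨Finset.prod_le_one (fun _ _ => norm_nonneg _) fun p hp => (key p hp).1,
    Finset.prod_ne_zero_iff.2 fun p hp => (key p hp).2⟩

theorem isCoprime_iff {n a : O} (hn : Primary n) (ha : a ≠ 0) :
    IsCoprime n a ↔ ∀ p ∈ pf a, ¬ p ∣ n := by
  refine ⟨fun h p hp hd => ?_, fun h => isCoprime_of_disjoint_pf hn ha ?_⟩
  · have := BasicB.of_mem_pf hp
    exact this.1.not_isUnit (h.isUnit_of_dvd' hd this.2.2)
  · exact Finset.disjoint_left.2 fun p hp hp' => h p hp' (BasicB.of_mem_pf hp).2.2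

/-- Every primary class coprime to `M` contains an element coprime to `a`. -/
theorem exists_coprime {M a n : O} (h3 : (3 : O) ∣ M) (ha : a ≠ 0) (hn : Primary n)
    (hc : IsCoprime n M) : ∃ n', Primary n' ∧ IsCoprime n' M ∧ IsCoprime n' a ∧ M ∣ n - n' := by
  classical
  set P := ∏ p ∈ (pf a).filter (fun p => ¬ p ∣ n), p with hP
  have h1 : Primary (n + M * P) := by
    have : n + M * P - 1 = (n - 1) + M * P := by ring
    unfold Primary
    rw [this]
    exact dvd_add hn (h3.mul_right _)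
  refine ⟨n + M * P, h1, hc.add_mul_left_left _, (isCoprime_iff h1 ha).2 fun p hp hd => ?_,
    ⟨-P, by ring⟩⟩
  have hp' := BasicB.of_mem_pf hp
  by_cases hpn : p ∣ n
  · rcases hp'.1.dvd_or_dvd ((dvd_add_right hpn).1 hd) with h | h
    · exact hp'.1.not_isUnit (hc.isUnit_of_dvd' hpn h)
    · obtain ⟨q, hq, hpq⟩ := (hp'.1.dvd_finsetProd_iff _).1 h
      rw [Finset.mem_filter] at hq
      have hq' := BasicB.of_mem_pf hq.1
      exact hq.2 (BasicB.eq_of_dvd hp'.1 hq'.1 hp'.2.1 hq'.2.1 hpq ▸ hpn)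
  · have : p ∣ M * P :=
      (Finset.dvd_prod_of_mem (fun p => p) (Finset.mem_filter.2 ⟨hp, hpn⟩)).mul_left _
    exact hpn ((dvd_add_left this).1 hd)

end LBC

end Crest.Agent.R17
end
end

-- ▼ part PVc/R17/LBasicAuxG2
section

/-!
# Row 17: polynomial growth of the L-function of a bounded periodic function
-/

set_option autoImplicit false

noncomputable section

namespace Crest.Agent.R17.LG

open scoped ComplexConjugate
open MeasureTheory Complex

theorem norm_tsum_le {σ : ℝ} (hσ : 1 < σ) {H : ℝ} {f : O → ℂ} (hf : ∀ n, ‖f n‖ ≤ H) {w : ℂ}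
    (hw : w.re = -σ) : ‖∑' n : O, f n * (nr n : ℂ) ^ w‖ ≤ H * ∑' n : O, nr n ^ (-σ) := by
  rw [← tsum_mul_left]
  refine tsum_of_norm_bounded ((summable_nr_rpow hσ).mul_left H).hasSum fun n => ?_
  rw [norm_mul, norm_cpow_eq_rpow_re_of_nonneg (by positivity) (by rw [hw]; linarith), hw]
  exact mul_le_mul_of_nonneg_right (hf n) (by positivity)

theorem norm_ft_le {q : O} (hq : q ≠ 0) {f : O → ℂ} (hf : ∀ n, ‖f n‖ ≤ 1) (h : O) :
    ‖ft q f h‖ ≤ nr q := by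
  refine (norm_sum_le _ _).trans ((Finset.sum_le_card_nsmul _ _ 1 fun x _ => ?_).trans ?_)
  · rw [norm_mul, norm_eq, mul_one]
    exact hf x
  · simp [card_res hq]

/-- bounds on the two boundary lines -/
theorem lines : ∃ C : ℝ, 0 < C ∧ ∀ (q : O) (f : O → ℂ) (L : ℂ → ℂ), q ≠ 0 → (∀ n, ‖f n‖ ≤ 1) →
    (∀ s : ℂ, s.re = 3 → L s = ∑' n : O, f n * (nr n : ℂ) ^ (-s)) →
    (∀ s : ℂ, s.re = -3 / 2 → L s = (nr q : ℂ) ^ (-s) *
      (((2 * Real.pi / Real.sqrt 3 : ℝ) : ℂ) ^ (2 * s - 1) * Gamma (1 - s) / Gamma s) *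
      ∑' h : O, ft q f h * (nr h : ℂ) ^ (s - 1)) →
    ∀ s : ℂ, s.re = -3 / 2 ∨ s.re = 3 → ‖L s‖ ≤ C * nr q ^ 3 * (1 + |s.im|) ^ 4 := by
  have z1 : 0 ≤ ∑' n : O, nr n ^ (-(3 : ℝ)) := tsum_nonneg fun n => by positivity
  have z2 : 0 ≤ ∑' n : O, nr n ^ (-(5 / 2 : ℝ)) := tsum_nonneg fun n => by positivity
  refine ⟨1 + ∑' n : O, nr n ^ (-(3 : ℝ)) + 16 * ∑' n : O, nr n ^ (-(5 / 2 : ℝ)), by positivity,
    fun q f L hq hf h3 hFE s hs => ?_⟩
  have hq1 := one_le_nr hq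
  have t1 : 1 ≤ 1 + |s.im| := by linarith [abs_nonneg s.im]
  rcases hs with hs | hs
  · have a1 : ‖(nr q : ℂ) ^ (-s)‖ ≤ nr q ^ 2 := by
      rw [norm_cpow_eq_rpow_re_of_pos (nr_pos hq), ← Real.rpow_two]
      exact Real.rpow_le_rpow_of_exponent_le hq1 (by rw [neg_re, hs]; norm_num)
    have a2 : ‖((2 * Real.pi / Real.sqrt 3 : ℝ) : ℂ) ^ (2 * s - 1)‖ ≤ 1 := by
      rw [norm_cpow_eq_rpow_re_of_pos (by linarith [pois_three_le])]
      refine Real.rpow_le_one_of_one_le_of_nonpos (by linarith [pois_three_le]) ?_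
      simp [hs]
      norm_num
    have a3 := norm_Gamma_ratio hs
    have a4 := norm_tsum_le (σ := 5 / 2) (by norm_num) (norm_ft_le hq hf) (w := s - 1)
      (by rw [sub_re, hs, one_re]; norm_num)
    rw [hFE s hs, mul_div_assoc, norm_mul, norm_mul, norm_mul]
    calc _ ≤ nr q ^ 2 * (1 * (16 * (1 + |s.im|) ^ 4)) * (nr q * ∑' n : O, nr n ^ (-(5 / 2 : ℝ))) := by
          gcongr
      _ = (16 * ∑' n : O, nr n ^ (-(5 / 2 : ℝ))) * nr q ^ 3 * (1 + |s.im|) ^ 4 := by ring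
      _ ≤ _ := by gcongr; linarith
  · rw [h3 s hs]
    refine (norm_tsum_le (σ := 3) (by norm_num) hf (by rw [neg_re, hs])).trans ?_
    rw [one_mul, mul_assoc]
    refine le_trans (by linarith) (le_mul_of_one_le_right (by positivity) ?_)
    exact one_le_mul_of_one_le_of_one_le (one_le_pow₀ hq1) (one_le_pow₀ t1)

/-- a-priori bound from the Mellin representation -/
theorem apriori {L L₀ : ℂ → ℂ} {r : ℂ} {B₀ : ℝ}
    (h0 : ∀ s : ℂ, -3 / 2 ≤ s.re → s.re ≤ 3 → ‖L₀ s‖ ≤ B₀)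
    (hL : ∀ s : ℂ, 1 ≤ |s.im| → L s = ((2 * Real.pi / Real.sqrt 3 : ℝ) : ℂ) ^ s * (Gamma s)⁻¹ *
      (L₀ s + r / (s - 1))) :
    ∃ B : ℝ, 0 ≤ B ∧ ∀ s : ℂ, -3 / 2 ≤ s.re → s.re ≤ 3 → 1 ≤ |s.im| →
      ‖L s‖ ≤ B * Real.exp (4 * |s.im|) := by
  obtain ⟨K, hK, hK'⟩ := norm_inv_Gamma_le
  have hc := pois_three_le
  have hB : 0 ≤ B₀ := (norm_nonneg _).trans (h0 0 (by norm_num) (by norm_num))
  refine ⟨(2 * Real.pi / Real.sqrt 3) ^ (3 : ℝ) * K * (B₀ + ‖r‖), by positivity,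
    fun s s0 s1 s2 => ?_⟩
  have a1 : ‖((2 * Real.pi / Real.sqrt 3 : ℝ) : ℂ) ^ s‖ ≤ (2 * Real.pi / Real.sqrt 3) ^ (3 : ℝ) := by
    rw [norm_cpow_eq_rpow_re_of_pos (by linarith)]
    exact Real.rpow_le_rpow_of_exponent_le (by linarith) s1
  have a2 := hK' s (by linarith) s1 s2
  have a3 : ‖L₀ s + r / (s - 1)‖ ≤ B₀ + ‖r‖ := by
    refine (norm_add_le _ _).trans (add_le_add (h0 s s0 s1) ?_)
    rw [norm_div]
    exact div_le_self (norm_nonneg _) (s2.trans (by simpa using abs_im_le_norm (s - 1)))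
  rw [hL s s2, norm_mul, norm_mul]
  calc _ ≤ (2 * Real.pi / Real.sqrt 3) ^ (3 : ℝ) * (K * Real.exp (4 * |s.im|)) * (B₀ + ‖r‖) := by
        gcongr
    _ = _ := by ring

theorem norm_sub_one_le {s : ℂ} (h0 : -3 / 2 ≤ s.re) (h1 : s.re ≤ 3) :
    ‖s - 1‖ ≤ 3 * (1 + |s.im|) := by
  refine (norm_le_abs_re_add_abs_im _).trans ?_
  simp only [sub_re, one_re, sub_im, one_im, sub_zero]
  have : |s.re - 1| ≤ 3 := abs_le.2 ⟨by linarith, by linarith⟩
  have := abs_nonneg s.im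
  linarith

/-- growth of an entire `L` -/
theorem growth_entire {L : ℂ → ℂ} (hL : Differentiable ℂ L) {B K : ℝ} (hB0 : 0 ≤ B)
    (hB : ∀ s : ℂ, -3 / 2 ≤ s.re → s.re ≤ 3 → 1 ≤ |s.im| → ‖L s‖ ≤ B * Real.exp (4 * |s.im|))
    (hK : ∀ s : ℂ, s.re = -3 / 2 ∨ s.re = 3 → ‖L s‖ ≤ K * (1 + |s.im|) ^ 4)
    (s : ℂ) (h0 : -3 / 2 ≤ s.re) (h1 : s.re ≤ 3) : ‖L s‖ ≤ 12 ^ 5 * K * (1 + |s.im|) ^ 5 := by
  have hK0 : 0 ≤ K := by simpa using (norm_nonneg _).trans (hK 3 (Or.inr (by simp)))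
  refine PL_poly hL (B := B + 4) (fun z z0 z1 z2 => (hB z z0 z1 z2).trans ?_)
    (fun z hz => (hK z hz).trans ?_) s h0 h1
  · gcongr <;> linarith
  · exact mul_le_mul_of_nonneg_left (pow_le_pow_right₀ (by linarith [abs_nonneg z.im]) (by norm_num))
      hK0

/-- growth of `(s - 1) L(s)` -/
theorem growth_pole {L G : ℂ → ℂ} (hG : Differentiable ℂ G) (hGL : ∀ s, s ≠ 1 → G s = (s - 1) * L s)
    {B K : ℝ} (hB0 : 0 ≤ B)
    (hB : ∀ s : ℂ, -3 / 2 ≤ s.re → s.re ≤ 3 → 1 ≤ |s.im| → ‖L s‖ ≤ B * Real.exp (4 * |s.im|))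
    (hK : ∀ s : ℂ, s.re = -3 / 2 ∨ s.re = 3 → ‖L s‖ ≤ K * (1 + |s.im|) ^ 4)
    (s : ℂ) (h0 : -3 / 2 ≤ s.re) (h1 : s.re ≤ 3) : ‖G s‖ ≤ 12 ^ 5 * (3 * K) * (1 + |s.im|) ^ 5 := by
  refine PL_poly hG (B := 3 * B + 5) (fun z z0 z1 z2 => ?_) (fun z hz => ?_) s h0 h1
  · have hz : z ≠ 1 := fun h => by
      rw [h] at z2
      simp at z2
      linarith
    have a1 := Real.add_one_le_exp |z.im|
    rw [hGL z hz, norm_mul]
    calc _ ≤ (3 * Real.exp |z.im|) * (B * Real.exp (4 * |z.im|)) :=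
          mul_le_mul ((norm_sub_one_le z0 z1).trans (by linarith)) (hB z z0 z1 z2) (norm_nonneg _)
            (by positivity)
      _ = 3 * B * Real.exp (5 * |z.im|) := by
          rw [show 5 * |z.im| = |z.im| + 4 * |z.im| by ring, Real.exp_add]; ring
      _ ≤ _ := by gcongr <;> linarith
  · have hz1 : z ≠ 1 := fun h => by
      rw [h] at hz
      norm_num at hz
    have z0 : -3 / 2 ≤ z.re := by rcases hz with h | h <;> linarith
    have z1 : z.re ≤ 3 := by rcases hz with h | h <;> linarith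
    rw [hGL z hz1, norm_mul]
    calc _ ≤ (3 * (1 + |z.im|)) * (K * (1 + |z.im|) ^ 4) :=
          mul_le_mul (norm_sub_one_le z0 z1) (hK z hz) (norm_nonneg _) (by positivity)
      _ = _ := by ring

end Crest.Agent.R17.LG
end
end

-- ▼ part PVc/R17/LBasic

/-!
# Row 17, module M9: the L-functions of the row characters (continuation, growth, reflection)
-/

set_option autoImplicit false

noncomputable section

namespace Crest.Agent.R17

open scoped ComplexConjugate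

/-! ## A. row characters -/

theorem rc_one {M : O} (ν : Chr M) (a : O) : rc ν a 1 = 1 :=
  LBA.rc_one ν a
theorem rc_zero {M : O} (ν : Chr M) (a : O) : rc ν a 0 = 0 :=
  LBA.rc_zero ν a
theorem rc_mul {M : O} (ν : Chr M) (a : O) {m n : O} (hm : Primary m) (hn : Primary n) :
    rc ν a (m * n) = rc ν a m * rc ν a n :=
  LBA.rc_mul ν a hm hn
theorem norm_rc_le {M : O} (hM : Adm M) (ν : Chr M) (a n : O) : ‖rc ν a n‖ ≤ 1 :=
  LBA.norm_rc_le hM ν a n
theorem rc_eq_zero {M : O} (ν : Chr M) {a n : O} (h : ¬ IsCoprime n (M * a)) : rc ν a n = 0 :=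
  LBA.rc_eq_zero ν h
theorem rc_mul_row {M : O} (hM : Adm M) (ν : Chr M) (a b n : O) :
    rc ν (a * b) n = rc ν a n * conj (sym n b) :=
  LBA.rc_mul_row hM ν a b n
theorem polyB_rc {M : O} (hM : Adm M) (ν : Chr M) (a : O) : PolyB (rc ν a) 1 0 :=
  LBA.polyB_rc hM ν a
theorem polyB_mu_rc {M : O} (hM : Adm M) (ν : Chr M) (a : O) :
    PolyB (fun n => mu n * rc ν a n) 1 0 :=
  LBA.polyB_mu_rc hM ν a
theorem Mob_eq_Sm {M : O} (ν : Chr M) (a : O) (D : ℝ) (s : ℂ) :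
    Mob ν a D s = Sm (fun n => mu n * rc ν a n) D s := rfl
theorem Pln_eq_Sm {M : O} (ν : Chr M) (a : O) (X : ℝ) (s : ℂ) :
    Pln ν a X s = Sm (rc ν a) X s := rfl
theorem rc_periodic {M : O} (hM : Adm M) (ν : Chr M) {a : O} (ha : a ≠ 0) {n n' : O}
    (h : M * rad a ∣ n - n') : rc ν a n = rc ν a n' :=
  LBA.rc_periodic hM ν ha h
/-- On an exceptional row the row character is a character modulo `M` with a puncture. -/
theorem exists_chr_exc {M : O} (hM : Adm M) (ν : Chr M) {a : O} (ha : a ≠ 0) (h : Exc M a) :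
    ∃ ν' : Chr M, ∀ n, Primary n → IsCoprime n a → rc ν a n = rc ν' 1 n :=
  LBA.exists_chr_exc hM ν ha h
theorem ne_zero_of_not_exc {M a : O} (h : ¬ Exc M a) : a ≠ 0 :=
  LBA.ne_zero_of_not_exc h
theorem one_le_cond (M a : O) : 1 ≤ cond M a :=
  LBA.one_le_cond M a
theorem cond_le (M : O) {a : O} (ha : a ≠ 0) : cond M a ≤ nr a :=
  LBA.cond_le M ha
/-- Choose `p ∈ pf a`, `p ∤ M`, `6 ∤ v`, and `n ≡ 1 (M rad(a)/p)`, `n ≡ x (p)` with `χ_p(x)^v ≠ 1`. -/
theorem not_princ_of_not_exc {M : O} (hM : Adm M) (ν : Chr M) {a : O} (h : ¬ Exc M a) :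
    ¬ Princ ν a :=
  LBA.not_princ_of_not_exc hM ν h
/-- Euler product in the form we need it. -/
theorem Lser_mul_mob {M : O} (hM : Adm M) (ν : Chr M) (a : O) {s : ℂ} (hs : 1 < s.re) :
    Lser ν a s * ∑' n : O, mu n * rc ν a n * (nr n : ℂ) ^ (-s) = 1 :=
  LBA.Lser_mul_mob hM ν a hs
/-- `L = exp (∑_p ∑_k χ(p)^k / (k N p^{ks}))` for `Re s > 1`. -/
theorem Lser_eq_exp {M : O} (hM : Adm M) (ν : Chr M) (a : O) {s : ℂ} (hs : 1 < s.re) :
    Lser ν a s = Complex.exp (∑' p : O, by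
      classical exact if Prime p then -Complex.log (1 - rc ν a p * (nr p : ℂ) ^ (-s)) else 0) :=
  LBA.Lser_eq_exp hM ν a hs

/-! ## B. continuation and growth

Use `Θ(t) = ∑_n rc n · gw(N n · t)`, `poisson` with `q = M rad a`, and the Mellin transform
`∫ Θ(t) t^{s-1} dt = Γ(s) (2π/√3)^{-s} L(s)` (e.g. Mathlib's `WeakFEPair`). -/

theorem isL_Lc {M : O} (hM : Adm M) (ν : Chr M) {a : O} (ha : a ≠ 0) : IsL ν a (Lc ν a) :=
  LBB.isL_Lc hM ν ha

theorem IsL.unique {M : O} {ν : Chr M} {a : O} {L L' : ℂ → ℂ} (h : IsL ν a L) (h' : IsL ν a L')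
    {s : ℂ} (hs : s ≠ 1 ∨ ¬ Princ ν a) : L s = L' s :=
  LBB.IsL_unique h h' hs

/-- The simple pole of a principal row character. -/
theorem princ_pole {M : O} (hM : Adm M) (ν : Chr M) {a : O} (ha : a ≠ 0) (h : Princ ν a) :
    ∃ (κ : ℝ) (G : ℂ → ℂ), 0 < κ ∧ Differentiable ℂ G ∧ G 1 = κ ∧
      ∀ s, s ≠ 1 → G s = (s - 1) * Lc ν a s :=
  LBB.princ_pole hM ν ha h

theorem zeroFree_one : ZeroFree 1 := LBB.zeroFree_one

theorem zeroFree_iff_one (β : ℝ) : ZeroFree β ↔ ∀ (M : O), Adm M → ∀ (ψ : Chr M) (s : ℂ),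
    β < s.re → (s ≠ 1 ∨ ¬ Princ ψ 1) → Lc ψ 1 s ≠ 0 :=
  LBB.zeroFree_iff_one β

/-- Polynomial growth.  (On `Re s = -1` or `-3/2` use the functional equation coming from
`poisson`: `L(s) = q^{-s} γ(s) ∑_h ft q rc h · N h^{s-1}`, `γ(s) = (2π/√3)^{2s-1} Γ(1-s)/Γ(s)`;
inside the strip Phragmén–Lindelöf, the a-priori bound being `≪ 1/|Γ(s)|`.) -/
theorem Lc_growth {M : O} (hM : Adm M) : ∃ (C : ℝ) (J : ℕ), 0 < C ∧
    ∀ (ν : Chr M) (a : O) (s : ℂ), a ≠ 0 → -1 ≤ s.re → s.re ≤ 3 →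
      (s ≠ 1 → ‖(s - 1) * Lc ν a s‖ ≤ C * nr a ^ J * (1 + |s.im|) ^ J) ∧
      (¬ Princ ν a → ‖Lc ν a s‖ ≤ C * nr a ^ J * (1 + |s.im|) ^ J) := by
  obtain ⟨C, hC, hl⟩ := LG.lines
  have hM1 := one_le_nr hM.1
  refine ⟨12 ^ 5 * (3 * (C * nr M ^ 3)), 5, by positivity, fun ν a s ha s0 s1 => ?_⟩
  have ha1 := one_le_nr ha
  have hq := LBB.mul_rad_ne_zero hM a
  have hL := isL_Lc hM ν ha
  have hK := hl _ _ (Lc ν a) hq (norm_rc_le hM ν a)
    (fun s hs => hL.2.1 s (by rw [hs]; norm_num))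
    (fun s hs => by
      rw [LBB.Lc_fe hM ν ha (by rw [hs]; norm_num), LBB.cc]
      ring)
  obtain ⟨B₀, hB₀⟩ := LBB.Lam0_bounded (M * rad a) (rc ν a) (-3 / 2) 3
  obtain ⟨B, hB0, hB⟩ := LG.apriori (L := Lc ν a) hB₀ fun s hs =>
    LBB.Lc_eq_Lam0 hM ν ha (Or.inl fun h => by
      rw [h] at hs
      norm_num at hs)
  have hr : nr (M * rad a) ^ 3 ≤ nr M ^ 3 * nr a ^ 5 := by
    have h1 : nr (rad a) ≤ nr a := Nat.cast_le.2 (nm_le_of_dvd (rad_dvd a) ha)
    rw [nr_mul, mul_pow]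
    exact mul_le_mul_of_nonneg_left ((pow_le_pow_left₀ (by positivity) h1 3).trans
      (pow_le_pow_right₀ ha1 (by norm_num))) (by positivity)
  have s0' : -3 / 2 ≤ s.re := by linarith
  have key : ∀ {x : ℝ}, x ≤ 12 ^ 5 * (3 * (C * nr (M * rad a) ^ 3)) * (1 + |s.im|) ^ 5 →
      x ≤ 12 ^ 5 * (3 * (C * nr M ^ 3)) * nr a ^ 5 * (1 + |s.im|) ^ 5 := fun h => h.trans (by
    rw [show 12 ^ 5 * (3 * (C * nr M ^ 3)) * nr a ^ 5 = 12 ^ 5 * (3 * (C * (nr M ^ 3 * nr a ^ 5)))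
      by ring]
    gcongr)
  refine ⟨fun hs => key ?_, fun hP => key ((LG.growth_entire (hL.2.2 hP) hB0 hB hK s s0' s1).trans ?_)⟩
  · by_cases hP : Princ ν a
    · obtain ⟨κ, G, -, hG, -, hGL⟩ := princ_pole hM ν ha hP
      rw [← hGL s hs]
      exact LG.growth_pole hG hGL hB0 hB hK s s0' s1
    · exact LG.growth_pole (G := fun s => (s - 1) * Lc ν a s)
        ((differentiable_id.sub_const 1).mul (hL.2.2 hP)) (fun _ _ => rfl) hB0 hB hK s s0' s1
  · have : C * nr (M * rad a) ^ 3 ≤ 3 * (C * nr (M * rad a) ^ 3) :=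
      le_mul_of_one_le_left (by positivity) (by norm_num)
    exact mul_le_mul_of_nonneg_right (mul_le_mul_of_nonneg_left this (by positivity))
      (by positivity)

/-- Exponential decay of `Γ` on vertical lines. -/
theorem norm_Gamma_le_exp {σ₀ σ₁ : ℝ} (h : 0 < σ₀) : ∃ C : ℝ, 0 < C ∧
    ∀ s : ℂ, σ₀ ≤ s.re → s.re ≤ σ₁ → ‖Complex.Gamma s‖ ≤ C * Real.exp (-|s.im|) :=
  LG.norm_Gamma_le_exp h

/-! ## C. exceptional rows -/

/-- Main term of a plain sum on an exceptional row (`exists_chr_exc`, `Sm_eq_integral`, shift the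
contour to `Re w = θ`; the Euler factors at `p ∣ a` are `≤ 2^{ω(a)}`). -/
theorem Pln_exc {M : O} (hM : Adm M) {θ ε : ℝ} (hθ : 0 < θ) (hθ1 : θ < 1) (hε : 0 < ε) :
    ∃ (C : ℝ) (J : ℕ), 0 < C ∧ ∀ (ν : Chr M) (a : O), a ≠ 0 → Exc M a →
      ∃ m : ℂ, ‖m‖ ≤ C ∧ (Princ ν a → m ≠ 0) ∧ ∀ (N : ℝ) (s : ℂ), 0 < N → |s.re| ≤ 3 →
        ‖Pln ν a N s - m * N * Wm (1 + s)‖ ≤ C * nr a ^ ε * (1 + |s.im|) ^ J * N ^ θ := by
  obtain ⟨C, J, hC, hg⟩ := Lc_growth hM
  obtain ⟨A, hA, hmain⟩ := LBC.Sm_main hθ hθ1 J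
  obtain ⟨D, hD, hpf⟩ := pow_card_pf_le hε 2
  refine ⟨max C (D * (A * C)), J, lt_max_of_lt_left hC, fun ν a ha hE => ?_⟩
  obtain ⟨ν', hν⟩ := exists_chr_exc hM ν ha hE
  have hL := isL_Lc hM ν' one_ne_zero
  have hb := polyB_rc hM ν' 1
  obtain ⟨G, hG, hG1, hG2, hG3⟩ : ∃ G : ℂ → ℂ, Differentiable ℂ G ∧
      (∀ w, w ≠ 1 → G w = (w - 1) * Lc ν' 1 w) ∧ (Princ ν' 1 → G 1 ≠ 0) ∧
      (¬ Princ ν' 1 → G 1 = 0) := by
    by_cases hP : Princ ν' 1
    · obtain ⟨κ, G, hκ, hG, h1, h2⟩ := princ_pole hM ν' one_ne_zero hP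
      exact ⟨G, hG, h2, fun _ => by rw [h1]; exact_mod_cast hκ.ne', fun h => absurd hP h⟩
    · exact ⟨fun w => (w - 1) * Lc ν' 1 w, (differentiable_id.sub_const 1).mul (hL.2.2 hP),
        fun _ _ => rfl, fun h => absurd h hP, fun _ => by simp⟩
  obtain ⟨hκ, hS⟩ := hmain (rc ν' 1) G C hb hG
    (fun w hw => by
      have h1 : w ≠ 1 := by rintro rfl; norm_num at hw
      rw [hG1 w h1, mul_div_cancel_left₀ _ (sub_ne_zero.2 h1), hL.2.1 w (by rw [hw]; norm_num)]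
      rfl)
    (fun w h0 h2 h1 => by
      rw [hG1 w h1]
      simpa [nr] using (hg ν' 1 w one_ne_zero (by linarith) (by linarith)).1 h1)
  have hpr : ∀ p ∈ pf a, Prime p ∧ Primary p := fun p => BasicB.pf_sub
  have hrc : rc ν a = LBC.punct (rc ν' 1) (pf a) := funext fun n => by
    by_cases hn : Primary n
    · unfold LBC.punct
      split_ifs with h
      · exact hν n hn ((LBC.isCoprime_iff hn ha).2 h)
      · exact rc_eq_zero ν fun h' => h ((LBC.isCoprime_iff hn ha).1 h'.of_mul_right_right)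
    · simp [LBC.punct, rc, hn]
  have hm : ∀ p ∈ pf a, ∀ c, rc ν' 1 (p * c) = rc ν' 1 p * rc ν' 1 c := fun p hp c => by
    by_cases hc : Primary c
    · exact rc_mul ν' 1 (hpr p hp).2 hc
    · have : ¬ Primary (p * c) := fun h => hc ((hpr p hp).2.of_mul h)
      simp [rc, hc, this]
  have heu := fun hP : Princ ν' 1 => LBC.euler_factor (χ := rc ν' 1) (S := pf a)
    (fun p hp => (hpr p hp).1) fun p hp => by
      by_cases h : IsCoprime p (M * 1)
      · exact Or.inr (hP p (hpr p hp).2 h)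
      · exact Or.inl (rc_eq_zero ν' h)
  refine ⟨G 1 * ∏ p ∈ pf a, (1 - rc ν' 1 p / nr p), ?_, fun hP => ?_, fun N s hN hs => ?_⟩
  · by_cases hP : Princ ν' 1
    · rw [norm_mul]
      exact (mul_le_of_le_one_right (norm_nonneg _) (heu hP).1).trans (hκ.trans (le_max_left _ _))
    · rw [hG3 hP, zero_mul, norm_zero]
      exact hC.le.trans (le_max_left _ _)
  · have hP' : Princ ν' 1 := fun n hn hc => by
      obtain ⟨n', k1, k2, k3, k4⟩ := LBC.exists_coprime (M := M)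
        (Dvd.dvd.trans ⟨24, by norm_num⟩ hM.2) ha hn (by simpa using hc)
      rw [rc_periodic hM ν' one_ne_zero (n' := n') (by simpa [rad] using k4), ← hν n' k1 k3]
      exact hP n' k1 (k2.mul_right k3)
    exact mul_ne_zero (hG2 hP') (heu hP').2
  · have h := LBC.Sm_sieve hb hθ.le (fun X hX => hS X s hX hs) (pf a) hpr hm N hN
    rw [Pln_eq_Sm, hrc]
    refine h.trans ?_
    have h2 := hpf a ha
    have h3 : D * (A * C) ≤ max C (D * (A * C)) := le_max_right _ _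
    calc (2 : ℝ) ^ (pf a).card * (A * C * (1 + |s.im|) ^ J) * N ^ θ
        ≤ D * nr a ^ ε * (A * C * (1 + |s.im|) ^ J) * N ^ θ := by gcongr
      _ = D * (A * C) * nr a ^ ε * (1 + |s.im|) ^ J * N ^ θ := by ring
      _ ≤ _ := by gcongr

/-! ## D. reflection of plain sums (functional equation in inequality form) -/

/-- **Lemma R.**  Write `a = a₀ r c` with `pf a₀ ⊆ pf M`, `r = ∏_{p ∤ M, 6 ∤ v} p^v`,
`c = ∏_{p ∤ M, 6 ∣ v} p^v`.  Then `rc ν a n = φ(n) conj χ_r(n) 1_{(n,c)=1}` with `φ` periodic mod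
`M` (reciprocity).  (1) `Pln ν a N = ∑_{e ∣ rad c} μ(e) rc(e) Pln(r)(N/N e)`.  (2) Poisson modulo
`M rad r` (`ft_mul`; `ft (rad r) conj χ_r = τ χ_r`, `|τ|² = cond`); write the dual variable as
`h = u λ^j h_M h'` (`pf h_M ⊆ pf M`, `h'` primary coprime to `M`) and expand `h' ↦ ft M φ(..)` in
characters of `Chr M` (`PerB.expand`); this gives
`L(w) = cond^{1/2-w} γ(w) ∑_{ν'} E_{ν'}(w) conj L(1 - conj w, ν')`.  (3) Mellin inversion, the dual
kernel `V(y) = ∫ Wm(1-w'+iτ) γ(1-w') y^{-w'}` is cut into pieces `Wc(y/e^v)` by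
`integral_Wc_scale`; use `Re w' = 1/2` (`|γ| = 1`) for `e^v ≤ cond · N e · R^ε/N` and `Re w'` large
beyond.  (4) `Pln(r)(Y) = ∑_{f ∣ c^∞} rc(f) Pln(a)(Y/N f)`, `sum_smooth_le`. -/
theorem Pln_reflect {M : O} (hM : Adm M) {ε : ℝ} (hε : 0 < ε) (J : ℝ) : ∃ C : ℝ, 0 < C ∧
    ∀ (R N τ : ℝ) (ν : Chr M) (a : O), 1 ≤ R → ¬ Exc M a → nr a ≤ R → R⁻¹ ≤ N → N ≤ R →
      |τ| ≤ R → ∃ (ν' : Chr M) (e Y t : ℝ), 1 ≤ e ∧ cond M a * e ≤ nr a ∧ R⁻¹ ≤ Y ∧
        Y ≤ cond M a * e * R ^ ε * (1 + |τ|) ^ 2 / N ∧ |t| ≤ |τ| + Real.log R ∧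
        ‖Pln ν a N (τ * Complex.I)‖ ≤
          C * R ^ ε * Real.sqrt (N / (e * Y)) * ‖Pln ν' a Y (t * Complex.I)‖ + C * R ^ (-J) :=
  LBD.Pln_reflect hM hε J

/-- Decay beyond the conductor (from `Pln_reflect` and `tsum_norm_Sm_tail_le`). -/
theorem Pln_decay {M : O} (hM : Adm M) {ε : ℝ} (hε : 0 < ε) (J : ℝ) : ∃ C : ℝ, 0 < C ∧
    ∀ (R N : ℝ) (s : ℂ) (ν : Chr M) (a : O), 1 ≤ R → ¬ Exc M a →
      nr a * R ^ ε * (1 + |s.im|) ^ 2 ≤ N → N ≤ R →
      |s.re| ≤ 3 → |s.im| ≤ R → ‖Pln ν a N s‖ ≤ C * R ^ (-J) :=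
  LBD.Pln_decay hM hε J

end Crest.Agent.R17
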