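import Crest.Agent.PVc.R17.M4P1

-- ▼ part PVc/R17/M4CoreAuxA
section

/-!
# Row 17, module M4, part Core: the splitting lemmas (auxiliary file A)

Copies `M4CA.tri`, `M4CA.back`, `M4CA.mid` of the definitions of `M4Core.lean` (definitionally equal)
and the easy lemmas about them.
-/

set_option autoImplicit false

noncomputable section

namespace Crest.Agent.R17

namespace M4CA

open scoped ComplexConjugate

open Classical in
/-- Copy of `tri`. -/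
def tri (M : O) (R : ℝ) (β c₁ c₂ : O → ℂ) (n : O) : ℂ :=
  if Squarefree n then
    ∑ v ∈ (sp M R ×ˢ sp M R ×ˢ sp M R).filter (fun v => v.1 * v.2.1 * v.2.2 = n),
      β v.1 * c₁ v.2.1 * c₂ v.2.2
  else 0

open Classical in
/-- Copy of `back`. -/
def back (M : O) (R : ℝ) (β : O → ℂ) (t T : O) (ψ : Chr M) (w : ℂ) (a : O) : ℂ :=
  ∑ s ∈ sp M R, if IsCoprime s T then β (t * s) * ev ψ s * (nr s : ℂ) ^ w * conj (sym s a) else 0

open Classical in
/-- Copy of `mid`. -/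
def mid {M : O} (β : O → ℂ) (u₀ T r₀ : O) (ψ : Chr M) (w : ℂ) (s : O) : ℂ :=
  if IsCoprime s T then β (u₀ * s) * ev ψ s * gam 5 s * sym s r₀ ^ 5 * (nr s : ℂ) ^ w else 0

theorem SP_of_mem {M n : O} {X : ℝ} (h : n ∈ sp M X) : SP M n := by
  classical
  rw [sp, Finset.mem_filter] at h
  exact h.2

theorem PO_of_mem {M n : O} (hM : Adm M) {X : ℝ} (h : n ∈ sp M X) : PO n :=
  PO.of_adm hM (SP_of_mem h).1 (SP_of_mem h).2.2

theorem mem_rows' {K : ℝ} (hK : 0 ≤ K) {k : O} : k ∈ rows K ↔ k ≠ 0 ∧ nr k ≤ K := by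
  rw [rows, Finset.mem_erase, mem_ball, Nat.le_floor_iff hK]

theorem supp_tri {M : O} {R Q L₁ L₂ : ℝ} {β c₁ c₂ : O → ℂ} (hβ : Supp M Q β) (h1 : Supp M L₁ c₁)
    (h2 : Supp M L₂ c₂) : Supp M (Q * L₁ * L₂) (tri M R β c₁ c₂) := by
  classical
  intro n hn
  unfold tri at hn
  split_ifs at hn with hs
  · obtain ⟨v, hv, hne⟩ := Finset.exists_ne_zero_of_sum_ne_zero hn
    rw [Finset.mem_filter] at hv
    obtain ⟨a1, a2⟩ := hβ _ (left_ne_zero_of_mul (left_ne_zero_of_mul hne))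
    obtain ⟨b1, b2⟩ := h1 _ (right_ne_zero_of_mul (left_ne_zero_of_mul hne))
    obtain ⟨d1, d2⟩ := h2 _ (right_ne_zero_of_mul hne)
    refine ⟨⟨?_, hs, ?_⟩, ?_⟩
    · rw [← hv.2]; exact (a1.1.mul b1.1).mul d1.1
    · rw [← hv.2]; exact (a1.2.2.mul_left b1.2.2).mul_left d1.2.2
    · rw [← hv.2, nr_mul, nr_mul]
      have e1 : 0 ≤ nr v.1 := Nat.cast_nonneg _
      have e2 : 0 ≤ nr v.2.1 := Nat.cast_nonneg _
      have e3 : 0 ≤ nr v.2.2 := Nat.cast_nonneg _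
      exact mul_le_mul (mul_le_mul a2 b2 e2 (e1.trans a2)) d2 e3
        (mul_nonneg (e1.trans a2) (e2.trans b2))
  · exact absurd rfl hn


theorem norm_tri_le {ε : ℝ} (hε : 0 < ε) : ∃ C : ℝ, 0 < C ∧ ∀ (M : O) (R b : ℝ) (β c₁ c₂ : O → ℂ),
    (∀ n, ‖β n‖ ≤ b) → (∀ n, ‖c₁ n‖ ≤ 1) → (∀ n, ‖c₂ n‖ ≤ 1) → ∀ n, n ≠ 0 →
    ‖tri M R β c₁ c₂ n‖ ≤ C * nr n ^ ε * b := by
  classical
  obtain ⟨C, hC, hd⟩ := card_pdiv_le (half_pos hε)
  refine ⟨C ^ 2, by positivity, fun M R b β c₁ c₂ hβ h1 h2 n hn => ?_⟩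
  have hb : 0 ≤ b := (norm_nonneg _).trans (hβ 0)
  have hn0 : 0 < nr n := nr_pos hn
  unfold tri
  split_ifs with hs
  · set S := (sp M R ×ˢ sp M R ×ˢ sp M R).filter (fun v => v.1 * v.2.1 * v.2.2 = n) with hS
    have hcard : S.card ≤ (pdiv n ×ˢ pdiv n).card := by
      refine Finset.card_le_card_of_injOn (fun v => (v.1, v.2.1)) ?_ ?_
      · intro v hv
        rw [Finset.mem_coe, hS, Finset.mem_filter, Finset.mem_product, Finset.mem_product] at hv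
        rw [Finset.mem_coe, Finset.mem_product, mem_pdiv hn, mem_pdiv hn]
        refine ⟨⟨(SP_of_mem hv.1.1).1, ?_⟩, (SP_of_mem hv.1.2.1).1, ?_⟩
        · exact ⟨v.2.1 * v.2.2, by rw [← hv.2]; ring⟩
        · exact ⟨v.1 * v.2.2, by rw [← hv.2]; ring⟩
      · intro v hv v' hv' h
        rw [Finset.mem_coe, hS, Finset.mem_filter] at hv hv'
        simp only [Prod.mk.injEq] at h
        have h3 : v.2.2 = v'.2.2 := by
          have e := hv.2.trans hv'.2.symm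
          rw [← h.1, ← h.2] at e
          have : v.1 * v.2.1 ≠ 0 := by
            intro h0; apply hn; rw [← hv.2, h0, zero_mul]
          exact mul_left_cancel₀ this e
        exact Prod.ext h.1 (Prod.ext h.2 h3)
    have h3 : ‖∑ v ∈ S, β v.1 * c₁ v.2.1 * c₂ v.2.2‖ ≤ S.card * b := by
      refine (norm_sum_le _ _).trans ?_
      rw [← nsmul_eq_mul]
      refine Finset.sum_le_card_nsmul _ _ _ fun v _ => ?_
      rw [norm_mul, norm_mul]
      calc ‖β v.1‖ * ‖c₁ v.2.1‖ * ‖c₂ v.2.2‖ ≤ b * 1 * 1 := by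
            gcongr
            · exact hβ _
            · exact h1 _
            · exact h2 _
        _ = b := by ring
    refine h3.trans (mul_le_mul_of_nonneg_right ?_ hb)
    have h4 : (S.card : ℝ) ≤ ((pdiv n).card : ℝ) ^ 2 := by
      rw [Finset.card_product] at hcard
      rw [sq]; exact_mod_cast hcard
    refine h4.trans ?_
    have h5 : nr n ^ ε = (nr n ^ (ε / 2)) ^ 2 := by
      rw [← Real.rpow_natCast, ← Real.rpow_mul hn0.le]; norm_num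
    rw [h5, ← mul_pow]
    exact pow_le_pow_left₀ (Nat.cast_nonneg _) (hd n hn) 2
  · rw [norm_zero]; positivity

theorem rowS_mid_move {M : O} (hM : Adm M) (R : ℝ) (β : O → ℂ) (u₀ T r₀ z k : O) (ψ : Chr M)
    (w : ℂ) : rowS M R 1 (mid β u₀ T (r₀ * z ^ 2) ψ w) k =
      rowS M R 1 (mid β u₀ T r₀ ψ w) (k * z ^ 4) := by
  classical
  unfold rowS
  refine Finset.sum_congr rfl fun n hn => ?_
  have hpo := PO_of_mem hM hn
  unfold mid
  split_ifs with hc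
  · rw [sym_mul_right hpo, sym_mul_right hpo, sym_pow_right hpo, sym_pow_right hpo, mul_pow,
      ← pow_mul]
    have := sym_pow_add_six hpo.1 z (j := 4) (by norm_num)
    norm_num at this ⊢
    rw [this]; ring
  · simp

theorem embed_rows {ε : ℝ} (hε : 0 < ε) : ∃ C : ℝ, 0 < C ∧ ∀ (M : O) (K L K' : ℝ) (f : O → ℝ),
    (∀ k, 0 ≤ f k) → 1 ≤ K → 1 ≤ L → K * L ^ 4 ≤ K' →
    (Summable fun k => gw (nr k / K') * f k) →
    ∑ z ∈ sp M L, ∑ k ∈ rows K, f (k * z ^ 4) ≤ C * K' ^ ε * ∑' k, gw (nr k / K') * f k := by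
  classical
  obtain ⟨C, hC, hd⟩ := card_pdiv_le hε
  have hg1 : 0 < gw 1 := Real.exp_pos _
  refine ⟨C / gw 1, by positivity, fun M K L K' f hf hK hL hK' hs => ?_⟩
  have hL4 : 1 ≤ L ^ 4 := one_le_pow₀ hL
  have hK1 : 1 ≤ K' := le_trans (by nlinarith) hK'
  have hK0 : 0 < K' := by linarith
  rw [← Finset.sum_product' (s := sp M L) (t := rows K) (f := fun z k => f (k * z ^ 4))]
  have hmap : ∀ x ∈ sp M L ×ˢ rows K, x.2 * x.1 ^ 4 ∈ rows K' := by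
    intro x hx
    rw [Finset.mem_product, LS2.mem_sp (by linarith), mem_rows' (by linarith)] at hx
    rw [mem_rows' hK0.le]
    refine ⟨mul_ne_zero hx.2.1 (pow_ne_zero _ hx.1.1.1.ne_zero), ?_⟩
    rw [nr_mul, nr_pow]
    refine le_trans ?_ hK'
    have e1 : 0 ≤ nr x.1 := Nat.cast_nonneg _
    exact mul_le_mul hx.2.2 (pow_le_pow_left₀ e1 hx.1.2 4) (by positivity) (by linarith)
  rw [← Finset.sum_fiberwise_of_maps_to hmap]
  have h1 : ∀ a ∈ rows K', ∑ x ∈ (sp M L ×ˢ rows K).filter (fun x => x.2 * x.1 ^ 4 = a),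
      f (x.2 * x.1 ^ 4) ≤ C / gw 1 * K' ^ ε * (gw (nr a / K') * f a) := by
    intro a ha
    rw [mem_rows' hK0.le] at ha
    set S := (sp M L ×ˢ rows K).filter (fun x => x.2 * x.1 ^ 4 = a) with hS
    have e1 : ∑ x ∈ S, f (x.2 * x.1 ^ 4) = S.card * f a := by
      rw [← nsmul_eq_mul, ← Finset.sum_const]
      refine Finset.sum_congr rfl fun x hx => ?_
      rw [(Finset.mem_filter.1 hx).2]
    have e2 : S.card ≤ (pdiv a).card := by
      refine Finset.card_le_card_of_injOn (fun x => x.1) ?_ ?_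
      · intro x hx
        rw [Finset.mem_coe, hS, Finset.mem_filter, Finset.mem_product] at hx
        rw [Finset.mem_coe, mem_pdiv ha.1]
        exact ⟨(SP_of_mem hx.1.1).1, ⟨x.2 * x.1 ^ 3, by rw [← hx.2]; ring⟩⟩
      · intro x hx x' hx' h
        rw [Finset.mem_coe, hS, Finset.mem_filter, Finset.mem_product] at hx hx'
        simp only at h
        refine Prod.ext h ?_
        have e := hx.2.trans hx'.2.symm
        rw [← h] at e
        exact mul_right_cancel₀ (pow_ne_zero _ (SP_of_mem hx.1.1).1.ne_zero) e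
    have e3 : (S.card : ℝ) ≤ C * K' ^ ε := by
      refine le_trans (by exact_mod_cast e2) ((hd a ha.1).trans ?_)
      exact mul_le_mul_of_nonneg_left (Real.rpow_le_rpow (Nat.cast_nonneg _) ha.2 hε.le) hC.le
    have e4 : gw 1 ≤ gw (nr a / K') := by
      unfold gw
      apply Real.exp_le_exp.2
      have : nr a / K' ≤ 1 := (div_le_one hK0).2 ha.2
      have h2 : 0 < 2 * Real.pi / Real.sqrt 3 := by positivity
      nlinarith
    rw [e1]
    have e5 : 1 ≤ gw (nr a / K') / gw 1 := (one_le_div hg1).2 e4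
    have e6 := hf a
    have e7 : 0 ≤ C * K' ^ ε := by positivity
    calc (S.card : ℝ) * f a ≤ C * K' ^ ε * f a := mul_le_mul_of_nonneg_right e3 e6
      _ ≤ C * K' ^ ε * f a * (gw (nr a / K') / gw 1) :=
          le_mul_of_one_le_right (mul_nonneg e7 e6) e5
      _ = _ := by ring
  refine (Finset.sum_le_sum h1).trans ?_
  rw [← Finset.mul_sum]
  refine mul_le_mul_of_nonneg_left ?_ (by positivity)
  exact hs.sum_le_tsum _ fun k _ => mul_nonneg (Real.exp_pos _).le (hf k)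

end M4CA

end Crest.Agent.R17
end
end

-- ▼ part PVc/R17/M4CoreAuxA2
section

/-!
# Row 17, module M4, part Core: the splitting lemmas (auxiliary file B)

The second dual row sum is a returning sum (`M4CA.dual_mid_le`).
-/

set_option autoImplicit false

noncomputable section

namespace Crest.Agent.R17

namespace M4CA

open scoped ComplexConjugate

theorem norm_Rs {m n : O} (hm : IsCoprime m 2) (hn : IsCoprime n 2) : ‖Rs m n‖ = 1 := by
  have h := congrArg norm (Rs_sq hm hn)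
  rw [norm_pow, norm_one] at h
  have h0 := norm_nonneg (Rs m n)
  nlinarith

theorem gam_mul5 {m n : O} (hm : PO m) (hn : PO n) (h : IsCoprime m n) :
    gam 5 (m * n) = Rs m n * sym n (m ^ 2) ^ 5 * gam 5 m * gam 5 n := by
  unfold gam
  rw [gs_mul 5 hm hn h, sym_recip hm hn, sym_pow_right hn, nr_mul,
    Real.sqrt_mul (Nat.cast_nonneg _), Complex.ofReal_mul]
  have h2 := Rs_sq hm.2 hn.2
  have h3 : Rs m n ^ 5 = Rs m n := by
    calc Rs m n ^ 5 = (Rs m n ^ 2) ^ 2 * Rs m n := by ring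
      _ = Rs m n := by rw [h2]; ring
  rw [mul_pow, h3]
  ring

theorem nr_cpow_mul (m n : O) (w : ℂ) :
    (nr (m * n) : ℂ) ^ w = (nr m : ℂ) ^ w * (nr n : ℂ) ^ w := by
  rw [nr_mul, Complex.ofReal_mul,
    Complex.mul_cpow_ofReal_nonneg (Nat.cast_nonneg _) (Nat.cast_nonneg _)]

theorem norm_nr_cpow {n : O} (hn : n ≠ 0) (w : ℂ) : ‖(nr n : ℂ) ^ w‖ = nr n ^ w.re :=
  Complex.norm_cpow_eq_rpow_re_of_pos (nr_pos hn) w

theorem nr_cpow_add {n : O} (hn : n ≠ 0) (w w' : ℂ) :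
    (nr n : ℂ) ^ (w + w') = (nr n : ℂ) ^ w * (nr n : ℂ) ^ w' :=
  Complex.cpow_add _ _ (Complex.ofReal_ne_zero.2 (nr_pos hn).ne')

theorem coprime_two {M n : O} (hM : Adm M) (h : IsCoprime n M) : IsCoprime n 2 :=
  h.of_isCoprime_of_dvd_right (Dvd.dvd.trans ⟨36, by norm_num⟩ hM.2)

theorem four_dvd {M x : O} (hM : Adm M) (h : M ∣ x) : (4 : O) ∣ x :=
  (Dvd.dvd.trans ⟨18, by norm_num⟩ hM.2).trans h

theorem class_expand {M : O} (hM : Adm M) [Fintype (Chr M)] (φ : O → ℂ)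
    (h1 : ∀ n, IsCoprime n M → ‖φ n‖ ≤ 1) (h2 : ∀ n n', M ∣ n - n' → φ n = φ n') :
    ∃ b : Chr M → ℂ, (∀ ν, ‖b ν‖ ≤ 1) ∧ ∀ n, IsCoprime n M → φ n = ∑ ν, b ν * ev ν n := by
  classical
  have hP : PerB M (fun n => if IsCoprime n M then φ n else 0) := by
    refine ⟨fun n => ?_, fun n n' h => ?_, fun n h => if_neg h⟩
    · dsimp only
      split_ifs with hc
      · exact h1 n hc
      · simp
    · have : IsCoprime n M ↔ IsCoprime n' M := by
        obtain ⟨c, hc⟩ := h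
        have e : n = n' + M * c := by rw [← hc]; ring
        rw [e]
        exact IsCoprime.add_mul_left_left_iff
      dsimp only
      rw [h2 n n' h]
      exact if_congr this rfl rfl
  obtain ⟨b, hb, hb'⟩ := hP.expand hM.1
  refine ⟨b, hb, fun n hn => ?_⟩
  have := hb' n
  rwa [if_pos hn] at this

theorem cs {ι' : Type*} (s : Finset ι') (a x : ι' → ℂ) :
    ‖∑ i ∈ s, a i * x i‖ ^ 2 ≤ (∑ i ∈ s, ‖a i‖ ^ 2) * ∑ i ∈ s, ‖x i‖ ^ 2 := by
  refine le_trans ?_ (Finset.sum_mul_sq_le_sq_mul_sq s (fun i => ‖a i‖) fun i => ‖x i‖)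
  refine pow_le_pow_left₀ (norm_nonneg _) ((norm_sum_le _ _).trans (le_of_eq ?_)) 2
  exact Finset.sum_congr rfl fun i _ => norm_mul _ _

theorem sym_exp {n e e' h r₀ m : O} (hn : PO n) (he : IsCoprime n e) (hh : IsCoprime n h) :
    sym n ((e * e' * h) ^ 2) ^ 5 * sym n (e * h ^ 2) * sym n r₀ ^ 5 * sym n m ^ 5 =
      conj (sym n (m * r₀ * (e * e' * e'))) := by
  rw [conj_sym hn.1]
  simp only [sym_mul_right hn, sym_pow_right hn]
  have h1 := sym_pow_six hn.1 he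
  have h2 := sym_pow_six hn.1 hh
  calc _ = (sym n e ^ 6) * (sym n h ^ 6) ^ 2 *
        (sym n m * sym n r₀ * (sym n e * sym n e' * sym n e')) ^ 5 := by ring
    _ = _ := by rw [h1, h2]; ring

theorem dual_mid_le {M : O} (hM : Adm M) [Fintype (Chr M)] :
    ∃ C : ℝ, 0 < C ∧ ∀ (R Q : ℝ) (β : O → ℂ) (u₀ T r₀ g e h m : O) (ψ ψ' : Chr M) (w w' : ℂ),
      Supp M Q β → Primary u₀ → g ∈ sp M R → h ∈ sp M R → e ∈ pdiv g →
      ‖rowS M R 5 (dualC 1 (mid β u₀ T r₀ ψ w) g e h ψ' w') m‖ ^ 2 ≤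
        C * (nr g * nr h) ^ (2 * w.re) * ∑ ψ'' : Chr M,
          ‖back M R β (u₀ * g * h) (T * g * h) ψ'' (w + w') (m * r₀ * (g * (g / e)))‖ ^ 2 := by
  classical
  have : Nonempty (Chr M) := ⟨1⟩
  refine ⟨Fintype.card (Chr M), by exact_mod_cast Fintype.card_pos, ?_⟩
  intro R Q β u₀ T r₀ g e h m ψ ψ' w w' hβ hu hg hh he
  have hgpo := PO_of_mem hM hg
  have hhpo := PO_of_mem hM hh
  have hg0 : g ≠ 0 := hgpo.1.ne_zero
  have hh0 : h ≠ 0 := hhpo.1.ne_zero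
  have ht : PO (g * h) := hgpo.mul hhpo
  have ht0 : g * h ≠ 0 := mul_ne_zero hg0 hh0
  rw [mem_pdiv hg0] at he
  obtain ⟨he1, e', hee'⟩ := he
  have hdiv : g / e = e' := by
    rw [hee']; exact mul_div_cancel_left₀ e' he1.ne_zero
  by_cases hc : Squarefree (g * h) ∧ IsCoprime (g * h) T
  · obtain ⟨b, hb, hb'⟩ := class_expand hM
      (fun n => Rs (g * h) n * Rs n n * ev ψ n * ev ψ' n) (fun n hn => by
        have h2 := coprime_two hM hn
        rw [norm_mul, norm_mul, norm_mul, norm_Rs ht.2 h2, norm_Rs h2 h2, norm_ev hM.1 _ hn,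
          norm_ev hM.1 _ hn]; norm_num) (fun n n' hn => by
        rw [Rs_congr (m := g * h) (m' := g * h) (by simp) (four_dvd hM hn),
          Rs_congr (four_dvd hM hn) (four_dvd hM hn), ev_congr ψ hn, ev_congr ψ' hn])
    set κ : ℂ := ev ψ (g * h) * gam 5 (g * h) * sym (g * h) r₀ ^ 5 * (nr (g * h) : ℂ) ^ w with hκ
    have key : rowS M R 5 (dualC 1 (mid β u₀ T r₀ ψ w) g e h ψ' w') m =
        κ * ∑ ν : Chr M, b ν *
          back M R β (u₀ * g * h) (T * g * h) ν (w + w') (m * r₀ * (g * (g / e))) := by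
      unfold back rowS
      simp only [Finset.mul_sum]
      rw [Finset.sum_comm]
      refine Finset.sum_congr rfl fun n hn => ?_
      have hnpo := PO_of_mem hM hn
      have hnsp := SP_of_mem hn
      have hn0 : n ≠ 0 := hnpo.1.ne_zero
      unfold dualC mid
      by_cases h0 : β (u₀ * g * h * n) = 0
      · have h0' : β (u₀ * (g * h * n)) = 0 := by rw [← h0]; congr 1; ring
        simp [h0, h0']
      have hsq := (hβ _ h0).1.2.1
      have hcop : IsCoprime (g * h) n := by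
        have e1 : u₀ * g * h * n = u₀ * (g * h * n) := by ring
        rw [e1] at hsq
        exact (IsRelPrime.of_squarefree_mul (Squarefree.of_mul_right hsq)).isCoprime
      have hiff : IsCoprime (g * h * n) T ↔ IsCoprime n (T * g * h) := by
        constructor
        · intro h1
          rw [mul_assoc]
          exact h1.of_mul_left_right.mul_right hcop.symm
        · intro h1
          exact hc.2.mul_left h1.of_mul_right_left.of_mul_right_left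
      by_cases h1 : IsCoprime n (T * g * h)
      · rw [if_pos (hiff.2 h1)]
        simp only [if_pos h1]
        have e2 : ∑ ν : Chr M, κ * (b ν * (β (u₀ * g * h * n) * ev ν n * (nr n : ℂ) ^ (w + w') *
              conj (sym n (m * r₀ * (g * (g / e)))))) =
            κ * (β (u₀ * g * h * n) * (∑ ν : Chr M, b ν * ev ν n) * (nr n : ℂ) ^ (w + w') *
              conj (sym n (m * r₀ * (g * (g / e))))) := by
          simp only [Finset.mul_sum, Finset.sum_mul]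
          exact Finset.sum_congr rfl fun ν _ => by ring
        rw [e2, ← hb' n hnsp.2.2, hdiv, hκ]
        have e3 : u₀ * (g * h * n) = u₀ * g * h * n := by ring
        have e4 := gam_mul_gam (j := 1) (by norm_num) hnpo hnsp.2.1
        rw [pow_one, ← Rs_self hnpo, mul_one] at e4
        have hne : IsCoprime n e :=
          hcop.symm.of_mul_right_left.of_isCoprime_of_dvd_right ⟨e', hee'⟩
        have e5 := sym_exp (e' := e') (r₀ := r₀) (m := m) hnpo hne hcop.symm.of_mul_right_right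
        rw [← hee'] at e5
        rw [e3, gam_mul5 ht hnpo hcop, ev_mul, sym_mul_left ht0 hn0, nr_cpow_mul,
          nr_cpow_add hn0, ← e5, ← e4]
        ring
      · rw [if_neg (fun h2 => h1 (hiff.1 h2))]
        simp [h1]
    rw [key, norm_mul, mul_pow]
    have hκ1 : ‖κ‖ ^ 2 ≤ (nr g * nr h) ^ (2 * w.re) := by
      have : ‖κ‖ ≤ (nr g * nr h) ^ w.re := by
        rw [hκ, norm_mul, norm_mul, norm_mul, norm_nr_cpow ht0, norm_gam (by norm_num) ht hc.1,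
          nr_mul, norm_pow]
        have a1 := norm_ev_le hM.1 ψ (g * h)
        have a2 : ‖sym (g * h) r₀‖ ^ 5 ≤ 1 := pow_le_one₀ (norm_nonneg _) (norm_sym_le _ _)
        refine mul_le_of_le_one_left (by positivity) ?_
        rw [mul_one]
        exact mul_le_one₀ a1 (by positivity) a2
      refine (pow_le_pow_left₀ (norm_nonneg _) this 2).trans (le_of_eq ?_)
      rw [← Real.rpow_natCast, ← Real.rpow_mul (by positivity)]
      congr 1; push_cast; ring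
    have hcs := cs Finset.univ b fun ν =>
      back M R β (u₀ * g * h) (T * g * h) ν (w + w') (m * r₀ * (g * (g / e)))
    have hb2 : ∑ ν : Chr M, ‖b ν‖ ^ 2 ≤ Fintype.card (Chr M) := by
      rw [← Finset.card_univ, ← mul_one ((Finset.univ : Finset (Chr M)).card : ℝ), ← nsmul_eq_mul]
      exact Finset.sum_le_card_nsmul _ _ _ fun ν _ => pow_le_one₀ (norm_nonneg _) (hb ν)
    have hS : 0 ≤ ∑ ν : Chr M,
        ‖back M R β (u₀ * g * h) (T * g * h) ν (w + w') (m * r₀ * (g * (g / e)))‖ ^ 2 :=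
      Finset.sum_nonneg fun _ _ => by positivity
    calc _ ≤ (nr g * nr h) ^ (2 * w.re) * ((Fintype.card (Chr M) : ℝ) * ∑ ν : Chr M,
        ‖back M R β (u₀ * g * h) (T * g * h) ν (w + w') (m * r₀ * (g * (g / e)))‖ ^ 2) :=
          mul_le_mul hκ1 (hcs.trans (mul_le_mul_of_nonneg_right hb2 hS)) (by positivity)
            (by positivity)
      _ = _ := by ring
  · have key : rowS M R 5 (dualC 1 (mid β u₀ T r₀ ψ w) g e h ψ' w') m = 0 := by
      unfold rowS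
      refine Finset.sum_eq_zero fun n _ => ?_
      unfold dualC mid
      split_ifs with h1
      · have h0 : β (u₀ * (g * h * n)) = 0 := by
          by_contra h0
          exact hc ⟨(Squarefree.of_mul_right (hβ _ h0).1.2.1).of_mul_left, h1.of_mul_left_left⟩
        simp [h0]
      · simp
    rw [key, norm_zero, zero_pow two_ne_zero]
    positivity

end M4CA

end Crest.Agent.R17
end
end

-- ▼ part PVc/R17/M4CoreAuxA3
section

/-!
# Row 17, module M4, part Core: the splitting lemmas (auxiliary file C)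

Splitting of a dual row sum of `tri` (`M4CA.dual_tri_le`).
-/

set_option autoImplicit false

noncomputable section

namespace Crest.Agent.R17

namespace M4CA

open scoped ComplexConjugate

open Classical in
/-- The admissible factorisations `t = u₀ u₁ u₂`. -/
def U (t : O) (Q L₁ L₂ : ℝ) : Finset (O × O × O) :=
  (pdiv t ×ˢ pdiv t ×ˢ pdiv t).filter (fun u =>
    u.1 * u.2.1 * u.2.2 = t ∧ nr u.1 ≤ Q ∧ nr u.2.1 ≤ L₁ ∧ nr u.2.2 ≤ L₂)

theorem mem_U {t : O} (ht : t ≠ 0) {Q L₁ L₂ : ℝ} {u : O × O × O} : u ∈ U t Q L₁ L₂ ↔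
    Primary u.1 ∧ Primary u.2.1 ∧ Primary u.2.2 ∧ u.1 * u.2.1 * u.2.2 = t ∧ nr u.1 ≤ Q ∧
      nr u.2.1 ≤ L₁ ∧ nr u.2.2 ≤ L₂ := by
  classical
  rw [U, Finset.mem_filter, Finset.mem_product, Finset.mem_product, mem_pdiv ht, mem_pdiv ht,
    mem_pdiv ht]
  constructor
  · rintro ⟨⟨a, b, c⟩, d⟩; exact ⟨a.1, b.1, c.1, d⟩
  · rintro ⟨a, b, c, d⟩
    exact ⟨⟨⟨a, u.2.1 * u.2.2, by rw [← d.1]; ring⟩, ⟨b, u.1 * u.2.2, by rw [← d.1]; ring⟩,
      ⟨c, u.1 * u.2.1, by rw [← d.1]; ring⟩⟩, d⟩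

theorem pgcd_eq {u r s : O} (hu : Primary u) (hr : r ≠ 0) (hs : Primary s)
    (h : IsCoprime s (u * r)) : pgcd (u * s) (u * r) = u := by
  rw [pgcd_mul_left hu hs.ne_zero hr, (pgcd_eq_one_iff hs hr).2 h.of_mul_right_right, mul_one]

theorem pgcd_three {s z₁ z₂ t n : O} (hs : Primary s) (h1 : Primary z₁) (h2 : Primary z₂)
    (ht : Primary t) (hn : Primary n) (hsq : Squarefree (t * n)) (h : s * z₁ * z₂ = t * n) :
    pgcd s t * pgcd z₁ t * pgcd z₂ t = t := by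
  refine Primary.ext_vp (((primary_pgcd _ _).mul (primary_pgcd _ _)).mul (primary_pgcd _ _)) ht
    fun p hp hp' => ?_
  have e1 := BasicB.vp_le_one hsq hp
  have e2 := congrArg (vp p) h
  rw [vp_mul hp ht.ne_zero hn.ne_zero] at e1
  rw [vp_mul hp ht.ne_zero hn.ne_zero, vp_mul hp (hs.mul h1).ne_zero h2.ne_zero,
    vp_mul hp hs.ne_zero h1.ne_zero] at e2
  rw [vp_mul hp ((primary_pgcd _ _).mul (primary_pgcd _ _)).ne_zero (primary_pgcd _ _).ne_zero,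
    vp_mul hp (primary_pgcd _ _).ne_zero (primary_pgcd _ _).ne_zero,
    BasicB.vp_pgcd hs.ne_zero ht.ne_zero hp hp', BasicB.vp_pgcd h1.ne_zero ht.ne_zero hp hp',
    BasicB.vp_pgcd h2.ne_zero ht.ne_zero hp hp']
  omega

theorem pgcd_dvd {s t : O} (hs : s ≠ 0) (ht : t ≠ 0) : pgcd s t ∣ s :=
  ((dvd_pgcd_iff hs ht (primary_pgcd s t)).1 dvd_rfl).1

theorem nr_le_mul_left {u s : O} (hu : u ≠ 0) : nr s ≤ nr (u * s) := by
  rw [nr_mul]
  exact le_mul_of_one_le_left (Nat.cast_nonneg _) (one_le_nr hu)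

theorem nr_le_mul_right {u s : O} (hs : s ≠ 0) : nr u ≤ nr (u * s) := by
  rw [mul_comm]; exact nr_le_mul_left hs

open Classical in
theorem tri_expand {M : O} {R Q L₁ L₂ : ℝ} {β c₁ c₂ : O → ℂ} (hβ : Supp M Q β)
    (h1 : Supp M L₁ c₁) (h2 : Supp M L₂ c₂) (hR : Q * L₁ * L₂ ≤ R) (hQ : 1 ≤ Q) (hL1 : 1 ≤ L₁)
    (hL2 : 1 ≤ L₂) {t : O} (ht : Primary t) (F : O → ℂ) :
    ∑ n ∈ sp M R, tri M R β c₁ c₂ (t * n) * F n =
      ∑ u ∈ U t Q L₁ L₂, ∑ z₁ ∈ sp M R, ∑ z₂ ∈ sp M R, ∑ s ∈ sp M R,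
        if Squarefree (t * (z₁ * z₂ * s)) then
          β (u.1 * s) * (c₁ (u.2.1 * z₁) * c₂ (u.2.2 * z₂)) * F (z₁ * z₂ * s) else 0 := by
  have ht0 := ht.ne_zero
  have hQL : 1 ≤ Q * L₁ := one_le_mul_of_one_le_of_one_le hQ hL1
  have hQR : Q ≤ R := by nlinarith
  have hL1R : L₁ ≤ R := by nlinarith
  have hL2R : L₂ ≤ R := by nlinarith
  have hR0 : 0 ≤ R := by linarith
  have eL : ∑ n ∈ sp M R, tri M R β c₁ c₂ (t * n) * F n =
      ∑ x ∈ sp M R ×ˢ (sp M R ×ˢ sp M R ×ˢ sp M R),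
        if Squarefree (t * x.1) ∧ x.2.1 * x.2.2.1 * x.2.2.2 = t * x.1 then
          β x.2.1 * c₁ x.2.2.1 * c₂ x.2.2.2 * F x.1 else 0 := by
    rw [Finset.sum_product]
    refine Finset.sum_congr rfl fun n _ => ?_
    unfold tri
    by_cases hs : Squarefree (t * n)
    · simp only [hs, true_and, if_true]
      rw [Finset.sum_filter, Finset.sum_mul]
      refine Finset.sum_congr rfl fun v _ => ?_
      split_ifs <;> simp
    · simp [hs]
  have eR : (∑ u ∈ U t Q L₁ L₂, ∑ z₁ ∈ sp M R, ∑ z₂ ∈ sp M R, ∑ s ∈ sp M R,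
        if Squarefree (t * (z₁ * z₂ * s)) then
          β (u.1 * s) * (c₁ (u.2.1 * z₁) * c₂ (u.2.2 * z₂)) * F (z₁ * z₂ * s) else 0) =
      ∑ y ∈ U t Q L₁ L₂ ×ˢ (sp M R ×ˢ sp M R ×ˢ sp M R),
        if Squarefree (t * (y.2.1 * y.2.2.1 * y.2.2.2)) then
          β (y.1.1 * y.2.2.2) * (c₁ (y.1.2.1 * y.2.1) * c₂ (y.1.2.2 * y.2.2.1)) *
            F (y.2.1 * y.2.2.1 * y.2.2.2) else 0 := by
    simp only [Finset.sum_product]
  rw [eL, eR]
  symm
  refine Finset.sum_bij_ne_zero (fun y _ _ => (y.2.1 * y.2.2.1 * y.2.2.2,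
    (y.1.1 * y.2.2.2, y.1.2.1 * y.2.1, y.1.2.2 * y.2.2.1))) ?_ ?_ ?_ ?_
  · rintro ⟨u, z₁, z₂, s⟩ hy hne
    simp only [Finset.mem_product] at hy ⊢
    obtain ⟨hu, hz1, hz2, hs⟩ := hy
    rw [mem_U ht0] at hu
    dsimp only at hne
    split_ifs at hne with hsq
    swap
    · exact absurd rfl hne
    have n1 := left_ne_zero_of_mul hne
    obtain ⟨a1, a2⟩ := hβ _ (left_ne_zero_of_mul n1)
    obtain ⟨b1, b2⟩ := h1 _ (left_ne_zero_of_mul (right_ne_zero_of_mul n1))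
    obtain ⟨d1, d2⟩ := h2 _ (right_ne_zero_of_mul (right_ne_zero_of_mul n1))
    have hz1' := SP_of_mem hz1
    have hz2' := SP_of_mem hz2
    have hs' := SP_of_mem hs
    simp only [LS2.mem_sp hR0]
    refine ⟨⟨⟨(hz1'.1.mul hz2'.1).mul hs'.1, hsq.of_mul_right,
      (hz1'.2.2.mul_left hz2'.2.2).mul_left hs'.2.2⟩, ?_⟩, ⟨a1, a2.trans hQR⟩,
      ⟨b1, b2.trans hL1R⟩, ⟨d1, d2.trans hL2R⟩⟩
    have a3 := (nr_le_mul_left (s := s) hu.1.ne_zero).trans a2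
    have b3 := (nr_le_mul_left (s := z₁) hu.2.1.ne_zero).trans b2
    have d3 := (nr_le_mul_left (s := z₂) hu.2.2.1.ne_zero).trans d2
    rw [nr_mul, nr_mul]
    refine le_trans ?_ hR
    have e1 : 0 ≤ nr s := Nat.cast_nonneg _
    have e2 : 0 ≤ nr z₁ := Nat.cast_nonneg _
    have e3 : 0 ≤ nr z₂ := Nat.cast_nonneg _
    calc nr z₁ * nr z₂ * nr s ≤ L₁ * L₂ * Q := by gcongr
      _ = _ := by ring
  · rintro ⟨u, z₁, z₂, s⟩ hy hne ⟨u', z₁', z₂', s'⟩ hy' hne' heq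
    simp only [Finset.mem_product] at hy hy'
    obtain ⟨hu, hz1, hz2, hs⟩ := hy
    obtain ⟨hu', hz1', hz2', hs'⟩ := hy'
    rw [mem_U ht0] at hu hu'
    dsimp only at hne hne'
    have hsq : Squarefree (t * (z₁ * z₂ * s)) := by
      by_contra h; exact hne (if_neg h)
    have hsq' : Squarefree (t * (z₁' * z₂' * s')) := by
      by_contra h; exact hne' (if_neg h)
    simp only [Prod.mk.injEq] at heq
    obtain ⟨-, q0, q1, q2⟩ := heq
    have hc := (IsRelPrime.of_squarefree_mul hsq).isCoprime.symm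
    have hc' := (IsRelPrime.of_squarefree_mul hsq').isCoprime.symm
    have key : ∀ {a a' r r' x x' : O}, Primary a → Primary a' → Primary x → Primary x' →
        a * r = t → a' * r' = t → IsCoprime x t → IsCoprime x' t → a * x = a' * x' →
        a = a' ∧ x = x' := by
      intro a a' r r' x x' ha ha' hx hx' hr hr' hxt hxt' he
      have r0 : r ≠ 0 := by rintro rfl; exact ht0 (by rw [← hr, mul_zero])
      have r0' : r' ≠ 0 := by rintro rfl; exact ht0 (by rw [← hr', mul_zero])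
      have e1 := pgcd_eq ha r0 hx (by rwa [hr])
      have e2 := pgcd_eq ha' r0' hx' (by rwa [hr'])
      rw [hr] at e1
      rw [hr', ← he, e1] at e2
      refine ⟨e2, ?_⟩
      rw [← e2] at he
      exact mul_left_cancel₀ ha.ne_zero he
    obtain ⟨k0, k0'⟩ := key (r := u.2.1 * u.2.2) (r' := u'.2.1 * u'.2.2) hu.1 hu'.1
      (SP_of_mem hs).1 (SP_of_mem hs').1 (by rw [← hu.2.2.2.1]; ring)
      (by rw [← hu'.2.2.2.1]; ring) hc.of_mul_left_right hc'.of_mul_left_right q0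
    obtain ⟨k1, k1'⟩ := key (r := u.1 * u.2.2) (r' := u'.1 * u'.2.2) hu.2.1 hu'.2.1
      (SP_of_mem hz1).1 (SP_of_mem hz1').1 (by rw [← hu.2.2.2.1]; ring)
      (by rw [← hu'.2.2.2.1]; ring) hc.of_mul_left_left.of_mul_left_left
      hc'.of_mul_left_left.of_mul_left_left q1
    obtain ⟨k2, k2'⟩ := key (r := u.1 * u.2.1) (r' := u'.1 * u'.2.1) hu.2.2.1 hu'.2.2.1
      (SP_of_mem hz2).1 (SP_of_mem hz2').1 (by rw [← hu.2.2.2.1]; ring)
      (by rw [← hu'.2.2.2.1]; ring) hc.of_mul_left_left.of_mul_left_right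
      hc'.of_mul_left_left.of_mul_left_right q2
    rw [k0', k1', k2', show u = u' from Prod.ext k0 (Prod.ext k1 k2)]
  · rintro ⟨n, s, z₁, z₂⟩ hx hne
    simp only [Finset.mem_product] at hx
    obtain ⟨hn, hs, hz1, hz2⟩ := hx
    dsimp only at hne
    have hcond : Squarefree (t * n) ∧ s * z₁ * z₂ = t * n := by
      by_contra h; exact hne (if_neg h)
    rw [if_pos hcond] at hne
    have n1 := left_ne_zero_of_mul hne
    obtain ⟨a1, a2⟩ := hβ _ (left_ne_zero_of_mul (left_ne_zero_of_mul n1))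
    obtain ⟨b1, b2⟩ := h1 _ (right_ne_zero_of_mul (left_ne_zero_of_mul n1))
    obtain ⟨d1, d2⟩ := h2 _ (right_ne_zero_of_mul n1)
    have hn' := SP_of_mem hn
    have h3 := pgcd_three a1.1 b1.1 d1.1 ht hn'.1 hcond.1 hcond.2
    obtain ⟨s', es⟩ := pgcd_dvd a1.1.ne_zero ht0
    obtain ⟨z₁', e1⟩ := pgcd_dvd b1.1.ne_zero ht0
    obtain ⟨z₂', e2⟩ := pgcd_dvd d1.1.ne_zero ht0
    have p0 := primary_pgcd s t
    have p1 := primary_pgcd z₁ t
    have p2 := primary_pgcd z₂ t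
    generalize pgcd s t = u₀ at h3 es p0
    generalize pgcd z₁ t = u₁ at h3 e1 p1
    generalize pgcd z₂ t = u₂ at h3 e2 p2
    subst es e1 e2
    have ps : Primary s' := p0.of_mul a1.1
    have pz1 : Primary z₁' := p1.of_mul b1.1
    have pz2 : Primary z₂' := p2.of_mul d1.1
    have hnn : z₁' * z₂' * s' = n := by
      apply mul_left_cancel₀ ht0
      rw [← hcond.2, ← h3]; ring
    have hmem : ((u₀, u₁, u₂), z₁', z₂', s') ∈ U t Q L₁ L₂ ×ˢ (sp M R ×ˢ sp M R ×ˢ sp M R) := by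
      simp only [Finset.mem_product, mem_U ht0, LS2.mem_sp hR0]
      exact ⟨⟨p0, p1, p2, h3, (nr_le_mul_right ps.ne_zero).trans a2,
        (nr_le_mul_right pz1.ne_zero).trans b2, (nr_le_mul_right pz2.ne_zero).trans d2⟩,
        ⟨LS2.SP_of_dvd b1 pz1 (Dvd.intro_left _ rfl),
          (nr_le_mul_left p1.ne_zero).trans (b2.trans hL1R)⟩,
        ⟨LS2.SP_of_dvd d1 pz2 (Dvd.intro_left _ rfl),
          (nr_le_mul_left p2.ne_zero).trans (d2.trans hL2R)⟩,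
        ⟨LS2.SP_of_dvd a1 ps (Dvd.intro_left _ rfl),
          (nr_le_mul_left p0.ne_zero).trans (a2.trans hQR)⟩⟩
    refine ⟨((u₀, u₁, u₂), z₁', z₂', s'), hmem, ?_, ?_⟩
    · dsimp only
      rw [hnn, if_pos hcond.1, ← mul_assoc]
      exact hne
    · dsimp only
      rw [hnn]
  · rintro ⟨u, z₁, z₂, s⟩ hy hne
    simp only [Finset.mem_product] at hy
    obtain ⟨hu, -⟩ := hy
    rw [mem_U ht0] at hu
    dsimp only at hne ⊢
    have hsq : Squarefree (t * (z₁ * z₂ * s)) := by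
      by_contra h; exact hne (if_neg h)
    rw [if_pos hsq, if_pos ⟨hsq, by rw [← hu.2.2.2.1]; ring⟩]
    ring

open Classical in
theorem inner_le {M : O} (hM : Adm M) [Fintype (Chr M)] (R : ℝ) (β : O → ℂ) (u₀ t r z k : O)
    {a : ℂ} (ha : ‖a‖ ≤ 1) (hz : PO z) (ψ : Chr M) (w : ℂ) :
    ‖∑ s ∈ sp M R, if Squarefree (t * (z * s)) then β (u₀ * s) * a *
        (ev ψ (z * s) * gam 5 (z * s) * sym (z * s) r ^ 5 * (nr (z * s) : ℂ) ^ w *
          sym (z * s) k ^ 1) else 0‖ ≤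
      nr z ^ w.re * ∑ ν : Chr M, ‖rowS M R 1 (mid β u₀ t (r * z ^ 2) ν w) k‖ := by
  have hz0 := hz.1.ne_zero
  by_cases hsq : Squarefree (t * z)
  swap
  · rw [Finset.sum_eq_zero fun s _ => if_neg fun h => hsq (by
      rw [← mul_assoc] at h; exact h.of_mul_left), norm_zero]
    exact mul_nonneg (by positivity) (Finset.sum_nonneg fun _ _ => norm_nonneg _)
  obtain ⟨b, hb, hb'⟩ := class_expand hM (fun n => Rs z n * ev ψ n) (fun n hn => by
      rw [norm_mul, norm_Rs hz.2 (coprime_two hM hn), norm_ev hM.1 _ hn]; norm_num)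
    (fun n n' hn => by
      rw [Rs_congr (m := z) (m' := z) (by simp) (four_dvd hM hn), ev_congr ψ hn])
  set κ : ℂ := a * ev ψ z * gam 5 z * sym z r ^ 5 * sym z k * (nr z : ℂ) ^ w with hκ
  have key : (∑ s ∈ sp M R, if Squarefree (t * (z * s)) then β (u₀ * s) * a *
        (ev ψ (z * s) * gam 5 (z * s) * sym (z * s) r ^ 5 * (nr (z * s) : ℂ) ^ w *
          sym (z * s) k ^ 1) else 0) =
      κ * ∑ ν : Chr M, b ν * rowS M R 1 (mid β u₀ t (r * z ^ 2) ν w) k := by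
    unfold rowS
    simp only [Finset.mul_sum]
    rw [Finset.sum_comm]
    refine Finset.sum_congr rfl fun s hs => ?_
    have hpo := PO_of_mem hM hs
    have hsp := SP_of_mem hs
    have hs0 := hpo.1.ne_zero
    unfold mid
    by_cases h1 : IsCoprime s t
    swap
    · rw [if_neg fun h => h1
        (IsRelPrime.of_squarefree_mul h).isCoprime.symm.of_mul_left_right]
      simp [h1]
    simp only [if_pos h1]
    have e2 : ∑ ν : Chr M, κ * (b ν * (β (u₀ * s) * ev ν s * gam 5 s * sym s (r * z ^ 2) ^ 5 *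
          (nr s : ℂ) ^ w * sym s k ^ 1)) =
        κ * (β (u₀ * s) * (∑ ν : Chr M, b ν * ev ν s) * gam 5 s * sym s (r * z ^ 2) ^ 5 *
          (nr s : ℂ) ^ w * sym s k ^ 1) := by
      simp only [Finset.mul_sum, Finset.sum_mul]
      exact Finset.sum_congr rfl fun ν _ => by ring
    rw [e2, ← hb' s hsp.2.2]
    by_cases h2 : IsCoprime z s
    · have h3 : Squarefree (t * (z * s)) := by
        rw [← mul_assoc, squarefree_mul_iff]
        exact ⟨(h1.symm.mul_left h2).isRelPrime, hsq, hsp.2.1⟩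
      rw [if_pos h3, gam_mul5 hz hpo h2, ev_mul, sym_mul_left hz0 hs0, sym_mul_left hz0 hs0,
        nr_cpow_mul, sym_mul_right hpo r, hκ]
      ring
    · rw [if_neg fun h => h2 (IsRelPrime.of_squarefree_mul h.of_mul_right).isCoprime]
      have h4 : sym s z = 0 := (sym_eq_zero_iff hpo.1).2 fun h => h2 h.symm
      rw [sym_mul_right hpo r, sym_pow_right hpo, h4]
      simp
  rw [key, norm_mul]
  have hκ1 : ‖κ‖ ≤ nr z ^ w.re := by
    rw [hκ, norm_mul, norm_nr_cpow hz0]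
    refine mul_le_of_le_one_left (by positivity) ?_
    refine O3_mul_le (O3_mul_le (O3_mul_le (O3_mul_le ha (norm_ev_le hM.1 _ _)) ?_) ?_)
      (norm_sym_le _ _)
    · exact (norm_gam (by norm_num) hz hsq.of_mul_right).le
    · rw [norm_pow]; exact pow_le_one₀ (norm_nonneg _) (norm_sym_le _ _)
  refine mul_le_mul hκ1 ((norm_sum_le _ _).trans (Finset.sum_le_sum fun ν _ => ?_))
    (norm_nonneg _) (by positivity)
  rw [norm_mul]
  exact mul_le_of_le_one_left (norm_nonneg _) (hb ν)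

theorem cs_le {ι' : Type*} (s : Finset ι') (a y : ι' → ℝ) {A : ℝ} (hA : ∑ i ∈ s, a i ^ 2 ≤ A) :
    (∑ i ∈ s, a i * y i) ^ 2 ≤ A * ∑ i ∈ s, y i ^ 2 :=
  (Finset.sum_mul_sq_le_sq_mul_sq s a y).trans
    (mul_le_mul_of_nonneg_right hA (Finset.sum_nonneg fun _ _ => sq_nonneg _))

theorem sp_subset {M : O} {X Y : ℝ} (h : X ≤ Y) : sp M X ⊆ sp M Y := by
  classical
  intro n hn
  rw [sp, Finset.mem_filter, mem_ball] at hn ⊢
  exact ⟨hn.1.trans (Nat.floor_mono h), hn.2⟩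

theorem sum_restrict {M u : O} {L R : ℝ} {c : O → ℂ} (hc : Supp M L c) (hu : u ≠ 0) (hL : 0 ≤ L)
    (hLR : L ≤ R) (f : O → ℂ) (hf : ∀ z, c (u * z) = 0 → f z = 0) :
    ∑ z ∈ sp M R, f z = ∑ z ∈ sp M (L / nr u), f z := by
  symm
  refine Finset.sum_subset (sp_subset ((div_le_self hL (one_le_nr hu)).trans hLR))
    fun z hz hz' => hf z ?_
  by_contra h
  apply hz'
  rw [LS2.mem_sp (div_nonneg hL (nr_pos hu).le), le_div_iff₀ (nr_pos hu), mul_comm, ← nr_mul]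
  exact ⟨SP_of_mem hz, (hc _ h).2⟩

theorem sum_rpow_sq_le {ε : ℝ} (hε : 0 < ε) : ∃ C : ℝ, 0 < C ∧ ∀ (M : O) (X R σ : ℝ), 1 ≤ R →
    X ≤ R → σ ≤ -(1 / 2) + ε → ∑ z ∈ sp M X, (nr z ^ σ) ^ 2 ≤ C * R ^ (2 * ε) := by
  classical
  obtain ⟨C, hC, h⟩ := sum_nr_rpow_le (σ := -1 + 2 * ε) (by linarith)
  refine ⟨C, hC, fun M X R σ hR hX hσ => ?_⟩
  have h1 : 1 ≤ ⌊R⌋₊ := Nat.le_floor (by exact_mod_cast hR)
  have h2 := h _ h1
  have h3 : (⌊R⌋₊ : ℝ) ^ (1 + (-1 + 2 * ε)) ≤ R ^ (2 * ε) := by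
    rw [show 1 + (-1 + 2 * ε) = 2 * ε by ring]
    exact Real.rpow_le_rpow (Nat.cast_nonneg _) (Nat.floor_le (by linarith)) (by linarith)
  refine le_trans ?_ (h2.trans (mul_le_mul_of_nonneg_left h3 hC.le))
  calc ∑ z ∈ sp M X, (nr z ^ σ) ^ 2 ≤ ∑ z ∈ sp M X, nr z ^ (-1 + 2 * ε) := by
        refine Finset.sum_le_sum fun z hz => ?_
        have hz0 := (SP_of_mem hz).1.ne_zero
        rw [← Real.rpow_natCast, ← Real.rpow_mul (nr_pos hz0).le]
        refine Real.rpow_le_rpow_of_exponent_le (one_le_nr hz0) ?_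
        push_cast; linarith
    _ ≤ _ := by
        refine Finset.sum_le_sum_of_subset_of_nonneg (fun z hz => ?_) fun _ _ _ => by positivity
        have hz' := sp_subset hX hz
        rw [sp, Finset.mem_filter] at hz'
        exact Finset.mem_erase.2 ⟨hz'.2.1.ne_zero, hz'.1⟩

theorem card_U_le {ε : ℝ} (hε : 0 < ε) : ∃ C : ℝ, 0 < C ∧ ∀ (t : O) (R Q L₁ L₂ : ℝ), t ≠ 0 →
    0 ≤ R → nr t ≤ R ^ 2 → ((U t Q L₁ L₂).card : ℝ) ≤ C * R ^ (6 * ε) := by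
  classical
  obtain ⟨C, hC, h⟩ := card_pdiv_le hε
  refine ⟨C ^ 3, by positivity, fun t R Q L₁ L₂ ht hR htR => ?_⟩
  have h1 : (U t Q L₁ L₂).card ≤ (pdiv t).card ^ 3 := by
    refine (Finset.card_filter_le _ _).trans (le_of_eq ?_)
    rw [Finset.card_product, Finset.card_product]; ring
  have h2 : ((pdiv t).card : ℝ) ≤ C * R ^ (2 * ε) := by
    refine (h t ht).trans (mul_le_mul_of_nonneg_left ?_ hC.le)
    rw [Real.rpow_mul hR]
    refine Real.rpow_le_rpow (Nat.cast_nonneg _) ?_ hε.le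
    rw [Real.rpow_two]; exact htR
  have h3 : R ^ (6 * ε) = (R ^ (2 * ε)) ^ 3 := by
    rw [← Real.rpow_natCast, ← Real.rpow_mul hR]; congr 1; push_cast; ring
  rw [h3, ← mul_pow]
  exact le_trans (by exact_mod_cast h1) (pow_le_pow_left₀ (Nat.cast_nonneg _) h2 3)

theorem dual_tri_le {M : O} (hM : Adm M) [Fintype (Chr M)] {ε : ℝ} (hε : 0 < ε) :
    ∃ C : ℝ, 0 < C ∧ ∀ (R Q L₁ L₂ : ℝ) (β c₁ c₂ : O → ℂ) (g e h k : O) (ψ : Chr M) (w : ℂ),
      1 ≤ R → Supp M Q β → Supp M L₁ c₁ → Supp M L₂ c₂ → Q * L₁ * L₂ ≤ R → 1 ≤ Q → 1 ≤ L₁ →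
      1 ≤ L₂ → (∀ n, ‖c₁ n‖ ≤ 1) → (∀ n, ‖c₂ n‖ ≤ 1) → g ∈ sp M R → h ∈ sp M R →
      w.re ≤ -(1 / 2) + ε →
      ‖rowS M R 1 (dualC 5 (tri M R β c₁ c₂) g e h ψ w) k‖ ^ 2 ≤ C * R ^ (10 * ε) *
        ∑ u ∈ U (g * h) Q L₁ L₂,
          ∑ ψ' : Chr M, ∑ z₁ ∈ sp M (L₁ / nr u.2.1), ∑ z₂ ∈ sp M (L₂ / nr u.2.2),
            ‖rowS M R 1 (mid β u.1 (g * h) (e * h ^ 2 * (z₁ * z₂) ^ 2) ψ' w) k‖ ^ 2 := by
  classical
  have : Nonempty (Chr M) := ⟨1⟩
  obtain ⟨C₁, hC₁, hA⟩ := sum_rpow_sq_le hε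
  obtain ⟨C₂, hC₂, hU⟩ := card_U_le hε
  have hcard : (0 : ℝ) < Fintype.card (Chr M) := by exact_mod_cast Fintype.card_pos
  refine ⟨C₂ * Fintype.card (Chr M) * C₁ * C₁, by positivity, ?_⟩
  intro R Q L₁ L₂ β c₁ c₂ g e h k ψ w hR hβ h1 h2 hQR hQ hL1 hL2 hc1 hc2 hg hh hw
  have hR0 : 0 ≤ R := by linarith
  have hQL : 1 ≤ Q * L₁ := one_le_mul_of_one_le_of_one_le hQ hL1
  have hL1R : L₁ ≤ R := by nlinarith
  have hL2R : L₂ ≤ R := by nlinarith
  have ht : Primary (g * h) := (SP_of_mem hg).1.mul (SP_of_mem hh).1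
  have htR : nr (g * h) ≤ R ^ 2 := by
    rw [LS2.mem_sp hR0] at hg hh
    rw [nr_mul, sq]
    exact mul_le_mul hg.2 hh.2 (Nat.cast_nonneg _) hR0
  set X : O × O × O → Chr M → O → O → ℝ := fun u ν z₁ z₂ =>
    ‖rowS M R 1 (mid β u.1 (g * h) (e * h ^ 2 * (z₁ * z₂) ^ 2) ν w) k‖ with hX
  have e0 : rowS M R 1 (dualC 5 (tri M R β c₁ c₂) g e h ψ w) k =
      ∑ n ∈ sp M R, tri M R β c₁ c₂ (g * h * n) *
        (ev ψ n * gam 5 n * sym n (e * h ^ 2) ^ 5 * (nr n : ℂ) ^ w * sym n k ^ 1) := by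
    unfold rowS dualC
    exact Finset.sum_congr rfl fun n _ => by ring
  have e1 : ‖rowS M R 1 (dualC 5 (tri M R β c₁ c₂) g e h ψ w) k‖ ≤
      ∑ u ∈ U (g * h) Q L₁ L₂, ∑ ν : Chr M, ∑ z₁ ∈ sp M (L₁ / nr u.2.1), nr z₁ ^ w.re *
        ∑ z₂ ∈ sp M (L₂ / nr u.2.2), nr z₂ ^ w.re * X u ν z₁ z₂ := by
    rw [e0, tri_expand hβ h1 h2 hQR hQ hL1 hL2 ht]
    refine (norm_sum_le _ _).trans (Finset.sum_le_sum fun u hu => ?_)
    rw [mem_U ht.ne_zero] at hu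
    rw [sum_restrict h1 hu.2.1.ne_zero (by linarith) hL1R _ (fun z hz => by simp [hz]),
      Finset.sum_comm (s := Finset.univ)]
    refine (norm_sum_le _ _).trans (Finset.sum_le_sum fun z₁ hz1 => ?_)
    rw [sum_restrict h2 hu.2.2.1.ne_zero (by linarith) hL2R _ (fun z hz => by simp [hz]),
      ← Finset.mul_sum, Finset.sum_comm (s := Finset.univ), Finset.mul_sum]
    refine (norm_sum_le _ _).trans (Finset.sum_le_sum fun z₂ hz2 => ?_)
    refine (inner_le hM R β u.1 (g * h) (e * h ^ 2) (z₁ * z₂) k (O3_mul_le (hc1 _) (hc2 _))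
      ((PO_of_mem hM hz1).mul (PO_of_mem hM hz2)) ψ w).trans (le_of_eq ?_)
    rw [CountAux.nr_mul_rpow, ← Finset.mul_sum, mul_assoc]
  refine (pow_le_pow_left₀ (norm_nonneg _) e1 2).trans ?_
  have e2 : ∀ u ∈ U (g * h) Q L₁ L₂, ∀ ν : Chr M,
      (∑ z₁ ∈ sp M (L₁ / nr u.2.1), nr z₁ ^ w.re *
        ∑ z₂ ∈ sp M (L₂ / nr u.2.2), nr z₂ ^ w.re * X u ν z₁ z₂) ^ 2 ≤
      C₁ * R ^ (2 * ε) * (C₁ * R ^ (2 * ε)) * ∑ z₁ ∈ sp M (L₁ / nr u.2.1),
        ∑ z₂ ∈ sp M (L₂ / nr u.2.2), X u ν z₁ z₂ ^ 2 := by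
    intro u hu ν
    rw [mem_U ht.ne_zero] at hu
    have a1 := hA M (L₁ / nr u.2.1) R w.re hR
      ((div_le_self (by linarith) (one_le_nr hu.2.1.ne_zero)).trans hL1R) hw
    have a2 := hA M (L₂ / nr u.2.2) R w.re hR
      ((div_le_self (by linarith) (one_le_nr hu.2.2.1.ne_zero)).trans hL2R) hw
    refine (cs_le _ _ _ a1).trans ?_
    rw [mul_assoc (C₁ * R ^ (2 * ε))]
    refine mul_le_mul_of_nonneg_left ?_ (by positivity)
    rw [Finset.mul_sum]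
    exact Finset.sum_le_sum fun z₁ _ => cs_le _ _ _ a2
  refine sq_sum_le_card_mul_sum_sq.trans ?_
  have e3 : ∀ u ∈ U (g * h) Q L₁ L₂,
      (∑ ν : Chr M, ∑ z₁ ∈ sp M (L₁ / nr u.2.1), nr z₁ ^ w.re *
        ∑ z₂ ∈ sp M (L₂ / nr u.2.2), nr z₂ ^ w.re * X u ν z₁ z₂) ^ 2 ≤
      Fintype.card (Chr M) * (C₁ * R ^ (2 * ε) * (C₁ * R ^ (2 * ε))) * ∑ ν : Chr M,
        ∑ z₁ ∈ sp M (L₁ / nr u.2.1), ∑ z₂ ∈ sp M (L₂ / nr u.2.2), X u ν z₁ z₂ ^ 2 := by
    intro u hu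
    refine sq_sum_le_card_mul_sum_sq.trans ?_
    rw [Finset.card_univ, mul_assoc]
    refine mul_le_mul_of_nonneg_left ?_ hcard.le
    rw [Finset.mul_sum]
    exact Finset.sum_le_sum fun ν _ => e2 u hu ν
  have e4 := Finset.sum_le_sum e3
  rw [← Finset.mul_sum] at e4
  have hS : 0 ≤ ∑ u ∈ U (g * h) Q L₁ L₂, ∑ ν : Chr M,
      ∑ z₁ ∈ sp M (L₁ / nr u.2.1), ∑ z₂ ∈ sp M (L₂ / nr u.2.2), X u ν z₁ z₂ ^ 2 := by
    positivity
  have e5 : R ^ (10 * ε) = R ^ (6 * ε) * R ^ (2 * ε) * R ^ (2 * ε) := by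
    rw [← Real.rpow_add (by linarith), ← Real.rpow_add (by linarith)]; congr 1; ring
  refine (mul_le_mul (hU _ R Q L₁ L₂ ht.ne_zero hR0 htR) e4
    (Finset.sum_nonneg fun _ _ => sq_nonneg _) (by positivity)).trans (le_of_eq ?_)
  rw [e5]; ring

end M4CA

end Crest.Agent.R17
end
end

-- ▼ part PVc/R17/M4CoreAuxB

/-!
# Row 17, module M4, counting lemmas for `gcore`
-/

set_option autoImplicit false

noncomputable section

namespace Crest.Agent.R17.GC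

open Finset

theorem of_mem_sp {M n : O} {X : ℝ} (hX : 0 ≤ X) (h : n ∈ sp M X) :
    Primary n ∧ n ≠ 0 ∧ 1 ≤ nr n ∧ nr n ≤ X := by
  have h' := (LS2.mem_sp hX).1 h
  exact ⟨h'.1.1, h'.1.1.ne_zero, one_le_nr h'.1.1.ne_zero, h'.2⟩

theorem primary_of_mem_sp {M n : O} {X : ℝ} (h : n ∈ sp M X) : Primary n := by
  classical
  rw [sp, mem_filter] at h
  exact h.2.1

theorem sp_subset (M : O) (X : ℝ) : sp M X ⊆ (ball ⌊X⌋₊).erase 0 := by
  classical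
  intro n hn
  have h := primary_of_mem_sp hn
  rw [sp, mem_filter] at hn
  exact mem_erase.2 ⟨h.ne_zero, hn.1⟩

theorem card_sp_le (M : O) {X : ℝ} (hX : 0 ≤ X) : ((sp M X).card : ℝ) ≤ 7 * X := by
  have h1 : ((sp M X).card : ℝ) ≤ (((ball ⌊X⌋₊).erase 0).card : ℝ) := by
    exact_mod_cast card_le_card (sp_subset M X)
  have h2 := CountAux.card_erase_le ⌊X⌋₊
  have h3 := Nat.floor_le hX
  linarith

theorem sum_sp_rpow_le {σ : ℝ} (hσ : 0 < σ) : ∃ C : ℝ, 0 < C ∧ ∀ (M : O) (R : ℝ), 1 ≤ R →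
    ∑ n ∈ sp M R, nr n ^ (-1 + σ) ≤ C * R ^ σ := by
  obtain ⟨C, hC, h⟩ := sum_nr_rpow_le (σ := -1 + σ) (by linarith)
  refine ⟨C, hC, fun M R hR => ?_⟩
  have h1 : 1 ≤ ⌊R⌋₊ := Nat.le_floor (by simpa using hR)
  calc _ ≤ ∑ n ∈ (ball ⌊R⌋₊).erase 0, nr n ^ (-1 + σ) :=
        sum_le_sum_of_subset_of_nonneg (sp_subset M R) fun _ _ _ => by positivity
    _ ≤ C * (⌊R⌋₊ : ℝ) ^ (1 + (-1 + σ)) := h _ h1
    _ ≤ C * R ^ σ := by
        rw [show 1 + (-1 + σ) = σ by ring]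
        gcongr
        exact Nat.floor_le (by linarith)

theorem sum_sp_inv_le {σ : ℝ} (hσ : 0 < σ) : ∃ C : ℝ, 0 < C ∧ ∀ (M : O) (R : ℝ), 1 ≤ R →
    ∑ n ∈ sp M R, (nr n)⁻¹ ≤ C * R ^ σ := by
  obtain ⟨C, hC, h⟩ := sum_sp_rpow_le hσ
  refine ⟨C, hC, fun M R hR => le_trans (sum_le_sum fun n hn => ?_) (h M R hR)⟩
  rw [← Real.rpow_neg_one]
  exact Real.rpow_le_rpow_of_exponent_le (of_mem_sp (by linarith) hn).2.2.1 (by linarith)

theorem card_pdiv_le' {σ : ℝ} (hσ : 0 < σ) : ∃ C : ℝ, 0 < C ∧ ∀ (R : ℝ) (n : O), n ≠ 0 →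
    nr n ≤ R ^ 2 → 1 ≤ R → ((pdiv n).card : ℝ) ≤ C * (R ^ σ) ^ 2 := by
  obtain ⟨C, hC, h⟩ := card_pdiv_le hσ
  refine ⟨C, hC, fun R n hn hR h1 => (h n hn).trans ?_⟩
  have h0 : 0 ≤ R := by linarith
  rw [← Real.rpow_natCast (R ^ σ), ← Real.rpow_mul h0, mul_comm σ, Real.rpow_mul h0,
    Real.rpow_natCast]
  gcongr

theorem of_mem_pdiv {n d : O} (hn : n ≠ 0) (h : d ∈ pdiv n) :
    Primary d ∧ d ≠ 0 ∧ 1 ≤ nr d ∧ nr d ≤ nr n ∧ d ∣ n := by
  have h' := (mem_pdiv hn).1 h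
  exact ⟨h'.1, h'.1.ne_zero, one_le_nr h'.1.ne_zero, by exact_mod_cast nm_le_of_dvd h'.2 hn, h'.2⟩

open Classical in
/-- Indicator of divisibility. -/
def chi (d a : O) : ℝ := if d ∣ a then 1 else 0

theorem chi_nonneg (d a : O) : 0 ≤ chi d a := by
  unfold chi; split_ifs <;> norm_num

theorem chi_of_dvd {d a : O} (h : d ∣ a) : chi d a = 1 := by
  unfold chi; rw [if_pos h]

theorem sum_chi_le (P S : Finset O) (hP : ∀ d ∈ P, Primary d) {D : ℝ}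
    (hS : ∀ a ∈ S, a ≠ 0 ∧ ((pdiv a).card : ℝ) ≤ D) (G : O → ℝ) (hG : ∀ a ∈ S, 0 ≤ G a) :
    ∑ d ∈ P, ∑ a ∈ S, chi d a * G a ≤ D * ∑ a ∈ S, G a := by
  classical
  rw [sum_comm, mul_sum]
  refine sum_le_sum fun a ha => ?_
  rw [← sum_mul]
  refine mul_le_mul_of_nonneg_right (le_trans ?_ (hS a ha).2) (hG a ha)
  have : ∑ d ∈ P, chi d a = ((P.filter fun d => d ∣ a).card : ℝ) := by
    rw [card_filter]
    push_cast
    exact sum_congr rfl fun d _ => by unfold chi; congr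
  rw [this]
  exact_mod_cast card_le_card fun d hd =>
    (mem_pdiv (hS a ha).1).2 ⟨hP d (mem_filter.1 hd).1, (mem_filter.1 hd).2⟩

theorem sum_mul_le (T S : Finset O) {y : O} (hy : y ≠ 0) (hT : ∀ m ∈ T, m * y ∈ S) (G c : O → ℝ)
    (hG : ∀ a ∈ S, 0 ≤ G a) (hc0 : ∀ a, 0 ≤ c a) (hc : ∀ a, y ∣ a → c a = 1) :
    ∑ m ∈ T, G (m * y) ≤ ∑ a ∈ S, c a * G a := by
  classical
  have h1 : ∑ m ∈ T, G (m * y) = ∑ a ∈ T.image (· * y), c a * G a := by
    rw [sum_image fun a _ b _ h => mul_right_cancel₀ hy h]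
    exact sum_congr rfl fun m _ => by rw [hc _ (dvd_mul_left _ _), one_mul]
  rw [h1]
  refine sum_le_sum_of_subset_of_nonneg (fun a ha => ?_) fun a ha _ => mul_nonneg (hc0 a) (hG a ha)
  obtain ⟨m, hm, rfl⟩ := mem_image.1 ha
  exact hT m hm

theorem summable_row (M : O) (R : ℝ) (j : ℕ) (β : O → ℂ) {X : ℝ} (hX : 0 < X) :
    Summable fun k => gw (nr k / X) * ‖rowS M R j β k‖ ^ 2 := by
  refine Summable.of_nonneg_of_le (fun k => mul_nonneg (gw_pos _).le (sq_nonneg _)) (fun k => ?_)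
    ((summable_gw' hX).mul_right ((∑ n ∈ sp M R, ‖β n‖) ^ 2))
  refine mul_le_mul_of_nonneg_left (pow_le_pow_left₀ (norm_nonneg _) ?_ 2) (gw_pos _).le
  refine (norm_sum_le _ _).trans (sum_le_sum fun n _ => ?_)
  rw [norm_mul, norm_pow]
  exact mul_le_of_le_one_right (norm_nonneg _) (pow_le_one₀ (norm_nonneg _) (norm_sym_le _ _))

theorem rows_eq_empty {K : ℝ} (hK : K < 1) : rows K = ∅ := by
  rw [eq_empty_iff_forall_notMem]
  intro k hk
  rw [rows, mem_erase, mem_ball, Nat.floor_eq_zero.2 hK, Nat.le_zero, nm_eq_zero] at hk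
  exact hk.1 hk.2

theorem of_mem_rows {K : ℝ} (hK : 0 ≤ K) {k : O} (h : k ∈ rows K) : k ≠ 0 ∧ nr k ≤ K := by
  rw [rows, mem_erase, mem_ball, Nat.le_floor_iff hK] at h
  exact h

theorem mem_rows' {K : ℝ} {k : O} (h0 : k ≠ 0) (h : nr k ≤ K) : k ∈ rows K := by
  rw [rows, mem_erase, mem_ball]
  exact ⟨h0, Nat.le_floor h⟩

theorem sum_le_card_mul {α : Type*} (s : Finset α) (f : α → ℝ) {c D : ℝ} (hc : 0 ≤ c)
    (hD : (s.card : ℝ) ≤ D) (h : ∀ x ∈ s, f x ≤ c) : ∑ x ∈ s, f x ≤ D * c := by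
  calc _ ≤ ∑ _x ∈ s, c := sum_le_sum h
    _ = s.card * c := by rw [sum_const, nsmul_eq_mul]
    _ ≤ D * c := mul_le_mul_of_nonneg_right hD hc

theorem sum_le_inv_mul (s : Finset O) (f : O → ℝ) {c H : ℝ} (hc : 0 ≤ c)
    (hH : ∑ n ∈ s, (nr n)⁻¹ ≤ H) (h : ∀ x ∈ s, f x ≤ (nr x)⁻¹ * c) : ∑ x ∈ s, f x ≤ H * c := by
  calc _ ≤ ∑ x ∈ s, (nr x)⁻¹ * c := sum_le_sum h
    _ = (∑ x ∈ s, (nr x)⁻¹) * c := by rw [sum_mul]
    _ ≤ H * c := mul_le_mul_of_nonneg_right hH hc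

open Classical in
/-- Factorisations `n = u₀ u₁ u₂` for which the first mark is the longer one. -/
def Uh (Q La Lb : ℝ) (n : O) : Finset (O × O × O) :=
  (pdiv n ×ˢ pdiv n ×ˢ pdiv n).filter fun u =>
    (u.1 * u.2.1 * u.2.2 = n ∧ nr u.1 ≤ Q ∧ nr u.2.1 ≤ La ∧ nr u.2.2 ≤ Lb) ∧
      Lb / nr u.2.2 ≤ La / nr u.2.1

theorem card_Uh_le (Q La Lb : ℝ) (n : O) {D : ℝ} (h : ((pdiv n).card : ℝ) ≤ D) :
    ((Uh Q La Lb n).card : ℝ) ≤ D ^ 3 := by
  classical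
  have h1 : (Uh Q La Lb n).card ≤ (pdiv n).card ^ 3 := by
    refine (card_filter_le _ _).trans ?_
    rw [card_product, card_product]
    exact le_of_eq (by ring)
  calc ((Uh Q La Lb n).card : ℝ) ≤ ((pdiv n).card : ℝ) ^ 3 := by exact_mod_cast h1
    _ ≤ D ^ 3 := by gcongr

theorem of_mem_Uh {Q La Lb : ℝ} {n : O} (hn : n ≠ 0) {u : O × O × O} (h : u ∈ Uh Q La Lb n) :
    Primary u.1 ∧ 1 ≤ nr u.1 ∧ 1 ≤ nr u.2.1 ∧ 1 ≤ nr u.2.2 ∧ u.1 * u.2.1 * u.2.2 = n ∧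
      nr u.1 ≤ Q ∧ nr u.2.1 ≤ La ∧ nr u.2.2 ≤ Lb ∧ Lb / nr u.2.2 ≤ La / nr u.2.1 := by
  classical
  simp only [Uh, mem_filter, mem_product] at h
  obtain ⟨⟨h1, h2, h3⟩, ⟨h4, h5, h6, h7⟩, h8⟩ := h
  exact ⟨(of_mem_pdiv hn h1).1, (of_mem_pdiv hn h1).2.2.1, (of_mem_pdiv hn h2).2.2.1,
    (of_mem_pdiv hn h3).2.2.1, h4, h5, h6, h7, h8⟩

open Classical in
theorem sum_split (Q L₁ L₂ : ℝ) (n : O) (f : O × O × O → ℝ) (hf : ∀ u, 0 ≤ f u) :
    ∑ u ∈ (pdiv n ×ˢ pdiv n ×ˢ pdiv n).filter (fun u =>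
        u.1 * u.2.1 * u.2.2 = n ∧ nr u.1 ≤ Q ∧ nr u.2.1 ≤ L₁ ∧ nr u.2.2 ≤ L₂), f u ≤
      ∑ u ∈ Uh Q L₁ L₂ n, f u + ∑ u ∈ Uh Q L₂ L₁ n, f (u.1, u.2.2, u.2.1) := by
  rw [← sum_filter_add_sum_filter_not _ (fun u : O × O × O => L₂ / nr u.2.2 ≤ L₁ / nr u.2.1),
    filter_filter, filter_filter]
  refine add_le_add (le_of_eq rfl) ?_
  have e : ∑ u ∈ Uh Q L₂ L₁ n, f (u.1, u.2.2, u.2.1) =
      ∑ u ∈ (pdiv n ×ˢ pdiv n ×ˢ pdiv n).filter (fun u =>
        (u.1 * u.2.1 * u.2.2 = n ∧ nr u.1 ≤ Q ∧ nr u.2.1 ≤ L₁ ∧ nr u.2.2 ≤ L₂) ∧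
          L₁ / nr u.2.1 ≤ L₂ / nr u.2.2), f u := by
    refine sum_nbij' (fun u => (u.1, u.2.2, u.2.1)) (fun u => (u.1, u.2.2, u.2.1)) ?_ ?_ ?_ ?_ ?_
    · rintro ⟨a, b, c⟩ h
      simp only [Uh, mem_filter, mem_product] at h ⊢
      obtain ⟨⟨h1, h2, h3⟩, ⟨h4, h5, h6, h7⟩, h8⟩ := h
      exact ⟨⟨h1, h3, h2⟩, ⟨by rw [← h4]; ring, h5, h7, h6⟩, h8⟩
    · rintro ⟨a, b, c⟩ h
      simp only [Uh, mem_filter, mem_product] at h ⊢
      obtain ⟨⟨h1, h2, h3⟩, ⟨h4, h5, h6, h7⟩, h8⟩ := h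
      exact ⟨⟨h1, h3, h2⟩, ⟨by rw [← h4]; ring, h5, h7, h6⟩, h8⟩
    · rintro ⟨a, b, c⟩ _; rfl
    · rintro ⟨a, b, c⟩ _; rfl
    · rintro ⟨a, b, c⟩ _; rfl
  rw [e]
  refine sum_le_sum_of_subset_of_nonneg (fun u hu => ?_) fun u _ _ => hf u
  rw [mem_filter] at hu ⊢
  exact ⟨hu.1, hu.2.1, (not_le.1 hu.2.2).le⟩

/-- The length of the dual rows. -/
def K0 (Λ L A : ℝ) (g e : O) : ℝ := Λ * nr e * (L / nr g) ^ 2 / A

/-- The index type of the second Poisson step. -/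
abbrev Ix (M : O) : Type := (_ : O) × (_ : O) × (_ : O) × (_ : O × O × O) × (_ : Chr M) × O

open Classical in
/-- The index set of the second Poisson step. -/
def ixs (M : O) [Fintype (Chr M)] (R Λ L A Q La Lb : ℝ) : Finset (Ix M) :=
  (sp M R).sigma fun g => ((pdiv g).filter fun e => 1 ≤ K0 Λ L A g e).sigma fun _ =>
    (sp M R).sigma fun h => (Uh Q La Lb (g * h)).sigma fun u =>
      (univ : Finset (Chr M)).sigma fun _ => sp M (Lb / nr u.2.2)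

open Classical in
theorem sum_ixs (M : O) [Fintype (Chr M)] (R Λ L A Q La Lb : ℝ) (f : Ix M → ℝ) :
    ∑ i ∈ ixs M R Λ L A Q La Lb, f i =
      ∑ g ∈ sp M R, ∑ e ∈ (pdiv g).filter (fun e => 1 ≤ K0 Λ L A g e), ∑ h ∈ sp M R,
        ∑ u ∈ Uh Q La Lb (g * h), ∑ ψ : Chr M, ∑ z ∈ sp M (Lb / nr u.2.2),
          f ⟨g, e, h, u, ψ, z⟩ := by
  simp only [ixs, sum_sigma]

theorem of_mem_ixs {M : O} [Fintype (Chr M)] {R Λ L A Q La Lb : ℝ} {g e h z : O} {u : O × O × O}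
    {ψ : Chr M} (hi : (⟨g, e, h, u, ψ, z⟩ : Ix M) ∈ ixs M R Λ L A Q La Lb) :
    g ∈ sp M R ∧ e ∈ pdiv g ∧ 1 ≤ K0 Λ L A g e ∧ h ∈ sp M R ∧ u ∈ Uh Q La Lb (g * h) ∧
      z ∈ sp M (Lb / nr u.2.2) := by
  classical
  simp only [ixs, mem_sigma, mem_filter, mem_univ, true_and] at hi
  exact ⟨hi.1, hi.2.1.1, hi.2.1.2, hi.2.2.1, hi.2.2.2.1, hi.2.2.2.2⟩

/-- Counting for the diagonal. -/
theorem sum_ixs_diag {M : O} [Fintype (Chr M)] {R Λ L A Q La Lb D H c : ℝ} (hR : 1 ≤ R)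
    (hLb : 0 ≤ Lb) (hc : 0 ≤ c) (hD : ∀ n : O, n ≠ 0 → nr n ≤ R ^ 2 → ((pdiv n).card : ℝ) ≤ D)
    (hH : ∑ n ∈ sp M R, (nr n)⁻¹ ≤ H) (f : Ix M → ℝ)
    (hf : ∀ g e h u ψ z, (⟨g, e, h, u, ψ, z⟩ : Ix M) ∈ ixs M R Λ L A Q La Lb →
      Lb / nr u.2.2 * f ⟨g, e, h, u, ψ, z⟩ ≤ (nr g)⁻¹ * ((nr h)⁻¹ * c)) :
    ∑ i ∈ ixs M R Λ L A Q La Lb, f i ≤ H * (D * (H * (D ^ 3 * (Fintype.card (Chr M) * (7 * c))))) := by
  classical
  have hR0 : 0 ≤ R := by linarith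
  have hD0 : 0 ≤ D := le_trans (Nat.cast_nonneg _) (hD 1 one_ne_zero (by
    rw [nr, nm_one, Nat.cast_one]; nlinarith))
  have hH0 : 0 ≤ H := le_trans (sum_nonneg fun _ _ => by positivity) hH
  rw [sum_ixs]
  refine sum_le_inv_mul _ _ (by positivity) hH fun g hg => ?_
  obtain ⟨-, hg0, hg1, hgR⟩ := of_mem_sp hR0 hg
  rw [mul_left_comm]
  refine sum_le_card_mul _ _ (by positivity)
    (le_trans (by exact_mod_cast card_filter_le _ _) (hD g hg0 (by nlinarith))) fun e he => ?_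
  rw [mul_left_comm]
  refine sum_le_inv_mul _ _ (by positivity) hH fun h hh => ?_
  obtain ⟨-, hh0, hh1, hhR⟩ := of_mem_sp hR0 hh
  have e1 : (nr h)⁻¹ * ((nr g)⁻¹ * (D ^ 3 * (Fintype.card (Chr M) * (7 * c)))) =
      D ^ 3 * (Fintype.card (Chr M) * (7 * ((nr g)⁻¹ * ((nr h)⁻¹ * c)))) := by ring
  rw [e1]
  refine sum_le_card_mul _ _ (by positivity) (card_Uh_le _ _ _ _
    (hD _ (mul_ne_zero hg0 hh0) (by rw [nr_mul]; nlinarith))) fun u hu => ?_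
  refine sum_le_card_mul _ _ (by positivity) (by simp) fun ψ _ => ?_
  obtain ⟨-, -, -, hu3, -, -, -, hu7, -⟩ := of_mem_Uh (mul_ne_zero hg0 hh0) hu
  have hL : 0 < Lb / nr u.2.2 := div_pos (by linarith) (by linarith)
  calc _ ≤ 7 * (Lb / nr u.2.2) * (((nr g)⁻¹ * ((nr h)⁻¹ * c)) / (Lb / nr u.2.2)) := by
        refine sum_le_card_mul _ _ (by positivity) (card_sp_le M hL.le) fun z hz => ?_
        rw [le_div_iff₀ hL, mul_comm]
        refine hf g e h u ψ z ?_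
        simp only [ixs, mem_sigma, mem_univ, true_and]
        exact ⟨hg, he, hh, hu, hz⟩
    _ = _ := by rw [mul_assoc, mul_div_cancel₀ _ hL.ne']

/-- Counting for the off-diagonal terms. -/
theorem sum_ixs_off {M : O} [Fintype (Chr M)] {R Λ L A Q La Lb D H c : ℝ} (hR : 1 ≤ R)
    (hc : 0 ≤ c) (hD : ∀ n : O, n ≠ 0 → nr n ≤ R ^ 2 → ((pdiv n).card : ℝ) ≤ D)
    (hH : ∑ n ∈ sp M R, (nr n)⁻¹ ≤ H) (S : Finset O) (hS : ∀ a ∈ S, a ≠ 0 ∧ nr a ≤ R ^ 2)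
    (G : O → ℝ) (hG : ∀ a ∈ S, 0 ≤ G a) (f : Ix M → O → O → O → ℝ)
    (hf : ∀ g e h u ψ z, (⟨g, e, h, u, ψ, z⟩ : Ix M) ∈ ixs M R Λ L A Q La Lb →
      ∀ g' ∈ sp M R, ∀ e' ∈ pdiv g', ∀ h' ∈ sp M R, f ⟨g, e, h, u, ψ, z⟩ g' e' h' ≤
        (nr h')⁻¹ * ((nr g)⁻¹ * c * ∑ a ∈ S, chi g' a * (chi z a * (chi h a * G a)))) :
    ∑ i ∈ ixs M R Λ L A Q La Lb, ∑ g' ∈ sp M R, ∑ e' ∈ pdiv g', ∑ h' ∈ sp M R, f i g' e' h' ≤
      H ^ 2 * D ^ 8 * Fintype.card (Chr M) * c * ∑ a ∈ S, G a := by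
  classical
  have hR0 : 0 ≤ R := by linarith
  have hD0 : 0 ≤ D := le_trans (Nat.cast_nonneg _) (hD 1 one_ne_zero (by
    rw [nr, nm_one, Nat.cast_one]; nlinarith))
  have hH0 : 0 ≤ H := le_trans (sum_nonneg fun _ _ => by positivity) hH
  have hS' : ∀ a ∈ S, a ≠ 0 ∧ ((pdiv a).card : ℝ) ≤ D := fun a ha =>
    ⟨(hS a ha).1, hD a (hS a ha).1 (hS a ha).2⟩
  have hG0 : 0 ≤ ∑ a ∈ S, G a := sum_nonneg hG
  have hG1 : ∀ h, ∀ a ∈ S, 0 ≤ chi h a * G a := fun h a ha => mul_nonneg (chi_nonneg _ _) (hG a ha)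
  have hG2 : ∀ z h, ∀ a ∈ S, 0 ≤ chi z a * (chi h a * G a) := fun z h a ha =>
    mul_nonneg (chi_nonneg _ _) (hG1 h a ha)
  have hG3 : ∀ g z h, ∀ a ∈ S, 0 ≤ chi g a * (chi z a * (chi h a * G a)) := fun g z h a ha =>
    mul_nonneg (chi_nonneg _ _) (hG2 z h a ha)
  rw [sum_ixs]
  have e0 : H ^ 2 * D ^ 8 * Fintype.card (Chr M) * c * ∑ a ∈ S, G a =
      H * (D * (D ^ 3 * Fintype.card (Chr M) * D * D * H * c * D * (D * ∑ a ∈ S, G a))) := by ring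
  rw [e0]
  refine sum_le_inv_mul _ _ (by positivity) hH fun g hg => ?_
  obtain ⟨-, hg0, hg1, hgR⟩ := of_mem_sp hR0 hg
  rw [mul_left_comm]
  refine sum_le_card_mul _ _ (by positivity)
    (le_trans (by exact_mod_cast card_filter_le _ _) (hD g hg0 (by nlinarith))) fun e he => ?_
  rw [← mul_assoc]
  refine le_trans ?_ (mul_le_mul_of_nonneg_left (sum_chi_le (sp M R) S
    (fun d hd => primary_of_mem_sp hd) hS' G hG) (by positivity))
  rw [mul_sum]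
  refine sum_le_sum fun h hh => ?_
  obtain ⟨-, hh0, hh1, hhR⟩ := of_mem_sp hR0 hh
  have p1 := sum_nonneg (hG1 h)
  have e1 : (nr g)⁻¹ * (D ^ 3 * Fintype.card (Chr M) * D * D * H * c * D) *
        ∑ a ∈ S, chi h a * G a = D ^ 3 * (Fintype.card (Chr M) *
      ((D * D * H * ((nr g)⁻¹ * c)) * (D * ∑ a ∈ S, chi h a * G a))) := by ring
  rw [e1]
  refine sum_le_card_mul _ _ (by positivity) (card_Uh_le _ _ _ _
    (hD _ (mul_ne_zero hg0 hh0) (by rw [nr_mul]; nlinarith))) fun u hu => ?_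
  refine sum_le_card_mul _ _ (by positivity) (by simp) fun ψ _ => ?_
  refine le_trans ?_ (mul_le_mul_of_nonneg_left (sum_chi_le (sp M (Lb / nr u.2.2)) S
    (fun d hd => primary_of_mem_sp hd) hS' _ (hG1 h)) (by positivity))
  rw [mul_sum]
  refine sum_le_sum fun z hz => ?_
  have hi : (⟨g, e, h, u, ψ, z⟩ : Ix M) ∈ ixs M R Λ L A Q La Lb := by
    simp only [ixs, mem_sigma, mem_univ, true_and]
    exact ⟨hg, he, hh, hu, hz⟩
  have e2 : D * D * H * ((nr g)⁻¹ * c) * ∑ a ∈ S, chi z a * (chi h a * G a) =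
      D * H * ((nr g)⁻¹ * c) * (D * ∑ a ∈ S, chi z a * (chi h a * G a)) := by ring
  rw [e2]
  refine le_trans ?_ (mul_le_mul_of_nonneg_left (sum_chi_le (sp M R) S
    (fun d hd => primary_of_mem_sp hd) hS' _ (hG2 z h)) (by positivity))
  rw [mul_sum]
  refine sum_le_sum fun g' hg' => ?_
  obtain ⟨-, hg0', hg1', hgR'⟩ := of_mem_sp hR0 hg'
  have p3 := sum_nonneg (hG3 g' z h)
  rw [mul_assoc, mul_assoc]
  refine sum_le_card_mul _ _ (by positivity) (hD g' hg0' (by nlinarith)) fun e' he' => ?_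
  exact sum_le_inv_mul _ _ (by positivity) hH fun h' hh' => hf g e h u ψ z hi g' hg' e' he' h' hh'

end Crest.Agent.R17.GC
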