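import Crest.Agent.PVc.R17.M4P1
import Crest.Agent.PVc.R17.M4CoreAuxB_Mg
import Crest.Agent.PVc.R17.Count
import Crest.Agent.PVc.R17.LBasic

-- ▼ part PVc/R17/M4Core
section

/-!
# Row 17, module M4, part Core: double Poisson summation with two marked variables

`E(a) = ∑_{s z₁ z₂ squarefree} β(s) c₁(z₁) c₂(z₂) conj χ_{s z₁ z₂}(a)`.  First Poisson step in `a`
(`poisson_family`, `j = 5`), Cauchy–Schwarz over `z₁, z₂`, the rows `k z⁴` (`z` the longer mark) are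
embedded into all rows, second Poisson step (`j = 1`); the new rows are
`a' = m · e h² · z'² · g' (g'/e')` (`z'` the shorter mark) and are embedded into all rows.
-/

set_option autoImplicit false

noncomputable section

namespace Crest.Agent.R17

open scoped ComplexConjugate

open Classical in
/-- The coefficient of the triple product, restricted to squarefree indices. -/
def tri (M : O) (R : ℝ) (β c₁ c₂ : O → ℂ) (n : O) : ℂ :=
  if Squarefree n then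
    ∑ v ∈ (sp M R ×ˢ sp M R ×ˢ sp M R).filter (fun v => v.1 * v.2.1 * v.2.2 = n),
      β v.1 * c₁ v.2.1 * c₂ v.2.2
  else 0

namespace M4

open Classical in
/-- The sum which appears after the two Poisson steps. -/
def back (M : O) (R : ℝ) (β : O → ℂ) (t T : O) (ψ : Chr M) (w : ℂ) (a : O) : ℂ :=
  ∑ s ∈ sp M R, if IsCoprime s T then β (t * s) * ev ψ s * (nr s : ℂ) ^ w * conj (sym s a) else 0

end M4

open M4

/-- Hypothesis H1: `Φ` dominates the returning sums. -/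
def H1 (M : O) (R Q A' : ℝ) (β : O → ℂ) (Φ : ℝ → O → ℝ) : Prop :=
  ∀ (t T a : O) (ψ : Chr M) (w : ℂ), Primary t → Primary T → t ∣ T → nr t ≤ Q → nr T ≤ R ^ 4 →
    a ≠ 0 → nr a ≤ A' → -1 ≤ w.re → w.re ≤ -(1 / 2) →
    ‖back M R β t T ψ w a‖ ^ 2 ≤ Φ w.im a * (Q / nr t) ^ (1 + 2 * w.re)

/-- Hypothesis H2: mean value of `Φ`. -/
def H2 (A A' Λ₁ F : ℝ) (J : ℕ) (Φ : ℝ → O → ℝ) : Prop :=
  ∀ v : ℝ, ∑ a ∈ rows A', min (A / nr a) Λ₁ * Φ v a ≤ F * A * (1 + |v|) ^ J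

theorem supp_tri {M : O} {R Q L₁ L₂ : ℝ} {β c₁ c₂ : O → ℂ} (hβ : Supp M Q β) (h1 : Supp M L₁ c₁)
    (h2 : Supp M L₂ c₂) : Supp M (Q * L₁ * L₂) (tri M R β c₁ c₂) := M4CA.supp_tri hβ h1 h2
theorem norm_tri_le {ε : ℝ} (hε : 0 < ε) : ∃ C : ℝ, 0 < C ∧ ∀ (M : O) (R b : ℝ) (β c₁ c₂ : O → ℂ),
    (∀ n, ‖β n‖ ≤ b) → (∀ n, ‖c₁ n‖ ≤ 1) → (∀ n, ‖c₂ n‖ ≤ 1) → ∀ n, n ≠ 0 →
    ‖tri M R β c₁ c₂ n‖ ≤ C * nr n ^ ε * b := M4CA.norm_tri_le hε

open Classical in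
/-- The coefficient in the variable `s` after the first step: `u₀` is the part of `g h` which went
into `s`, `r₀ = e h² z²` is the prefix. -/
def mid {M : O} (β : O → ℂ) (u₀ T r₀ : O) (ψ : Chr M) (w : ℂ) (s : O) : ℂ :=
  if IsCoprime s T then β (u₀ * s) * ev ψ s * gam 5 s * sym s r₀ ^ 5 * (nr s : ℂ) ^ w else 0

open Classical in
/-- **Splitting** of a dual row sum of `tri`: Cauchy–Schwarz over the factorisations
`g h = u₀ u₁ u₂`, over the classes and over the marks. -/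
theorem dual_tri_le {M : O} (hM : Adm M) [Fintype (Chr M)] {ε : ℝ} (hε : 0 < ε) :
    ∃ C : ℝ, 0 < C ∧ ∀ (R Q L₁ L₂ : ℝ) (β c₁ c₂ : O → ℂ) (g e h k : O) (ψ : Chr M) (w : ℂ),
      1 ≤ R → Supp M Q β → Supp M L₁ c₁ → Supp M L₂ c₂ → Q * L₁ * L₂ ≤ R → 1 ≤ Q → 1 ≤ L₁ →
      1 ≤ L₂ → (∀ n, ‖c₁ n‖ ≤ 1) → (∀ n, ‖c₂ n‖ ≤ 1) → g ∈ sp M R → h ∈ sp M R →
      w.re ≤ -(1 / 2) + ε →
      ‖rowS M R 1 (dualC 5 (tri M R β c₁ c₂) g e h ψ w) k‖ ^ 2 ≤ C * R ^ (10 * ε) *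
        ∑ u ∈ (pdiv (g * h) ×ˢ pdiv (g * h) ×ˢ pdiv (g * h)).filter (fun u =>
            u.1 * u.2.1 * u.2.2 = g * h ∧ nr u.1 ≤ Q ∧ nr u.2.1 ≤ L₁ ∧ nr u.2.2 ≤ L₂),
          ∑ ψ' : Chr M, ∑ z₁ ∈ sp M (L₁ / nr u.2.1), ∑ z₂ ∈ sp M (L₂ / nr u.2.2),
            ‖rowS M R 1 (mid β u.1 (g * h) (e * h ^ 2 * (z₁ * z₂) ^ 2) ψ' w) k‖ ^ 2 :=
  M4CA.dual_tri_le hM hε

/-- Moving a mark from the prefix into the row. -/
theorem rowS_mid_move {M : O} (hM : Adm M) (R : ℝ) (β : O → ℂ) (u₀ T r₀ z k : O) (ψ : Chr M)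
    (w : ℂ) : rowS M R 1 (mid β u₀ T (r₀ * z ^ 2) ψ w) k =
      rowS M R 1 (mid β u₀ T r₀ ψ w) (k * z ^ 4) := M4CA.rowS_mid_move hM R β u₀ T r₀ z k ψ w

/-- Embedding the rows `k z⁴` into all rows. -/
theorem embed_rows {ε : ℝ} (hε : 0 < ε) : ∃ C : ℝ, 0 < C ∧ ∀ (M : O) (K L K' : ℝ) (f : O → ℝ),
    (∀ k, 0 ≤ f k) → 1 ≤ K → 1 ≤ L → K * L ^ 4 ≤ K' →
    (Summable fun k => gw (nr k / K') * f k) →
    ∑ z ∈ sp M L, ∑ k ∈ rows K, f (k * z ^ 4) ≤ C * K' ^ ε * ∑' k, gw (nr k / K') * f k :=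
  M4CA.embed_rows hε

/-- The second dual row sum is a returning sum. -/
theorem dual_mid_le {M : O} (hM : Adm M) [Fintype (Chr M)] :
    ∃ C : ℝ, 0 < C ∧ ∀ (R Q : ℝ) (β : O → ℂ) (u₀ T r₀ g e h m : O) (ψ ψ' : Chr M) (w w' : ℂ),
      Supp M Q β → Primary u₀ → g ∈ sp M R → h ∈ sp M R → e ∈ pdiv g →
      ‖rowS M R 5 (dualC 1 (mid β u₀ T r₀ ψ w) g e h ψ' w') m‖ ^ 2 ≤
        C * (nr g * nr h) ^ (2 * w.re) * ∑ ψ'' : Chr M,
          ‖back M R β (u₀ * g * h) (T * g * h) ψ'' (w + w') (m * r₀ * (g * (g / e)))‖ ^ 2 :=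
  M4CA.dual_mid_le hM

/-! ### Proof of the core estimate -/

namespace GC

open Finset

theorem rp {R σ : ℝ} (hR : 1 ≤ R) (hσ : 0 ≤ σ) {x : ℝ} (hx0 : 0 ≤ x) (k n : ℕ) (hx : x ≤ R ^ k) :
    x ^ (n * σ) ≤ (R ^ σ) ^ (k * n) := by
  have h0 : 0 ≤ R := by linarith
  calc x ^ (n * σ) ≤ (R ^ k) ^ (n * σ) := Real.rpow_le_rpow hx0 hx (by positivity)
    _ = (R ^ σ) ^ (k * n) := by
        rw [← Real.rpow_natCast R k, ← Real.rpow_mul h0, ← Real.rpow_mul_natCast h0]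
        congr 1
        push_cast
        ring

theorem tail_eq {R σ : ℝ} (hR : 1 ≤ R) (hσ : 0 < σ) :
    R ^ (7 : ℝ) * (R ^ σ) ^ (-(9 / σ)) = (R ^ 2)⁻¹ := by
  have h0 : 0 < R := by linarith
  rw [← Real.rpow_mul h0.le, ← Real.rpow_add h0, ← Real.rpow_natCast, ← Real.rpow_neg h0.le]
  congr 1
  field_simp
  norm_num

theorem norm_mid_le {M : O} (hM : Adm M) {R b : ℝ} (hR : 0 ≤ R) {β : O → ℂ} (hb : ∀ n, ‖β n‖ ≤ b)
    (u₀ T r₀ : O) (ψ : Chr M) (w : ℂ) {s : O} (hs : s ∈ sp M R) :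
    ‖mid β u₀ T r₀ ψ w s‖ ≤ b * nr s ^ w.re := by
  have hs' := ((LS2.mem_sp hR).1 hs).1
  have hb0 : 0 ≤ b := (norm_nonneg _).trans (hb 0)
  have hpos : 0 < nr s := nr_pos hs'.1.ne_zero
  unfold mid
  split_ifs
  · have hpo : PO s := ⟨hs'.1, hs'.2.2.of_isCoprime_of_dvd_right
      (Dvd.dvd.trans ⟨36, by norm_num⟩ hM.2)⟩
    rw [norm_mul, norm_mul, norm_mul, norm_mul, norm_gam (by norm_num) hpo hs'.2.1, norm_pow,
      Complex.norm_cpow_eq_rpow_re_of_pos hpos, mul_one]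
    refine mul_le_mul_of_nonneg_right ?_ (by positivity)
    have h1 := norm_ev_le hM.1 ψ s
    have h2 : ‖sym s r₀‖ ^ 5 ≤ 1 := pow_le_one₀ (norm_nonneg _) (norm_sym_le _ _)
    calc ‖β (u₀ * s)‖ * ‖ev ψ s‖ * ‖sym s r₀‖ ^ 5 ≤ b * 1 * 1 := by
          gcongr
          exact hb _
      _ = b := by ring
  · rw [norm_zero]; positivity

theorem supp_mid {M : O} {Q : ℝ} {β : O → ℂ} (h : Supp M Q β) {u₀ : O} (hu : Primary u₀)
    (T r₀ : O) (ψ : Chr M) (w : ℂ) : Supp M (Q / nr u₀) (mid β u₀ T r₀ ψ w) := by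
  intro s hs
  refine h.comp_mul hu s fun (h0 : β (u₀ * s) = 0) => hs ?_
  unfold mid
  split_ifs
  · rw [h0]; simp
  · rfl

theorem back_eq_zero {M : O} {R Q : ℝ} (hR : 0 ≤ R) {β : O → ℂ} (h : Supp M Q β) {t : O}
    (ht : Q < nr t) (T : O) (ψ : Chr M) (w : ℂ) (a : O) : back M R β t T ψ w a = 0 := by
  unfold back
  refine sum_eq_zero fun s hs => ?_
  have h0 : β (t * s) = 0 := by
    by_contra h0
    have h1 := (h _ h0).2
    have h2 := (of_mem_sp hR hs).2.2.1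
    rw [nr_mul] at h1
    have : 0 ≤ nr t := by positivity
    nlinarith
  split_ifs
  · rw [h0]; simp
  · rfl

/-- The second dual row sum in terms of `Φ`. -/
theorem dual_phi {M : O} (hM : Adm M) [Fintype (Chr M)] : ∃ C : ℝ, 0 < C ∧
    ∀ (R Q A' σ u u' : ℝ) (β : O → ℂ) (Φ : ℝ → O → ℝ) (u₀ T r₀ g e h m : O) (ψ ψ' : Chr M),
      1 ≤ R → 0 < σ → σ ≤ 1 / 8 → Q ≤ R → Supp M Q β → (∀ v a, 0 ≤ Φ v a) → H1 M R Q A' β Φ →
      Primary u₀ → Primary T → u₀ ∣ T → nr T ≤ R ^ 2 → nr u₀ ≤ Q → g ∈ sp M R → h ∈ sp M R →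
      e ∈ pdiv g → m * (r₀ * (g * (g / e))) ≠ 0 → nr (m * (r₀ * (g * (g / e)))) ≤ A' →
      ‖rowS M R 5 (dualC 1 (mid β u₀ T r₀ ψ (-(1 / 2) + σ + u * Complex.I)) g e h ψ'
        (-(1 / 2) + σ + u' * Complex.I)) m‖ ^ 2 ≤
        C * (R ^ σ) ^ 8 / (Q / nr u₀) * Φ (u + u') (m * (r₀ * (g * (g / e)))) := by
  obtain ⟨C, hC, hd⟩ := dual_mid_le hM
  refine ⟨C * (Fintype.card (Chr M) + 1), by positivity, ?_⟩
  intro R Q A' σ u u' β Φ u₀ T r₀ g e h m ψ ψ' hR hσ hσ8 hQR hβ hΦ h1 hu₀ hT hdvd hTR hu₀Q hg hh he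
    ha0 ha
  have hR0 : 0 ≤ R := by linarith
  obtain ⟨hgp, hg0, hg1, hgR⟩ := of_mem_sp hR0 hg
  obtain ⟨hhp, hh0, hh1, hhR⟩ := of_mem_sp hR0 hh
  have hu1 := one_le_nr hu₀.ne_zero
  set w : ℂ := -(1 / 2) + σ + u * Complex.I with hw
  set w' : ℂ := -(1 / 2) + σ + u' * Complex.I with hw'
  have hre : w.re = -(1 / 2) + σ := by simp [hw]
  have hre' : (w + w').re = -1 + 2 * σ := by simp [hw, hw']; ring
  have him' : (w + w').im = u + u' := by simp [hw, hw']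
  refine (hd R Q β u₀ T r₀ g e h m ψ ψ' w w' hβ hu₀ hg hh he).trans ?_
  rw [mul_assoc m]
  set a := m * (r₀ * (g * (g / e))) with ha'
  set P : ℝ := nr g * nr h with hP
  have hP1 : 1 ≤ P := by nlinarith
  have hq : 0 < Q / nr u₀ := div_pos (by linarith) (by linarith)
  have hΦ0 := hΦ (u + u') a
  have key : ∀ ψ'' : Chr M, P ^ (2 * w.re) * ‖back M R β (u₀ * g * h) (T * g * h) ψ'' (w + w') a‖ ^ 2
      ≤ (R ^ σ) ^ 8 / (Q / nr u₀) * Φ (u + u') a := by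
    intro ψ''
    rcases lt_or_ge Q (nr (u₀ * g * h)) with ht | ht
    · rw [back_eq_zero hR0 hβ ht]
      simp only [norm_zero, ne_eq, OfNat.ofNat_ne_zero, not_false_eq_true, zero_pow, mul_zero]
      positivity
    · have h2 := h1 (u₀ * g * h) (T * g * h) a ψ'' (w + w') ((hu₀.mul hgp).mul hhp)
        ((hT.mul hgp).mul hhp) (mul_dvd_mul_right (mul_dvd_mul_right hdvd g) h) ht
        (by
          rw [nr_mul, nr_mul]
          calc nr T * nr g * nr h ≤ R ^ 2 * R * R := by gcongr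
            _ = R ^ 4 := by ring) ha0 ha (by rw [hre']; linarith) (by rw [hre']; linarith)
      rw [him', hre'] at h2
      have et : nr (u₀ * g * h) = nr u₀ * P := by rw [nr_mul, nr_mul, mul_assoc]
      set r : ℝ := Q / nr (u₀ * g * h) with hr
      have ht0 : 0 < nr (u₀ * g * h) := by rw [et]; positivity
      have hr1 : 1 ≤ r := (one_le_div ht0).2 ht
      have hrR : r ≤ R ^ 1 := by
        rw [pow_one]
        refine le_trans (div_le_self (by linarith) ?_) hQR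
        rw [et]; nlinarith
      have hPR : P ≤ R ^ 2 := by rw [hP, sq]; gcongr
      have e1 : P ^ (2 * w.re) = P⁻¹ * P ^ (((2 : ℕ) : ℝ) * σ) := by
        rw [hre, ← Real.rpow_neg_one, ← Real.rpow_add (by linarith)]
        congr 1; push_cast; ring
      have e2 : r ^ (1 + 2 * (-1 + 2 * σ)) = r⁻¹ * r ^ (((4 : ℕ) : ℝ) * σ) := by
        rw [← Real.rpow_neg_one, ← Real.rpow_add (by linarith)]
        congr 1; push_cast; ring
      have b1 := rp hR hσ.le (by linarith : 0 ≤ P) 2 2 hPR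
      have b2 := rp hR hσ.le (by linarith : 0 ≤ r) 1 4 hrR
      have e3 : P⁻¹ * r⁻¹ = (Q / nr u₀)⁻¹ := by
        rw [hr, et]
        have : Q ≠ 0 := by linarith
        field_simp
      rw [e2] at h2
      rw [e1]
      calc _ ≤ P⁻¹ * (R ^ σ) ^ (2 * 2) * (Φ (u + u') a * (r⁻¹ * (R ^ σ) ^ (1 * 4))) := by
            refine mul_le_mul (mul_le_mul_of_nonneg_left b1 (by positivity)) (h2.trans ?_)
              (by positivity) (by positivity)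
            gcongr
        _ = P⁻¹ * r⁻¹ * (R ^ σ) ^ 8 * Φ (u + u') a := by ring
        _ = _ := by rw [e3]; ring
  rw [mul_assoc, mul_sum]
  calc _ ≤ C * (Fintype.card (Chr M) * ((R ^ σ) ^ 8 / (Q / nr u₀) * Φ (u + u') a)) :=
        mul_le_mul_of_nonneg_left (sum_le_card_mul _ _ (by positivity) (by simp)
          fun ψ'' _ => key ψ'') hC.le
    _ ≤ C * ((Fintype.card (Chr M) + 1) * ((R ^ σ) ^ 8 / (Q / nr u₀) * Φ (u + u') a)) := by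
        gcongr; linarith
    _ = _ := by ring

/-- The sum over the factorisations, classes and marks, the first mark being the longer one. -/
def term (M : O) [Fintype (Chr M)] (R Q La Lb : ℝ) (β : O → ℂ) (w : ℂ) (g e h k : O) : ℝ :=
  ∑ u ∈ Uh Q La Lb (g * h), ∑ ψ' : Chr M, ∑ za ∈ sp M (La / nr u.2.1), ∑ zb ∈ sp M (Lb / nr u.2.2),
    ‖rowS M R 1 (mid β u.1 (g * h) (e * h ^ 2 * (za * zb) ^ 2) ψ' w) k‖ ^ 2

/-- Weights of the second step. -/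
def wI {M : O} (A : ℝ) (i : Ix M) : ℝ := A / (nr i.2.1 * nr i.2.2.1)

/-- Row lengths of the second step. -/
def XI {M : O} (Λ L A La l : ℝ) (i : Ix M) : ℝ :=
  l * K0 Λ L A i.1 i.2.1 * (La / nr i.2.2.2.1.2.1) ^ 4

/-- Column lengths of the second step. -/
def LI {M : O} (Q : ℝ) (i : Ix M) : ℝ := Q / nr i.2.2.2.1.1

/-- Coefficients of the second step. -/
def βI {M : O} (β : O → ℂ) (w : ℂ) (i : Ix M) : O → ℂ :=
  mid β i.2.2.2.1.1 (i.1 * i.2.2.1) (i.2.1 * i.2.2.1 ^ 2 * i.2.2.2.2.2 ^ 2) i.2.2.2.2.1 w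

theorem wI_nonneg {M : O} {A : ℝ} (hA : 0 ≤ A) (i : Ix M) : 0 ≤ wI A i := by
  unfold wI; positivity

/-- Numerical facts about an index. -/
theorem facts {M : O} [Fintype (Chr M)] {R Λ L A Q La Lb l : ℝ} (hR : 1 ≤ R) (hA : 1 ≤ A)
    (hQ : 1 ≤ Q) (hLa : 1 ≤ La) (hLb : 1 ≤ Lb) (hl : 1 ≤ l) (hL : L = Q * La * Lb)
    (hLR : l * L ^ 7 ≤ R) (hΛ : 1 ≤ Λ) (hΛR : Λ ≤ R) {g e h z : O} {u : O × O × O} {ψ : Chr M}
    (hi : (⟨g, e, h, u, ψ, z⟩ : Ix M) ∈ ixs M R Λ L A Q La Lb) :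
    ∃ q x y : ℝ, q = Q / nr u.1 ∧ x = La / nr u.2.1 ∧ y = Lb / nr u.2.2 ∧ 1 ≤ q ∧ 1 ≤ y ∧ y ≤ x ∧
      x ≤ La ∧ y ≤ Lb ∧ q ≤ Q ∧ L / nr g = nr h * q * x * y ∧
      1 ≤ XI Λ L A La l (⟨g, e, h, u, ψ, z⟩ : Ix M) ∧
      XI Λ L A La l (⟨g, e, h, u, ψ, z⟩ : Ix M) ≤ R ^ 2 := by
  have hR0 : 0 ≤ R := by linarith
  obtain ⟨hg, he, hK, hh, hu, hz⟩ := of_mem_ixs hi
  obtain ⟨-, hg0, hg1, hgR⟩ := of_mem_sp hR0 hg
  obtain ⟨-, hh0, hh1, hhR⟩ := of_mem_sp hR0 hh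
  obtain ⟨-, -, he1, heg, -⟩ := of_mem_pdiv hg0 he
  obtain ⟨-, hu1, hu2, hu3, hu4, hu5, hu6, hu7, hu8⟩ := of_mem_Uh (mul_ne_zero hg0 hh0) hu
  have hy : 1 ≤ Lb / nr u.2.2 := (one_le_div (by linarith)).2 hu7
  have hx : La / nr u.2.1 ≤ La := div_le_self (by linarith) hu2
  have hL1 : 1 ≤ L := by rw [hL]; exact one_le_mul_of_one_le_of_one_le (by nlinarith) hLb
  have hLaL : La ≤ L := by
    rw [hL]
    have : 1 ≤ Q * Lb := by nlinarith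
    nlinarith
  refine ⟨_, _, _, rfl, rfl, rfl, (one_le_div (by linarith)).2 hu5, hy, hu8, hx,
    div_le_self (by linarith) hu3, div_le_self (by linarith) hu1, ?_, ?_, ?_⟩
  · have e1 := congrArg nr hu4
    rw [nr_mul, nr_mul, nr_mul] at e1
    rw [hL]
    field_simp
    linarith
  · unfold XI
    have : 1 ≤ (La / nr u.2.1) ^ 4 := one_le_pow₀ (hy.trans hu8)
    exact one_le_mul_of_one_le_of_one_le (one_le_mul_of_one_le_of_one_le hl hK) this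
  · unfold XI K0
    simp only
    have a1 : nr e * (L / nr g) ^ 2 ≤ L ^ 2 := by
      calc nr e * (L / nr g) ^ 2 ≤ nr g * (L / nr g) ^ 2 := by gcongr
        _ = L ^ 2 / nr g := by field_simp
        _ ≤ L ^ 2 := div_le_self (by positivity) hg1
    have a2 : Λ * nr e * (L / nr g) ^ 2 / A ≤ R * L ^ 2 := by
      refine (div_le_self (by positivity) hA).trans ?_
      rw [mul_assoc]
      gcongr
    have a3 : (La / nr u.2.1) ^ 4 ≤ L ^ 4 := by gcongr; exact hx.trans hLaL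
    calc _ ≤ l * (R * L ^ 2) * L ^ 4 := by gcongr
      _ = R * (l * L ^ 6) := by ring
      _ ≤ R * (l * L ^ 7) := by gcongr; norm_num
      _ ≤ R * R := by gcongr
      _ = R ^ 2 := by ring

/-- Embedding of the rows. -/
theorem embed {M : O} (hM : Adm M) [Fintype (Chr M)] {σ : ℝ} (hσ : 0 < σ) : ∃ C : ℝ, 0 < C ∧
    ∀ (R Λ L A Q La Lb l : ℝ) (β : O → ℂ) (w : ℂ), 1 ≤ R → 1 ≤ A → 1 ≤ Q → 1 ≤ La → 1 ≤ Lb → 1 ≤ l →
      L = Q * La * Lb → l * L ^ 7 ≤ R → 1 ≤ Λ → Λ ≤ R →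
      ∑ g ∈ sp M R, ∑ e ∈ pdiv g, ∑ h ∈ sp M R, A / (nr e * nr h) *
          ∑ k ∈ rows (K0 Λ L A g e), term M R Q La Lb β w g e h k ≤
        C * (R ^ σ) ^ 2 *
          ∑ i ∈ ixs M R Λ L A Q La Lb, wI A i * Dq M R 1 (βI β w i) (XI Λ L A La l i) := by
  classical
  obtain ⟨C, hC, hE⟩ := embed_rows hσ
  refine ⟨C, hC, fun R Λ L A Q La Lb l β w hR hA hQ hLa hLb hl hL hLR hΛ hΛR => ?_⟩
  rw [sum_ixs, mul_sum]
  refine sum_le_sum fun g hg => ?_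
  rw [← sum_filter_of_ne (p := fun e => 1 ≤ K0 Λ L A g e) (fun e _ hne => by
    by_contra hlt
    rw [rows_eq_empty (not_le.1 hlt)] at hne
    simp at hne), mul_sum]
  refine sum_le_sum fun e he => ?_
  rw [mul_sum]
  refine sum_le_sum fun h hh => ?_
  unfold term
  rw [sum_comm, mul_sum, mul_sum]
  refine sum_le_sum fun u hu => ?_
  rw [sum_comm, mul_sum, mul_sum]
  refine sum_le_sum fun ψ _ => ?_
  rw [sum_comm, sum_congr rfl fun _ _ => sum_comm, sum_comm, mul_sum, mul_sum]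
  refine sum_le_sum fun z hz => ?_
  have hi : (⟨g, e, h, u, ψ, z⟩ : Ix M) ∈ ixs M R Λ L A Q La Lb := by
    simp only [ixs, mem_sigma, mem_univ, true_and]
    exact ⟨hg, he, hh, hu, hz⟩
  obtain ⟨q, x, y, -, hx, -, -, hy1, hyx, -, -, -, -, hX1, hXR⟩ :=
    facts hR hA hQ hLa hLb hl hL hLR hΛ hΛR hi
  have hK := (mem_filter.1 he).2
  have h1 := hE M (K0 Λ L A g e) (La / nr u.2.1) (XI Λ L A La l (⟨g, e, h, u, ψ, z⟩ : Ix M))
    (fun k => ‖rowS M R 1 (βI β w (⟨g, e, h, u, ψ, z⟩ : Ix M)) k‖ ^ 2) (fun k => sq_nonneg _) hK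
    (by rw [← hx]; linarith) (by
      unfold XI
      rw [mul_assoc]
      exact le_mul_of_one_le_left (by positivity) hl) (summable_row _ _ _ _ (by linarith))
  have h2 : ∑ za ∈ sp M (La / nr u.2.1), ∑ k ∈ rows (K0 Λ L A g e),
      ‖rowS M R 1 (mid β u.1 (g * h) (e * h ^ 2 * (za * z) ^ 2) ψ w) k‖ ^ 2 =
      ∑ za ∈ sp M (La / nr u.2.1), ∑ k ∈ rows (K0 Λ L A g e),
        ‖rowS M R 1 (βI β w (⟨g, e, h, u, ψ, z⟩ : Ix M)) (k * za ^ 4)‖ ^ 2 := by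
    refine sum_congr rfl fun za _ => sum_congr rfl fun k _ => ?_
    rw [show e * h ^ 2 * (za * z) ^ 2 = e * h ^ 2 * z ^ 2 * za ^ 2 by ring, rowS_mid_move hM]
    rfl
  have h3 := rp hR hσ.le (by linarith : 0 ≤ XI Λ L A La l (⟨g, e, h, u, ψ, z⟩ : Ix M)) 2 1 hXR
  rw [Nat.cast_one, one_mul, mul_one] at h3
  have h4 : 0 ≤ Dq M R 1 (βI β w (⟨g, e, h, u, ψ, z⟩ : Ix M))
      (XI Λ L A La l (⟨g, e, h, u, ψ, z⟩ : Ix M)) :=
    tsum_nonneg fun k => mul_nonneg (gw_pos _).le (sq_nonneg _)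
  rw [h2, mul_left_comm]
  refine mul_le_mul_of_nonneg_left (h1.trans ?_) (by positivity)
  exact mul_le_mul_of_nonneg_right (mul_le_mul_of_nonneg_left h3 hC.le) h4

/-- The total weight of the diagonal terms. -/
theorem diag_weight {M : O} [Fintype (Chr M)] {σ : ℝ} (hσ : 0 < σ) : ∃ C : ℝ, 0 < C ∧
    ∀ (R L A Q La Lb l Y : ℝ), 1 ≤ R → 1 ≤ A → 1 ≤ Q → 1 ≤ La → 1 ≤ Lb → 1 ≤ l →
      L = Q * La * Lb → l * L ^ 7 ≤ R → σ ≤ 1 → La ^ 4 * min La Lb ≤ Y →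
      ∑ i ∈ ixs M R (R ^ σ) L A Q La Lb, wI A i * XI (R ^ σ) L A La l i ≤
        C * (R ^ σ) ^ 11 * (l * L ^ 2 * Y) := by
  obtain ⟨Cd, hCd, hd⟩ := card_pdiv_le' hσ
  obtain ⟨Ch, hCh, hh⟩ := sum_sp_inv_le hσ
  refine ⟨Ch ^ 2 * Cd ^ 4 * (Fintype.card (Chr M) + 1) * 7, by positivity,
    fun R L A Q La Lb l Y hR hA hQ hLa hLb hl hL hLR hσ1 hY => ?_⟩
  have hΛ : 1 ≤ R ^ σ := Real.one_le_rpow hR hσ.le
  have hΛR : R ^ σ ≤ R := by
    simpa using Real.rpow_le_rpow_of_exponent_le hR hσ1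
  have hY0 : 0 ≤ Y := le_trans (by positivity) hY
  have hL0 : 0 ≤ L := by rw [hL]; positivity
  refine (sum_ixs_diag (c := R ^ σ * (l * L ^ 2 * Y)) hR (by linarith) (by positivity)
    (fun n hn h => hd R n hn h hR) (hh M R hR) _ ?_).trans ?_
  · intro g e h u ψ z hi
    obtain ⟨q, x, y, -, hx, hy, -, hy1, hyx, hxL, hyL, -, -, -, -⟩ :=
      facts hR hA hQ hLa hLb hl hL hLR hΛ hΛR hi
    obtain ⟨hg, he, -, hh, -, -⟩ := of_mem_ixs hi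
    obtain ⟨-, hg0, hg1, -⟩ := of_mem_sp (by linarith) hg
    obtain ⟨-, -, hh1, -⟩ := of_mem_sp (by linarith) hh
    obtain ⟨-, -, he1, -, -⟩ := of_mem_pdiv hg0 he
    unfold wI XI K0
    simp only
    rw [← hx, ← hy]
    have a1 : x ^ 4 * y ≤ Y := by
      refine le_trans ?_ hY
      have : y ≤ min La Lb := le_min (hyx.trans hxL) hyL
      have : 0 ≤ x := by linarith
      gcongr
    calc _ = (nr g)⁻¹ * ((nr h)⁻¹ * (R ^ σ * (l * L ^ 2 * (x ^ 4 * y)))) / nr g := by field_simp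
      _ ≤ (nr g)⁻¹ * ((nr h)⁻¹ * (R ^ σ * (l * L ^ 2 * (x ^ 4 * y)))) := by
          have : 0 ≤ x := by linarith
          exact div_le_self (by positivity) hg1
      _ ≤ _ := by gcongr
  · calc _ = Ch ^ 2 * Cd ^ 4 * Fintype.card (Chr M) * 7 * (R ^ σ) ^ 11 * (l * L ^ 2 * Y) := by ring
      _ ≤ _ := by gcongr; linarith

/-- The off-diagonal terms of the second step. -/
theorem off {M : O} (hM : Adm M) [Fintype (Chr M)] {σ : ℝ} (hσ : 0 < σ) (hσ8 : σ ≤ 1 / 8) (J : ℕ) :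
    ∃ C : ℝ, 0 < C ∧ ∀ (R L A Q La Lb l F Λ₁ u u' : ℝ) (β : O → ℂ) (Φ : ℝ → O → ℝ) (ψ' : Chr M),
      1 ≤ R → 1 ≤ A → 1 ≤ Q → 1 ≤ La → 1 ≤ Lb → 1 ≤ l → 0 ≤ F → A ≤ R →
      L = Q * La * Lb → l * L ^ 7 ≤ R → Supp M Q β → (∀ v a, 0 ≤ Φ v a) →
      H1 M R Q (A / l) β Φ → H2 A (A / l) Λ₁ F J Φ → l * La ^ 6 ≤ Λ₁ →
      ∑ i ∈ ixs M R (R ^ σ) L A Q La Lb, wI A i *
        OD M R 1 5 (βI β (-(1 / 2) + σ + u * Complex.I) i) (XI (R ^ σ) L A La l i) (LI Q i) (R ^ σ)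
          ψ' (-(1 / 2) + σ + u' * Complex.I) ≤
        C * (R ^ σ) ^ 27 * (L * (F * A)) * (1 + |u|) ^ J * (1 + |u'|) ^ J := by
  obtain ⟨Cd, hCd, hd⟩ := card_pdiv_le' hσ
  obtain ⟨Ch, hCh, hh⟩ := sum_sp_inv_le hσ
  obtain ⟨C, hC, hp⟩ := dual_phi hM
  refine ⟨Ch ^ 2 * Cd ^ 8 * (Fintype.card (Chr M) + 1) * C, by positivity,
    fun R L A Q La Lb l F Λ₁ u u' β Φ ψ' hR hA hQ hLa hLb hl hF hAR hL hLR hβ hΦ h1 h2 hΛ₁ => ?_⟩
  have hR0 : 0 ≤ R := by linarith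
  have hΛ : 1 ≤ R ^ σ := Real.one_le_rpow hR hσ.le
  have hΛR : R ^ σ ≤ R := by
    simpa using Real.rpow_le_rpow_of_exponent_le hR (by linarith : σ ≤ 1)
  have hL1 : 1 ≤ L := by rw [hL]; exact one_le_mul_of_one_le_of_one_le (by nlinarith) hLb
  have hQR : Q ≤ R := by
    have a1 : Q ≤ L := by
      rw [hL, mul_assoc]
      exact le_mul_of_one_le_right (by linarith) (by nlinarith)
    have a2 : L ≤ L ^ 7 := le_self_pow₀ hL1 (by norm_num)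
    have a3 : L ^ 7 ≤ l * L ^ 7 := le_mul_of_one_le_left (by positivity) hl
    linarith
  have hΛ0 : 0 ≤ Λ₁ := le_trans (by positivity) hΛ₁
  have hAl : 0 ≤ A / l := by positivity
  set ρ := R ^ σ with hρ
  simp only [OD, mul_sum (s := pdiv _), mul_sum (s := sp M R)]
  refine (sum_ixs_off (c := C * ρ ^ 9 * L) hR (by positivity) (fun n hn h => hd R n hn h hR)
    (hh M R hR) (rows (A / l)) (fun a ha => ?_) (fun a => min (A / nr a) Λ₁ * Φ (u + u') a)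
    (fun a _ => mul_nonneg (le_min (by positivity) hΛ0) (hΦ _ _)) _ ?_).trans ?_
  · refine ⟨(of_mem_rows hAl ha).1, (of_mem_rows hAl ha).2.trans ?_⟩
    have : A / l ≤ A := div_le_self (by linarith) hl
    nlinarith
  · intro g e h u₀ ψ z hi g' hg' e' he' h' hh'
    obtain ⟨q, x, y, hq, hx, hy, hq1, hy1, hyx, hxL, hyL, -, hLg, hX1, -⟩ :=
      facts hR hA hQ hLa hLb hl hL hLR hΛ hΛR hi
    obtain ⟨hg, he, -, hh, hu, hz⟩ := of_mem_ixs hi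
    obtain ⟨hgp, hg0, hg1, hgR⟩ := of_mem_sp hR0 hg
    obtain ⟨hhp, hh0, hh1, hhR⟩ := of_mem_sp hR0 hh
    obtain ⟨-, hg0', hg1', -⟩ := of_mem_sp hR0 hg'
    obtain ⟨-, -, hh1', -⟩ := of_mem_sp hR0 hh'
    obtain ⟨-, he0, he1, -, -⟩ := of_mem_pdiv hg0 he
    obtain ⟨-, he0', he1', -, hed⟩ := of_mem_pdiv hg0' he'
    obtain ⟨hup, -, -, -, hu4, hu5, -, -, -⟩ := of_mem_Uh (mul_ne_zero hg0 hh0) hu
    rw [← hy] at hz
    obtain ⟨-, hz0, hz1, hzy⟩ := of_mem_sp (by linarith) hz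
    have hx1 : 1 ≤ x := hy1.trans hyx
    have hge : e' * (g' / e') = g' := EuclideanDomain.mul_div_cancel' he0' hed
    have hge0 : g' / e' ≠ 0 := fun h0 => hg0' (by rw [← hge, h0, mul_zero])
    have hgen : nr (g' / e') = nr g' / nr e' := by
      rw [eq_div_iff (by linarith), mul_comm, ← nr_mul, hge]
    set y₀ : O := e * h ^ 2 * z ^ 2 * (g' * (g' / e')) with hy₀
    have hy00 : y₀ ≠ 0 := mul_ne_zero (mul_ne_zero (mul_ne_zero he0 (pow_ne_zero _ hh0))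
      (pow_ne_zero _ hz0)) (mul_ne_zero hg0' hge0)
    have eX : XI ρ L A La l (⟨g, e, h, u₀, ψ, z⟩ : Ix M) =
        l * (ρ * nr e * (nr h * q * x * y) ^ 2 / A) * x ^ 4 := by
      unfold XI K0
      simp only
      rw [hLg, ← hx]
    have eL : LI Q (⟨g, e, h, u₀, ψ, z⟩ : Ix M) = q := hq.symm
    rw [eL]
    set X := XI ρ L A La l (⟨g, e, h, u₀, ψ, z⟩ : Ix M) with hX
    have hrow : ∀ m ∈ rows (ρ * nr e' * (q / nr g') ^ 2 / X), m ≠ 0 ∧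
        nr (m * y₀) * (l * x ^ 6) ≤ A := by
      intro m hm
      obtain ⟨hm0, hm⟩ := of_mem_rows (by positivity) hm
      refine ⟨hm0, ?_⟩
      rw [nr_mul, hy₀, nr_mul, nr_mul, nr_mul, nr_mul, nr_pow, nr_pow, hgen]
      calc _ ≤ ρ * nr e' * (q / nr g') ^ 2 / X *
            (nr e * nr h ^ 2 * y ^ 2 * (nr g' * (nr g' / nr e'))) * (l * x ^ 6) := by gcongr
        _ = A := by rw [eX]; field_simp
    have hx6 : 1 ≤ x ^ 6 := one_le_pow₀ hx1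
    have hmem : ∀ m ∈ rows (ρ * nr e' * (q / nr g') ^ 2 / X), nr (m * y₀) ≤ A / l := by
      intro m hm
      rw [le_div_iff₀ (by linarith)]
      refine le_trans ?_ (hrow m hm).2
      gcongr
      exact le_mul_of_one_le_right (by linarith) hx6
    have hsum := sum_mul_le (rows (ρ * nr e' * (q / nr g') ^ 2 / X)) (rows (A / l)) hy00
      (fun m hm => mem_rows' (mul_ne_zero (hrow m hm).1 hy00) (hmem m hm))
      (fun a => min (A / nr a) Λ₁ * Φ (u + u') a) (fun a => chi g' a * (chi z a * chi h a))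
      (fun a _ => mul_nonneg (le_min (by positivity) hΛ0) (hΦ _ _))
      (fun a => mul_nonneg (chi_nonneg _ _) (mul_nonneg (chi_nonneg _ _) (chi_nonneg _ _)))
      (fun a ha => by
        rw [chi_of_dvd (Dvd.dvd.trans ⟨e * h ^ 2 * z ^ 2 * (g' / e'), by rw [hy₀]; ring⟩ ha),
          chi_of_dvd (Dvd.dvd.trans ⟨e * h ^ 2 * z * (g' * (g' / e')), by rw [hy₀]; ring⟩ ha),
          chi_of_dvd (Dvd.dvd.trans ⟨e * h * z ^ 2 * (g' * (g' / e')), by rw [hy₀]; ring⟩ ha)]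
        norm_num)
    simp only [mul_assoc (chi g' _), mul_assoc (chi z _)] at hsum
    refine le_trans ?_ (mul_le_mul_of_nonneg_left (mul_le_mul_of_nonneg_left hsum
      (by positivity)) (by positivity))
    rw [mul_sum, mul_sum, mul_sum, mul_sum]
    refine sum_le_sum fun m hm => ?_
    have ha0 : m * y₀ ≠ 0 := mul_ne_zero (hrow m hm).1 hy00
    have hb := hp R Q (A / l) σ u u' β Φ u₀.1 (g * h) (e * h ^ 2 * z ^ 2) g' e' h' m ψ ψ' hR hσ hσ8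
      hQR hβ hΦ h1 hup (hgp.mul hhp) ⟨u₀.2.1 * u₀.2.2, by rw [← hu4]; ring⟩
      (by rw [nr_mul, sq]; gcongr) hu5 hg' hh' he' ha0 (hmem m hm)
    rw [← hq, ← hy₀, ← hρ] at hb
    have hmin : l * x ^ 6 ≤ min (A / nr (m * y₀)) Λ₁ := by
      refine le_min ?_ (le_trans (by gcongr) hΛ₁)
      rw [le_div_iff₀ (nr_pos ha0), mul_comm]
      exact (hrow m hm).2
    have hΦ0 := hΦ (u + u') (m * y₀)
    have hw0 : 0 ≤ wI A (⟨g, e, h, u₀, ψ, z⟩ : Ix M) := wI_nonneg (by linarith) _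
    have eg : (nr g)⁻¹ * L = nr h * q * x * y := by rw [← hLg]; ring
    calc _ ≤ wI A (⟨g, e, h, u₀, ψ, z⟩ : Ix M) * (X / (nr e' * nr h') *
          (C * ρ ^ 8 / q * Φ (u + u') (m * y₀))) := by
          refine mul_le_mul_of_nonneg_left (mul_le_mul_of_nonneg_left hb (by positivity)) hw0
      _ = (nr h')⁻¹ * (C * ρ ^ 9 * (nr h * q * x * y) * (l * (x ^ 5 * y) * Φ (u + u') (m * y₀))) /
            nr e' := by
          rw [eX]
          unfold wI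
          simp only
          field_simp
      _ ≤ (nr h')⁻¹ * (C * ρ ^ 9 * (nr h * q * x * y) * (l * (x ^ 5 * y) * Φ (u + u') (m * y₀))) :=
          div_le_self (by positivity) he1'
      _ ≤ (nr h')⁻¹ * (C * ρ ^ 9 * (nr h * q * x * y) *
            (min (A / nr (m * y₀)) Λ₁ * Φ (u + u') (m * y₀))) := by
          gcongr
          refine le_trans ?_ hmin
          rw [show x ^ 6 = x ^ 5 * x by ring]
          gcongr
      _ = _ := by rw [← eg]; ring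
  · have a1 := h2 (u + u')
    have a2 : (1 + |u + u'|) ^ J ≤ (1 + |u|) ^ J * (1 + |u'|) ^ J := by
      rw [← mul_pow]
      gcongr
      have := abs_add_le u u'
      have := abs_nonneg u
      have := abs_nonneg u'
      nlinarith
    calc _ ≤ (Ch * ρ) ^ 2 * (Cd * ρ ^ 2) ^ 8 * (Fintype.card (Chr M) + 1) * (C * ρ ^ 9 * L) *
          (F * A * ((1 + |u|) ^ J * (1 + |u'|) ^ J)) := by
          refine mul_le_mul ?_ (a1.trans (by gcongr)) (sum_nonneg fun a _ =>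
            mul_nonneg (le_min (by positivity) hΛ0) (hΦ _ _)) (by positivity)
          gcongr
          linarith
      _ = _ := by ring

/-- One half of the dual sum of the first step. -/
theorem half {M : O} (hM : Adm M) [Fintype (Chr M)] {σ : ℝ} (hσ : 0 < σ) (hσ8 : σ ≤ 1 / 8)
    (J : ℕ) : ∃ C : ℝ, 0 < C ∧ ∀ (R L A Q La Lb l b F Λ₁ Y u : ℝ) (β : O → ℂ) (Φ : ℝ → O → ℝ),
      1 ≤ R → 1 ≤ A → 1 ≤ Q → 1 ≤ La → 1 ≤ Lb → 1 ≤ l → 0 ≤ F → A ≤ R →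
      L = Q * La * Lb → l * L ^ 7 ≤ R → Supp M Q β → (∀ n, ‖β n‖ ≤ b) → (∀ v a, 0 ≤ Φ v a) →
      H1 M R Q (A / l) β Φ → H2 A (A / l) Λ₁ F J Φ → l * La ^ 6 ≤ Λ₁ → La ^ 4 * min La Lb ≤ Y →
      ∑ g ∈ sp M R, ∑ e ∈ pdiv g, ∑ h ∈ sp M R, A / (nr e * nr h) *
          ∑ k ∈ rows (K0 (R ^ σ) L A g e),
            term M R Q La Lb β (-(1 / 2) + σ + u * Complex.I) g e h k ≤
        C * (R ^ σ) ^ 33 * (L * (b ^ 2 * (l * L * Y) + F * A)) * (1 + |u|) ^ J := by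
  obtain ⟨Ce, hCe, he⟩ := embed hM hσ
  obtain ⟨Cw, hCw, hw⟩ := diag_weight (M := M) hσ
  obtain ⟨Co, hCo, ho⟩ := off hM hσ hσ8 J
  obtain ⟨Cs, hCs, hs⟩ := sum_sp_rpow_le (σ := 2 * σ) (by linarith)
  obtain ⟨Cp, hCp, hp⟩ := poisson_family hM hσ (by linarith) J (9 / σ)
  refine ⟨Ce * (Cw * Cs + Cp * Co + Cp * (49 * Cw)), by positivity,
    fun R L A Q La Lb l b F Λ₁ Y u β Φ hR hA hQ hLa hLb hl hF hAR hL hLR hβ hb hΦ h1 h2 hΛ₁ hY => ?_⟩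
  have hR0 : 0 ≤ R := by linarith
  have hΛ : 1 ≤ R ^ σ := Real.one_le_rpow hR hσ.le
  have hΛR : R ^ σ ≤ R := by
    simpa using Real.rpow_le_rpow_of_exponent_le hR (by linarith : σ ≤ 1)
  have hL1 : 1 ≤ L := by rw [hL]; exact one_le_mul_of_one_le_of_one_le (by nlinarith) hLb
  have hQR : Q ≤ R := by
    have a1 : Q ≤ L := by
      rw [hL, mul_assoc]
      exact le_mul_of_one_le_right (by linarith) (by nlinarith)
    have a2 : L ≤ L ^ 7 := le_self_pow₀ hL1 (by norm_num)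
    have a3 : L ^ 7 ≤ l * L ^ 7 := le_mul_of_one_le_left (by positivity) hl
    linarith
  have hb0 : 0 ≤ b := (norm_nonneg _).trans (hb 0)
  have hY0 : 0 ≤ Y := le_trans (by positivity) hY
  set w : ℂ := -(1 / 2) + σ + u * Complex.I with hw'
  have hre : w.re = -(1 / 2) + σ := by simp [hw']
  have b1 := he R (R ^ σ) L A Q La Lb l β w hR hA hQ hLa hLb hl hL hLR hΛ hΛR
  have b2 := hw R L A Q La Lb l Y hR hA hQ hLa hLb hl hL hLR (by linarith) hY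
  have hfac : ∀ i ∈ ixs M R (R ^ σ) L A Q La Lb, Supp M (LI Q i) (βI β w i) ∧ LI Q i ≤ R ∧
      1 ≤ XI (R ^ σ) L A La l i ∧ XI (R ^ σ) L A La l i ≤ R ^ 2 := by
    rintro ⟨g, e, h, u₀, ψ, z⟩ hi
    obtain ⟨q, x, y, hq, -, -, -, -, -, -, -, hqQ, -, hX1, hX2⟩ :=
      facts hR hA hQ hLa hLb hl hL hLR hΛ hΛR hi
    obtain ⟨hg, -, -, hh, hu, -⟩ := of_mem_ixs hi
    have hup := (of_mem_Uh (mul_ne_zero (of_mem_sp hR0 hg).2.1 (of_mem_sp hR0 hh).2.1) hu).1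
    exact ⟨supp_mid hβ hup _ _ _ _, le_trans (le_of_eq hq.symm) (hqQ.trans hQR), hX1, hX2⟩
  have b3 := hp (ixs M R (R ^ σ) L A Q La Lb) (wI A) (βI β w) (XI (R ^ σ) L A La l) (LI Q) 1 5 R
    (R ^ σ) (Co * (R ^ σ) ^ 27 * (L * (F * A)) * (1 + |u|) ^ J) (Or.inl ⟨rfl, rfl⟩) hR hΛ
    (fun i _ => wI_nonneg (by linarith) i)
    (fun i hi => ⟨(hfac i hi).1, (hfac i hi).2.1,
      (inv_le_one_of_one_le₀ hR).trans (hfac i hi).2.2.1, (hfac i hi).2.2.2⟩)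
    (fun ψ' u' => ho R L A Q La Lb l F Λ₁ u u' β Φ ψ' hR hA hQ hLa hLb hl hF hAR hL hLR hβ hΦ h1 h2
      hΛ₁)
  have e4 : R ^ (4 * σ) = (R ^ σ) ^ 4 := by
    rw [← Real.rpow_mul_natCast hR0]; congr 1; push_cast; ring
  have e2 : R ^ (2 * σ) = (R ^ σ) ^ 2 := by
    rw [← Real.rpow_mul_natCast hR0]; congr 1; push_cast; ring
  rw [e4, mul_assoc Cp (R ^ (7 : ℝ)), tail_eq hR hσ] at b3
  have c1 : ∀ i : Ix M, ∑ n ∈ sp M R, ‖βI β w i n‖ ^ 2 ≤ b ^ 2 * (Cs * (R ^ σ) ^ 2) := by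
    intro i
    rw [← e2]
    refine le_trans ?_ (mul_le_mul_of_nonneg_left (hs M R hR) (by positivity))
    rw [mul_sum]
    refine sum_le_sum fun n hn => ?_
    have h0 := (of_mem_sp hR0 hn).2.2.1
    refine (pow_le_pow_left₀ (norm_nonneg _) (norm_mid_le hM hR0 hb _ _ _ _ _ hn) 2).trans
      (le_of_eq ?_)
    rw [mul_pow, ← Real.rpow_mul_natCast (by linarith), hre]
    congr 2
    push_cast
    ring
  have c2 : ∀ i : Ix M, ∑ n ∈ sp M R, ‖βI β w i n‖ ≤ 7 * R * b := by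
    intro i
    refine sum_le_card_mul _ _ hb0 (card_sp_le M hR0) fun n hn => ?_
    refine (norm_mid_le hM hR0 hb _ _ _ _ _ hn).trans (mul_le_of_le_one_right hb0 ?_)
    exact Real.rpow_le_one_of_one_le_of_nonpos (of_mem_sp hR0 hn).2.2.1 (by rw [hre]; linarith)
  set W := ∑ i ∈ ixs M R (R ^ σ) L A Q La Lb, wI A i * XI (R ^ σ) L A La l i with hW
  have d1 : ∑ i ∈ ixs M R (R ^ σ) L A Q La Lb, wI A i *
      (XI (R ^ σ) L A La l i * ∑ n ∈ sp M R, ‖βI β w i n‖ ^ 2) ≤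
      W * (b ^ 2 * (Cs * (R ^ σ) ^ 2)) := by
    rw [hW, sum_mul]
    refine sum_le_sum fun i hi => ?_
    rw [mul_assoc]
    have := (hfac i hi).2.2.1
    exact mul_le_mul_of_nonneg_left (mul_le_mul_of_nonneg_left (c1 i) (by linarith))
      (wI_nonneg (by linarith) i)
  have d2 : ∑ i ∈ ixs M R (R ^ σ) L A Q La Lb, wI A i * (∑ n ∈ sp M R, ‖βI β w i n‖) ^ 2 ≤
      W * (7 * R * b) ^ 2 := by
    rw [hW, sum_mul]
    refine sum_le_sum fun i hi => ?_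
    rw [mul_assoc]
    refine mul_le_mul_of_nonneg_left ?_ (wI_nonneg (by linarith) i)
    refine (pow_le_pow_left₀ (sum_nonneg fun _ _ => norm_nonneg _) (c2 i) 2).trans ?_
    exact le_mul_of_one_le_left (by positivity) (hfac i hi).2.2.1
  set ρ := R ^ σ with hρ
  set T := L * (b ^ 2 * (l * L * Y) + F * A) * (1 + |u|) ^ J with hT
  have hu1 : 1 ≤ (1 + |u|) ^ J := one_le_pow₀ (by linarith [abs_nonneg u])
  have t1 : l * L ^ 2 * Y * b ^ 2 ≤ T := by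
    calc l * L ^ 2 * Y * b ^ 2 = L * (b ^ 2 * (l * L * Y) + 0) * 1 := by ring
      _ ≤ T := by rw [hT]; gcongr; positivity
  have t2 : L * (F * A) * (1 + |u|) ^ J ≤ T := by
    calc L * (F * A) * (1 + |u|) ^ J = L * (0 + F * A) * (1 + |u|) ^ J := by ring
      _ ≤ T := by rw [hT]; gcongr; positivity
  have hT0 : 0 ≤ T := le_trans (by positivity) t2
  have p1 : ρ ^ 13 ≤ ρ ^ 31 := pow_le_pow_right₀ hΛ (by norm_num)
  have p2 : ρ ^ 11 ≤ ρ ^ 31 := pow_le_pow_right₀ hΛ (by norm_num)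
  have f1 : W * (b ^ 2 * (Cs * ρ ^ 2)) ≤ Cw * Cs * ρ ^ 31 * T := by
    calc _ ≤ Cw * ρ ^ 11 * (l * L ^ 2 * Y) * (b ^ 2 * (Cs * ρ ^ 2)) := by gcongr
      _ = Cw * Cs * ρ ^ 13 * (l * L ^ 2 * Y * b ^ 2) := by ring
      _ ≤ _ := by gcongr
  have f2 : Cp * ρ ^ 4 * (Co * ρ ^ 27 * (L * (F * A)) * (1 + |u|) ^ J) ≤ Cp * Co * ρ ^ 31 * T := by
    calc _ = Cp * Co * ρ ^ 31 * (L * (F * A) * (1 + |u|) ^ J) := by ring
      _ ≤ _ := by gcongr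
  have f3 : Cp * (R ^ 2)⁻¹ * (W * (7 * R * b) ^ 2) ≤ Cp * (49 * Cw) * ρ ^ 31 * T := by
    calc _ ≤ Cp * (R ^ 2)⁻¹ * (Cw * ρ ^ 11 * (l * L ^ 2 * Y) * (7 * R * b) ^ 2) := by gcongr
      _ = Cp * (49 * Cw) * ρ ^ 11 * (l * L ^ 2 * Y * b ^ 2) := by field_simp; ring
      _ ≤ _ := by gcongr
  have f4 := mul_le_mul_of_nonneg_left d2 (by positivity : 0 ≤ Cp * (R ^ 2)⁻¹)
  calc _ ≤ _ := b1
    _ ≤ Ce * ρ ^ 2 * ((Cw * Cs + Cp * Co + Cp * (49 * Cw)) * ρ ^ 31 * T) := by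
        refine mul_le_mul_of_nonneg_left (b3.trans ?_) (by positivity)
        linarith
    _ = _ := by rw [hT]; ring

end GC

/-- **Core estimate.** -/
theorem gcore {M : O} (hM : Adm M) {ε : ℝ} (hε : 0 < ε) (J : ℕ) : ∃ C : ℝ, 0 < C ∧
    ∀ (R A Q L₁ L₂ l b F : ℝ) (β c₁ c₂ : O → ℂ) (Φ : ℝ → O → ℝ), 1 ≤ A → 1 ≤ Q → 1 ≤ L₁ → 1 ≤ L₂ →
      1 ≤ l → 1 ≤ b → 0 ≤ F → A ≤ R → l * (Q * L₁ * L₂) ^ 7 ≤ R →
      Supp M Q β → Supp M L₁ c₁ → Supp M L₂ c₂ →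
      (∀ n, ‖β n‖ ≤ b) → (∀ n, ‖c₁ n‖ ≤ 1) → (∀ n, ‖c₂ n‖ ≤ 1) → (∀ v a, 0 ≤ Φ v a) →
      H1 M R Q (A / l) β Φ → H2 A (A / l) (l * max L₁ L₂ ^ 6) F J Φ →
      Dq M R 5 (tri M R β c₁ c₂) A ≤ C * R ^ ε * (Q * L₁ * L₂) *
        (b ^ 2 * (A + l * (Q * L₁ * L₂) * (max L₁ L₂ ^ 4 * min L₁ L₂)) + F * A) := by
  classical
  have := finite_chr hM.1
  have : Fintype (Chr M) := Fintype.ofFinite _
  set σ : ℝ := min (ε / 100) (1 / 8) with hσ'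
  have hσ : 0 < σ := lt_min (by positivity) (by norm_num)
  have hσ8 : σ ≤ 1 / 8 := min_le_right _ _
  have hσε : σ ≤ ε / 100 := min_le_left _ _
  obtain ⟨Cp, hCp, hp⟩ := poisson_family hM hσ (by linarith) J (9 / σ)
  obtain ⟨Ct, hCt, ht⟩ := norm_tri_le hσ
  obtain ⟨Cd, hCd, hd⟩ := dual_tri_le hM hσ
  obtain ⟨Ch, hCh, hh⟩ := GC.half hM hσ hσ8 J
  refine ⟨7 * Ct ^ 2 + Cp * (Cd * (2 * Ch)) + Cp * (49 * Ct ^ 2), by positivity, ?_⟩
  intro R A Q L₁ L₂ l b F β c₁ c₂ Φ hA hQ hL₁ hL₂ hl hb1 hF hAR hLR hβ hc₁ hc₂ hb hb₁ hb₂ hΦ h1 h2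
  set L := Q * L₁ * L₂ with hL
  have hR : 1 ≤ R := hA.trans hAR
  have hR0 : 0 ≤ R := by linarith
  have hL1 : 1 ≤ L := one_le_mul_of_one_le_of_one_le (by nlinarith) hL₂
  have hLR' : L ≤ R := by
    have a2 : L ≤ L ^ 7 := le_self_pow₀ hL1 (by norm_num)
    have a3 : L ^ 7 ≤ l * L ^ 7 := le_mul_of_one_le_left (by positivity) hl
    linarith
  have hΛ : 1 ≤ R ^ σ := Real.one_le_rpow hR hσ.le
  have e4 : R ^ (4 * σ) = (R ^ σ) ^ 4 := by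
    rw [← Real.rpow_mul_natCast hR0]; congr 1; push_cast; ring
  have e10 : R ^ (10 * σ) = (R ^ σ) ^ 10 := by
    rw [← Real.rpow_mul_natCast hR0]; congr 1; push_cast; ring
  have hε' : (R ^ σ) ^ 47 ≤ R ^ ε := by
    rw [← Real.rpow_mul_natCast hR0]
    exact Real.rpow_le_rpow_of_exponent_le hR (by push_cast; linarith)
  set Y := max L₁ L₂ ^ 4 * min L₁ L₂ with hY
  have hm0 : 0 ≤ min L₁ L₂ := le_min (by linarith) (by linarith)
  have hY0 : 0 ≤ Y := by positivity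
  have hsupp := supp_tri (R := R) hβ hc₁ hc₂
  have hOD : ∀ (ψ : Chr M) (u : ℝ), OD M R 5 1 (tri M R β c₁ c₂) A L (R ^ σ) ψ
      (-(1 / 2) + σ + u * Complex.I) ≤ Cd * (2 * Ch) * (R ^ σ) ^ 43 *
        (L * (b ^ 2 * (l * L * Y) + F * A)) * (1 + |u|) ^ J := by
    intro ψ u
    have a1 := hh R L A Q L₁ L₂ l b F _ Y u β Φ hR hA hQ hL₁ hL₂ hl hF hAR rfl hLR hβ hb hΦ h1 h2
      (by gcongr; exact le_max_left _ _) (by rw [hY]; gcongr; exact le_max_left _ _)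
    have a2 := hh R L A Q L₂ L₁ l b F _ Y u β Φ hR hA hQ hL₂ hL₁ hl hF hAR (by rw [hL]; ring) hLR hβ
      hb hΦ h1 h2 (by gcongr; exact le_max_right _ _)
      (by rw [hY, min_comm L₂]; gcongr; exact le_max_right _ _)
    set w : ℂ := -(1 / 2) + σ + u * Complex.I with hw
    have hre : w.re = -(1 / 2) + σ := by simp [hw]
    calc _ ≤ Cd * (R ^ σ) ^ 10 * (∑ g ∈ sp M R, ∑ e ∈ pdiv g, ∑ h ∈ sp M R, A / (nr e * nr h) *
            ∑ k ∈ rows (GC.K0 (R ^ σ) L A g e), GC.term M R Q L₁ L₂ β w g e h k +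
          ∑ g ∈ sp M R, ∑ e ∈ pdiv g, ∑ h ∈ sp M R, A / (nr e * nr h) *
            ∑ k ∈ rows (GC.K0 (R ^ σ) L A g e), GC.term M R Q L₂ L₁ β w g e h k) := by
          unfold OD
          rw [← Finset.sum_add_distrib, Finset.mul_sum]
          refine Finset.sum_le_sum fun g hg => ?_
          rw [← Finset.sum_add_distrib, Finset.mul_sum]
          refine Finset.sum_le_sum fun e _ => ?_
          rw [← Finset.sum_add_distrib, Finset.mul_sum]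
          refine Finset.sum_le_sum fun h hh' => ?_
          rw [← mul_add, ← Finset.sum_add_distrib, mul_left_comm]
          refine mul_le_mul_of_nonneg_left ?_ (by positivity)
          rw [Finset.mul_sum]
          refine Finset.sum_le_sum fun k _ => ?_
          refine (hd R Q L₁ L₂ β c₁ c₂ g e h k ψ w hR hβ hc₁ hc₂ hLR' hQ hL₁ hL₂ hb₁ hb₂ hg hh'
            hre.le).trans ?_
          rw [e10]
          refine mul_le_mul_of_nonneg_left ?_ (by positivity)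
          refine (GC.sum_split Q L₁ L₂ (g * h) _ fun u => by positivity).trans
            (add_le_add (le_of_eq rfl) (le_of_eq ?_))
          unfold GC.term
          refine Finset.sum_congr rfl fun u _ => Finset.sum_congr rfl fun ψ' _ => ?_
          rw [Finset.sum_comm]
          refine Finset.sum_congr rfl fun za _ => Finset.sum_congr rfl fun zb _ => ?_
          rw [mul_comm za zb]
      _ ≤ Cd * (R ^ σ) ^ 10 * (Ch * (R ^ σ) ^ 33 * (L * (b ^ 2 * (l * L * Y) + F * A)) *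
            (1 + |u|) ^ J + Ch * (R ^ σ) ^ 33 * (L * (b ^ 2 * (l * L * Y) + F * A)) *
            (1 + |u|) ^ J) := mul_le_mul_of_nonneg_left (add_le_add a1 a2) (by positivity)
      _ = _ := by ring
  have b1 := hp (I := Unit) {()} (fun _ => 1) (fun _ => tri M R β c₁ c₂) (fun _ => A) (fun _ => L)
    5 1 R (R ^ σ) (Cd * (2 * Ch) * (R ^ σ) ^ 43 * (L * (b ^ 2 * (l * L * Y) + F * A)))
    (Or.inr ⟨rfl, rfl⟩) hR hΛ (fun _ _ => zero_le_one)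
    (fun _ _ => ⟨hsupp, hLR', (inv_le_one_of_one_le₀ hR).trans hA, by nlinarith⟩)
    (fun ψ u => by rw [Finset.sum_singleton, one_mul]; exact hOD ψ u)
  simp only [Finset.sum_singleton, one_mul] at b1
  rw [e4, mul_assoc Cp (R ^ (7 : ℝ)), GC.tail_eq hR hσ] at b1
  have c0 : ∀ n ∈ sp M R, ‖tri M R β c₁ c₂ n‖ ≤ Ct * R ^ σ * b := by
    intro n hn
    obtain ⟨-, hn0, hn1, hnR⟩ := GC.of_mem_sp hR0 hn
    refine (ht M R b β c₁ c₂ hb hb₁ hb₂ n hn0).trans ?_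
    gcongr
  have c1 : ∑ n ∈ sp M R, ‖tri M R β c₁ c₂ n‖ ^ 2 ≤ 7 * L * (Ct * R ^ σ * b) ^ 2 := by
    rw [← Finset.sum_filter_of_ne (p := fun n => n ∈ sp M L) (fun n _ hne =>
      (LS2.mem_sp (by linarith)).2 (hsupp n fun h0 => hne (by rw [h0]; simp)))]
    refine GC.sum_le_card_mul _ _ (by positivity) (le_trans ?_ (GC.card_sp_le M (by linarith)))
      fun n hn => pow_le_pow_left₀ (norm_nonneg _) (c0 n (Finset.mem_filter.1 hn).1) 2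
    exact_mod_cast Finset.card_le_card fun n hn => (Finset.mem_filter.1 hn).2
  have c2 : ∑ n ∈ sp M R, ‖tri M R β c₁ c₂ n‖ ≤ 7 * R * (Ct * R ^ σ * b) :=
    GC.sum_le_card_mul _ _ (by positivity) (GC.card_sp_le M hR0) c0
  set ρ := R ^ σ with hρ
  set T := L * (b ^ 2 * (A + l * L * Y) + F * A) with hT
  have t1 : L * (b ^ 2 * A) ≤ T := by
    calc L * (b ^ 2 * A) = L * (b ^ 2 * (A + 0) + 0) := by ring
      _ ≤ T := by rw [hT]; gcongr <;> positivity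
  have t2 : L * (b ^ 2 * (l * L * Y) + F * A) ≤ T := by
    calc _ = L * (b ^ 2 * (0 + l * L * Y) + F * A) := by ring
      _ ≤ T := by rw [hT]; gcongr; linarith
  have t3 : b ^ 2 ≤ T := by
    refine le_trans ?_ t1
    calc b ^ 2 = 1 * (b ^ 2 * 1) := by ring
      _ ≤ _ := by gcongr
  have hT0 : 0 ≤ T := le_trans (by positivity) t3
  have p1 : ρ ^ 2 ≤ R ^ ε := (pow_le_pow_right₀ hΛ (by norm_num)).trans hε'
  have f1 : A * ∑ n ∈ sp M R, ‖tri M R β c₁ c₂ n‖ ^ 2 ≤ 7 * Ct ^ 2 * R ^ ε * T := by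
    calc _ ≤ A * (7 * L * (Ct * ρ * b) ^ 2) := by gcongr
      _ = 7 * Ct ^ 2 * ρ ^ 2 * (L * (b ^ 2 * A)) := by ring
      _ ≤ _ := by gcongr
  have f2 : Cp * ρ ^ 4 * (Cd * (2 * Ch) * ρ ^ 43 * (L * (b ^ 2 * (l * L * Y) + F * A))) ≤
      Cp * (Cd * (2 * Ch)) * R ^ ε * T := by
    calc _ = Cp * (Cd * (2 * Ch)) * ρ ^ 47 * (L * (b ^ 2 * (l * L * Y) + F * A)) := by ring
      _ ≤ _ := by gcongr
  have f3 : Cp * (R ^ 2)⁻¹ * (∑ n ∈ sp M R, ‖tri M R β c₁ c₂ n‖) ^ 2 ≤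
      Cp * (49 * Ct ^ 2) * R ^ ε * T := by
    calc _ ≤ Cp * (R ^ 2)⁻¹ * (7 * R * (Ct * ρ * b)) ^ 2 := by gcongr
      _ = Cp * (49 * Ct ^ 2) * ρ ^ 2 * b ^ 2 := by field_simp; ring
      _ ≤ _ := by gcongr
  rw [mul_assoc _ L, ← hT]
  linarith

end Crest.Agent.R17
end
end

-- ▼ part PVc/R17/M4BilAuxM
section

/-!
# Row 17, module M4: Möbius expansion in two variables (Euler product form)
-/

set_option autoImplicit false

noncomputable section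

namespace Crest.Agent.R17

/-- exponents of the first variable in the local factor -/
def MBb_e1 (b : Bool) : Fin 6 → ℕ := if b then ![0, 1, 0, 1, 0, 0] else ![0, 2, 1, 0, 2, 1]

/-- exponents of the second variable in the local factor -/
def MBb_e2 (b : Bool) : Fin 6 → ℕ := if b then ![0, 0, 1, 1, 0, 0] else ![0, 0, 1, 2, 1, 2]

/-- coefficients of the local factor -/
def MBb_g (b : Bool) : Fin 6 → ℝ := if b then ![1, -1, -1, 1, 0, 0] else ![1, -1, -1, -1, 1, 1]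

theorem MBb_loc (b : Bool) (x y : ℕ) :
    ∑ k : Fin 6, (if MBb_e1 b k ≤ x ∧ MBb_e2 b k ≤ y then MBb_g b k else 0) =
      if x + y ≤ 1 ∧ (b = true → x + y = 0) then 1 else 0 := by
  rw [Fin.sum_univ_six]
  cases b <;> rcases x with _ | _ | x <;> rcases y with _ | _ | y <;>
    simp [MBb_e1, MBb_e2, MBb_g] <;> omega

theorem MBb_loc2 (b : Bool) {x : ℝ} (h0 : 0 ≤ x) (h1 : x ≤ 1) :
    ∑ k : Fin 6, |MBb_g b k| * x ^ (MBb_e1 b k + MBb_e2 b k) ≤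
      Real.exp (5 * x ^ 2) * (if b = true then 4 else 1) := by
  rw [Fin.sum_univ_six]
  have h2 := Real.add_one_le_exp (5 * x ^ 2)
  have h3 : x ^ 2 ≤ 1 := pow_le_one₀ h0 h1
  have h4 : x ^ 3 ≤ x ^ 2 := pow_le_pow_of_le_one h0 h1 (by norm_num)
  cases b
  · simp [MBb_e1, MBb_e2, MBb_g]
    nlinarith
  · simp [MBb_e1, MBb_e2, MBb_g]
    nlinarith [sq_nonneg x]

theorem MBb_prod_dvd {P : Finset O} (hP : ∀ p ∈ P, Prime p ∧ Primary p) (e : P → ℕ) {n : O}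
    (hn : n ≠ 0) : ∏ p : P, (p : O) ^ e p ∣ n ↔ ∀ p : P, e p ≤ vp p n := by
  constructor
  · intro h p
    rw [← pow_dvd_iff_le_vp (hP p p.2).1 hn]
    exact (Finset.dvd_prod_of_mem (fun p : P => (p : O) ^ e p) (Finset.mem_univ p)).trans h
  · intro h
    refine Finset.prod_dvd_of_coprime (fun p _ q _ hpq => ?_) fun p _ =>
      (pow_dvd_iff_le_vp (hP p p.2).1 hn).2 (h p)
    refine IsCoprime.pow ((hP p p.2).1.coprime_iff_not_dvd.2 fun hd => hpq ?_)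
    exact Subtype.ext (BasicB.eq_of_dvd (hP p p.2).1 (hP q q.2).1 (hP p p.2).2 (hP q q.2).2 hd)

open Classical in
theorem MBb_good {P : Finset O} (hP : ∀ p ∈ P, Prime p ∧ Primary p) {T n₁ n₂ : O} (hT : T ≠ 0)
    (h₁ : Primary n₁) (h₂ : Primary n₂) (k₁ : pf n₁ ⊆ P) (k₂ : pf n₂ ⊆ P) :
    (Squarefree (n₁ * n₂) ∧ IsCoprime (n₁ * n₂) T) ↔
      ∀ p : P, vp p n₁ + vp p n₂ ≤ 1 ∧ (decide ((p : O) ∣ T) = true → vp p n₁ + vp p n₂ = 0) := by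
  have h0 := (h₁.mul h₂).ne_zero
  constructor
  · rintro ⟨a, b⟩ p
    have hp := hP p p.2
    rw [← vp_mul hp.1 h₁.ne_zero h₂.ne_zero]
    refine ⟨BasicB.vp_le_one a hp.1, fun hd => ?_⟩
    rw [decide_eq_true_eq] at hd
    rw [vp_eq_zero_iff hp.1 h0]
    exact fun h => hp.1.not_isUnit (b.isUnit_of_dvd' h hd)
  · intro h
    have key : ∀ p ∈ pf (n₁ * n₂), p ∈ P := by
      intro p hp
      rw [pf_mul h₁.ne_zero h₂.ne_zero, Finset.mem_union] at hp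
      exact hp.elim (fun h => k₁ h) (fun h => k₂ h)
    constructor
    · rw [(h₁.mul h₂).squarefree_iff]
      intro p hp
      have a := (h ⟨p, key p hp⟩).1
      have b := BasicB.vp_ne_zero hp
      rw [vp_mul (BasicB.pf_sub hp).1 h₁.ne_zero h₂.ne_zero] at b ⊢
      simp only at a
      omega
    · refine isCoprime_of_disjoint_pf (h₁.mul h₂) hT (Finset.disjoint_left.2 fun p hp hp' => ?_)
      have a := (h ⟨p, key p hp⟩).2 (by simpa using (BasicB.of_mem_pf hp').2.2)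
      have b := BasicB.vp_ne_zero hp
      rw [vp_mul (BasicB.pf_sub hp).1 h₁.ne_zero h₂.ne_zero] at b
      exact b a

open Classical in
/-- Möbius expansion indexed by a finite type. -/
theorem MBb_moeb {ε : ℝ} (hε : 0 < ε) : ∃ C : ℝ, 0 < C ∧ ∀ (T : O) (R : ℝ), 1 ≤ R → T ≠ 0 →
    ∃ (I : Type) (_ : Fintype I) (D₁ D₂ : I → O) (γ : I → ℝ),
      (∀ i, Primary (D₁ i) ∧ Primary (D₂ i)) ∧
      (∀ n₁ n₂, Primary n₁ → Primary n₂ → nr n₁ ≤ R → nr n₂ ≤ R →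
        (if Squarefree (n₁ * n₂) ∧ IsCoprime (n₁ * n₂) T then 1 else 0 : ℝ) =
          ∑ i, if D₁ i ∣ n₁ ∧ D₂ i ∣ n₂ then γ i else 0) ∧
      ∑ i, (if nr (D₁ i) ≤ R ∧ nr (D₂ i) ≤ R then |γ i| / Real.sqrt (nr (D₁ i) * nr (D₂ i))
        else 0) ≤ C * (R * nr T) ^ ε := by
  obtain ⟨C₁, hC₁, h₁⟩ := CountAux.sum_all (show 1 < 1 + ε by linarith)
  obtain ⟨C₂, hC₂, h₂⟩ := pow_card_pf_le hε 4
  refine ⟨Real.exp (5 * C₁) * C₂, by positivity, fun T R hR hT => ?_⟩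
  have hR0 : 0 ≤ R := by linarith
  obtain ⟨P, hP, hsub⟩ : ∃ P : Finset O, (∀ p ∈ P, Prime p ∧ Primary p) ∧
      ∀ n, Primary n → nr n ≤ R → pf n ⊆ P := by
    refine ⟨(ball ⌊R⌋₊).filter (fun p => Prime p ∧ Primary p),
      fun p hp => (Finset.mem_filter.1 hp).2, fun n hn hle p hp => ?_⟩
    have a := BasicB.of_mem_pf hp
    rw [Finset.mem_filter, mem_ball, Nat.le_floor_iff hR0]
    refine ⟨le_trans ?_ hle, a.1, a.2.1⟩
    exact_mod_cast nm_le_of_dvd a.2.2 hn.ne_zero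
  obtain ⟨b, hb⟩ : ∃ b : P → Bool, b = fun p : P => decide ((p : O) ∣ T) := ⟨_, rfl⟩
  refine ⟨P → Fin 6, inferInstance, fun φ => ∏ p : P, (p : O) ^ MBb_e1 (b p) (φ p),
    fun φ => ∏ p : P, (p : O) ^ MBb_e2 (b p) (φ p), fun φ => ∏ p : P, MBb_g (b p) (φ p),
    fun φ => ⟨Primary.prod fun p _ => (hP p p.2).2.pow _, Primary.prod fun p _ => (hP p p.2).2.pow _⟩,
    fun n₁ n₂ a₁ a₂ l₁ l₂ => ?_, ?_⟩
  · have e1 : (if Squarefree (n₁ * n₂) ∧ IsCoprime (n₁ * n₂) T then 1 else 0 : ℝ) =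
        ∏ p : P, ∑ k : Fin 6, (if MBb_e1 (b p) k ≤ vp p n₁ ∧ MBb_e2 (b p) k ≤ vp p n₂ then
          MBb_g (b p) k else 0) := by
      simp only [MBb_loc]
      rw [Finset.prod_boole]
      have e2 := MBb_good hP hT a₁ a₂ (hsub _ a₁ l₁) (hsub _ a₂ l₂)
      by_cases hc : Squarefree (n₁ * n₂) ∧ IsCoprime (n₁ * n₂) T
      · rw [if_pos hc, if_pos]
        intro p _
        simpa only [hb] using e2.1 hc p
      · rw [if_neg hc, if_neg]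
        exact fun h => hc (e2.2 fun p => by simpa only [hb] using h p (Finset.mem_univ p))
    rw [e1, Finset.prod_univ_sum, Fintype.piFinset_univ]
    refine Finset.sum_congr rfl fun φ _ => ?_
    rw [Finset.prod_ite_zero]
    by_cases hc : ∀ p : P, MBb_e1 (b p) (φ p) ≤ vp p n₁ ∧ MBb_e2 (b p) (φ p) ≤ vp p n₂
    · rw [if_pos (fun p _ => hc p), if_pos ⟨(MBb_prod_dvd hP _ a₁.ne_zero).2 fun p => (hc p).1,
        (MBb_prod_dvd hP _ a₂.ne_zero).2 fun p => (hc p).2⟩]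
    · rw [if_neg (fun h => hc fun p => h p (Finset.mem_univ p)), if_neg]
      exact fun h => hc fun p => ⟨(MBb_prod_dvd hP _ a₁.ne_zero).1 h.1 p,
        (MBb_prod_dvd hP _ a₂.ne_zero).1 h.2 p⟩
  · obtain ⟨x, hx⟩ : ∃ x : P → ℝ, x = fun p : P => nr p ^ (-((1 + ε) / 2)) := ⟨_, rfl⟩
    have hx0 : ∀ p, 0 ≤ x p := fun p => by simp only [hx]; positivity
    have hx1 : ∀ p, x p ≤ 1 := fun p => by
      simp only [hx]
      exact Real.rpow_le_one_of_one_le_of_nonpos (one_le_nr (hP p p.2).1.ne_zero) (by linarith)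
    have hx2 : ∀ p, x p ^ 2 = nr p ^ (-(1 + ε)) := fun p => by
      simp only [hx]
      rw [← Real.rpow_natCast, ← Real.rpow_mul (by positivity)]
      congr 1; push_cast; ring
    have hD : ∀ e : P → ℕ, nr (∏ p : P, (p : O) ^ e p) ^ (-((1 + ε) / 2)) = ∏ p : P, x p ^ e p := by
      intro e
      have : nr (∏ p : P, (p : O) ^ e p) = ∏ p : P, nr p ^ e p := by
        simp only [nr, nm_prod, nm_pow]; push_cast; rfl
      rw [this, ← Real.finsetProd_rpow _ _ (fun p _ => by positivity)]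
      refine Finset.prod_congr rfl fun p _ => ?_
      simp only [hx]
      rw [← Real.rpow_natCast, ← Real.rpow_natCast, ← Real.rpow_mul (by positivity),
        ← Real.rpow_mul (by positivity), mul_comm]
    calc _ ≤ ∑ φ : P → Fin 6, R ^ ε * ∏ p : P, (|MBb_g (b p) (φ p)| *
            x p ^ (MBb_e1 (b p) (φ p) + MBb_e2 (b p) (φ p))) := by
          refine Finset.sum_le_sum fun φ _ => ?_
          split_ifs with hc
          · set A₁ := nr (∏ p : P, (p : O) ^ MBb_e1 (b p) (φ p)) with hA₁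
            set A₂ := nr (∏ p : P, (p : O) ^ MBb_e2 (b p) (φ p)) with hA₂
            have p₁ : 0 < A₁ := nr_pos (Primary.prod fun (p : P) _ => (hP p p.2).2.pow _).ne_zero
            have p₂ : 0 < A₂ := nr_pos (Primary.prod fun (p : P) _ => (hP p p.2).2.pow _).ne_zero
            simp only [pow_add, Finset.prod_mul_distrib]
            rw [← hD, ← hD, ← hA₁, ← hA₂, ← Finset.abs_prod, ← Real.mul_rpow p₁.le p₂.le,
              Real.sqrt_eq_rpow, div_eq_mul_inv, ← Real.rpow_neg (by positivity),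
              show -(1 / 2 : ℝ) = ε / 2 + -((1 + ε) / 2) by ring, Real.rpow_add (by positivity)]
            have k : (A₁ * A₂) ^ (ε / 2) ≤ R ^ ε := by
              calc (A₁ * A₂) ^ (ε / 2) ≤ (R ^ (2 : ℝ)) ^ (ε / 2) := by
                    refine Real.rpow_le_rpow (by positivity) ?_ (by positivity)
                    rw [Real.rpow_two, sq]
                    exact mul_le_mul hc.1 hc.2 p₂.le hR0
                _ = R ^ ε := by rw [← Real.rpow_mul hR0]; congr 1; ring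
            calc _ = (A₁ * A₂) ^ (ε / 2) * (|∏ p : P, MBb_g (b p) (φ p)| *
                  (A₁ * A₂) ^ (-((1 + ε) / 2))) := by ring
              _ ≤ _ := by gcongr
          · exact mul_nonneg (by positivity) (Finset.prod_nonneg fun p _ => by
              have := hx0 p; positivity)
      _ = R ^ ε * ∏ p : P, ∑ k : Fin 6, |MBb_g (b p) k| *
            x p ^ (MBb_e1 (b p) k + MBb_e2 (b p) k) := by
          rw [← Finset.mul_sum, Finset.prod_univ_sum, Fintype.piFinset_univ]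
      _ ≤ R ^ ε * ∏ p : P, (Real.exp (5 * x p ^ 2) * (if b p = true then 4 else 1)) := by
          refine mul_le_mul_of_nonneg_left (Finset.prod_le_prod (fun p _ =>
            Finset.sum_nonneg fun k _ => by have := hx0 p; positivity)
            fun p _ => MBb_loc2 _ (hx0 p) (hx1 p)) (by positivity)
      _ ≤ R ^ ε * (Real.exp (5 * C₁) * (C₂ * nr T ^ ε)) := by
          refine mul_le_mul_of_nonneg_left ?_ (by positivity)
          rw [Finset.prod_mul_distrib, ← Real.exp_sum]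
          refine mul_le_mul (Real.exp_le_exp.2 ?_) (le_trans ?_ (h₂ T hT))
            (Finset.prod_nonneg fun p _ => by split_ifs <;> norm_num) (by positivity)
          · rw [← Finset.mul_sum]
            refine mul_le_mul_of_nonneg_left ?_ (by norm_num)
            simp only [hx2]
            rw [Finset.sum_coe_sort P (fun p => nr p ^ (-(1 + ε)))]
            exact h₁ P
          · rw [Finset.prod_ite, Finset.prod_const_one, mul_one, Finset.prod_const]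
            refine pow_le_pow_right₀ (by norm_num) ?_
            refine Finset.card_le_card_of_injOn (fun p => (p : O)) (fun p hp => ?_)
              (fun p _ q _ h => Subtype.ext h)
            rw [Finset.mem_coe, Finset.mem_filter] at hp
            rw [Finset.mem_coe, mem_pf hT]
            exact ⟨(hP p p.2).1, (hP p p.2).2, by simpa [hb] using hp.2⟩
      _ = _ := by rw [Real.mul_rpow hR0 (by positivity)]; ring

end Crest.Agent.R17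
end
end

-- ▼ part PVc/R17/M4Bil
section

/-!
# Row 17, module M4, part Bil: from products of plain sums to squarefree indices and back
-/

set_option autoImplicit false

noncomputable section

namespace Crest.Agent.R17

open Crest.Agent.R17.M4

open scoped ComplexConjugate

open Classical in
/-- Primary elements coprime to `M` of norm at most `X`. -/
def pr (M : O) (X : ℝ) : Finset O := (ball ⌊X⌋₊).filter fun n => Primary n ∧ IsCoprime n M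

/-- A bilinear row sum. -/
def bilS (M : O) (R : ℝ) (B : O → O → ℂ) (a : O) : ℂ :=
  ∑ n₁ ∈ pr M R, ∑ n₂ ∈ pr M R, B n₁ n₂ * conj (sym (n₁ * n₂) a)

open Classical in
/-- The squarefree part of a bilinear coefficient after removing `f₁`, `f₂`; `f` is the powerful
part of the full index. -/
def sqB (M : O) (R : ℝ) (B : O → O → ℂ) (f₁ f₂ f s : O) : ℂ :=
  if Squarefree s ∧ IsCoprime s f then
    ∑ v ∈ (sp M R ×ˢ sp M R).filter (fun v => v.1 * v.2 = s), B (f₁ * v.1) (f₂ * v.2)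
  else 0

open Classical in
/-- The same for a mark. -/
def sqC (c : O → ℂ) (t f z : O) : ℂ := if IsCoprime z f then c (t * z) else 0

/-- Support of a bilinear coefficient. -/
def SuppB (M : O) (Q : ℝ) (B : O → O → ℂ) : Prop :=
  ∀ n₁ n₂, B n₁ n₂ ≠ 0 → Primary n₁ ∧ IsCoprime n₁ M ∧ Primary n₂ ∧ IsCoprime n₂ M ∧
    nr n₁ * nr n₂ ≤ Q

theorem MBa_sp {M n : O} {X : ℝ} (h : n ∈ sp M X) : SP M n := by
  classical
  rw [sp, Finset.mem_filter] at h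
  exact h.2

theorem MBa_mem_pr {M n : O} {X : ℝ} (hX : 0 ≤ X) :
    n ∈ pr M X ↔ Primary n ∧ IsCoprime n M ∧ nr n ≤ X := by
  classical
  rw [pr, Finset.mem_filter, mem_ball, Nat.le_floor_iff hX]
  tauto

theorem supp_sqB {M : O} {R Q : ℝ} {B : O → O → ℂ} (h : SuppB M Q B) {f₁ f₂ : O} (h1 : Primary f₁)
    (h2 : Primary f₂) (f : O) : Supp M (Q / (nr f₁ * nr f₂)) (sqB M R B f₁ f₂ f) := by
  classical
  intro s hs
  unfold sqB at hs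
  split_ifs at hs with hc
  · obtain ⟨v, hv, hB⟩ := Finset.exists_ne_zero_of_sum_ne_zero hs
    rw [Finset.mem_filter, Finset.mem_product] at hv
    obtain ⟨⟨hv1, hv2⟩, rfl⟩ := hv
    have a1 := MBa_sp hv1
    have a2 := MBa_sp hv2
    obtain ⟨-, -, -, -, hQ⟩ := h _ _ hB
    refine ⟨⟨a1.1.mul a2.1, hc.1, a1.2.2.mul_left a2.2.2⟩, ?_⟩
    rw [le_div_iff₀ (mul_pos (nr_pos h1.ne_zero) (nr_pos h2.ne_zero))]
    rw [nr_mul, nr_mul] at hQ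
    rw [nr_mul]
    linarith
  · exact absurd rfl hs

theorem supp_sqC {M : O} {L : ℝ} {c : O → ℂ} (h : Supp M L c) {t : O} (ht : Primary t) (f : O) :
    Supp M (L / nr t) (sqC c t f) := by
  classical
  intro z hz
  unfold sqC at hz
  split_ifs at hz with hc
  · obtain ⟨h1, h2⟩ := h _ hz
    refine ⟨LS2.SP_of_dvd h1 (ht.of_mul h1.1) (Dvd.intro_left t rfl), ?_⟩
    rw [le_div_iff₀ (nr_pos ht.ne_zero), mul_comm, ← nr_mul]
    exact h2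
  · exact absurd rfl hz

theorem norm_sqB_le {ε : ℝ} (hε : 0 < ε) : ∃ C : ℝ, 0 < C ∧ ∀ (M : O) (R Q b : ℝ) (B : O → O → ℂ)
    (f₁ f₂ f s : O), 1 ≤ R → 0 ≤ b → (∀ x y, ‖B x y‖ ≤ b) → ‖sqB M R B f₁ f₂ f s‖ ≤ C * R ^ ε * b := by
  classical
  obtain ⟨C, hC, h⟩ := card_pdiv_le (half_pos hε)
  refine ⟨C, hC, fun M R Q b B f₁ f₂ f s hR hb hB => ?_⟩
  have hR0 : 0 ≤ R := by linarith
  unfold sqB
  split_ifs with hc
  · set S := (sp M R ×ˢ sp M R).filter (fun v => v.1 * v.2 = s) with hS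
    have hs0 : s ≠ 0 := hc.1.ne_zero
    have h1 : ‖∑ v ∈ S, B (f₁ * v.1) (f₂ * v.2)‖ ≤ S.card * b := by
      refine (norm_sum_le _ _).trans ?_
      rw [← nsmul_eq_mul]
      exact Finset.sum_le_card_nsmul _ _ _ fun v _ => hB _ _
    refine h1.trans (mul_le_mul_of_nonneg_right ?_ hb)
    rcases S.eq_empty_or_nonempty with he | ⟨v, hv⟩
    · rw [he]; simp only [Finset.card_empty, Nat.cast_zero]; positivity
    · have h2 : S.card ≤ (pdiv s).card := by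
        refine Finset.card_le_card_of_injOn Prod.fst (fun v hv => ?_) (fun v hv w hw hvw => ?_)
        · rw [Finset.mem_coe, hS, Finset.mem_filter, Finset.mem_product] at hv
          rw [Finset.mem_coe, mem_pdiv hs0]
          exact ⟨(MBa_sp hv.1.1).1, Dvd.intro _ hv.2⟩
        · rw [Finset.mem_coe, hS, Finset.mem_filter, Finset.mem_product] at hv hw
          refine Prod.ext hvw ?_
          have h3 : v.1 * v.2 = v.1 * w.2 := by rw [hv.2, hvw, hw.2]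
          exact mul_left_cancel₀ (MBa_sp hv.1.1).1.ne_zero h3
      rw [hS, Finset.mem_filter, Finset.mem_product, LS2.mem_sp hR0, LS2.mem_sp hR0] at hv
      have h3 : nr s ≤ R ^ (2 : ℝ) := by
        rw [← hv.2, nr_mul, Real.rpow_two, sq]
        exact mul_le_mul hv.1.1.2 hv.1.2.2 (by positivity) hR0
      have h4 : nr s ^ (ε / 2) ≤ R ^ ε := by
        refine (Real.rpow_le_rpow (by positivity) h3 (by positivity)).trans_eq ?_
        rw [← Real.rpow_mul hR0]; congr 1; ring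
      calc (S.card : ℝ) ≤ (pdiv s).card := by exact_mod_cast h2
        _ ≤ C * nr s ^ (ε / 2) := h s hs0
        _ ≤ C * R ^ ε := by gcongr
  · rw [norm_zero]; positivity

/-! ### arithmetic of the decomposition -/

theorem MBa_vp_cases {k h p : O} (hk : Primary k) (hks : Squarefree k) (hh : Powerful h)
    (hc : IsCoprime k h) (hp : Prime p) (hp' : Primary p) :
    (vp p k = 0 ∧ vp p h = 0) ∨ (vp p k = 1 ∧ vp p h = 0) ∨ (vp p k = 0 ∧ 2 ≤ vp p h) := by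
  have h1 := BasicB.vp_le_one hks hp
  by_cases h2 : vp p h = 0
  · omega
  · have h3 : p ∈ pf h := (BasicB.mem_pf_iff hh.1.ne_zero hp hp').2 h2
    have h4 := hh.2 p h3
    have h5 : vp p k = 0 := by
      by_contra h6
      exact Finset.disjoint_left.1 (disjoint_pf hc)
        ((BasicB.mem_pf_iff hk.ne_zero hp hp').2 h6) h3
    omega

theorem MBa_unique {k h k' h' : O} (hk : Primary k) (hks : Squarefree k) (hh : Powerful h)
    (hc : IsCoprime k h) (hk' : Primary k') (hks' : Squarefree k') (hh' : Powerful h')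
    (hc' : IsCoprime k' h') (e : h * k = h' * k') : h = h' := by
  refine hh.1.ext_vp hh'.1 fun p hp hp' => ?_
  have e1 := congrArg (vp p) e
  rw [vp_mul hp hh.1.ne_zero hk.ne_zero, vp_mul hp hh'.1.ne_zero hk'.ne_zero] at e1
  have a := MBa_vp_cases hk hks hh hc hp hp'
  have b := MBa_vp_cases hk' hks' hh' hc' hp hp'
  omega

theorem MBa_split {n k h : O} (hn : Primary n) (hd : n ∣ h * k) :
    ∃ f s : O, Primary f ∧ Primary s ∧ f ∣ h ∧ s ∣ k ∧ n = f * s := by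
  obtain ⟨f, s, hf, hs, e⟩ := exists_dvd_and_dvd_of_dvd_mul hd
  have h1 : ¬ lam ∣ f := fun h2 => hn.not_lam_dvd (e ▸ h2.mul_right s)
  obtain ⟨u, hu, hp⟩ := exists_unit_primary h1
  obtain ⟨u, rfl⟩ := hu
  have e2 : n = (u * f) * (↑u⁻¹ * s) := by
    rw [e, mul_mul_mul_comm, Units.mul_inv, one_mul]
  exact ⟨u * f, ↑u⁻¹ * s, hp, hp.of_mul (e2 ▸ hn), Units.mul_left_dvd.2 hf,
    Units.mul_left_dvd.2 hs, e2⟩

theorem MBa_cancel {f y f' y' F : O} (hf : Primary f) (hf' : Primary f') (h1 : f ∣ F) (h1' : f' ∣ F)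
    (h2 : IsCoprime y F) (h2' : IsCoprime y' F) (e : f * y = f' * y') : f = f' ∧ y = y' := by
  have a : f ∣ f' := (h2'.symm.of_isCoprime_of_dvd_left h1).dvd_of_dvd_mul_right ⟨y, e.symm⟩
  have b : f' ∣ f := (h2.symm.of_isCoprime_of_dvd_left h1').dvd_of_dvd_mul_right ⟨y', e⟩
  have c : f = f' := hf.eq_of_associated hf' (associated_of_dvd_dvd a b)
  subst c
  exact ⟨rfl, mul_left_cancel₀ hf.ne_zero e⟩

/-- the product of the four entries -/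
def MBa_p (x : O × O × O × O) : O := x.1 * x.2.1 * x.2.2.1 * x.2.2.2

/-- all four entries are primary -/
def MBa_P (x : O × O × O × O) : Prop :=
  Primary x.1 ∧ Primary x.2.1 ∧ Primary x.2.2.1 ∧ Primary x.2.2.2

theorem MBa_P.p {x : O × O × O × O} (h : MBa_P x) : Primary (MBa_p x) :=
  ((h.1.mul h.2.1).mul h.2.2.1).mul h.2.2.2

theorem MBa_p_mul (x y : O × O × O × O) : MBa_p (x * y) = MBa_p x * MBa_p y := by
  simp only [MBa_p, Prod.fst_mul, Prod.snd_mul]; ring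

theorem MBa_d1 (x : O × O × O × O) : x.1 ∣ MBa_p x := ⟨x.2.1 * x.2.2.1 * x.2.2.2, by rw [MBa_p]; ring⟩
theorem MBa_d2 (x : O × O × O × O) : x.2.1 ∣ MBa_p x := ⟨x.1 * x.2.2.1 * x.2.2.2, by rw [MBa_p]; ring⟩
theorem MBa_d3 (x : O × O × O × O) : x.2.2.1 ∣ MBa_p x := ⟨x.1 * x.2.1 * x.2.2.2, by rw [MBa_p]; ring⟩
theorem MBa_d4 (x : O × O × O × O) : x.2.2.2 ∣ MBa_p x := ⟨x.1 * x.2.1 * x.2.2.1, by rw [MBa_p]; ring⟩

theorem MBa_exists {x : O × O × O × O} (hx : MBa_P x) : ∃ q y : O × O × O × O, MBa_P q ∧ MBa_P y ∧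
    Powerful (MBa_p q) ∧ Squarefree (MBa_p y) ∧ IsCoprime (MBa_p y) (MBa_p q) ∧ q * y = x := by
  obtain ⟨k, h, hk, hks, hh, hc, e⟩ := exists_sqfree_powerful hx.p
  rw [mul_comm] at e
  obtain ⟨f₁, s₁, a1, b1, c1, d1, e1⟩ := MBa_split hx.1 (e ▸ MBa_d1 x)
  obtain ⟨f₂, s₂, a2, b2, c2, d2, e2⟩ := MBa_split hx.2.1 (e ▸ MBa_d2 x)
  obtain ⟨f₃, s₃, a3, b3, c3, d3, e3⟩ := MBa_split hx.2.2.1 (e ▸ MBa_d3 x)
  obtain ⟨f₄, s₄, a4, b4, c4, d4, e4⟩ := MBa_split hx.2.2.2 (e ▸ MBa_d4 x)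
  have hq : MBa_P (f₁, f₂, f₃, f₄) := ⟨a1, a2, a3, a4⟩
  have hy : MBa_P (s₁, s₂, s₃, s₄) := ⟨b1, b2, b3, b4⟩
  have em : (f₁, f₂, f₃, f₄) * (s₁, s₂, s₃, s₄) = x :=
    Prod.ext e1.symm (Prod.ext e2.symm (Prod.ext e3.symm e4.symm))
  have e5 : MBa_p (f₁, f₂, f₃, f₄) * MBa_p (s₁, s₂, s₃, s₄) = h * k := by
    rw [← MBa_p_mul, em, e]
  have k1 : IsCoprime (MBa_p (f₁, f₂, f₃, f₄)) k :=
    (((hc.symm.of_isCoprime_of_dvd_left c1).mul_left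
      (hc.symm.of_isCoprime_of_dvd_left c2)).mul_left
      (hc.symm.of_isCoprime_of_dvd_left c3)).mul_left (hc.symm.of_isCoprime_of_dvd_left c4)
  have k2 : IsCoprime (MBa_p (s₁, s₂, s₃, s₄)) h :=
    (((hc.of_isCoprime_of_dvd_left d1).mul_left
      (hc.of_isCoprime_of_dvd_left d2)).mul_left
      (hc.of_isCoprime_of_dvd_left d3)).mul_left (hc.of_isCoprime_of_dvd_left d4)
  have k3 : MBa_p (f₁, f₂, f₃, f₄) = h :=
    hq.p.eq_of_associated hh.1 (associated_of_dvd_dvd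
      (k1.dvd_of_dvd_mul_right ⟨_, e5.symm⟩) (k2.symm.dvd_of_dvd_mul_right ⟨_, e5⟩))
  have k4 : MBa_p (s₁, s₂, s₃, s₄) = k := by
    rw [k3] at e5
    exact mul_left_cancel₀ hh.1.ne_zero e5
  exact ⟨_, _, hq, hy, k3 ▸ hh, k4 ▸ hks, by rw [k3, k4]; exact hc, em⟩

theorem MBa_inj {q y q' y' : O × O × O × O} (hq : MBa_P q) (hy : MBa_P y) (h1 : Powerful (MBa_p q))
    (h2 : Squarefree (MBa_p y)) (h3 : IsCoprime (MBa_p y) (MBa_p q)) (hq' : MBa_P q')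
    (hy' : MBa_P y') (h1' : Powerful (MBa_p q')) (h2' : Squarefree (MBa_p y'))
    (h3' : IsCoprime (MBa_p y') (MBa_p q')) (e : q * y = q' * y') : q = q' ∧ y = y' := by
  have e1 : MBa_p q = MBa_p q' :=
    MBa_unique hy.p h2 h1 h3 hy'.p h2' h1' h3' (by rw [← MBa_p_mul, ← MBa_p_mul, e])
  rw [← e1] at h3'
  have a1 := MBa_cancel hq.1 hq'.1 (MBa_d1 q) (e1 ▸ MBa_d1 q')
    (h3.of_isCoprime_of_dvd_left (MBa_d1 y)) (h3'.of_isCoprime_of_dvd_left (MBa_d1 y'))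
    (congrArg (·.1) e)
  have a2 := MBa_cancel hq.2.1 hq'.2.1 (MBa_d2 q) (e1 ▸ MBa_d2 q')
    (h3.of_isCoprime_of_dvd_left (MBa_d2 y)) (h3'.of_isCoprime_of_dvd_left (MBa_d2 y'))
    (congrArg (·.2.1) e)
  have a3 := MBa_cancel hq.2.2.1 hq'.2.2.1 (MBa_d3 q) (e1 ▸ MBa_d3 q')
    (h3.of_isCoprime_of_dvd_left (MBa_d3 y)) (h3'.of_isCoprime_of_dvd_left (MBa_d3 y'))
    (congrArg (·.2.2.1) e)
  have a4 := MBa_cancel hq.2.2.2 hq'.2.2.2 (MBa_d4 q) (e1 ▸ MBa_d4 q')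
    (h3.of_isCoprime_of_dvd_left (MBa_d4 y)) (h3'.of_isCoprime_of_dvd_left (MBa_d4 y'))
    (congrArg (·.2.2.2) e)
  exact ⟨Prod.ext a1.1 (Prod.ext a2.1 (Prod.ext a3.1 a4.1)),
    Prod.ext a1.2 (Prod.ext a2.2 (Prod.ext a3.2 a4.2))⟩

/-! ### expansion of the sums -/

theorem MBa_fib {ι κ : Type*} [DecidableEq κ] (S : Finset ι) (t : Finset κ) (g : ι → κ) (F : ι → ℂ)
    (H : κ → ℂ) : ∑ n ∈ t, (∑ v ∈ S.filter (fun v => g v = n), F v) * H n =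
      ∑ v ∈ S, if g v ∈ t then F v * H (g v) else 0 := by
  rw [← Finset.sum_filter, ← Finset.sum_fiberwise_eq_sum_filter]
  refine Finset.sum_congr rfl fun n _ => ?_
  rw [Finset.sum_mul]
  exact Finset.sum_congr rfl fun v hv => by rw [(Finset.mem_filter.1 hv).2]

/-- the summand -/
def MBa_T (B : O → O → ℂ) (c₁ c₂ : O → ℂ) (a : O) (x : O × O × O × O) : ℂ :=
  B x.1 x.2.1 * c₁ x.2.2.1 * c₂ x.2.2.2 * conj (sym (MBa_p x) a)

theorem MBa_stepA {M : O} {R : ℝ} (hR : 0 ≤ R) (B : O → O → ℂ) (c₁ c₂ : O → ℂ) (a : O) :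
    bilS M R B a * slot (sp M R) c₁ a * slot (sp M R) c₂ a =
      ∑ x ∈ pr M R ×ˢ pr M R ×ˢ sp M R ×ˢ sp M R, MBa_T B c₁ c₂ a x := by
  simp only [Finset.sum_product]
  rw [bilS, Finset.sum_mul, Finset.sum_mul]
  refine Finset.sum_congr rfl fun n₁ h₁ => ?_
  rw [Finset.sum_mul, Finset.sum_mul]
  refine Finset.sum_congr rfl fun n₂ h₂ => ?_
  rw [slot, slot, mul_assoc, Finset.sum_mul_sum, Finset.mul_sum]
  refine Finset.sum_congr rfl fun z₁ h₃ => ?_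
  rw [Finset.mul_sum]
  refine Finset.sum_congr rfl fun z₂ h₄ => ?_
  have a1 := ((MBa_mem_pr hR).1 h₁).1.ne_zero
  have a2 := ((MBa_mem_pr hR).1 h₂).1.ne_zero
  have a3 := (MBa_sp h₃).1.ne_zero
  have a4 := (MBa_sp h₄).1.ne_zero
  simp only [MBa_T, MBa_p]
  rw [sym_mul_left (mul_ne_zero (mul_ne_zero a1 a2) a3) a4, sym_mul_left (mul_ne_zero a1 a2) a3,
    map_mul, map_mul]
  ring

/-- the condition on the squarefree parts -/
def MBa_C (M : O) (R : ℝ) (q y : O × O × O × O) : Prop :=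
  y.1 * y.2.1 ∈ sp M R ∧ MBa_p y ∈ sp M R ∧ IsCoprime (MBa_p y) (MBa_p q)

open Classical in
theorem MBa_stepB (M : O) (R : ℝ) (B : O → O → ℂ) (c₁ c₂ : O → ℂ) (a : O) {q : O × O × O × O}
    (hq : MBa_P q) :
    conj (sym (MBa_p q) a) * rowS M R 5 (tri M R (sqB M R B q.1 q.2.1 (MBa_p q))
      (sqC c₁ q.2.2.1 (MBa_p q)) (sqC c₂ q.2.2.2 (MBa_p q))) a =
      ∑ y ∈ sp M R ×ˢ sp M R ×ˢ sp M R ×ˢ sp M R,
        if MBa_C M R q y then MBa_T B c₁ c₂ a (q * y) else 0 := by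
  set f := MBa_p q with hf
  have e1 : rowS M R 5 (tri M R (sqB M R B q.1 q.2.1 f) (sqC c₁ q.2.2.1 f) (sqC c₂ q.2.2.2 f)) a =
      ∑ v ∈ sp M R ×ˢ sp M R ×ˢ sp M R, if v.1 * v.2.1 * v.2.2 ∈ sp M R then
        sqB M R B q.1 q.2.1 f v.1 * sqC c₁ q.2.2.1 f v.2.1 * sqC c₂ q.2.2.2 f v.2.2 *
          conj (sym (v.1 * v.2.1 * v.2.2) a) else 0 := by
    rw [← MBa_fib (sp M R ×ˢ sp M R ×ˢ sp M R) (sp M R) (fun v => v.1 * v.2.1 * v.2.2)
      (fun v => sqB M R B q.1 q.2.1 f v.1 * sqC c₁ q.2.2.1 f v.2.1 * sqC c₂ q.2.2.2 f v.2.2)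
      (fun n => conj (sym n a)), rowS]
    refine Finset.sum_congr rfl fun n hn => ?_
    rw [tri, if_pos (MBa_sp hn).2.1, conj_sym (MBa_sp hn).1]
  set H : O → ℂ := fun s => if IsCoprime s f then ∑ z ∈ sp M R ×ˢ sp M R,
    if s * z.1 * z.2 ∈ sp M R then sqC c₁ q.2.2.1 f z.1 * sqC c₂ q.2.2.2 f z.2 *
      conj (sym (s * z.1 * z.2) a) else 0 else 0 with hH
  have e2 : (∑ v ∈ sp M R ×ˢ sp M R ×ˢ sp M R, if v.1 * v.2.1 * v.2.2 ∈ sp M R then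
        sqB M R B q.1 q.2.1 f v.1 * sqC c₁ q.2.2.1 f v.2.1 * sqC c₂ q.2.2.2 f v.2.2 *
          conj (sym (v.1 * v.2.1 * v.2.2) a) else 0) =
      ∑ s ∈ sp M R, (∑ v ∈ (sp M R ×ˢ sp M R).filter (fun v => v.1 * v.2 = s),
        B (q.1 * v.1) (q.2.1 * v.2)) * H s := by
    rw [Finset.sum_product]
    refine Finset.sum_congr rfl fun s hs => ?_
    simp only [hH]
    by_cases hc : IsCoprime s f
    · rw [if_pos hc, Finset.mul_sum, sqB, if_pos ⟨(MBa_sp hs).2.1, hc⟩]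
      refine Finset.sum_congr rfl fun z _ => ?_
      split_ifs
      · ring
      · rw [mul_zero]
    · rw [if_neg hc, mul_zero, sqB, if_neg (fun h => hc h.2)]
      simp
  rw [e1, e2, MBa_fib (sp M R ×ˢ sp M R) (sp M R) (fun v => v.1 * v.2)
    (fun v => B (q.1 * v.1) (q.2.1 * v.2)) H, Finset.mul_sum, Finset.sum_product,
    Finset.sum_product]
  refine Finset.sum_congr rfl fun y₁ h₁ => ?_
  rw [Finset.sum_product]
  refine Finset.sum_congr rfl fun y₂ h₂ => ?_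
  simp only [hH]
  by_cases k1 : y₁ * y₂ ∈ sp M R
  · rw [if_pos k1]
    by_cases k2 : IsCoprime (y₁ * y₂) f
    · rw [if_pos k2, Finset.mul_sum, Finset.mul_sum]
      refine Finset.sum_congr rfl fun z hz => ?_
      by_cases k3 : y₁ * y₂ * z.1 * z.2 ∈ sp M R
      · rw [if_pos k3]
        by_cases k4 : IsCoprime z.1 f ∧ IsCoprime z.2 f
        · rw [if_pos ⟨k1, k3, (k2.mul_left k4.1).mul_left k4.2⟩, sqC, sqC, if_pos k4.1,
            if_pos k4.2, MBa_T, MBa_p_mul, ← hf,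
            sym_mul_left hq.p.ne_zero (show MBa_p (y₁, y₂, z) ≠ 0 from (MBa_sp k3).1.ne_zero),
            map_mul]
          rw [← hf]
          simp only [Prod.fst_mul, Prod.snd_mul, MBa_p]
          ring
        · rw [if_neg (fun h => k4 ⟨h.2.2.of_isCoprime_of_dvd_left (MBa_d3 (y₁, y₂, z)),
            h.2.2.of_isCoprime_of_dvd_left (MBa_d4 (y₁, y₂, z))⟩)]
          rcases not_and_or.1 k4 with k5 | k5
          · rw [sqC, if_neg k5]; simp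
          · rw [sqC.eq_1 c₂, if_neg k5]; simp
      · rw [if_neg k3, if_neg (fun h => k3 h.2.1)]; simp
    · rw [if_neg k2, mul_zero, mul_zero]
      refine (Finset.sum_eq_zero fun z _ => if_neg fun h => k2 ?_).symm
      exact h.2.2.of_isCoprime_of_dvd_left ⟨z.1 * z.2, by simp only [MBa_p]; ring⟩
  · rw [if_neg k1, mul_zero]
    exact (Finset.sum_eq_zero fun z _ => if_neg fun h => k1 h.1).symm

open Classical in
/-- the index set of the powerful parts -/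
def MBa_Q (R Q L₁ L₂ : ℝ) : Finset (O × O × O × O) :=
  (ball ⌊R⌋₊ ×ˢ ball ⌊R⌋₊ ×ˢ ball ⌊R⌋₊ ×ˢ ball ⌊R⌋₊).filter fun q =>
    MBa_P q ∧ Powerful (MBa_p q) ∧ nr q.1 * nr q.2.1 ≤ Q ∧ nr q.2.2.1 ≤ L₁ ∧ nr q.2.2.2 ≤ L₂

theorem MBa_le_left {x y : O} (hy : y ≠ 0) : nr x ≤ nr (x * y) := by
  rw [nr_mul]; exact le_mul_of_one_le_right (by positivity) (one_le_nr hy)

theorem MBa_le_right {x y : O} (hx : x ≠ 0) : nr y ≤ nr (x * y) := by
  rw [mul_comm]; exact MBa_le_left hx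

theorem MBa_nr_p (x : O × O × O × O) :
    nr (MBa_p x) = nr x.1 * nr x.2.1 * nr x.2.2.1 * nr x.2.2.2 := by
  simp only [MBa_p, nr_mul]

theorem MBa_nr_le {x y : O} (h : x ∣ y) (hy : y ≠ 0) : nr x ≤ nr y := by
  exact_mod_cast nm_le_of_dvd h hy

open Classical in
theorem MBa_stepC {M : O} {R Q L₁ L₂ : ℝ} {B : O → O → ℂ} {c₁ c₂ : O → ℂ} (hQ : 1 ≤ Q)
    (hL₁ : 1 ≤ L₁) (hL₂ : 1 ≤ L₂) (hR : Q * L₁ * L₂ ≤ R) (hB : SuppB M Q B) (h₁ : Supp M L₁ c₁)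
    (h₂ : Supp M L₂ c₂) (a : O) :
    ∑ q ∈ MBa_Q R Q L₁ L₂, (∑ y ∈ sp M R ×ˢ sp M R ×ˢ sp M R ×ˢ sp M R,
        if MBa_C M R q y then MBa_T B c₁ c₂ a (q * y) else 0) =
      ∑ x ∈ pr M R ×ˢ pr M R ×ˢ sp M R ×ˢ sp M R, MBa_T B c₁ c₂ a x := by
  have hR0 : 0 ≤ R := le_trans (by positivity) hR
  have supp : ∀ x, MBa_T B c₁ c₂ a x ≠ 0 → MBa_P x ∧ IsCoprime (MBa_p x) M ∧
      nr x.1 * nr x.2.1 ≤ Q ∧ nr x.2.2.1 ≤ L₁ ∧ nr x.2.2.2 ≤ L₂ ∧ nr (MBa_p x) ≤ R ∧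
      Squarefree x.2.2.1 ∧ Squarefree x.2.2.2 := by
    intro x hx
    have k := left_ne_zero_of_mul hx
    obtain ⟨a1, a2, a3, a4, a5⟩ := hB _ _ (left_ne_zero_of_mul (left_ne_zero_of_mul k))
    obtain ⟨b1, b2⟩ := h₁ _ (right_ne_zero_of_mul (left_ne_zero_of_mul k))
    obtain ⟨d1, d2⟩ := h₂ _ (right_ne_zero_of_mul k)
    refine ⟨⟨a1, a3, b1.1, d1.1⟩, ((a2.mul_left a4).mul_left b1.2.2).mul_left d1.2.2, a5, b2, d2,
      le_trans ?_ hR, b1.2.1, d1.2.1⟩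
    rw [MBa_nr_p]
    gcongr
  rw [← Finset.sum_product', ← Finset.sum_filter]
  refine Finset.sum_bij_ne_zero (fun v _ _ => v.1 * v.2) (fun v _ hv => ?_)
    (fun v hv _ w hw _ e => ?_) (fun x _ hx => ?_) (fun _ _ _ => rfl)
  · obtain ⟨a1, a2, -, -, -, a3, a4, a5⟩ := supp _ hv
    have h0 := a1.p.ne_zero
    simp only [Finset.mem_product, MBa_mem_pr hR0, LS2.mem_sp hR0]
    exact ⟨⟨a1.1, a2.of_isCoprime_of_dvd_left (MBa_d1 _), (MBa_nr_le (MBa_d1 _) h0).trans a3⟩,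
      ⟨a1.2.1, a2.of_isCoprime_of_dvd_left (MBa_d2 _), (MBa_nr_le (MBa_d2 _) h0).trans a3⟩,
      ⟨⟨a1.2.2.1, a4, a2.of_isCoprime_of_dvd_left (MBa_d3 _)⟩,
        (MBa_nr_le (MBa_d3 _) h0).trans a3⟩,
      ⟨⟨a1.2.2.2, a5, a2.of_isCoprime_of_dvd_left (MBa_d4 _)⟩,
        (MBa_nr_le (MBa_d4 _) h0).trans a3⟩⟩
  · simp only [Finset.mem_filter, Finset.mem_product, MBa_Q] at hv hw
    obtain ⟨⟨⟨-, a1, a2, -⟩, b1, b2, b3, b4⟩, -, d1, d2⟩ := hv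
    obtain ⟨⟨⟨-, a1', a2', -⟩, b1', b2', b3', b4'⟩, -, d1', d2'⟩ := hw
    have := MBa_inj a1 ⟨(MBa_sp b1).1, (MBa_sp b2).1, (MBa_sp b3).1, (MBa_sp b4).1⟩ a2
      (MBa_sp d1).2.1 d2 a1' ⟨(MBa_sp b1').1, (MBa_sp b2').1, (MBa_sp b3').1, (MBa_sp b4').1⟩ a2'
      (MBa_sp d1').2.1 d2' e
    exact Prod.ext this.1 this.2
  · obtain ⟨a1, a2, a3, a4, a5, a6, -, -⟩ := supp _ hx
    obtain ⟨q, y, hq, hy, b1, b2, b3, rfl⟩ := MBa_exists a1
    have h0 := a1.p.ne_zero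
    rw [MBa_p_mul] at a2 a6 h0
    have hy0 := hy.p.ne_zero
    have hq0 := hq.p.ne_zero
    have hyR : nr (MBa_p y) ≤ R := (MBa_le_right hq0).trans a6
    have hqR : nr (MBa_p q) ≤ R := (MBa_le_left hy0).trans a6
    have hys : SP M (MBa_p y) := ⟨hy.p, b2, a2.of_mul_left_right⟩
    have key : ∀ d, Primary d → d ∣ MBa_p y → d ∈ sp M R := fun d hd hdd =>
      (LS2.mem_sp hR0).2 ⟨LS2.SP_of_dvd hys hd hdd, (MBa_nr_le hdd hy0).trans hyR⟩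
    have key2 : ∀ d, d ∣ MBa_p q → d ∈ ball ⌊R⌋₊ := fun d hdd => by
      rw [mem_ball, Nat.le_floor_iff hR0]
      exact (MBa_nr_le hdd hq0).trans hqR
    refine ⟨(q, y), ?_, hx, rfl⟩
    simp only [Finset.mem_filter, Finset.mem_product, MBa_Q]
    refine ⟨⟨⟨⟨key2 _ (MBa_d1 _), key2 _ (MBa_d2 _), key2 _ (MBa_d3 _), key2 _ (MBa_d4 _)⟩, hq, b1,
      le_trans ?_ a3, le_trans (MBa_le_left hy.2.2.1.ne_zero) a4,
      le_trans (MBa_le_left hy.2.2.2.ne_zero) a5⟩, key _ hy.1 (MBa_d1 _), key _ hy.2.1 (MBa_d2 _),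
      key _ hy.2.2.1 (MBa_d3 _), key _ hy.2.2.2 (MBa_d4 _)⟩,
      key _ (hy.1.mul hy.2.1) ⟨y.2.2.1 * y.2.2.2, by simp only [MBa_p]; ring⟩,
      key _ hy.p dvd_rfl, b3⟩
    exact mul_le_mul (MBa_le_left hy.1.ne_zero) (MBa_le_left hy.2.1.ne_zero) (by positivity)
      (by positivity)

theorem MBa_W {ε : ℝ} (hε : 0 < ε) : ∃ C : ℝ, 0 < C ∧ ∀ R Q L₁ L₂ : ℝ, 1 ≤ Q → 1 ≤ L₁ → 1 ≤ L₂ →
    Q * L₁ * L₂ ≤ R → ∑ q ∈ MBa_Q R Q L₁ L₂, nr (MBa_p q) ^ (-(1 / 2 : ℝ)) ≤ C * R ^ ε := by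
  classical
  obtain ⟨C₁, hC₁, h₁⟩ := card_pdiv_le (show 0 < ε / 8 by positivity)
  obtain ⟨C₂, hC₂, h₂⟩ := sum_powerful_le (half_pos hε)
  refine ⟨C₁ ^ 4 * C₂, by positivity, fun R Q L₁ L₂ hQ hL₁ hL₂ hR => ?_⟩
  have hR1 : 1 ≤ R := le_trans (one_le_mul_of_one_le_of_one_le
    (one_le_mul_of_one_le_of_one_le hQ hL₁) hL₂) hR
  have hR0 : 0 ≤ R := by linarith
  have hmaps : ∀ q ∈ MBa_Q R Q L₁ L₂, MBa_p q ∈ (ball ⌊R⌋₊).filter Powerful := by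
    intro q hq
    simp only [MBa_Q, Finset.mem_filter] at hq
    obtain ⟨-, -, a1, a2, a3, a4⟩ := hq
    rw [Finset.mem_filter, mem_ball, Nat.le_floor_iff hR0]
    refine ⟨le_trans ?_ hR, a1⟩
    change nr _ ≤ _
    rw [MBa_nr_p]
    gcongr
  rw [← Finset.sum_fiberwise_of_maps_to hmaps]
  have h3 := h₂ ⌊R⌋₊ (Nat.le_floor (by simpa using hR1))
  have h4 : ((⌊R⌋₊ : ℕ) : ℝ) ^ (ε / 2) ≤ R ^ (ε / 2) :=
    Real.rpow_le_rpow (by positivity) (Nat.floor_le hR0) (by positivity)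
  calc _ ≤ ∑ f ∈ (ball ⌊R⌋₊).filter Powerful, (C₁ ^ 4 * R ^ (ε / 2)) * nr f ^ (-(1 / 2 : ℝ)) := by
        refine Finset.sum_le_sum fun f hf => ?_
        rw [Finset.mem_filter, mem_ball, Nat.le_floor_iff hR0] at hf
        have hf0 := hf.2.1.ne_zero
        rw [Finset.sum_congr rfl (g := fun _ => nr f ^ (-(1 / 2 : ℝ)))
          fun q hq => by rw [(Finset.mem_filter.1 hq).2], Finset.sum_const, nsmul_eq_mul]
        refine mul_le_mul_of_nonneg_right ?_ (by positivity)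
        have k1 : (MBa_Q R Q L₁ L₂).filter (fun q => MBa_p q = f) ⊆
            pdiv f ×ˢ pdiv f ×ˢ pdiv f ×ˢ pdiv f := by
          intro q hq
          simp only [MBa_Q, Finset.mem_filter] at hq
          obtain ⟨⟨-, a1, -⟩, rfl⟩ := hq
          simp only [Finset.mem_product, mem_pdiv hf0]
          exact ⟨⟨a1.1, MBa_d1 _⟩, ⟨a1.2.1, MBa_d2 _⟩, ⟨a1.2.2.1, MBa_d3 _⟩, a1.2.2.2, MBa_d4 _⟩
        have k2 := Finset.card_le_card k1
        simp only [Finset.card_product] at k2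
        have k3 : ((pdiv f).card : ℝ) ≤ C₁ * R ^ (ε / 8) :=
          (h₁ f hf0).trans (by have := hf.1; gcongr)
        have k4 : (R ^ (ε / 8)) ^ 4 = R ^ (ε / 2) := by
          rw [← Real.rpow_natCast, ← Real.rpow_mul hR0]; congr 1; push_cast; ring
        calc _ ≤ ((pdiv f).card : ℝ) ^ 4 := by
              have : (((MBa_Q R Q L₁ L₂).filter (fun q => MBa_p q = f)).card : ℝ) ≤
                  (pdiv f).card * ((pdiv f).card * ((pdiv f).card * (pdiv f).card)) := by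
                exact_mod_cast k2
              exact this.trans_eq (by ring)
          _ ≤ (C₁ * R ^ (ε / 8)) ^ 4 := by gcongr
          _ = _ := by rw [mul_pow, k4]
    _ = (C₁ ^ 4 * R ^ (ε / 2)) * ∑ f ∈ (ball ⌊R⌋₊).filter Powerful, nr f ^ (-(1 / 2 : ℝ)) := by
        rw [Finset.mul_sum]
    _ ≤ (C₁ ^ 4 * R ^ (ε / 2)) * (C₂ * R ^ (ε / 2)) := by
        gcongr
        exact le_trans (by convert h3) (by gcongr)
    _ = C₁ ^ 4 * C₂ * (R ^ (ε / 2) * R ^ (ε / 2)) := by ring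
    _ = _ := by rw [← Real.rpow_add (by linarith), add_halves]

theorem MBa_summable (M : O) (R : ℝ) (j : ℕ) (β : O → ℂ) {X : ℝ} (hX : 0 < X) :
    Summable fun m : O => gw (nr m / X) * ‖rowS M R j β m‖ ^ 2 := by
  refine Summable.of_nonneg_of_le (fun m => by have := gw_pos (nr m / X); positivity)
    (fun m => ?_) ((summable_gw' hX).mul_right ((∑ n ∈ sp M R, ‖β n‖) ^ 2))
  refine mul_le_mul_of_nonneg_left (pow_le_pow_left₀ (norm_nonneg _) ?_ 2) (gw_pos _).le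
  refine (norm_sum_le _ _).trans (Finset.sum_le_sum fun n _ => ?_)
  rw [norm_mul, norm_pow]
  exact mul_le_of_le_one_right (norm_nonneg _) (pow_le_one₀ (norm_nonneg _) (norm_sym_le _ _))

/-- **Extraction of the powerful part** (Minkowski's inequality).  The full index `n₁ n₂ z₁ z₂` is
`f · s` with `f` powerful, `s` squarefree and coprime to `f`; `f = f₁ f₂ t₁ t₂`. -/
theorem extract_powerful {M : O} (hM : Adm M) {ε : ℝ} (hε : 0 < ε) : ∃ C : ℝ, 0 < C ∧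
    ∀ (R A Q L₁ L₂ E : ℝ) (B : O → O → ℂ) (c₁ c₂ : O → ℂ), 0 < A → 1 ≤ Q → 1 ≤ L₁ → 1 ≤ L₂ → 0 ≤ E →
      Q * L₁ * L₂ ≤ R → SuppB M Q B → Supp M L₁ c₁ → Supp M L₂ c₂ →
      (∀ f₁ f₂ t₁ t₂ : O, Primary f₁ → Primary f₂ → Primary t₁ → Primary t₂ →
        nr f₁ * nr f₂ ≤ Q → nr t₁ ≤ L₁ → nr t₂ ≤ L₂ →
        Dq M R 5 (tri M R (sqB M R B f₁ f₂ (f₁ * f₂ * t₁ * t₂)) (sqC c₁ t₁ (f₁ * f₂ * t₁ * t₂))
          (sqC c₂ t₂ (f₁ * f₂ * t₁ * t₂))) A ≤ E / nr (f₁ * f₂ * t₁ * t₂)) →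
      ∑' a : O, gw (nr a / A) *
        ‖bilS M R B a * slot (sp M R) c₁ a * slot (sp M R) c₂ a‖ ^ 2 ≤ C * R ^ ε * E := by
  classical
  have _ := hM
  obtain ⟨C, hC, hW⟩ := MBa_W (half_pos hε)
  refine ⟨C ^ 2, by positivity, fun R A Q L₁ L₂ E B c₁ c₂ hA hQ hL₁ hL₂ hE hR hB h₁ h₂ hD => ?_⟩
  have hR1 : 1 ≤ R := le_trans (one_le_mul_of_one_le_of_one_le
    (one_le_mul_of_one_le_of_one_le hQ hL₁) hL₂) hR
  have hR0 : 0 ≤ R := by linarith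
  set 𝒬 := MBa_Q R Q L₁ L₂ with h𝒬
  set w : O × O × O × O → ℝ := fun q => nr (MBa_p q) ^ (-(1 / 2 : ℝ)) with hw
  set β : O × O × O × O → O → ℂ := fun q => tri M R (sqB M R B q.1 q.2.1 (MBa_p q))
      (sqC c₁ q.2.2.1 (MBa_p q)) (sqC c₂ q.2.2.2 (MBa_p q)) with hβ
  set W := ∑ q ∈ 𝒬, w q with hWdef
  have hW1 : W ≤ C * R ^ (ε / 2) := hW R Q L₁ L₂ hQ hL₁ hL₂ hR
  have hmem : ∀ q ∈ 𝒬, MBa_P q ∧ nr q.1 * nr q.2.1 ≤ Q ∧ nr q.2.2.1 ≤ L₁ ∧ nr q.2.2.2 ≤ L₂ := by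
    intro q hq
    simp only [h𝒬, MBa_Q, Finset.mem_filter] at hq
    exact ⟨hq.2.1, hq.2.2.2⟩
  have hwpos : ∀ q ∈ 𝒬, 0 < w q := fun q hq =>
    Real.rpow_pos_of_pos (nr_pos (hmem q hq).1.p.ne_zero) _
  have hW0 : 0 ≤ W := Finset.sum_nonneg fun q hq => (hwpos q hq).le
  have hpt : ∀ a, ‖bilS M R B a * slot (sp M R) c₁ a * slot (sp M R) c₂ a‖ ^ 2 ≤
      W * ∑ q ∈ 𝒬, (w q)⁻¹ * ‖rowS M R 5 (β q) a‖ ^ 2 := by
    intro a
    rw [MBa_stepA hR0, ← MBa_stepC hQ hL₁ hL₂ hR hB h₁ h₂ a,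
      ← Finset.sum_congr rfl fun q hq => MBa_stepB M R B c₁ c₂ a (hmem q hq).1]
    refine le_trans (pow_le_pow_left₀ (norm_nonneg _) (norm_sum_le _ _) 2) ?_
    refine Finset.sum_sq_le_sum_mul_sum_of_sq_le_mul _ (fun q hq => (hwpos q hq).le)
      (fun q hq => by have := hwpos q hq; positivity) fun q hq => ?_
    rw [← mul_assoc, mul_inv_cancel₀ (hwpos q hq).ne', one_mul, norm_mul, RCLike.norm_conj]
    exact pow_le_pow_left₀ (by positivity)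
      (mul_le_of_le_one_left (norm_nonneg _) (norm_sym_le _ _)) 2
  have hs : ∀ q ∈ 𝒬, Summable fun a : O =>
      W * ((w q)⁻¹ * (gw (nr a / A) * ‖rowS M R 5 (β q) a‖ ^ 2)) := fun q _ =>
    ((MBa_summable M R 5 (β q) hA).mul_left _).mul_left _
  have hpt' : ∀ a, gw (nr a / A) * ‖bilS M R B a * slot (sp M R) c₁ a * slot (sp M R) c₂ a‖ ^ 2 ≤
      ∑ q ∈ 𝒬, W * ((w q)⁻¹ * (gw (nr a / A) * ‖rowS M R 5 (β q) a‖ ^ 2)) := by
    intro a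
    refine (mul_le_mul_of_nonneg_left (hpt a) (gw_pos _).le).trans_eq ?_
    rw [Finset.mul_sum, Finset.mul_sum]
    exact Finset.sum_congr rfl fun q _ => by ring
  have hs2 := summable_sum hs
  refine (Summable.tsum_le_tsum hpt' (Summable.of_nonneg_of_le
    (fun a => by have := gw_pos (nr a / A); positivity) hpt' hs2) hs2).trans ?_
  rw [Summable.tsum_finsetSum hs]
  calc _ ≤ ∑ q ∈ 𝒬, W * (E * w q) := by
        refine Finset.sum_le_sum fun q hq => ?_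
        rw [tsum_mul_left, tsum_mul_left]
        refine mul_le_mul_of_nonneg_left ?_ hW0
        obtain ⟨a1, a2, a3, a4⟩ := hmem q hq
        have k1 : Dq M R 5 (β q) A ≤ E / nr (MBa_p q) :=
          hD _ _ _ _ a1.1 a1.2.1 a1.2.2.1 a1.2.2.2 a2 a3 a4
        have k2 := nr_pos a1.p.ne_zero
        have k3 : w q * w q = (nr (MBa_p q))⁻¹ := by
          simp only [hw]
          rw [← Real.rpow_add k2, ← Real.rpow_neg_one]; norm_num
        have k4 := hwpos q hq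
        refine (mul_le_mul_of_nonneg_left k1 (inv_nonneg.2 k4.le)).trans_eq ?_
        rw [div_eq_mul_inv, ← k3]
        field_simp
    _ = W * W * E := by rw [← Finset.mul_sum, ← Finset.mul_sum, ← hWdef]; ring
    _ ≤ (C * R ^ (ε / 2)) * (C * R ^ (ε / 2)) * E := by gcongr
    _ = C ^ 2 * (R ^ (ε / 2) * R ^ (ε / 2)) * E := by ring
    _ = _ := by rw [← Real.rpow_add (by linarith), add_halves]

open Classical in
/-- The truncated weight of a plain sum. -/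
def wT {M : O} (ν : Chr M) (N τ Λ : ℝ) (n : O) : ℂ :=
  if Primary n ∧ nr n ≤ N * Λ then ev ν n * Wc (nr n / N) (τ * Complex.I) else 0

/-- The (possibly centred) bilinear coefficient, `N₁ N₂ = N₃ N₄`, `κ ∈ {0, 1}`. -/
def cenB {M : O} (ν : Chr M) (N₁ N₂ N₃ N₄ τ Λ : ℝ) (κ : ℂ) (n₁ n₂ : O) : ℂ :=
  wT ν N₁ τ Λ n₁ * wT ν N₂ τ Λ n₂ - κ * (wT ν N₃ τ Λ n₁ * wT ν N₄ τ Λ n₂)

/-- The (possibly centred) product of plain sums. -/
def cenP {M : O} (ν : Chr M) (a : O) (N₁ N₂ N₃ N₄ : ℝ) (κ s : ℂ) : ℂ :=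
  Pln ν a N₁ s * Pln ν a N₂ s - κ * (Pln ν a N₃ s * Pln ν a N₄ s)

theorem MBa_wT_supp {M : O} {ν : Chr M} {N τ Λ : ℝ} {n : O} (h : wT ν N τ Λ n ≠ 0) :
    Primary n ∧ IsCoprime n M ∧ nr n ≤ N * Λ := by
  classical
  unfold wT at h
  split_ifs at h with hc
  · refine ⟨hc.1, ?_, hc.2⟩
    by_contra h1
    exact h (by rw [ev_eq_zero ν h1, zero_mul])
  · exact absurd rfl h

theorem MBa_norm_wT {M : O} (hM : M ≠ 0) (ν : Chr M) (N τ Λ : ℝ) (n : O) :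
    ‖wT ν N τ Λ n‖ ≤ 1 := by
  classical
  unfold wT
  split_ifs with hc
  · rw [norm_mul]
    have h1 := norm_Wc_le (nr n / N) (τ * Complex.I)
    have h2 : ((τ : ℂ) * Complex.I).re = 0 := by simp
    rw [h2] at h1
    simp only [ne_eq, OfNat.ofNat_ne_zero, not_false_eq_true, zero_pow, zero_div,
      Real.exp_zero] at h1
    exact mul_le_one₀ (norm_ev_le hM ν n) (norm_nonneg _) h1
  · simp

theorem suppB_cenB {M : O} (ν : Chr M) {N₁ N₂ N₃ N₄ Λ : ℝ} (h : N₁ * N₂ = N₃ * N₄) (τ : ℝ) (κ : ℂ) :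
    SuppB M (N₁ * N₂ * Λ ^ 2) (cenB ν N₁ N₂ N₃ N₄ τ Λ κ) := by
  intro n₁ n₂ hn
  have key : ∀ N N' : ℝ, wT ν N τ Λ n₁ * wT ν N' τ Λ n₂ ≠ 0 → Primary n₁ ∧ IsCoprime n₁ M ∧
      Primary n₂ ∧ IsCoprime n₂ M ∧ nr n₁ * nr n₂ ≤ N * N' * Λ ^ 2 := by
    intro N N' h0
    obtain ⟨a1, a2, a3⟩ := MBa_wT_supp (left_ne_zero_of_mul h0)
    obtain ⟨b1, b2, b3⟩ := MBa_wT_supp (right_ne_zero_of_mul h0)
    refine ⟨a1, a2, b1, b2, ?_⟩
    calc nr n₁ * nr n₂ ≤ (N * Λ) * (N' * Λ) :=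
          mul_le_mul a3 b3 (by positivity) (le_trans (by positivity) a3)
      _ = _ := by ring
  by_cases h1 : wT ν N₁ τ Λ n₁ * wT ν N₂ τ Λ n₂ = 0
  · rw [h]
    refine key _ _ fun h2 => hn ?_
    rw [cenB, h1, h2]; simp
  · exact key _ _ h1

theorem norm_cenB_le {M : O} (hM : Adm M) (ν : Chr M) (N₁ N₂ N₃ N₄ τ Λ : ℝ) {κ : ℂ} (hκ : ‖κ‖ ≤ 1)
    (x y : O) : ‖cenB ν N₁ N₂ N₃ N₄ τ Λ κ x y‖ ≤ 2 := by
  have h := MBa_norm_wT hM.1 ν
  have h1 : ∀ N N' : ℝ, ‖wT ν N τ Λ x * wT ν N' τ Λ y‖ ≤ 1 := fun N N' => by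
    rw [norm_mul]; exact mul_le_one₀ (h _ _ _ _) (norm_nonneg _) (h _ _ _ _)
  have h2 : ‖κ * (wT ν N₃ τ Λ x * wT ν N₄ τ Λ y)‖ ≤ 1 := by
    rw [norm_mul]; exact mul_le_one₀ hκ (norm_nonneg _) (h1 _ _)
  unfold cenB
  linarith [norm_sub_le (wT ν N₁ τ Λ x * wT ν N₂ τ Λ y) (κ * (wT ν N₃ τ Λ x * wT ν N₄ τ Λ y)),
    h1 N₁ N₂]

open Classical in
theorem MBa_trunc (B σ : ℝ) : ∃ C : ℝ, 0 < C ∧ ∀ (b : O → ℂ) (X Λ : ℝ) (s : ℂ) (S : Finset O),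
    PolyB b 1 0 → 0 < X → 1 ≤ Λ → |s.re| ≤ σ → (∀ n, b n ≠ 0 → nr n ≤ X * Λ → n ∈ S) →
    ‖∑ n ∈ S, (if nr n ≤ X * Λ then b n * Wc (nr n / X) s else 0) - Sm b X s‖ ≤
      C * X * Λ ^ (-B) := by
  obtain ⟨C, hC, h⟩ := tsum_norm_Sm_tail_le B 0 σ le_rfl
  refine ⟨C, hC, fun b X Λ s S hb hX hΛ hs hS => ?_⟩
  have h1 := h b 1 X Λ s hb hX hΛ hs
  rw [zero_add, Real.rpow_one, mul_one] at h1
  have hsum := summable_Sm hb hX s
  have e1 : ∑ n ∈ S, (if nr n ≤ X * Λ then b n * Wc (nr n / X) s else 0) =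
      ∑' n, (if nr n ≤ X * Λ then b n * Wc (nr n / X) s else 0) := by
    refine (tsum_eq_sum fun n hn => ?_).symm
    split_ifs with h2
    · by_cases h3 : b n = 0
      · rw [h3, zero_mul]
      · exact absurd (hS n h3 h2) hn
    · rfl
  have s1 : Summable fun n => (if nr n ≤ X * Λ then b n * Wc (nr n / X) s else 0) := by
    refine Summable.of_norm_bounded hsum fun n => ?_
    split_ifs
    · exact le_rfl
    · rw [norm_zero]; exact norm_nonneg _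
  have s2 : Summable fun n =>
      (if X / Λ ≤ nr n ∧ nr n ≤ X * Λ then 0 else ‖b n * Wc (nr n / X) s‖) := by
    refine Summable.of_nonneg_of_le (fun n => ?_) (fun n => ?_) hsum
    · split_ifs
      exacts [le_rfl, norm_nonneg _]
    · split_ifs
      exacts [norm_nonneg _, le_rfl]
  rw [e1, Sm, ← s1.tsum_sub hsum.of_norm]
  refine (tsum_of_norm_bounded s2.hasSum fun n => ?_).trans h1
  by_cases h2 : nr n ≤ X * Λ
  · rw [if_pos h2, sub_self, norm_zero]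
    split_ifs
    exacts [le_rfl, norm_nonneg _]
  · rw [if_neg h2, if_neg (fun h3 => h2 h3.2), zero_sub, norm_neg]

/-- Truncation of a plain sum restricted to the multiples of `D` (`tsum_norm_Sm_tail_le`). -/
theorem trunc_plain {M : O} (hM : Adm M) (B : ℝ) : ∃ C : ℝ, 0 < C ∧
    ∀ (R N τ Λ : ℝ) (ν ψ : Chr M) (d a : O) (w : ℂ), 1 ≤ R → 1 ≤ Λ → 0 < N → N * Λ ≤ R → Primary d →
      |w.re| ≤ 1 →
      ‖∑ n ∈ pr M R, wT ν N τ Λ (d * n) * ev ψ n * (nr n : ℂ) ^ w * conj (sym n a) -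
        ev ν d * ((N / nr d : ℝ) : ℂ) ^ w * Pln (ν * ψ) a (N / nr d) (τ * Complex.I + w)‖ ≤
        C * R ^ 3 * Λ ^ (-B) := by
  classical
  obtain ⟨C, hC, h⟩ := MBa_trunc B 1
  refine ⟨C, hC, fun R N τ Λ ν ψ d a w hR hΛ hN hNR hd hw => ?_⟩
  have hd0 := nr_pos hd.ne_zero
  have hd1 := one_le_nr hd.ne_zero
  set X := N / nr d with hXdef
  have hX : 0 < X := div_pos hN hd0
  have hXN : X ≤ N := div_le_self hN.le hd1
  have hXR : X * Λ ≤ R := (mul_le_mul_of_nonneg_right hXN (by linarith)).trans hNR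
  have hXR' : X ≤ R := le_trans (le_mul_of_one_le_right hX.le hΛ) hXR
  have hs : |((τ : ℂ) * Complex.I + w).re| ≤ 1 := by simpa using hw
  have h1 := h (rc (ν * ψ) a) X Λ (τ * Complex.I + w) (pr M R) (polyB_rc hM _ a) hX hΛ hs
    (fun n hn hle => by
      rw [MBa_mem_pr (by linarith)]
      refine ⟨?_, ?_, hle.trans hXR⟩
      · by_contra h2
        exact hn (by rw [rc, if_neg h2])
      · by_contra h2
        exact hn (rc_eq_zero _ fun h3 => h2 h3.of_mul_right_left))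
  have e1 : ∑ n ∈ pr M R, wT ν N τ Λ (d * n) * ev ψ n * (nr n : ℂ) ^ w * conj (sym n a) =
      ev ν d * (X : ℂ) ^ w * ∑ n ∈ pr M R, (if nr n ≤ X * Λ then
        rc (ν * ψ) a n * Wc (nr n / X) (τ * Complex.I + w) else 0) := by
    rw [Finset.mul_sum]
    refine Finset.sum_congr rfl fun n hn => ?_
    rw [MBa_mem_pr (by linarith)] at hn
    have hn0 := nr_pos hn.1.ne_zero
    have e2 : nr (d * n) ≤ N * Λ ↔ nr n ≤ X * Λ := by
      rw [nr_mul, hXdef, div_mul_eq_mul_div, le_div_iff₀ hd0, mul_comm]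
    have e3 : nr (d * n) / N = nr n / X := by
      rw [nr_mul, hXdef]; field_simp
    have e4 : (X : ℂ) ^ w * ((nr n / X : ℝ) : ℂ) ^ w = (nr n : ℂ) ^ w := by
      rw [← Complex.mul_cpow_ofReal_nonneg hX.le (div_pos hn0 hX).le, ← Complex.ofReal_mul,
        mul_div_cancel₀ _ hX.ne']
    unfold wT
    by_cases h2 : nr n ≤ X * Λ
    · rw [if_pos ⟨hd.mul hn.1, e2.2 h2⟩, if_pos h2, rc, if_pos hn.1, Wc_add (div_pos hn0 hX), e3,
        ev_mul, ev_mul_chr, ← e4]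
      ring
    · rw [if_neg (fun h3 => h2 (e2.1 h3.2)), if_neg h2]
      simp
  rw [e1, Pln_eq_Sm, ← mul_sub, norm_mul, norm_mul, Complex.norm_cpow_eq_rpow_re_of_pos hX]
  have h2 : X ^ w.re * X ≤ R ^ 3 := by
    have h3 := abs_le.1 hw
    rw [← Real.rpow_add_one hX.ne']
    calc X ^ (w.re + 1) ≤ R ^ (w.re + 1) := Real.rpow_le_rpow hX.le hXR' (by linarith)
      _ ≤ R ^ ((3 : ℕ) : ℝ) := Real.rpow_le_rpow_of_exponent_le hR (by push_cast; linarith)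
      _ = R ^ 3 := Real.rpow_natCast _ _
  have h4 : 0 ≤ Λ ^ (-B) := by positivity
  calc _ ≤ 1 * X ^ w.re * (C * X * Λ ^ (-B)) := by
        gcongr
        exact norm_ev_le hM.1 ν d
    _ = C * (X ^ w.re * X) * Λ ^ (-B) := by ring
    _ ≤ _ := by gcongr


theorem MBa_card_pr (M : O) {R : ℝ} (hR : 1 ≤ R) : ((pr M R).card : ℝ) ≤ 8 * R := by
  classical
  have h1 : (pr M R).card ≤ 7 * ⌊R⌋₊ + 1 := (Finset.card_filter_le _ _).trans (card_ball_le _)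
  have h2 : (⌊R⌋₊ : ℝ) ≤ R := Nat.floor_le (by linarith)
  have h3 : ((pr M R).card : ℝ) ≤ 7 * ⌊R⌋₊ + 1 := by exact_mod_cast h1
  linarith

/-- Truncation at the start. -/
theorem trunc_cen {M : O} (hM : Adm M) (B : ℝ) : ∃ C : ℝ, 0 < C ∧
    ∀ (R N₁ N₂ N₃ N₄ τ Λ : ℝ) (ν : Chr M) (κ : ℂ) (a : O), 1 ≤ R → 1 ≤ Λ → 0 < N₁ → 0 < N₂ →
      0 < N₃ → 0 < N₄ → N₁ * Λ ≤ R → N₂ * Λ ≤ R → N₃ * Λ ≤ R → N₄ * Λ ≤ R → ‖κ‖ ≤ 1 →
      ‖cenP ν a N₁ N₂ N₃ N₄ κ (τ * Complex.I) - bilS M R (cenB ν N₁ N₂ N₃ N₄ τ Λ κ) a‖ ≤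
        C * R ^ 4 * Λ ^ (-B) := by
  classical
  obtain ⟨C, hC, h⟩ := MBa_trunc B 0
  obtain ⟨C', hC', h'⟩ := tsum_norm_Sm_le 0 0 0 le_rfl
  refine ⟨2 * (C * C' + 8 * C), by positivity,
    fun R N₁ N₂ N₃ N₄ τ Λ ν κ a hR hΛ h1 h2 h3 h4 g1 g2 g3 g4 hκ => ?_⟩
  have hR0 : 0 ≤ R := by linarith
  have hs : |((τ : ℂ) * Complex.I).re| ≤ 0 := by simp
  have hL : 0 ≤ Λ ^ (-B) := by positivity
  set S : ℝ → ℂ := fun N => ∑ n ∈ pr M R, wT ν N τ Λ n * conj (sym n a) with hS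
  have hNR : ∀ N : ℝ, 0 < N → N * Λ ≤ R → N ≤ R := fun N hN g =>
    le_trans (le_mul_of_one_le_right hN.le hΛ) g
  have hSP : ∀ N : ℝ, 0 < N → N * Λ ≤ R →
      ‖S N - Pln ν a N (τ * Complex.I)‖ ≤ C * R * Λ ^ (-B) := by
    intro N hN g
    have k1 := h (rc ν a) N Λ (τ * Complex.I) (pr M R) (polyB_rc hM _ a) hN hΛ hs
      (fun n hn hle => by
        rw [MBa_mem_pr hR0]
        refine ⟨?_, ?_, hle.trans g⟩
        · by_contra h2
          exact hn (by rw [rc, if_neg h2])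
        · by_contra h2
          exact hn (rc_eq_zero _ fun h3 => h2 h3.of_mul_right_left))
    have e1 : S N = ∑ n ∈ pr M R, (if nr n ≤ N * Λ then
        rc ν a n * Wc (nr n / N) (τ * Complex.I) else 0) := by
      refine Finset.sum_congr rfl fun n hn => ?_
      rw [MBa_mem_pr hR0] at hn
      unfold wT
      by_cases h2 : nr n ≤ N * Λ
      · rw [if_pos ⟨hn.1, h2⟩, if_pos h2, rc, if_pos hn.1]; ring
      · rw [if_neg (fun h3 => h2 h3.2), if_neg h2, zero_mul]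
    rw [e1, Pln_eq_Sm]
    refine k1.trans ?_
    have := hNR N hN g
    gcongr
  have hP : ∀ N : ℝ, 0 < N → N * Λ ≤ R → ‖Pln ν a N (τ * Complex.I)‖ ≤ C' * R := by
    intro N hN g
    have k1 := h' (rc ν a) 1 N (τ * Complex.I) (polyB_rc hM _ a) hN hs
    rw [Pln_eq_Sm, Sm]
    refine (norm_tsum_le_tsum_norm (summable_Sm (polyB_rc hM _ a) hN _)).trans (k1.trans ?_)
    have k2 : min (N ^ ((0 : ℝ) + 1)) (N ^ ((0 : ℝ) + 1 + |0|)) ≤ R := by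
      refine (min_le_left _ _).trans ?_
      rw [zero_add, Real.rpow_one]; exact hNR N hN g
    rw [mul_one]
    gcongr
  have hSb : ∀ N : ℝ, ‖S N‖ ≤ 8 * R := by
    intro N
    refine (norm_sum_le _ _).trans (le_trans ?_ (MBa_card_pr M hR))
    rw [← mul_one ((pr M R).card : ℝ), ← nsmul_eq_mul]
    refine Finset.sum_le_card_nsmul _ _ _ fun n _ => ?_
    rw [norm_mul, RCLike.norm_conj]
    exact mul_le_one₀ (MBa_norm_wT hM.1 _ _ _ _ _) (norm_nonneg _) (norm_sym_le _ _)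
  have hprod : ∀ N N' : ℝ, 0 < N → N * Λ ≤ R → 0 < N' → N' * Λ ≤ R →
      ‖Pln ν a N (τ * Complex.I) * Pln ν a N' (τ * Complex.I) - S N * S N'‖ ≤
        (C * C' + 8 * C) * R ^ 4 * Λ ^ (-B) := by
    intro N N' hN g hN' g'
    have e : Pln ν a N (τ * Complex.I) * Pln ν a N' (τ * Complex.I) - S N * S N' =
        -((S N - Pln ν a N (τ * Complex.I)) * Pln ν a N' (τ * Complex.I) +
          S N * (S N' - Pln ν a N' (τ * Complex.I))) := by ring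
    rw [e, norm_neg]
    refine (norm_add_le _ _).trans ?_
    rw [norm_mul, norm_mul]
    have k : R ^ 2 ≤ R ^ 4 := pow_le_pow_right₀ hR (by norm_num)
    calc _ ≤ (C * R * Λ ^ (-B)) * (C' * R) + (8 * R) * (C * R * Λ ^ (-B)) := by
          gcongr
          exacts [hSP N hN g, hP N' hN' g', hSb N, hSP N' hN' g']
      _ = (C * C' + 8 * C) * R ^ 2 * Λ ^ (-B) := by ring
      _ ≤ _ := by gcongr
  have eb : bilS M R (cenB ν N₁ N₂ N₃ N₄ τ Λ κ) a = S N₁ * S N₂ - κ * (S N₃ * S N₄) := by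
    simp only [hS, bilS]
    rw [Finset.sum_mul_sum, Finset.sum_mul_sum, Finset.mul_sum, ← Finset.sum_sub_distrib]
    simp only [Finset.mul_sum, ← Finset.sum_sub_distrib]
    refine Finset.sum_congr rfl fun n₁ hn₁ => Finset.sum_congr rfl fun n₂ hn₂ => ?_
    rw [MBa_mem_pr hR0] at hn₁ hn₂
    rw [cenB, sym_mul_left hn₁.1.ne_zero hn₂.1.ne_zero, map_mul]
    ring
  have e2 : cenP ν a N₁ N₂ N₃ N₄ κ (τ * Complex.I) - (S N₁ * S N₂ - κ * (S N₃ * S N₄)) =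
      (Pln ν a N₁ (τ * Complex.I) * Pln ν a N₂ (τ * Complex.I) - S N₁ * S N₂) -
        κ * (Pln ν a N₃ (τ * Complex.I) * Pln ν a N₄ (τ * Complex.I) - S N₃ * S N₄) := by
    rw [cenP]; ring
  rw [eb, e2]
  refine (norm_sub_le _ _).trans ?_
  rw [norm_mul]
  have k1 := hprod N₁ N₂ h1 g1 h2 g2
  have k2 := hprod N₃ N₄ h3 g3 h4 g4
  have k3 := mul_le_mul hκ k2 (norm_nonneg _) zero_le_one
  linarith

open Classical in
/-- Möbius expansion of the squarefree and coprimality conditions in two variables. -/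
theorem exists_moebius_two {ε : ℝ} (hε : 0 < ε) : ∃ C : ℝ, 0 < C ∧ ∀ (M T : O) (R : ℝ), 1 ≤ R →
    T ≠ 0 → ∃ c : O → O → ℂ,
      (∀ n₁ ∈ pr M R, ∀ n₂ ∈ pr M R,
        (if Squarefree (n₁ * n₂) ∧ IsCoprime (n₁ * n₂) T then 1 else 0 : ℂ) =
          ∑ d₁ ∈ pr M R, ∑ d₂ ∈ pr M R, if d₁ ∣ n₁ ∧ d₂ ∣ n₂ then c d₁ d₂ else 0) ∧
      ∑ d₁ ∈ pr M R, ∑ d₂ ∈ pr M R, ‖c d₁ d₂‖ / Real.sqrt (nr d₁ * nr d₂) ≤
        C * (R * nr T) ^ ε := by
  obtain ⟨C, hC, h⟩ := MBb_moeb hε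
  refine ⟨C, hC, fun M T R hR hT => ?_⟩
  obtain ⟨I, _, D₁, D₂, γ, hD, h1, h2⟩ := h T R hR hT
  have hR0 : 0 ≤ R := by linarith
  refine ⟨fun d₁ d₂ => ∑ i ∈ Finset.univ.filter (fun i => (D₁ i, D₂ i) = (d₁, d₂)), (γ i : ℂ),
    fun n₁ hn₁ n₂ hn₂ => ?_, le_trans ?_ h2⟩
  · rw [MBa_mem_pr hR0] at hn₁ hn₂
    have e := congrArg (fun x : ℝ => (x : ℂ)) (h1 n₁ n₂ hn₁.1 hn₂.1 hn₁.2.2 hn₂.2.2)
    simp only [apply_ite (fun x : ℝ => (x : ℂ)), Complex.ofReal_sum, Complex.ofReal_one,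
      Complex.ofReal_zero] at e
    have e2 := MBa_fib Finset.univ (pr M R ×ˢ pr M R) (fun i => (D₁ i, D₂ i)) (fun i => (γ i : ℂ))
      (fun d => if d.1 ∣ n₁ ∧ d.2 ∣ n₂ then 1 else 0)
    rw [e, ← Finset.sum_product']
    refine Eq.trans ?_ (e2.symm.trans (Finset.sum_congr rfl fun d _ => ?_))
    · refine Finset.sum_congr rfl fun i _ => ?_
      by_cases hc : D₁ i ∣ n₁ ∧ D₂ i ∣ n₂
      · rw [if_pos hc, if_pos, if_pos hc, mul_one]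
        rw [Finset.mem_product, MBa_mem_pr hR0, MBa_mem_pr hR0]
        exact ⟨⟨(hD i).1, hn₁.2.1.of_isCoprime_of_dvd_left hc.1,
          (MBa_nr_le hc.1 hn₁.1.ne_zero).trans hn₁.2.2⟩, (hD i).2,
          hn₂.2.1.of_isCoprime_of_dvd_left hc.2, (MBa_nr_le hc.2 hn₂.1.ne_zero).trans hn₂.2.2⟩
      · rw [if_neg hc, if_neg hc, mul_zero, ite_self]
    · split_ifs
      · rw [mul_one]
      · rw [mul_zero]
  · rw [← Finset.sum_product']
    calc _ ≤ ∑ d ∈ pr M R ×ˢ pr M R, ∑ i ∈ Finset.univ.filter (fun i => (D₁ i, D₂ i) = d),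
            |γ i| / Real.sqrt (nr (D₁ i) * nr (D₂ i)) := by
          refine Finset.sum_le_sum fun d _ => ?_
          refine (div_le_div_of_nonneg_right (norm_sum_le _ _) (Real.sqrt_nonneg _)).trans_eq ?_
          rw [Finset.sum_div]
          refine Finset.sum_congr rfl fun i hi => ?_
          rw [Finset.mem_filter] at hi
          rw [← hi.2, Complex.norm_real, Real.norm_eq_abs]
      _ ≤ _ := by
          rw [Finset.sum_fiberwise_eq_sum_filter, Finset.sum_filter]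
          refine Finset.sum_le_sum fun i _ => ?_
          by_cases hc : (D₁ i, D₂ i) ∈ pr M R ×ˢ pr M R
          · rw [if_pos hc]
            rw [Finset.mem_product, MBa_mem_pr hR0, MBa_mem_pr hR0] at hc
            rw [if_pos ⟨hc.1.2.2, hc.2.2.2⟩]
          · rw [if_neg hc]
            split_ifs
            · positivity
            · exact le_rfl

/-- the completely multiplicative twist -/
def MBb_u {M : O} (ψ : Chr M) (w : ℂ) (a n : O) : ℂ := ev ψ n * (nr n : ℂ) ^ w * conj (sym n a)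

theorem MBb_u_mul {M : O} (ψ : Chr M) (w : ℂ) (a : O) {m n : O} (hm : m ≠ 0) (hn : n ≠ 0) :
    MBb_u ψ w a (m * n) = MBb_u ψ w a m * MBb_u ψ w a n := by
  unfold MBb_u
  rw [ev_mul, sym_mul_left hm hn, map_mul, nr_mul, Complex.ofReal_mul,
    Complex.mul_cpow_ofReal_nonneg (by positivity) (by positivity)]
  ring

theorem MBb_norm_u {M : O} (hM : M ≠ 0) (ψ : Chr M) (w : ℂ) (a : O) {n : O} (hn : n ≠ 0) :
    ‖MBb_u ψ w a n‖ ≤ nr n ^ w.re := by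
  unfold MBb_u
  rw [norm_mul, norm_mul, RCLike.norm_conj, Complex.norm_cpow_eq_rpow_re_of_pos (nr_pos hn)]
  have h1 := norm_ev_le hM ψ n
  have h2 := norm_sym_le n a
  calc _ ≤ 1 * nr n ^ w.re * 1 := by gcongr
    _ = _ := by ring

open Classical in
theorem MBb_rewrite {M : O} {R Q : ℝ} {B : O → O → ℂ} (hB : SuppB M Q B) (hQ : Q ≤ R) (hR : 0 ≤ R)
    (ψ : Chr M) (w : ℂ) (a : O) {f₁ f₂ f t T : O} (h₁ : Primary f₁) (h₂ : Primary f₂)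
    (ht : Primary t) (htT : t ∣ T) (hts : Squarefree t) (htf : IsCoprime t f) :
    back M R (sqB M R B f₁ f₂ f) t T ψ w a =
      ∑ u ∈ (pdiv t ×ˢ pdiv t).filter (fun u => u.1 * u.2 = t), ∑ s₁ ∈ pr M R, ∑ s₂ ∈ pr M R,
        (if Squarefree (s₁ * s₂) ∧ IsCoprime (s₁ * s₂) (T * f) then 1 else 0 : ℂ) *
          (B (f₁ * u.1 * s₁) (f₂ * u.2 * s₂) * (MBb_u ψ w a s₁ * MBb_u ψ w a s₂)) := by
  have ht0 := ht.ne_zero
  have e1 : back M R (sqB M R B f₁ f₂ f) t T ψ w a =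
      ∑ x ∈ (sp M R ×ˢ sp M R ×ˢ sp M R).filter (fun x => IsCoprime x.1 T ∧
        (Squarefree (t * x.1) ∧ IsCoprime (t * x.1) f) ∧ x.2.1 * x.2.2 = t * x.1),
        B (f₁ * x.2.1) (f₂ * x.2.2) * MBb_u ψ w a x.1 := by
    rw [back, Finset.sum_filter, Finset.sum_product]
    refine Finset.sum_congr rfl fun s _ => ?_
    by_cases k1 : IsCoprime s T
    · rw [if_pos k1, sqB]
      by_cases k2 : Squarefree (t * s) ∧ IsCoprime (t * s) f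
      · rw [if_pos k2, Finset.sum_filter, mul_assoc, mul_assoc, Finset.sum_mul]
        refine Finset.sum_congr rfl fun v _ => ?_
        by_cases k3 : v.1 * v.2 = t * s
        · rw [if_pos k3, if_pos ⟨k1, k2, k3⟩, MBb_u]; ring
        · rw [if_neg k3, if_neg fun h => k3 h.2.2, zero_mul]
      · rw [if_neg k2, zero_mul, zero_mul, zero_mul]
        exact (Finset.sum_eq_zero fun v _ => if_neg fun h => k2 h.2.1).symm
    · rw [if_neg k1]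
      exact (Finset.sum_eq_zero fun v _ => if_neg fun h => k1 h.1).symm
  have e2 : ∑ u ∈ (pdiv t ×ˢ pdiv t).filter (fun u => u.1 * u.2 = t), ∑ s₁ ∈ pr M R, ∑ s₂ ∈ pr M R,
        (if Squarefree (s₁ * s₂) ∧ IsCoprime (s₁ * s₂) (T * f) then 1 else 0 : ℂ) *
          (B (f₁ * u.1 * s₁) (f₂ * u.2 * s₂) * (MBb_u ψ w a s₁ * MBb_u ψ w a s₂)) =
      ∑ y ∈ (((pdiv t ×ˢ pdiv t).filter (fun u => u.1 * u.2 = t)) ×ˢ pr M R ×ˢ pr M R).filter
        (fun y => Squarefree (y.2.1 * y.2.2) ∧ IsCoprime (y.2.1 * y.2.2) (T * f)),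
        B (f₁ * y.1.1 * y.2.1) (f₂ * y.1.2 * y.2.2) * (MBb_u ψ w a y.2.1 * MBb_u ψ w a y.2.2) := by
    rw [Finset.sum_filter (s := _ ×ˢ pr M R ×ˢ pr M R), Finset.sum_product]
    refine Finset.sum_congr rfl fun u _ => ?_
    rw [Finset.sum_product]
    refine Finset.sum_congr rfl fun s₁ _ => Finset.sum_congr rfl fun s₂ _ => ?_
    split_ifs
    · rw [one_mul]
    · rw [zero_mul]
  rw [e1, e2]
  symm
  refine Finset.sum_bij_ne_zero (fun y _ _ => (y.2.1 * y.2.2, y.1.1 * y.2.1, y.1.2 * y.2.2))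
    (fun y hy hne => ?_) (fun y hy _ z hz _ e => ?_) (fun x hx hne => ?_) (fun y hy _ => ?_)
  · obtain ⟨⟨t₁, t₂⟩, s₁, s₂⟩ := y
    simp only [Finset.mem_filter, Finset.mem_product, mem_pdiv ht0, MBa_mem_pr hR] at hy
    obtain ⟨⟨⟨⟨⟨a1, -⟩, a2, -⟩, a3⟩, ⟨b1, b2, -⟩, b3, b4, -⟩, c1, c2⟩ := hy
    obtain ⟨-, d1, -, d2, d3⟩ := hB _ _ (left_ne_zero_of_mul hne)
    simp only at d1 d2 d3
    have c3 : IsCoprime (s₁ * s₂) T := c2.of_mul_right_left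
    have c4 : Squarefree (t * (s₁ * s₂)) :=
      squarefree_mul_iff.2 ⟨(c3.symm.of_isCoprime_of_dvd_left htT).isRelPrime, hts, c1⟩
    have e3 : t₁ * s₁ * (t₂ * s₂) = t * (s₁ * s₂) := by rw [← a3]; ring
    have g0 : f₁ * t₁ * s₁ * (f₂ * t₂ * s₂) ≠ 0 :=
      (((h₁.mul a1).mul b1).mul ((h₂.mul a2).mul b3)).ne_zero
    have g1 : ∀ d, d ∣ f₁ * t₁ * s₁ * (f₂ * t₂ * s₂) → nr d ≤ R := fun d hd =>
      (MBa_nr_le hd g0).trans (by rw [nr_mul]; exact d3.trans hQ)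
    simp only [Finset.mem_filter, Finset.mem_product, LS2.mem_sp hR]
    refine ⟨⟨⟨⟨b1.mul b3, c1, b2.mul_left b4⟩, g1 _ ⟨f₁ * t₁ * (f₂ * t₂), by ring⟩⟩,
      ⟨⟨a1.mul b1, c4.squarefree_of_dvd ⟨_, e3.symm⟩,
        d1.of_isCoprime_of_dvd_left ⟨f₁, by ring⟩⟩, g1 _ ⟨f₁ * (f₂ * t₂ * s₂), by ring⟩⟩,
      ⟨⟨a2.mul b3, c4.squarefree_of_dvd ⟨t₁ * s₁, by rw [← e3]; ring⟩,
        d2.of_isCoprime_of_dvd_left ⟨f₂, by ring⟩⟩, g1 _ ⟨f₁ * t₁ * s₁ * f₂, by ring⟩⟩⟩,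
      c3, ⟨c4, htf.mul_left c2.of_mul_right_right⟩, e3⟩
  · obtain ⟨⟨t₁, t₂⟩, s₁, s₂⟩ := y
    obtain ⟨⟨t₁', t₂'⟩, s₁', s₂'⟩ := z
    simp only [Finset.mem_filter, Finset.mem_product, mem_pdiv ht0] at hy hz
    obtain ⟨⟨⟨⟨⟨a1, a2⟩, a3, a4⟩, -⟩, -⟩, -, c2⟩ := hy
    obtain ⟨⟨⟨⟨⟨a1', a2'⟩, a3', a4'⟩, -⟩, -⟩, -, c2'⟩ := hz
    simp only [Prod.mk.injEq] at e
    have k1 := MBa_cancel a1 a1' (a2.trans htT) (a2'.trans htT)
      c2.of_mul_right_left.of_mul_left_left c2'.of_mul_right_left.of_mul_left_left e.2.1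
    have k2 := MBa_cancel a3 a3' (a4.trans htT) (a4'.trans htT)
      c2.of_mul_right_left.of_mul_left_right c2'.of_mul_right_left.of_mul_left_right e.2.2
    rw [k1.1, k1.2, k2.1, k2.2]
  · obtain ⟨s, v₁, v₂⟩ := x
    simp only [Finset.mem_filter, Finset.mem_product, LS2.mem_sp hR] at hx
    obtain ⟨⟨⟨a1, a2⟩, ⟨b1, -⟩, b2, -⟩, c1, ⟨c2, c3⟩, c4⟩ := hx
    obtain ⟨t₁, s₁, p1, q1, r1, u1, rfl⟩ := MBa_split b1.1 (show v₁ ∣ t * s from ⟨_, c4.symm⟩)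
    obtain ⟨t₂, s₂, p2, q2, r2, u2, rfl⟩ := MBa_split b2.1
      (show v₂ ∣ t * s from ⟨t₁ * s₁, by rw [← c4]; ring⟩)
    have hst : IsCoprime s t := (c1.symm.of_isCoprime_of_dvd_left htT).symm
    have e3 : t₁ * t₂ * (s₁ * s₂) = t * s := by rw [← c4]; ring
    have k1 : IsCoprime (t₁ * t₂) s :=
      (hst.symm.of_isCoprime_of_dvd_left r1).mul_left (hst.symm.of_isCoprime_of_dvd_left r2)
    have k2 : IsCoprime (s₁ * s₂) t :=
      (hst.of_isCoprime_of_dvd_left u1).mul_left (hst.of_isCoprime_of_dvd_left u2)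
    have k3 : t₁ * t₂ = t := (p1.mul p2).eq_of_associated ht (associated_of_dvd_dvd
      (k1.dvd_of_dvd_mul_right ⟨_, e3.symm⟩) (k2.symm.dvd_of_dvd_mul_right ⟨_, e3⟩))
    have k4 : s₁ * s₂ = s := by
      rw [k3] at e3
      exact mul_left_cancel₀ ht0 e3
    subst k4
    refine ⟨((t₁, t₂), s₁, s₂), ?_, ?_, rfl⟩
    · simp only [Finset.mem_filter, Finset.mem_product, mem_pdiv ht0, MBa_mem_pr hR]
      exact ⟨⟨⟨⟨⟨p1, r1⟩, p2, r2⟩, k3⟩, ⟨q1, a1.2.2.of_mul_left_left,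
        (MBa_le_left q2.ne_zero).trans a2⟩, q2, a1.2.2.of_mul_left_right,
        (MBa_le_right q1.ne_zero).trans a2⟩, a1.2.1, c1.mul_right c3.of_mul_left_right⟩
    · simp only at hne ⊢
      rwa [mul_assoc f₁, mul_assoc f₂, ← MBb_u_mul ψ w a q1.ne_zero q2.ne_zero]
  · obtain ⟨⟨t₁, t₂⟩, s₁, s₂⟩ := y
    simp only [Finset.mem_filter, Finset.mem_product, MBa_mem_pr hR] at hy
    simp only
    rw [mul_assoc f₁, mul_assoc f₂, MBb_u_mul ψ w a hy.1.2.1.1.ne_zero hy.1.2.2.1.ne_zero]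

/-- the plain sum over the multiples of `D` -/
def MBb_S {M : O} (R : ℝ) (ν ψ : Chr M) (τ Λ : ℝ) (w : ℂ) (a : O) (N : ℝ) (D : O) : ℂ :=
  ∑ n ∈ pr M R, wT ν N τ Λ (D * n) * MBb_u ψ w a n

open Classical in
theorem MBb_subst {M : O} {R : ℝ} (hR : 0 ≤ R) (ν ψ : Chr M) (τ Λ : ℝ) (w : ℂ) (a : O) {N : ℝ}
    (hN : N * Λ ≤ R) {g d : O} (hg : Primary g) (hd : d ∈ pr M R) :
    ∑ s ∈ pr M R, (if d ∣ s then wT ν N τ Λ (g * s) * MBb_u ψ w a s else 0) =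
      MBb_u ψ w a d * MBb_S R ν ψ τ Λ w a N (g * d) := by
  rw [MBa_mem_pr hR] at hd
  rw [MBb_S, Finset.mul_sum, ← Finset.sum_filter]
  symm
  refine Finset.sum_bij_ne_zero (fun n _ _ => d * n) (fun n hn hne => ?_)
    (fun n _ _ m _ _ e => mul_left_cancel₀ hd.1.ne_zero e) (fun s hs hne => ?_) (fun n hn _ => ?_)
  · rw [MBa_mem_pr hR] at hn
    obtain ⟨-, -, a3⟩ := MBa_wT_supp (left_ne_zero_of_mul (right_ne_zero_of_mul hne))
    rw [Finset.mem_filter, MBa_mem_pr hR]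
    refine ⟨⟨hd.1.mul hn.1, hd.2.1.mul_left hn.2.1, le_trans ?_ (a3.trans hN)⟩, dvd_mul_right _ _⟩
    rw [mul_assoc]
    exact MBa_le_right hg.ne_zero
  · rw [Finset.mem_filter, MBa_mem_pr hR] at hs
    obtain ⟨⟨a1, a2, a3⟩, n, rfl⟩ := hs
    have hn := hd.1.of_mul a1
    refine ⟨n, (MBa_mem_pr hR).2 ⟨hn, a2.of_mul_left_right,
      (MBa_le_right hd.1.ne_zero).trans a3⟩, ?_, rfl⟩
    rw [MBb_u_mul ψ w a hd.1.ne_zero hn.ne_zero, ← mul_assoc g] at hne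
    exact fun h => hne (by rw [← h]; ring)
  · rw [MBa_mem_pr hR] at hn
    rw [MBb_u_mul ψ w a hd.1.ne_zero hn.1.ne_zero, ← mul_assoc g]
    ring

theorem MBb_norm_S {M : O} (hM : M ≠ 0) {R : ℝ} (hR : 1 ≤ R) (ν ψ : Chr M) (τ Λ : ℝ) {w : ℂ}
    (hw : w.re ≤ 0) (a : O) (N : ℝ) (D : O) : ‖MBb_S R ν ψ τ Λ w a N D‖ ≤ 8 * R := by
  refine (norm_sum_le _ _).trans (le_trans ?_ (MBa_card_pr M hR))
  rw [← mul_one ((pr M R).card : ℝ), ← nsmul_eq_mul]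
  refine Finset.sum_le_card_nsmul _ _ _ fun n hn => ?_
  rw [MBa_mem_pr (by linarith)] at hn
  rw [norm_mul]
  exact mul_le_one₀ (MBa_norm_wT hM _ _ _ _ _) (norm_nonneg _) ((MBb_norm_u hM ψ w a
    hn.1.ne_zero).trans (Real.rpow_le_one_of_one_le_of_nonpos (one_le_nr hn.1.ne_zero) hw))

theorem MBb_cen {M : O} (hM : Adm M) (B : ℝ) : ∃ C : ℝ, 0 < C ∧
    ∀ (R N₁ N₂ N₃ N₄ τ Λ p : ℝ) (ν ψ : Chr M) (κ w : ℂ) (D₁ D₂ a : O), 1 ≤ R → 1 ≤ Λ →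
      0 < N₁ → 0 < N₂ → 0 < N₃ → 0 < N₄ → N₁ * N₂ = N₃ * N₄ → N₁ * Λ ≤ R → N₂ * Λ ≤ R →
      N₃ * Λ ≤ R → N₄ * Λ ≤ R → ‖κ‖ ≤ 1 → Primary D₁ → Primary D₂ →
      -1 ≤ w.re → w.re ≤ -(1 / 2) →
      ‖cenP (ν * ψ) a (N₁ / nr D₁) (N₂ / nr D₂) (N₃ / nr D₁) (N₄ / nr D₂) κ
        (τ * Complex.I + w)‖ ≤ p * Real.sqrt (N₁ * N₂ / (nr D₁ * nr D₂)) →
      ‖MBb_S R ν ψ τ Λ w a N₁ D₁ * MBb_S R ν ψ τ Λ w a N₂ D₂ -
        κ * (MBb_S R ν ψ τ Λ w a N₃ D₁ * MBb_S R ν ψ τ Λ w a N₄ D₂)‖ ≤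
        p * (N₁ * N₂ / (nr D₁ * nr D₂)) ^ (1 / 2 + w.re) + C * R ^ 6 * Λ ^ (-B) := by
  obtain ⟨C, hC, h⟩ := trunc_plain hM (max B 0)
  refine ⟨2 * (16 * C + C ^ 2), by positivity,
    fun R N₁ N₂ N₃ N₄ τ Λ p ν ψ κ w D₁ D₂ a hR hΛ h1 h2 h3 h4 hN g1 g2 g3 g4 hκ hD₁ hD₂ hw hw' hp => ?_⟩
  have hR0 : 0 ≤ R := by linarith
  have hw1 : |w.re| ≤ 1 := abs_le.2 ⟨hw, by linarith⟩
  have hL0 : 0 ≤ Λ ^ (-B) := by positivity
  have hL1 : Λ ^ (-max B 0) ≤ Λ ^ (-B) :=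
    Real.rpow_le_rpow_of_exponent_le hΛ (neg_le_neg (le_max_left _ _))
  have hL2 : Λ ^ (-max B 0) ≤ 1 :=
    Real.rpow_le_one_of_one_le_of_nonpos hΛ (neg_nonpos.2 (le_max_right _ _))
  obtain ⟨S, hS⟩ : ∃ S : ℝ → O → ℂ, S = MBb_S R ν ψ τ Λ w a := ⟨_, rfl⟩
  obtain ⟨m, hm⟩ : ∃ m : ℝ → O → ℂ, m = fun N D => ev ν D * ((N / nr D : ℝ) : ℂ) ^ w *
    Pln (ν * ψ) a (N / nr D) (τ * Complex.I + w) := ⟨_, rfl⟩
  rw [← hS]
  have hSm : ∀ N D, 0 < N → N * Λ ≤ R → Primary D →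
      ‖S N D - m N D‖ ≤ C * R ^ 3 * Λ ^ (-max B 0) := by
    intro N D hN g hD
    have k := h R N τ Λ ν ψ D a w hR hΛ hN g hD hw1
    rw [hS, hm, MBb_S]
    simp only [MBb_u, ← mul_assoc]
    exact k
  have hSb : ∀ N D, ‖S N D‖ ≤ 8 * R := fun N D => by
    rw [hS]; exact MBb_norm_S hM.1 hR ν ψ τ Λ (by linarith) a N D
  have hprod : ∀ N D N' D', 0 < N → N * Λ ≤ R → Primary D → 0 < N' → N' * Λ ≤ R → Primary D' →
      ‖S N D * S N' D' - m N D * m N' D'‖ ≤ (16 * C + C ^ 2) * R ^ 6 * Λ ^ (-B) := by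
    intro N D N' D' a1 a2 a3 b1 b2 b3
    have k1 := hSm N D a1 a2 a3
    have k2 := hSm N' D' b1 b2 b3
    have e : S N D * S N' D' - m N D * m N' D' = (S N D - m N D) * S N' D' +
        S N D * (S N' D' - m N' D') - (S N D - m N D) * (S N' D' - m N' D') := by ring
    rw [e]
    refine (norm_sub_le _ _).trans ((add_le_add (norm_add_le _ _) le_rfl).trans ?_)
    rw [norm_mul, norm_mul, norm_mul]
    have k3 : R ^ 4 ≤ R ^ 6 := pow_le_pow_right₀ hR (by norm_num)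
    have k4 : ‖S N D - m N D‖ ≤ C * R ^ 3 * Λ ^ (-B) := k1.trans (by gcongr)
    have k5 : ‖S N' D' - m N' D'‖ ≤ C * R ^ 3 * Λ ^ (-B) := k2.trans (by gcongr)
    have k6 : ‖S N' D' - m N' D'‖ ≤ C * R ^ 3 * 1 := k2.trans (by gcongr)
    calc _ ≤ (C * R ^ 3 * Λ ^ (-B)) * (8 * R) + (8 * R) * (C * R ^ 3 * Λ ^ (-B)) +
          (C * R ^ 3 * Λ ^ (-B)) * (C * R ^ 3 * 1) := by
          gcongr
          exacts [hSb _ _, hSb _ _]
      _ = (16 * C * R ^ 4 + C ^ 2 * R ^ 6) * Λ ^ (-B) := by ring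
      _ ≤ (16 * C * R ^ 6 + C ^ 2 * R ^ 6) * Λ ^ (-B) := by gcongr
      _ = _ := by ring
  have p₁ := nr_pos hD₁.ne_zero
  have p₂ := nr_pos hD₂.ne_zero
  have hX : 0 < N₁ * N₂ / (nr D₁ * nr D₂) := by positivity
  have c1 : ((N₁ / nr D₁ : ℝ) : ℂ) ^ w * ((N₂ / nr D₂ : ℝ) : ℂ) ^ w =
      ((N₁ * N₂ / (nr D₁ * nr D₂) : ℝ) : ℂ) ^ w := by
    rw [← Complex.mul_cpow_ofReal_nonneg (by positivity) (by positivity), ← Complex.ofReal_mul,
      div_mul_div_comm]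
  have c2 : ((N₃ / nr D₁ : ℝ) : ℂ) ^ w * ((N₄ / nr D₂ : ℝ) : ℂ) ^ w =
      ((N₁ * N₂ / (nr D₁ * nr D₂) : ℝ) : ℂ) ^ w := by
    rw [← Complex.mul_cpow_ofReal_nonneg (by positivity) (by positivity), ← Complex.ofReal_mul,
      div_mul_div_comm, hN]
  have e1 : m N₁ D₁ * m N₂ D₂ - κ * (m N₃ D₁ * m N₄ D₂) = ev ν D₁ * ev ν D₂ *
      ((N₁ * N₂ / (nr D₁ * nr D₂) : ℝ) : ℂ) ^ w * cenP (ν * ψ) a (N₁ / nr D₁) (N₂ / nr D₂)
        (N₃ / nr D₁) (N₄ / nr D₂) κ (τ * Complex.I + w) := by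
    simp only [hm, cenP]
    linear_combination (ev ν D₁ * ev ν D₂ * Pln (ν * ψ) a (N₁ / nr D₁) (τ * Complex.I + w) *
      Pln (ν * ψ) a (N₂ / nr D₂) (τ * Complex.I + w)) * c1 - κ * (ev ν D₁ * ev ν D₂ *
      Pln (ν * ψ) a (N₃ / nr D₁) (τ * Complex.I + w) *
      Pln (ν * ψ) a (N₄ / nr D₂) (τ * Complex.I + w)) * c2
  have e2 : ‖m N₁ D₁ * m N₂ D₂ - κ * (m N₃ D₁ * m N₄ D₂)‖ ≤
      p * (N₁ * N₂ / (nr D₁ * nr D₂)) ^ (1 / 2 + w.re) := by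
    rw [e1, norm_mul, norm_mul, norm_mul, Complex.norm_cpow_eq_rpow_re_of_pos hX,
      Real.rpow_add hX, ← Real.sqrt_eq_rpow]
    have k1 := norm_ev_le hM.1 ν D₁
    have k2 := norm_ev_le hM.1 ν D₂
    calc _ ≤ 1 * 1 * (N₁ * N₂ / (nr D₁ * nr D₂)) ^ w.re *
          (p * Real.sqrt (N₁ * N₂ / (nr D₁ * nr D₂))) := by gcongr
      _ = _ := by ring
  have e3 : S N₁ D₁ * S N₂ D₂ - κ * (S N₃ D₁ * S N₄ D₂) =
      (m N₁ D₁ * m N₂ D₂ - κ * (m N₃ D₁ * m N₄ D₂)) + ((S N₁ D₁ * S N₂ D₂ - m N₁ D₁ * m N₂ D₂) -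
        κ * (S N₃ D₁ * S N₄ D₂ - m N₃ D₁ * m N₄ D₂)) := by ring
  rw [e3]
  refine (norm_add_le _ _).trans (add_le_add e2 ((norm_sub_le _ _).trans ?_))
  rw [norm_mul]
  have k1 := hprod N₁ D₁ N₂ D₂ h1 g1 hD₁ h2 g2 hD₂
  have k2 := hprod N₃ D₁ N₄ D₂ h3 g3 hD₁ h4 g4 hD₂
  have k3 := mul_le_mul hκ k2 (norm_nonneg _) zero_le_one
  linarith

open Classical in
theorem MBb_inner {M : O} {R : ℝ} (hR : 0 ≤ R) (ν ψ : Chr M) (τ Λ : ℝ) (κ w : ℂ) (a : O)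
    {N₁ N₂ N₃ N₄ : ℝ} (g1 : N₁ * Λ ≤ R) (g2 : N₂ * Λ ≤ R) (g3 : N₃ * Λ ≤ R) (g4 : N₄ * Λ ≤ R)
    {g₁ g₂ : O} (hg₁ : Primary g₁) (hg₂ : Primary g₂) (I c : O → O → ℂ)
    (hc : ∀ n₁ ∈ pr M R, ∀ n₂ ∈ pr M R, I n₁ n₂ =
      ∑ d₁ ∈ pr M R, ∑ d₂ ∈ pr M R, if d₁ ∣ n₁ ∧ d₂ ∣ n₂ then c d₁ d₂ else 0) :
    ∑ s₁ ∈ pr M R, ∑ s₂ ∈ pr M R, I s₁ s₂ *
        (cenB ν N₁ N₂ N₃ N₄ τ Λ κ (g₁ * s₁) (g₂ * s₂) * (MBb_u ψ w a s₁ * MBb_u ψ w a s₂)) =
      ∑ d₁ ∈ pr M R, ∑ d₂ ∈ pr M R, c d₁ d₂ * (MBb_u ψ w a d₁ * MBb_u ψ w a d₂) *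
        (MBb_S R ν ψ τ Λ w a N₁ (g₁ * d₁) * MBb_S R ν ψ τ Λ w a N₂ (g₂ * d₂) -
          κ * (MBb_S R ν ψ τ Λ w a N₃ (g₁ * d₁) * MBb_S R ν ψ τ Λ w a N₄ (g₂ * d₂))) := by
  have e1 : ∑ s₁ ∈ pr M R, ∑ s₂ ∈ pr M R, I s₁ s₂ *
        (cenB ν N₁ N₂ N₃ N₄ τ Λ κ (g₁ * s₁) (g₂ * s₂) * (MBb_u ψ w a s₁ * MBb_u ψ w a s₂)) =
      ∑ s ∈ pr M R ×ˢ pr M R, ∑ d ∈ pr M R ×ˢ pr M R, (if d.1 ∣ s.1 ∧ d.2 ∣ s.2 then c d.1 d.2 else 0) *
        (cenB ν N₁ N₂ N₃ N₄ τ Λ κ (g₁ * s.1) (g₂ * s.2) * (MBb_u ψ w a s.1 * MBb_u ψ w a s.2)) := by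
    rw [Finset.sum_product]
    refine Finset.sum_congr rfl fun s₁ h₁ => Finset.sum_congr rfl fun s₂ h₂ => ?_
    rw [hc s₁ h₁ s₂ h₂, ← Finset.sum_mul, Finset.sum_product]
  rw [e1, Finset.sum_comm, Finset.sum_product]
  refine Finset.sum_congr rfl fun d₁ h₁ => Finset.sum_congr rfl fun d₂ h₂ => ?_
  have k1 := MBb_subst hR ν ψ τ Λ w a g1 hg₁ h₁
  have k2 := MBb_subst hR ν ψ τ Λ w a g2 hg₂ h₂
  have k3 := MBb_subst hR ν ψ τ Λ w a g3 hg₁ h₁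
  have k4 := MBb_subst hR ν ψ τ Λ w a g4 hg₂ h₂
  have e2 : c d₁ d₂ * (MBb_u ψ w a d₁ * MBb_u ψ w a d₂) *
        (MBb_S R ν ψ τ Λ w a N₁ (g₁ * d₁) * MBb_S R ν ψ τ Λ w a N₂ (g₂ * d₂) -
          κ * (MBb_S R ν ψ τ Λ w a N₃ (g₁ * d₁) * MBb_S R ν ψ τ Λ w a N₄ (g₂ * d₂))) =
      c d₁ d₂ * ((MBb_u ψ w a d₁ * MBb_S R ν ψ τ Λ w a N₁ (g₁ * d₁)) *
        (MBb_u ψ w a d₂ * MBb_S R ν ψ τ Λ w a N₂ (g₂ * d₂)) -
          κ * ((MBb_u ψ w a d₁ * MBb_S R ν ψ τ Λ w a N₃ (g₁ * d₁)) *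
            (MBb_u ψ w a d₂ * MBb_S R ν ψ τ Λ w a N₄ (g₂ * d₂)))) := by ring
  rw [e2, ← k1, ← k2, ← k3, ← k4, Finset.sum_mul_sum, Finset.sum_mul_sum, Finset.sum_product]
  simp only [Finset.mul_sum, ← Finset.sum_sub_distrib]
  refine Finset.sum_congr rfl fun s₁ _ => Finset.sum_congr rfl fun s₂ _ => ?_
  by_cases a1 : d₁ ∣ s₁ <;> by_cases a2 : d₂ ∣ s₂ <;> simp only [a1, a2, cenB, if_true, if_false,
    and_true, and_false, mul_zero, zero_mul, sub_zero]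
  ring

/-- **Return to plain sums.** -/
theorem back_sqB_le {M : O} (hM : Adm M) {ε : ℝ} (hε : 0 < ε) (B : ℝ) : ∃ C : ℝ, 0 < C ∧
    ∀ (R N₁ N₂ N₃ N₄ τ Λ p : ℝ) (ν ψ : Chr M) (κ w : ℂ) (f₁ f₂ f t T a : O), 1 ≤ R → 1 ≤ Λ →
      0 < N₁ → 0 < N₂ → 0 < N₃ → 0 < N₄ → N₁ * N₂ = N₃ * N₄ → N₁ * Λ ≤ R → N₂ * Λ ≤ R →
      N₃ * Λ ≤ R → N₄ * Λ ≤ R → N₁ * N₂ * Λ ^ 2 ≤ R → ‖κ‖ ≤ 1 → 0 ≤ p → Primary f₁ → Primary f₂ →
      Primary f → Primary t → Primary T → t ∣ T → nr f ≤ R → nr T ≤ R ^ 4 →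
      -1 ≤ w.re → w.re ≤ -(1 / 2) →
      (∀ ρ₁ ρ₂ : ℝ, 1 ≤ ρ₁ → 1 ≤ ρ₂ →
        ‖cenP (ν * ψ) a (N₁ / ρ₁) (N₂ / ρ₂) (N₃ / ρ₁) (N₄ / ρ₂) κ (τ * Complex.I + w)‖ ≤
          p * Real.sqrt (N₁ * N₂ / (ρ₁ * ρ₂))) →
      ‖back M R (sqB M R (cenB ν N₁ N₂ N₃ N₄ τ Λ κ) f₁ f₂ f) t T ψ w a‖ ≤
        C * R ^ ε * p * (N₁ * N₂ / (nr f₁ * nr f₂ * nr t)) ^ (1 / 2 + w.re) +
          C * R ^ (9 : ℝ) * Λ ^ (-B) := by
  classical
  obtain ⟨δ, hδ, hδ1, hδ2⟩ : ∃ δ : ℝ, 0 < δ ∧ 10 * δ ≤ ε ∧ 10 * δ ≤ 1 :=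
    ⟨min ε 1 / 10, by positivity, by linarith [min_le_left ε 1], by linarith [min_le_right ε 1]⟩
  obtain ⟨C₁, hC₁, h₁⟩ := exists_moebius_two hδ
  obtain ⟨C₂, hC₂, h₂⟩ := card_pdiv_le hδ
  obtain ⟨C₃, hC₃, h₃⟩ := MBb_cen hM B
  refine ⟨C₂ * C₁ * (1 + C₃), by positivity, fun R N₁ N₂ N₃ N₄ τ Λ p ν ψ κ w f₁ f₂ f t T a hR hΛ
    n1 n2 n3 n4 hN g1 g2 g3 g4 hQ hκ hp hf₁ hf₂ hf ht hT htT hfR hTR hw hw' hyp => ?_⟩
  have hR0 : 0 ≤ R := by linarith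
  have hRp : 0 < R := by linarith
  have q₁ := nr_pos hf₁.ne_zero
  have q₂ := nr_pos hf₂.ne_zero
  have q₃ := nr_pos ht.ne_zero
  obtain ⟨Y, hY⟩ : ∃ Y : ℝ, Y = N₁ * N₂ / (nr f₁ * nr f₂ * nr t) := ⟨_, rfl⟩
  have hY0 : 0 < Y := by rw [hY]; positivity
  rw [← hY]
  by_cases hc : Squarefree t ∧ IsCoprime t f
  swap
  · have : back M R (sqB M R (cenB ν N₁ N₂ N₃ N₄ τ Λ κ) f₁ f₂ f) t T ψ w a = 0 := by
      refine Finset.sum_eq_zero fun s _ => ?_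
      rw [sqB, if_neg (fun h : Squarefree (t * s) ∧ IsCoprime (t * s) f =>
        hc ⟨h.1.of_mul_left, h.2.of_mul_left_left⟩)]
      simp
    rw [this, norm_zero]
    positivity
  obtain ⟨c, hc1, hc2⟩ := h₁ M (T * f) R hR (hT.mul hf).ne_zero
  obtain ⟨E, hE⟩ : ∃ E : ℝ, E = p * Y ^ (1 / 2 + w.re) + C₃ * R ^ 6 * Λ ^ (-B) := ⟨_, rfl⟩
  have hE0 : 0 ≤ E := by rw [hE]; positivity
  have k1 : (R * nr (T * f)) ^ δ ≤ R ^ (6 * δ) := by
    rw [Real.rpow_mul hR0]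
    refine Real.rpow_le_rpow (by positivity) ?_ hδ.le
    rw [nr_mul, show (6 : ℝ) = (6 : ℕ) by norm_num, Real.rpow_natCast]
    calc R * (nr T * nr f) ≤ R * (R ^ 4 * R) := by gcongr
      _ = _ := by ring
  have k2 : ((pdiv t).card : ℝ) ≤ C₂ * R ^ (4 * δ) := by
    refine (h₂ t ht.ne_zero).trans (mul_le_mul_of_nonneg_left ?_ hC₂.le)
    rw [Real.rpow_mul hR0]
    refine Real.rpow_le_rpow (by positivity) ?_ hδ.le
    rw [show (4 : ℝ) = (4 : ℕ) by norm_num, Real.rpow_natCast]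
    exact (MBa_nr_le htT hT.ne_zero).trans hTR
  rw [MBb_rewrite (suppB_cenB ν hN τ κ) hQ hR0 ψ w a hf₁ hf₂ ht htT hc.1 hc.2]
  have k3 : (((pdiv t ×ˢ pdiv t).filter (fun u => u.1 * u.2 = t)).card : ℝ) ≤ (pdiv t).card := by
    refine Nat.cast_le.2 (Finset.card_le_card_of_injOn Prod.fst (fun v hv => ?_)
      (fun v hv v' hv' e => ?_))
    · rw [Finset.mem_coe, Finset.mem_filter, Finset.mem_product] at hv
      exact hv.1.1
    · rw [Finset.mem_coe, Finset.mem_filter, Finset.mem_product, mem_pdiv ht.ne_zero] at hv hv'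
      refine Prod.ext e (mul_left_cancel₀ hv.1.1.1.ne_zero ?_)
      rw [hv.2, e, hv'.2]
  have k4 : ∀ u ∈ (pdiv t ×ˢ pdiv t).filter (fun u => u.1 * u.2 = t),
      ‖∑ s₁ ∈ pr M R, ∑ s₂ ∈ pr M R,
        (if Squarefree (s₁ * s₂) ∧ IsCoprime (s₁ * s₂) (T * f) then 1 else 0 : ℂ) *
          (cenB ν N₁ N₂ N₃ N₄ τ Λ κ (f₁ * u.1 * s₁) (f₂ * u.2 * s₂) *
            (MBb_u ψ w a s₁ * MBb_u ψ w a s₂))‖ ≤ C₁ * R ^ (6 * δ) * E := by
    rintro ⟨t₁, t₂⟩ hu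
    simp only [Finset.mem_filter, Finset.mem_product, mem_pdiv ht.ne_zero] at hu
    obtain ⟨⟨⟨a1, -⟩, a2, -⟩, a3⟩ := hu
    rw [MBb_inner hR0 ν ψ τ Λ κ w a g1 g2 g3 g4 (hf₁.mul a1) (hf₂.mul a2) _ c hc1]
    calc _ ≤ ∑ d₁ ∈ pr M R, ∑ d₂ ∈ pr M R, ‖c d₁ d₂‖ / Real.sqrt (nr d₁ * nr d₂) * E := by
          refine (norm_sum_le _ _).trans (Finset.sum_le_sum fun d₁ hd₁ =>
            (norm_sum_le _ _).trans (Finset.sum_le_sum fun d₂ hd₂ => ?_))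
          rw [MBa_mem_pr hR0] at hd₁ hd₂
          have b1 := (hf₁.mul a1).mul hd₁.1
          have b2 := (hf₂.mul a2).mul hd₂.1
          have j1 := h₃ R N₁ N₂ N₃ N₄ τ Λ p ν ψ κ w _ _ a hR hΛ n1 n2 n3 n4 hN g1 g2 g3 g4 hκ b1 b2
            hw hw' (hyp _ _ (one_le_nr b1.ne_zero) (one_le_nr b2.ne_zero))
          have r₁ := nr_pos hd₁.1.ne_zero
          have r₂ := nr_pos hd₂.1.ne_zero
          obtain ⟨Z, hZ⟩ : ∃ Z : ℝ, Z = nr d₁ * nr d₂ := ⟨_, rfl⟩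
          have hZ1 : 1 ≤ Z := by
            rw [hZ]
            exact one_le_mul_of_one_le_of_one_le (one_le_nr hd₁.1.ne_zero) (one_le_nr hd₂.1.ne_zero)
          have hZ0 : 0 < Z := by linarith
          have j2 : N₁ * N₂ / (nr (f₁ * t₁ * d₁) * nr (f₂ * t₂ * d₂)) = Y / Z := by
            rw [hY, hZ, ← a3, div_div]
            simp only [nr_mul]
            congr 1; ring
          rw [j2, Real.div_rpow hY0.le hZ0.le] at j1
          have j3 : ‖MBb_u ψ w a d₁ * MBb_u ψ w a d₂‖ ≤ Z ^ w.re := by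
            rw [norm_mul, hZ, Real.mul_rpow r₁.le r₂.le]
            exact mul_le_mul (MBb_norm_u hM.1 ψ w a hd₁.1.ne_zero)
              (MBb_norm_u hM.1 ψ w a hd₂.1.ne_zero) (norm_nonneg _) (by positivity)
          have j4 : Z ^ w.re ≤ Z ^ (-(1 / 2) : ℝ) := Real.rpow_le_rpow_of_exponent_le hZ1 hw'
          have j5 : Z ^ w.re / Z ^ (1 / 2 + w.re) = Z ^ (-(1 / 2) : ℝ) := by
            rw [← Real.rpow_sub hZ0]; congr 1; ring
          rw [norm_mul, norm_mul, ← hZ, Real.sqrt_eq_rpow, div_eq_mul_inv, ← Real.rpow_neg hZ0.le,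
            mul_assoc ‖c d₁ d₂‖, mul_assoc ‖c d₁ d₂‖]
          refine mul_le_mul_of_nonneg_left ?_ (norm_nonneg _)
          calc _ ≤ Z ^ w.re * (p * (Y ^ (1 / 2 + w.re) / Z ^ (1 / 2 + w.re)) +
                C₃ * R ^ 6 * Λ ^ (-B)) := by
                refine mul_le_mul j3 j1 ?_ (by positivity)
                exact norm_nonneg _
            _ = Z ^ w.re / Z ^ (1 / 2 + w.re) * (p * Y ^ (1 / 2 + w.re)) +
                Z ^ w.re * (C₃ * R ^ 6 * Λ ^ (-B)) := by ring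
            _ ≤ Z ^ (-(1 / 2) : ℝ) * (p * Y ^ (1 / 2 + w.re)) +
                Z ^ (-(1 / 2) : ℝ) * (C₃ * R ^ 6 * Λ ^ (-B)) := by
                rw [j5]; gcongr
            _ = _ := by rw [hE]; ring
      _ ≤ C₁ * R ^ (6 * δ) * E := by
          simp only [← Finset.sum_mul]
          exact mul_le_mul_of_nonneg_right (hc2.trans (by gcongr)) hE0
  refine (norm_sum_le _ _).trans ((Finset.sum_le_card_nsmul _ _ _ k4).trans ?_)
  rw [nsmul_eq_mul]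
  have k5 : R ^ (4 * δ) * R ^ (6 * δ) ≤ R ^ ε := by
    rw [← Real.rpow_add hRp]
    exact Real.rpow_le_rpow_of_exponent_le hR (by linarith)
  have k6 : R ^ (4 * δ) * R ^ (6 * δ) * R ^ 6 ≤ R ^ (9 : ℝ) := by
    rw [← Real.rpow_add hRp, ← Real.rpow_natCast, ← Real.rpow_add hRp]
    exact Real.rpow_le_rpow_of_exponent_le hR (by push_cast; linarith)
  have k7 : C₂ * C₁ ≤ C₂ * C₁ * (1 + C₃) := le_mul_of_one_le_right (by positivity) (by linarith)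
  have k8 : C₂ * C₁ * C₃ ≤ C₂ * C₁ * (1 + C₃) := by gcongr; linarith
  calc _ ≤ C₂ * R ^ (4 * δ) * (C₁ * R ^ (6 * δ) * E) := by
        gcongr
        exact k3.trans k2
    _ = C₂ * C₁ * (R ^ (4 * δ) * R ^ (6 * δ)) * p * Y ^ (1 / 2 + w.re) +
        C₂ * C₁ * C₃ * (R ^ (4 * δ) * R ^ (6 * δ) * R ^ 6) * Λ ^ (-B) := by rw [hE]; ring
    _ ≤ _ := by gcongr

end Crest.Agent.R17
end
end

-- ▼ part PVc/R17/M4SupAux
section

/-!
# Row 17, module M4, part Sup (auxiliary): dyadic decomposition, pointwise bounds for plain sums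
-/

set_option autoImplicit false

noncomputable section

namespace Crest.Agent.R17.M4S

open Finset

open Classical in
/-- Dyadic decomposition. -/
theorem dyadic {ε : ℝ} (hε : 0 < ε) : ∃ K : ℝ, 0 < K ∧ ∀ {I : Type} (S : Finset I) (g f : I → ℝ)
    (Z B : ℝ), 1 ≤ Z → 0 ≤ B → (∀ a ∈ S, 1 ≤ g a ∧ g a ≤ Z) → (∀ a ∈ S, 0 ≤ f a) →
    (∀ X : ℝ, 1 ≤ X → (∃ a ∈ S, X ≤ g a) →
      ∑ a ∈ S.filter (fun a => X ≤ g a ∧ g a ≤ 2 * X), f a ≤ B) →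
    ∑ a ∈ S, f a ≤ K * Z ^ ε * B := by
  refine ⟨2 / ε + 1, by positivity, fun S g f Z B hZ hB hg hf h => ?_⟩
  have hex : ∀ a, ∃ n : ℕ, a ∈ S → (2 : ℝ) ^ n ≤ g a ∧ g a < 2 ^ (n + 1) := fun a => by
    by_cases ha : a ∈ S
    · obtain ⟨n, hn⟩ := exists_nat_pow_near (hg a ha).1 (one_lt_two (α := ℝ))
      exact ⟨n, fun _ => hn⟩
    · exact ⟨0, fun h => (ha h).elim⟩
  choose idx hidx using hex
  have hZε : 1 ≤ Z ^ ε := Real.one_le_rpow hZ hε.le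
  have hmaps : ∀ a ∈ S, idx a ∈ range (⌊2 / ε * Z ^ ε⌋₊ + 1) := fun a ha => by
    rw [mem_range, Nat.lt_succ_iff]
    refine Nat.le_floor ?_
    have h1 := Real.log_le_log (by positivity) ((hidx a ha).1.trans (hg a ha).2)
    rw [Real.log_pow] at h1
    have h2 := Real.log_le_rpow_div (zero_le_one.trans hZ) hε
    have h3 := Real.log_two_gt_d9
    have h4 : (0 : ℝ) ≤ idx a := Nat.cast_nonneg _
    have h5 : 2 / ε * Z ^ ε = 2 * (Z ^ ε / ε) := by ring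
    rw [h5]
    nlinarith
  rw [← sum_fiberwise_of_maps_to hmaps]
  refine (sum_le_card_nsmul _ _ B fun i _ => ?_).trans ?_
  · rcases (S.filter fun a => idx a = i).eq_empty_or_nonempty with he | ⟨a, ha⟩
    · rw [he, sum_empty]; exact hB
    · obtain ⟨ha1, rfl⟩ := mem_filter.1 ha
      refine le_trans (sum_le_sum_of_subset_of_nonneg (fun b hb => ?_)
        fun b hb _ => hf b (mem_filter.1 hb).1)
        (h (2 ^ idx a) (one_le_pow₀ one_le_two) ⟨a, ha1, (hidx a ha1).1⟩)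
      obtain ⟨hb1, hb2⟩ := mem_filter.1 hb
      have := hidx b hb1
      rw [hb2, pow_succ'] at this
      exact mem_filter.2 ⟨hb1, this.1, this.2.le⟩
  · rw [card_range, nsmul_eq_mul]
    refine mul_le_mul_of_nonneg_right ?_ hB
    push_cast
    have := Nat.floor_le (show 0 ≤ 2 / ε * Z ^ ε by positivity)
    linarith

/-- The trivial bound. -/
theorem triv {M : O} (hM : Adm M) : ∃ C : ℝ, 0 < C ∧ ∀ (ν : Chr M) (a : O) (N : ℝ) (s : ℂ),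
    0 < N → |s.re| ≤ 1 → ‖Pln ν a N s‖ ≤ C * N := by
  obtain ⟨C, hC, h⟩ := tsum_norm_Sm_le 0 0 1 le_rfl
  refine ⟨C, hC, fun ν a N s hN hs => ?_⟩
  have h1 := h (rc ν a) 1 N s (polyB_rc hM ν a) hN hs
  have h2 := norm_tsum_le_tsum_norm (summable_Sm (polyB_rc hM ν a) hN s)
  simp only [abs_zero, add_zero, zero_add, Real.rpow_one, min_self, mul_one] at h1
  exact h2.trans h1

/-- Large scales. -/
theorem big {M : O} (hM : Adm M) : ∃ C : ℝ, 0 < C ∧ ∀ (ν : Chr M) (a : O) (A T N t : ℝ),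
    ¬ Exc M a → nr a ≤ A → |t| ≤ T → A ^ 2 * (1 + T) ^ 3 ≤ N →
      ‖Pln ν a N (t * Complex.I)‖ ≤ C := by
  obtain ⟨C, hC, h⟩ := Pln_decay hM (ε := 1 / 4) (by norm_num) 0
  refine ⟨C, hC, fun ν a A T N t ha hA ht hN => ?_⟩
  have h1 : 1 ≤ nr a := one_le_nr (ne_zero_of_not_exc ha)
  have hA1 : 1 ≤ A := h1.trans hA
  have ht0 := abs_nonneg t
  have hT1 : 1 ≤ 1 + T := by linarith
  have h2 : 1 ≤ A ^ 2 := one_le_pow₀ hA1
  have h3 : 1 + T ≤ (1 + T) ^ 3 := le_self_pow₀ hT1 (by norm_num)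
  have h4 : 1 + T ≤ N := by nlinarith
  have hN1 : 1 ≤ N := hT1.trans h4
  have hN0 : 0 ≤ N := zero_le_one.trans hN1
  have him : ((t : ℂ) * Complex.I).im = t := by simp
  have hre : ((t : ℂ) * Complex.I).re = 0 := by simp
  have key := h N N (t * Complex.I) ν a hN1 ha ?_ le_rfl (by rw [hre]; norm_num)
    (by rw [him]; linarith)
  · simpa using key
  rw [him]
  set u : ℝ := N ^ (1 / 4 : ℝ) with hu
  have hu0 : 0 ≤ u := Real.rpow_nonneg hN0 _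
  have hu4 : u ^ 4 = N := by
    rw [hu, ← Real.rpow_natCast, ← Real.rpow_mul hN0]; norm_num
  have h5 : nr a * (1 + |t|) ^ 2 ≤ u ^ 3 := by
    refine le_of_pow_le_pow_left₀ (n := 4) (by norm_num) (by positivity) ?_
    calc (nr a * (1 + |t|) ^ 2) ^ 4 ≤ (A * (1 + T) ^ 2) ^ 4 := by gcongr
      _ = A ^ 4 * (1 + T) ^ 8 := by ring
      _ ≤ A ^ 6 * (1 + T) ^ 9 := by gcongr <;> norm_num
      _ = (A ^ 2 * (1 + T) ^ 3) ^ 3 := by ring
      _ ≤ N ^ 3 := by gcongr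
      _ = (u ^ 3) ^ 4 := by rw [← hu4]; ring
  calc nr a * u * (1 + |t|) ^ 2 = u * (nr a * (1 + |t|) ^ 2) := by ring
    _ ≤ u * u ^ 3 := by gcongr
    _ = N := by rw [← hu4]; ring

theorem one_le_R {A T : ℝ} (hA : 1 ≤ A) (hT : 0 ≤ T) : 1 ≤ A ^ 2 * (1 + T) ^ 3 :=
  one_le_mul_of_one_le_of_one_le (one_le_pow₀ hA) (one_le_pow₀ (by linarith))

/-- Small and large scales. -/
theorem out {M : O} (hM : Adm M) : ∃ C : ℝ, 0 < C ∧ ∀ (ν : Chr M) (a : O) (A T N t : ℝ),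
    ¬ Exc M a → nr a ≤ A → |t| ≤ T → 0 < N → (N ≤ 1 ∨ A ^ 2 * (1 + T) ^ 3 ≤ N) →
      ‖Pln ν a N (t * Complex.I)‖ ≤ C * Real.sqrt N := by
  obtain ⟨C₁, hC₁, h₁⟩ := triv hM
  obtain ⟨C₂, hC₂, h₂⟩ := big hM
  refine ⟨C₁ + C₂, by positivity, fun ν a A T N t ha hA ht hN h => ?_⟩
  have hs := Real.sqrt_nonneg N
  rcases h with h | h
  · have h3 := h₁ ν a N (t * Complex.I) hN (by simp)
    have h4 : N ≤ Real.sqrt N := Real.le_sqrt_of_sq_le (by nlinarith)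
    nlinarith
  · have h3 := h₂ ν a A T N t ha hA ht h
    have h4 : 1 ≤ Real.sqrt N := Real.one_le_sqrt.2 ((one_le_R
      ((one_le_nr (ne_zero_of_not_exc ha)).trans hA) ((abs_nonneg t).trans ht)).trans h)
    nlinarith

/-- All scales. -/
theorem pt {M : O} (hM : Adm M) : ∃ C : ℝ, 0 < C ∧ ∀ (ν : Chr M) (a : O) (A T N t : ℝ),
    ¬ Exc M a → nr a ≤ A → |t| ≤ T → 0 < N →
      ‖Pln ν a N (t * Complex.I)‖ ≤ C * Real.sqrt (A ^ 2 * (1 + T) ^ 3) * Real.sqrt N := by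
  obtain ⟨C₁, hC₁, h₁⟩ := triv hM
  obtain ⟨C₂, hC₂, h₂⟩ := out hM
  refine ⟨C₁ + C₂, by positivity, fun ν a A T N t ha hA ht hN => ?_⟩
  have hs := Real.sqrt_nonneg N
  have hR : 1 ≤ Real.sqrt (A ^ 2 * (1 + T) ^ 3) := Real.one_le_sqrt.2 (one_le_R
    ((one_le_nr (ne_zero_of_not_exc ha)).trans hA) ((abs_nonneg t).trans ht))
  rcases le_total N (A ^ 2 * (1 + T) ^ 3) with h | h
  · calc ‖Pln ν a N (t * Complex.I)‖ ≤ C₁ * N := h₁ ν a N _ hN (by simp)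
      _ = C₁ * Real.sqrt N * Real.sqrt N := by rw [mul_assoc, Real.mul_self_sqrt hN.le]
      _ ≤ (C₁ + C₂) * Real.sqrt (A ^ 2 * (1 + T) ^ 3) * Real.sqrt N := by
          gcongr; linarith
  · calc ‖Pln ν a N (t * Complex.I)‖ ≤ C₂ * Real.sqrt N := h₂ ν a A T N t ha hA ht hN (Or.inr h)
      _ = C₂ * 1 * Real.sqrt N := by rw [mul_one]
      _ ≤ (C₁ + C₂) * Real.sqrt (A ^ 2 * (1 + T) ^ 3) * Real.sqrt N := by
          gcongr; linarith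

theorem card_ball_floor {A : ℝ} (hA : 1 ≤ A) : ((ball ⌊A⌋₊).card : ℝ) ≤ 8 * A := by
  have h1 : ((ball ⌊A⌋₊).card : ℝ) ≤ 7 * ⌊A⌋₊ + 1 := by exact_mod_cast card_ball_le ⌊A⌋₊
  have h2 := Nat.floor_le (zero_le_one.trans hA)
  linarith

theorem sqrt_pow_four {y : ℝ} (hy : 0 ≤ y) : Real.sqrt y ^ 4 = y ^ 2 := by
  rw [show (4 : ℕ) = 2 * 2 from rfl, pow_mul, Real.sq_sqrt hy]

theorem min_le_geom {u L : ℝ} (hu : 0 ≤ u) (hL : 0 ≤ L) :
    min u L ≤ u ^ (1 / 6 : ℝ) * L ^ (5 / 6 : ℝ) := by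
  have h0 : 0 ≤ min u L := le_min hu hL
  calc min u L = min u L ^ (1 / 6 + 5 / 6 : ℝ) := by norm_num
    _ = min u L ^ (1 / 6 : ℝ) * min u L ^ (5 / 6 : ℝ) := Real.rpow_add' h0 (by norm_num)
    _ ≤ u ^ (1 / 6 : ℝ) * L ^ (5 / 6 : ℝ) := by
        gcongr
        exacts [min_le_left _ _, min_le_right _ _]

/-- The algebra of centring. -/
theorem centre {P₁ P₂ P₃ P₄ w : ℂ} {y₁ y₂ y₃ y₄ Y D W : ℝ} (h₁ : 0 < y₁) (h₂ : 0 < y₂)
    (h₃ : 0 < y₃) (h₄ : 0 < y₄) (h : y₁ * y₂ = y₃ * y₄) (k₁ : y₁ ≤ Y) (k₂ : y₂ ≤ Y) (k₃ : y₃ ≤ Y)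
    (k₄ : y₄ ≤ Y) (hY : 1 ≤ Y) (hD : 0 ≤ D) (hw : ‖w‖ ≤ W)
    (e₁ : ‖P₁ - y₁ * w‖ ≤ D * Real.sqrt y₁) (e₂ : ‖P₂ - y₂ * w‖ ≤ D * Real.sqrt y₂)
    (e₃ : ‖P₃ - y₃ * w‖ ≤ D * Real.sqrt y₃) (e₄ : ‖P₄ - y₄ * w‖ ≤ D * Real.sqrt y₄) :
    ‖P₁ * P₂ - P₃ * P₄‖ ≤ (4 * W * D + 2 * D ^ 2) * Real.sqrt Y * Real.sqrt (y₁ * y₂) := by
  have hW : 0 ≤ W := (norm_nonneg _).trans hw
  have aux : ∀ (P Q : ℂ) (x y : ℝ), 0 < x → 0 < y → x ≤ Y → y ≤ Y →
      ‖P - x * w‖ ≤ D * Real.sqrt x → ‖Q - y * w‖ ≤ D * Real.sqrt y →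
      ‖P * Q - ((x * y : ℝ) : ℂ) * w ^ 2‖ ≤
        (2 * W * D + D ^ 2) * Real.sqrt Y * Real.sqrt (x * y) := by
    intro P Q x y hx hy hxY hyY hP hQ
    have hid : P * Q - ((x * y : ℝ) : ℂ) * w ^ 2 =
        x * w * (Q - y * w) + y * w * (P - x * w) + (P - x * w) * (Q - y * w) := by
      push_cast; ring
    have hsY : 1 ≤ Real.sqrt Y := Real.one_le_sqrt.2 hY
    have b : ∀ (x y : ℝ) (Q : ℂ), 0 < x → x ≤ Y → ‖Q‖ ≤ D * Real.sqrt y →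
        ‖x * w * Q‖ ≤ W * D * Real.sqrt Y * (Real.sqrt x * Real.sqrt y) := by
      intro x y Q hx hxY hQ
      rw [norm_mul, norm_mul, Complex.norm_real, Real.norm_of_nonneg hx.le]
      calc x * ‖w‖ * ‖Q‖ ≤ x * W * (D * Real.sqrt y) := by gcongr
        _ = W * D * Real.sqrt x * (Real.sqrt x * Real.sqrt y) := by
            conv_lhs => rw [← Real.mul_self_sqrt hx.le]
            ring
        _ ≤ W * D * Real.sqrt Y * (Real.sqrt x * Real.sqrt y) := by gcongr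
    have b1 := b x y _ hx hxY hQ
    have b2 := b y x _ hy hyY hP
    have b3 : ‖(P - x * w) * (Q - y * w)‖ ≤ D ^ 2 * Real.sqrt Y * (Real.sqrt x * Real.sqrt y) := by
      rw [norm_mul]
      calc ‖P - x * w‖ * ‖Q - y * w‖ ≤ D * Real.sqrt x * (D * Real.sqrt y) := by gcongr
        _ = D ^ 2 * 1 * (Real.sqrt x * Real.sqrt y) := by ring
        _ ≤ D ^ 2 * Real.sqrt Y * (Real.sqrt x * Real.sqrt y) := by gcongr
    rw [hid, Real.sqrt_mul hx.le]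
    refine (norm_add₃_le).trans ?_
    linarith
  have a1 := aux P₁ P₂ y₁ y₂ h₁ h₂ k₁ k₂ e₁ e₂
  have a2 := aux P₃ P₄ y₃ y₄ h₃ h₄ k₃ k₄ e₃ e₄
  rw [← h] at a2
  have := norm_sub_le (P₁ * P₂ - ((y₁ * y₂ : ℝ) : ℂ) * w ^ 2)
    (P₃ * P₄ - ((y₁ * y₂ : ℝ) : ℂ) * w ^ 2)
  rw [sub_sub_sub_cancel_right] at this
  linarith

end Crest.Agent.R17.M4S
end
end

-- ▼ part PVc/R17/M4Sup

/-!
# Row 17, module M4, part Sup: the fourth moment statement, its maximal form, exceptional rows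
-/

set_option autoImplicit false

noncomputable section

namespace Crest.Agent.R17

open scoped ComplexConjugate

open Classical in
/-- The non-exceptional rows of norm at most `A`. -/
def nex (M : O) (A : ℝ) : Finset O := (ball ⌊A⌋₊).filter fun a => ¬ Exc M a

/-- The fourth moment bound with exponent `θ`. -/
def T4 (M : O) (θ : ℝ) : Prop :=
  ∃ (C : ℝ) (J : ℕ), 0 < C ∧ ∀ (A N τ : ℝ) (ν : Chr M), 1 ≤ A → 0 < N →
    ∑ a ∈ nex M A, ‖Pln ν a N (τ * Complex.I)‖ ^ 4 ≤ C * (1 + |τ|) ^ J * A ^ (1 + θ) * N ^ 2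

/-- The normalised maximal function of a row. -/
def psup (M a : O) (T : ℝ) : ℝ :=
  sSup {x | ∃ (ψ : Chr M) (y t : ℝ), 0 < y ∧ |t| ≤ T ∧
    x = ‖Pln ψ a y (t * Complex.I)‖ / Real.sqrt y}

theorem M4S.mem_nex {M a : O} {A : ℝ} (hA : 0 ≤ A) : a ∈ nex M A ↔ nr a ≤ A ∧ ¬ Exc M a := by
  classical
  rw [nex, Finset.mem_filter, mem_ball, Nat.le_floor_iff hA]

theorem M4S.of_mem_nex {M a : O} {A : ℝ} (h : a ∈ nex M A) :
    ¬ Exc M a ∧ 1 ≤ nr a ∧ nr a ≤ A := by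
  classical
  obtain ⟨h1, h2⟩ := Finset.mem_filter.1 h
  have h3 := one_le_nr (ne_zero_of_not_exc h2)
  have h4 := mem_ball.1 h1
  have h5 : 1 ≤ nm a := by exact_mod_cast h3
  exact ⟨h2, h3, (Nat.le_floor_iff' (by omega)).1 h4⟩

theorem M4S.card_nex (M : O) {A : ℝ} (hA : 1 ≤ A) : ((nex M A).card : ℝ) ≤ 8 * A := by
  classical
  exact le_trans (by exact_mod_cast Finset.card_filter_le _ _) (M4S.card_ball_floor hA)

theorem T4_four {M : O} (hM : Adm M) : T4 M 4 := by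
  obtain ⟨C, hC, h⟩ := M4S.pt hM
  refine ⟨8 * C ^ 4, 6, by positivity, fun A N τ ν hA hN => ?_⟩
  have h1 : ∀ a ∈ nex M A, ‖Pln ν a N (τ * Complex.I)‖ ^ 4 ≤
      C ^ 4 * (A ^ 2 * (1 + |τ|) ^ 3) ^ 2 * N ^ 2 := fun a ha => by
    obtain ⟨h2, -, h3⟩ := M4S.of_mem_nex ha
    refine (pow_le_pow_left₀ (norm_nonneg _) (h ν a A |τ| N τ h2 h3 le_rfl hN) 4).trans_eq ?_
    rw [mul_pow, mul_pow, M4S.sqrt_pow_four hN.le, M4S.sqrt_pow_four (by positivity)]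
  refine (Finset.sum_le_card_nsmul _ _ _ h1).trans ?_
  rw [nsmul_eq_mul, show (1 + 4 : ℝ) = (5 : ℕ) by norm_num, Real.rpow_natCast]
  refine (mul_le_mul_of_nonneg_right (M4S.card_nex M hA) (by positivity)).trans_eq ?_
  ring
theorem T4.mono {M : O} {θ θ' : ℝ} (h : T4 M θ) (hθ : θ ≤ θ') : T4 M θ' := by
  obtain ⟨C, J, hC, h⟩ := h
  refine ⟨C, J, hC, fun A N τ ν hA hN => (h A N τ ν hA hN).trans ?_⟩
  gcongr
theorem psup_nonneg (M a : O) (T : ℝ) : 0 ≤ psup M a T :=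
  Real.sSup_nonneg (by rintro x ⟨ψ, y, t, -, -, rfl⟩; positivity)

theorem M4S.le_psup {M : O} (hM : Adm M) {a : O} (ha : ¬ Exc M a) (ψ : Chr M) {y t T : ℝ}
    (hy : 0 < y) (ht : |t| ≤ T) : ‖Pln ψ a y (t * Complex.I)‖ ≤ psup M a T * Real.sqrt y := by
  obtain ⟨C, -, h⟩ := M4S.pt hM
  rw [← div_le_iff₀ (Real.sqrt_pos.2 hy)]
  refine le_csSup ⟨C * Real.sqrt (nr a ^ 2 * (1 + T) ^ 3), ?_⟩ ⟨ψ, y, t, hy, ht, rfl⟩
  rintro x ⟨ψ, y, t, hy, ht, rfl⟩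
  rw [div_le_iff₀ (Real.sqrt_pos.2 hy)]
  exact h ψ a _ T y t ha le_rfl ht hy

theorem M4S.exists_near (M a : O) {T : ℝ} (hT : 0 ≤ T) : ∃ (ψ : Chr M) (y t : ℝ), 0 < y ∧
    |t| ≤ T ∧ psup M a T ≤ 2 * (‖Pln ψ a y (t * Complex.I)‖ / Real.sqrt y) := by
  rcases (psup_nonneg M a T).eq_or_lt with h | h
  · exact ⟨1, 1, 0, one_pos, by simpa using hT, h ▸ by positivity⟩
  · obtain ⟨x, ⟨ψ, y, t, hy, ht, rfl⟩, hx⟩ := exists_lt_of_lt_csSup
      (s := {x | ∃ (ψ : Chr M) (y t : ℝ), 0 < y ∧ |t| ≤ T ∧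
        x = ‖Pln ψ a y (t * Complex.I)‖ / Real.sqrt y}) (b := psup M a T / 2)
      ⟨_, (1 : Chr M), 1, 0, one_pos, by simpa using hT, rfl⟩ (half_lt_self h)
    exact ⟨ψ, y, t, hy, ht, by linarith⟩

/-- (`Sm_shift` removes the real part; boundedness of the set from `Pln_decay` and the trivial
bound.) -/
theorem norm_Pln_le_psup {M : O} (hM : Adm M) : ∃ C : ℝ, 0 < C ∧
    ∀ (a : O) (ψ : Chr M) (y T : ℝ) (s : ℂ), ¬ Exc M a → 0 < y → |s.re| ≤ 1 → |s.im| ≤ T →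
      ‖Pln ψ a y s‖ ≤ C * psup M a T * Real.sqrt y := by
  refine ⟨Real.exp (1 / 4) * Real.sqrt (Real.exp (1 / 2)), by positivity,
    fun a ψ y T s ha hy hre him => ?_⟩
  have h1 := WeightB.norm_Sm_eq (rc ψ a) (rc_zero ψ a) hy s
  have h2 := M4S.le_psup hM ha ψ (y := y * Real.exp (s.re / 2)) (by positivity) him
  have h3 := psup_nonneg M a T
  have h4 := abs_le.1 hre
  rw [Pln_eq_Sm, h1, ← Pln_eq_Sm]
  rw [Real.sqrt_mul hy.le] at h2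
  calc Real.exp (s.re ^ 2 / 4) * ‖Pln ψ a (y * Real.exp (s.re / 2)) (s.im * Complex.I)‖
      ≤ Real.exp (1 / 4) * (psup M a T * (Real.sqrt y * Real.sqrt (Real.exp (1 / 2)))) := by
        refine mul_le_mul (Real.exp_le_exp.2 (by nlinarith)) (h2.trans ?_) (norm_nonneg _)
          (by positivity)
        gcongr
        linarith
    _ = _ := by ring
/-- Maximal form with an arbitrary weight on the rows and a restricted range of scales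
(`sup_moment`, dyadic decomposition of the scale, finitely many characters). -/
theorem sup_four {M : O} (hM : Adm M) {ε : ℝ} (hε : 0 < ε) : ∃ C : ℝ, 0 < C ∧
    ∀ (S : Finset O) (ϖ : O → ℝ) (ψ : O → Chr M) (y t : O → ℝ) (R Y T E : ℝ), 1 ≤ R → 0 ≤ T →
      (∀ a, 0 ≤ ϖ a) → (∀ a ∈ S, R⁻¹ ≤ y a ∧ y a ≤ Y ∧ |t a| ≤ T) → Y ≤ R → 0 ≤ E →
      (∀ (ν : Chr M) (N τ : ℝ), R⁻¹ / 8 ≤ N → N ≤ 8 * Y → |τ| ≤ T + 3 →
        ∑ a ∈ S, ϖ a * ‖Pln ν a N (τ * Complex.I)‖ ^ 4 ≤ E * N ^ 2) →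
      ∑ a ∈ S, ϖ a * (‖Pln (ψ a) a (y a) (t a * Complex.I)‖ ^ 4 / y a ^ 2) ≤
        C * R ^ ε * (1 + T) ^ 9 * E := by
  classical
  have := finite_chr hM.1
  let _ : Fintype (Chr M) := Fintype.ofFinite _
  obtain ⟨K, hK, hd⟩ := M4S.dyadic (half_pos hε)
  obtain ⟨C, hC, hs⟩ := sup_moment 4
  have hcard : (0 : ℝ) < Fintype.card (Chr M) := by exact_mod_cast Fintype.card_pos
  refine ⟨Fintype.card (Chr M) * (K * (64 * C)), by positivity,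
    fun S ϖ ψ y t R Y T E hR hT hϖ hS hYR hE h => ?_⟩
  have hR0 : 0 < R := by linarith
  rw [← Finset.sum_fiberwise_of_maps_to (t := Finset.univ) (g := ψ) fun _ _ => Finset.mem_univ _]
  refine (Finset.sum_le_card_nsmul _ _ (K * (R ^ 2) ^ (ε / 2) * (64 * C * (1 + T) ^ 9 * E))
    fun ν _ => ?_).trans_eq ?_
  · refine hd _ (fun a => y a * R) _ _ _ (one_le_pow₀ hR) (by positivity) (fun a ha => ?_)
      (fun a _ => mul_nonneg (hϖ a) (by positivity)) fun X hX ⟨a₀, ha₀, hX₀⟩ => ?_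
    · obtain ⟨h1, h2, -⟩ := hS a (Finset.mem_filter.1 ha).1
      refine ⟨by rwa [← inv_le_iff_one_le_mul₀ hR0], ?_⟩
      rw [sq]
      exact mul_le_mul_of_nonneg_right (h2.trans hYR) hR0.le
    · have hX0 : 0 < X / R := by positivity
      have hXY : X / R ≤ Y :=
        ((div_le_iff₀ hR0).2 hX₀).trans (hS a₀ (Finset.mem_filter.1 ha₀).1).2.1
      have hXR : R⁻¹ ≤ X / R := by rw [inv_eq_one_div]; gcongr
      set S' := (S.filter fun a => ψ a = ν).filter fun a => X ≤ y a * R ∧ y a * R ≤ 2 * X with hS'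
      have hsub : S' ⊆ S := (Finset.filter_subset _ _).trans (Finset.filter_subset _ _)
      have hy : ∀ a ∈ S', y a ∈ Set.Icc (X / R) (2 * (X / R)) := fun a ha => by
        obtain ⟨h1, h2⟩ := (Finset.mem_filter.1 ha).2
        exact ⟨(div_le_iff₀ hR0).2 h1, by rw [← mul_div_assoc]; exact (le_div_iff₀ hR0).2 h2⟩
      have key := hs S' ϖ (fun a => rc ν a) 1 0 (X / R) T (E * (8 * (X / R)) ^ 2) y t hϖ
        (fun a => polyB_rc hM ν a) hX0 hT hy (fun a ha => (hS a (hsub ha)).2.2)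
        (fun Y' hY' t' ht' => by
          have h1 : 0 < R⁻¹ := inv_pos.2 hR0
          refine le_trans (Finset.sum_le_sum_of_subset_of_nonneg hsub
            fun a _ _ => mul_nonneg (hϖ a) (by positivity))
            ((h ν Y' t' (by linarith [hY'.1]) (by linarith [hY'.2]) ht').trans ?_)
          have h2 : 0 ≤ Y' := by linarith [hY'.1]
          gcongr
          exact hY'.2)
      calc ∑ a ∈ S', ϖ a * (‖Pln (ψ a) a (y a) (t a * Complex.I)‖ ^ 4 / y a ^ 2)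
          ≤ ∑ a ∈ S', ϖ a * ‖Sm (rc ν a) (y a) (t a * Complex.I)‖ ^ 4 / (X / R) ^ 2 := by
            refine Finset.sum_le_sum fun a ha => ?_
            rw [(Finset.mem_filter.1 (Finset.mem_filter.1 ha).1).2, Pln_eq_Sm, mul_div_assoc]
            have := hϖ a
            gcongr
            exact (hy a ha).1
        _ ≤ C * (1 + T) ^ (2 * 4 + 1) * (E * (8 * (X / R)) ^ 2) / (X / R) ^ 2 := by
            rw [← Finset.sum_div]
            gcongr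
        _ = 64 * C * (1 + T) ^ 9 * E := by
            have := hX0.ne'
            generalize X / R = z at this ⊢
            field_simp
            norm_num
  · rw [nsmul_eq_mul, Finset.card_univ, ← Real.rpow_natCast R 2, ← Real.rpow_mul hR0.le,
      show ((2 : ℕ) : ℝ) * (ε / 2) = ε by push_cast; ring]
    ring
theorem T4.sum_psup {M : O} (hM : Adm M) {θ ε : ℝ} (h : T4 M θ) (hθ : 0 ≤ θ) (hε : 0 < ε) :
    ∃ (C : ℝ) (J : ℕ), 0 < C ∧ ∀ A T : ℝ, 1 ≤ A → 0 ≤ T →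
      ∑ a ∈ nex M A, psup M a T ^ 4 ≤ C * (1 + T) ^ J * A ^ (1 + θ + ε) := by
  classical
  obtain ⟨C, J, hC, h⟩ := h
  obtain ⟨C₁, hC₁, h₁⟩ := sup_four hM (half_pos hε)
  obtain ⟨C₂, hC₂, h₂⟩ := M4S.out hM
  refine ⟨16 * (C₁ * C * 4 ^ J + 8 * C₂ ^ 4), J + 9 + ⌈3 * (ε / 2)⌉₊, by positivity,
    fun A T hA hT => ?_⟩
  choose ψ y t hy ht hp using fun a => M4S.exists_near M a hT
  set R : ℝ := A ^ 2 * (1 + T) ^ 3 with hR
  have hR1 : 1 ≤ R := M4S.one_le_R hA hT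
  have hA0 : 0 < A := by linarith
  have hT1 : 1 ≤ 1 + T := by linarith
  have h3 : ∀ a, psup M a T ^ 4 ≤
      16 * (1 * (‖Pln (ψ a) a (y a) (t a * Complex.I)‖ ^ 4 / y a ^ 2)) := fun a => by
    refine (pow_le_pow_left₀ (psup_nonneg M a T) (hp a) 4).trans_eq ?_
    rw [mul_pow, div_pow, M4S.sqrt_pow_four (hy a).le]
    norm_num
  refine (Finset.sum_le_sum fun a _ => h3 a).trans ?_
  rw [← Finset.mul_sum, mul_assoc 16, mul_assoc 16]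
  refine mul_le_mul_of_nonneg_left ?_ (by norm_num)
  rw [← Finset.sum_filter_add_sum_filter_not _ fun a => R⁻¹ ≤ y a ∧ y a ≤ R, add_mul, add_mul]
  refine add_le_add ?_ ?_
  · refine (h₁ _ (fun _ => 1) ψ y t R R T (C * (4 * (1 + T)) ^ J * A ^ (1 + θ)) hR1 hT
      (fun _ => zero_le_one) (fun a ha => ⟨(Finset.mem_filter.1 ha).2.1,
        (Finset.mem_filter.1 ha).2.2, ht a⟩) le_rfl (by positivity)
      fun ν N τ hN _ hτ => ?_).trans ?_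
    · have hN0 : 0 < N := lt_of_lt_of_le (by positivity) hN
      simp only [one_mul]
      refine (Finset.sum_le_sum_of_subset_of_nonneg (Finset.filter_subset _ _)
        fun _ _ _ => by positivity).trans ((h A N τ ν hA hN0).trans ?_)
      gcongr
      linarith
    · have h4 : R ^ (ε / 2) ≤ A ^ ε * (1 + T) ^ ⌈3 * (ε / 2)⌉₊ := by
        rw [hR, Real.mul_rpow (by positivity) (by positivity), ← Real.rpow_natCast A 2,
          ← Real.rpow_mul hA0.le, show ((2 : ℕ) : ℝ) * (ε / 2) = ε by push_cast; ring,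
          ← Real.rpow_natCast (1 + T) 3, ← Real.rpow_mul (by positivity),
          ← Real.rpow_natCast (1 + T) ⌈3 * (ε / 2)⌉₊]
        gcongr
        exact Nat.le_ceil _
      calc C₁ * R ^ (ε / 2) * (1 + T) ^ 9 * (C * (4 * (1 + T)) ^ J * A ^ (1 + θ))
          ≤ C₁ * (A ^ ε * (1 + T) ^ ⌈3 * (ε / 2)⌉₊) * (1 + T) ^ 9 *
            (C * (4 * (1 + T)) ^ J * A ^ (1 + θ)) := by gcongr
        _ = _ := by rw [Real.rpow_add hA0 (1 + θ) ε, mul_pow]; ring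
  · have h4 : ∀ a ∈ (nex M A).filter (fun a => ¬ (R⁻¹ ≤ y a ∧ y a ≤ R)),
        1 * (‖Pln (ψ a) a (y a) (t a * Complex.I)‖ ^ 4 / y a ^ 2) ≤ C₂ ^ 4 := fun a ha => by
      obtain ⟨h5, h6⟩ := Finset.mem_filter.1 ha
      obtain ⟨h7, -, h8⟩ := M4S.of_mem_nex h5
      have h9 := h₂ (ψ a) a A T (y a) (t a) h7 h8 (ht a) (hy a) (by
        rcases not_and_or.1 h6 with h | h
        · exact Or.inl ((not_le.1 h).le.trans (inv_le_one_of_one_le₀ hR1))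
        · exact Or.inr (not_le.1 h).le)
      have := hy a
      rw [one_mul, div_le_iff₀ (by positivity), ← M4S.sqrt_pow_four (hy a).le, ← mul_pow]
      gcongr
    refine (Finset.sum_le_card_nsmul _ _ _ h4).trans ?_
    rw [nsmul_eq_mul]
    have h5 : (((nex M A).filter fun a => ¬ (R⁻¹ ≤ y a ∧ y a ≤ R)).card : ℝ) ≤ 8 * A :=
      le_trans (by exact_mod_cast Finset.card_filter_le _ _) (M4S.card_nex M hA)
    have h6 : A ≤ A ^ (1 + θ + ε) := Real.self_le_rpow_of_one_le hA (by linarith)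
    have h7 : 1 ≤ (1 + T) ^ (J + 9 + ⌈3 * (ε / 2)⌉₊) := one_le_pow₀ hT1
    calc _ ≤ 8 * A * C₂ ^ 4 := by gcongr
      _ = 8 * C₂ ^ 4 * 1 * A := by ring
      _ ≤ _ := by gcongr
theorem T4.sum_psup_weight {M : O} (hM : Adm M) {θ ε : ℝ} (h : T4 M θ) (hθ : 0 ≤ θ) (hε : 0 < ε) :
    ∃ (C : ℝ) (J : ℕ), 0 < C ∧ ∀ A T : ℝ, 0 ≤ T →
      ∑ a ∈ nex M A, psup M a T ^ 4 / nr a ≤ C * (1 + T) ^ J * (max 1 A) ^ (θ + ε) := by
  obtain ⟨C, J, hC, h⟩ := h.sum_psup hM hθ (half_pos hε)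
  obtain ⟨K, hK, hd⟩ := M4S.dyadic (half_pos hε)
  refine ⟨K * C * 2 ^ (1 + θ + ε / 2), J, by positivity, fun A T hT => ?_⟩
  have hZ : 1 ≤ max 1 A := le_max_left _ _
  have hZ0 : 0 < max 1 A := one_pos.trans_le hZ
  refine (hd (nex M A) nr _ (max 1 A)
    (C * (1 + T) ^ J * 2 ^ (1 + θ + ε / 2) * (max 1 A) ^ (θ + ε / 2)) hZ (by positivity)
    (fun a ha => ⟨(M4S.of_mem_nex ha).2.1, (M4S.of_mem_nex ha).2.2.trans (le_max_right _ _)⟩)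
    (fun a _ => by have := psup_nonneg M a T; positivity) fun X hX ⟨a₀, ha₀, hX₀⟩ => ?_).trans_eq ?_
  · have hX0 : 0 < X := by linarith
    have hXZ : X ≤ max 1 A := hX₀.trans ((M4S.of_mem_nex ha₀).2.2.trans (le_max_right _ _))
    calc _ ≤ ∑ a ∈ (nex M A).filter (fun a => X ≤ nr a ∧ nr a ≤ 2 * X), psup M a T ^ 4 / X :=
          Finset.sum_le_sum fun a ha => by
            have := psup_nonneg M a T
            gcongr
            exact (Finset.mem_filter.1 ha).2.1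
      _ ≤ ∑ a ∈ nex M (2 * X), psup M a T ^ 4 / X :=
          Finset.sum_le_sum_of_subset_of_nonneg (fun a ha => (M4S.mem_nex (by linarith)).2
            ⟨(Finset.mem_filter.1 ha).2.2, (M4S.of_mem_nex (Finset.mem_filter.1 ha).1).1⟩)
            fun a _ _ => by have := psup_nonneg M a T; positivity
      _ ≤ C * (1 + T) ^ J * (2 * X) ^ (1 + θ + ε / 2) / X := by
          rw [← Finset.sum_div]
          gcongr
          exact h _ T (by linarith) hT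
      _ = C * (1 + T) ^ J * 2 ^ (1 + θ + ε / 2) * X ^ (θ + ε / 2) := by
          rw [Real.mul_rpow (by norm_num) hX0.le, add_assoc, Real.rpow_add hX0 1, Real.rpow_one]
          field_simp
      _ ≤ _ := by gcongr
  · rw [show θ + ε = ε / 2 + (θ + ε / 2) by ring, Real.rpow_add hZ0 (ε / 2)]
    ring
open Classical in
theorem sum_exc_min_le {M : O} (hM : Adm M) {ε : ℝ} (hε : 0 < ε) : ∃ C : ℝ, 0 < C ∧
    ∀ A Λ₁ : ℝ, 1 ≤ A → 1 ≤ Λ₁ →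
      ∑ a ∈ (rows A).filter (Exc M), min (A / nr a) Λ₁ ≤
        C * A ^ ε * Λ₁ ^ (5 / 6 : ℝ) * A ^ (1 / 6 : ℝ) := by
  obtain ⟨C, hC, h⟩ := card_exc_le (half_pos hε)
  obtain ⟨K, hK, hd⟩ := M4S.dyadic (half_pos hε)
  have hM0 := nr_pos hM.1
  refine ⟨K * (C * 2 ^ (1 / 6 : ℝ) * (2 * nr M) ^ (ε / 2)), by positivity, fun A L hA hL => ?_⟩
  have hA0 : 0 < A := by linarith
  have hmem : ∀ a ∈ (rows A).filter (Exc M), a ≠ 0 ∧ nr a ≤ A ∧ Exc M a := fun a ha => by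
    obtain ⟨h1, h2⟩ := Finset.mem_filter.1 ha
    obtain ⟨h3, h4⟩ := Finset.mem_erase.1 h1
    exact ⟨h3, (Nat.le_floor_iff hA0.le).1 (mem_ball.1 h4), h2⟩
  refine (hd _ nr _ A (C * 2 ^ (1 / 6 : ℝ) * (2 * nr M) ^ (ε / 2) * A ^ (ε / 2) *
    L ^ (5 / 6 : ℝ) * A ^ (1 / 6 : ℝ)) hA (by positivity)
    (fun a ha => ⟨one_le_nr (hmem a ha).1, (hmem a ha).2.1⟩)
    (fun a _ => le_min (by positivity) (by linarith)) fun X hX ⟨a₀, ha₀, hX₀⟩ => ?_).trans_eq ?_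
  · have hX0 : 0 < X := by linarith
    have hXA : X ≤ A := hX₀.trans (hmem a₀ ha₀).2.1
    have h1 : ∀ a ∈ ((rows A).filter (Exc M)).filter (fun a => X ≤ nr a ∧ nr a ≤ 2 * X),
        min (A / nr a) L ≤ (A / X) ^ (1 / 6 : ℝ) * L ^ (5 / 6 : ℝ) := fun a ha => by
      refine (M4S.min_le_geom (by positivity) (by linarith)).trans ?_
      gcongr
      exact (Finset.mem_filter.1 ha).2.1
    refine (Finset.sum_le_card_nsmul _ _ _ h1).trans ?_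
    rw [nsmul_eq_mul]
    have h2 : 1 ≤ ⌊2 * X⌋₊ := Nat.le_floor (by push_cast; linarith)
    have h3 := Nat.floor_le (show 0 ≤ 2 * X by linarith)
    have h4 : ((((rows A).filter (Exc M)).filter
        (fun a => X ≤ nr a ∧ nr a ≤ 2 * X)).card : ℝ) ≤
        C * (2 * X) ^ (1 / 6 : ℝ) * (2 * A * nr M) ^ (ε / 2) := by
      refine le_trans ?_ ((h M ⌊2 * X⌋₊ hM.1 h2).trans ?_)
      · refine Nat.cast_le.2 (Finset.card_le_card fun a ha => ?_)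
        obtain ⟨h5, h6⟩ := Finset.mem_filter.1 ha
        exact Finset.mem_filter.2 ⟨mem_ball.2 (Nat.le_floor h6.2), (hmem a h5).1, (hmem a h5).2.2⟩
      · gcongr
        linarith
    refine (mul_le_mul_of_nonneg_right h4 (by positivity)).trans_eq ?_
    have h5 : X ^ (1 / 6 : ℝ) ≠ 0 := by positivity
    rw [Real.mul_rpow (by norm_num) hX0.le, Real.div_rpow hA0.le hX0.le, mul_right_comm 2 A,
      Real.mul_rpow (by positivity) hA0.le]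
    field_simp
  · have h1 : A ^ ε = A ^ (ε / 2) * A ^ (ε / 2) := by rw [← Real.rpow_add hA0, add_halves]
    rw [h1]
    ring
/-- Exceptional rows, no centring. -/
theorem cenP_zero_le {M : O} (hM : Adm M) : ∃ C : ℝ, 0 < C ∧
    ∀ (ν : Chr M) (a : O) (y₁ y₂ y₃ y₄ Y : ℝ) (s : ℂ), 0 < y₁ → 0 < y₂ → y₁ * y₂ ≤ Y → |s.re| ≤ 1 →
      ‖cenP ν a y₁ y₂ y₃ y₄ 0 s‖ ≤ C * Real.sqrt Y * Real.sqrt (y₁ * y₂) := by
  obtain ⟨C, hC, h⟩ := M4S.triv hM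
  refine ⟨C ^ 2, by positivity, fun ν a y₁ y₂ y₃ y₄ Y s h₁ h₂ hY hs => ?_⟩
  rw [cenP, zero_mul, sub_zero, norm_mul]
  calc ‖Pln ν a y₁ s‖ * ‖Pln ν a y₂ s‖ ≤ C * y₁ * (C * y₂) :=
        mul_le_mul (h ν a y₁ s h₁ hs) (h ν a y₂ s h₂ hs) (norm_nonneg _) (by positivity)
    _ = C ^ 2 * Real.sqrt (y₁ * y₂) * Real.sqrt (y₁ * y₂) := by
        rw [mul_assoc (C ^ 2), Real.mul_self_sqrt (by positivity)]; ring
    _ ≤ _ := by gcongr
/-- Exceptional rows, centring (`Pln_exc` with `θ = 1/2`). -/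
theorem cenP_one_le {M : O} (hM : Adm M) {ε : ℝ} (hε : 0 < ε) : ∃ (C : ℝ) (J : ℕ), 0 < C ∧
    ∀ (ν : Chr M) (a : O) (y₁ y₂ y₃ y₄ Y : ℝ) (s : ℂ), a ≠ 0 → Exc M a → 0 < y₁ → 0 < y₂ → 0 < y₃ →
      0 < y₄ → y₁ * y₂ = y₃ * y₄ → y₁ ≤ Y → y₂ ≤ Y → y₃ ≤ Y → y₄ ≤ Y → 1 ≤ Y → |s.re| ≤ 1 →
      ‖cenP ν a y₁ y₂ y₃ y₄ 1 s‖ ≤
        C * nr a ^ ε * (1 + |s.im|) ^ J * Real.sqrt Y * Real.sqrt (y₁ * y₂) := by
  obtain ⟨C, J, hC, h⟩ := Pln_exc hM (θ := 1 / 2) (by norm_num) (by norm_num) (half_pos hε)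
  refine ⟨4 * (C * (Real.sqrt Real.pi * Real.exp 1)) * C + 2 * C ^ 2, 2 * J, by positivity,
    fun ν a y₁ y₂ y₃ y₄ Y s ha hE h₁ h₂ h₃ h₄ hy k₁ k₂ k₃ k₄ hY hs => ?_⟩
  obtain ⟨m, hm, -, hP⟩ := h ν a ha hE
  set F : ℝ := nr a ^ (ε / 2) * (1 + |s.im|) ^ J with hF
  have hF1 : 1 ≤ F := one_le_mul_of_one_le_of_one_le
    (Real.one_le_rpow (one_le_nr ha) (half_pos hε).le) (one_le_pow₀ (by linarith [abs_nonneg s.im]))
  have hP' : ∀ y : ℝ, 0 < y → ‖Pln ν a y s - y * (m * Wm (1 + s))‖ ≤ C * F * Real.sqrt y :=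
    fun y hy => by
      have := hP y s hy (hs.trans (by norm_num))
      rw [← Real.sqrt_eq_rpow, mul_assoc C, mul_comm m, mul_assoc (y : ℂ)] at this
      exact this
  have hw : ‖m * Wm (1 + s)‖ ≤ C * (Real.sqrt Real.pi * Real.exp 1) := by
    rw [norm_mul, norm_Wm]
    gcongr
    have := abs_le.1 hs
    simp only [Complex.add_re, Complex.one_re]
    nlinarith [sq_nonneg (1 + s).im]
  have key := M4S.centre h₁ h₂ h₃ h₄ hy k₁ k₂ k₃ k₄ hY (by positivity) hw (hP' y₁ h₁) (hP' y₂ h₂)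
    (hP' y₃ h₃) (hP' y₄ h₄)
  rw [cenP, one_mul]
  refine key.trans ?_
  have hF2 : F ^ 2 = nr a ^ ε * (1 + |s.im|) ^ (2 * J) := by
    rw [hF, mul_pow, sq, ← Real.rpow_add (nr_pos ha), add_halves, ← pow_mul, mul_comm J]
  rw [mul_assoc _ (nr a ^ ε), ← hF2]
  gcongr ?_ * _ * _
  have h5 : F ≤ F ^ 2 := le_self_pow₀ hF1 (by norm_num)
  have h6 : 0 ≤ 4 * (C * (Real.sqrt Real.pi * Real.exp 1)) * C := by positivity
  nlinarith [mul_le_mul_of_nonneg_left h5 h6]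

end Crest.Agent.R17
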