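import Crest.Agent.PVc.R17.LBasic

/-!
# Row 17, module M10, section C: the raw zero detector
-/

set_option autoImplicit false

noncomputable section

namespace Crest.Agent.R17.LZC

open MeasureTheory Filter Topology

/-- the kernel `exp(z y - y²)` -/
def hc (z : ℂ) (y : ℝ) : ℂ := Complex.exp (z * y - (y : ℂ) ^ 2)

/-- the real kernel `exp(β y - y²)` -/
def hk (β y : ℝ) : ℝ := Real.exp (β * y - y ^ 2)

theorem hk_pos (β y : ℝ) : 0 < hk β y := Real.exp_pos _

theorem hc_ofReal (β y : ℝ) : hc β y = (hk β y : ℂ) := by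
  simp [hc, hk]

theorem norm_hc (z : ℂ) (y : ℝ) : ‖hc z y‖ = hk z.re y := by
  rw [hc, hk, Complex.norm_exp]
  congr 1
  simp [← Complex.ofReal_pow]

theorem hc_eq (z : ℂ) : hc z = fun y : ℝ => Complex.exp (-1 * (y : ℂ) ^ 2 + z * y + 0) := by
  funext y
  rw [hc]
  congr 1
  ring

theorem integrable_hc (z : ℂ) : Integrable (hc z) := by
  rw [hc_eq]
  exact integrable_cexp_quadratic' (by simp) z 0

theorem integrable_hk (β : ℝ) : Integrable (hk β) := by
  have := (integrable_hc β).norm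
  simpa [norm_hc] using this

theorem differentiable_integral_hc : Differentiable ℂ fun z => ∫ y, hc z y := by
  have : (fun z => ∫ y, hc z y) =
      fun z : ℂ => ((Real.pi : ℂ) / -(-1)) ^ (1 / 2 : ℂ) * Complex.exp (0 - z ^ 2 / (4 * -1)) := by
    funext z
    rw [hc_eq]
    exact integral_cexp_quadratic (by simp) z 0
  rw [this]
  fun_prop


theorem term {x : ℝ} (hx : 0 < x) (s t : ℂ) (w : ℝ) :
    Complex.exp (-s * w) * Wc (x / Real.exp w) t =
      Complex.exp (-s * Real.log x) * hc (s + t) (Real.log x - w) := by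
  rw [Wc, hc, Real.log_div hx.ne' (Real.exp_pos w).ne', Real.log_exp, ← Complex.exp_add,
    ← Complex.exp_add]
  congr 1
  push_cast
  ring

theorem cpow_eq {x : ℝ} (hx : 0 < x) (s : ℂ) :
    (x : ℂ) ^ (-s) = Complex.exp (-s * Real.log x) := by
  rw [Complex.cpow_def_of_ne_zero (Complex.ofReal_ne_zero.2 hx.ne'), Complex.ofReal_log hx.le,
    mul_comm]

theorem norm_exp_log {x : ℝ} (hx : 0 < x) (s : ℂ) :
    ‖Complex.exp (-s * Real.log x)‖ = x ^ (-s.re) := by
  rw [← cpow_eq hx, Complex.norm_cpow_eq_rpow_re_of_pos hx, Complex.neg_re]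

/-- the normalised smooth sum at scale `e^w` -/
def Tt (b : O → ℂ) (s t : ℂ) (w : ℝ) : ℂ := Complex.exp (-s * w) * Sm b (Real.exp w) t

theorem term' {b : O → ℂ} (hb : b 0 = 0) (s t : ℂ) (w : ℝ) (n : O) :
    Complex.exp (-s * w) * (b n * Wc (nr n / Real.exp w) t) =
      b n * Complex.exp (-s * Real.log (nr n)) * hc (s + t) (Real.log (nr n) - w) := by
  rcases eq_or_ne n 0 with rfl | hn
  · simp [hb]
  · rw [mul_left_comm, term (nr_pos hn), mul_assoc]

theorem Tt_eq {b : O → ℂ} (hb : b 0 = 0) (s t : ℂ) (w : ℝ) :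
    Tt b s t w = ∑' n : O,
      b n * Complex.exp (-s * Real.log (nr n)) * hc (s + t) (Real.log (nr n) - w) := by
  rw [Tt, Sm, ← tsum_mul_left]
  exact tsum_congr (term' hb s t w)

theorem summable_Tt {b : O → ℂ} (hb : PolyB b 1 0) (s t : ℂ) (w : ℝ) :
    Summable fun n : O =>
      ‖b n * Complex.exp (-s * Real.log (nr n)) * hc (s + t) (Real.log (nr n) - w)‖ := by
  have := (summable_Sm hb (Real.exp_pos w) t).mul_left ‖Complex.exp (-s * w)‖
  refine this.congr fun n => ?_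
  rw [← norm_mul, term' hb.1]

theorem norm_Tt (b : O → ℂ) (s t : ℂ) (w : ℝ) :
    ‖Tt b s t w‖ = Real.exp (-s.re * w) * ‖Sm b (Real.exp w) t‖ := by
  rw [Tt, norm_mul, Complex.norm_exp]
  simp

theorem continuous_Sm {b : O → ℂ} (hb : PolyB b 1 0) (τ : ℝ) :
    Continuous fun w : ℝ => Sm b (Real.exp w) (τ * Complex.I) := by
  have h2 := (WeightB.differentiable_Sm hb one_pos).continuous
  have e : (fun w : ℝ => Sm b (Real.exp w) (τ * Complex.I)) = fun w : ℝ =>
      Complex.exp (-(((2 * w : ℝ) : ℂ) ^ 2 / 4 + τ * Complex.I * (2 * w : ℝ) / 2)) *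
        Sm b 1 ((2 * w : ℝ) + τ * Complex.I) := by
    funext w
    have := WeightB.Sm_eq b hb.1 one_pos (((2 * w : ℝ) : ℂ) + τ * Complex.I)
    simpa using this
  rw [e]
  fun_prop

theorem continuous_Tt {b : O → ℂ} (hb : PolyB b 1 0) (s : ℂ) (τ : ℝ) :
    Continuous (Tt b s (τ * Complex.I)) := by
  have := continuous_Sm hb τ
  unfold Tt
  fun_prop

theorem norm_coef_le {b : O → ℂ} (hb : PolyB b 1 0) (s : ℂ) (n : O) :
    ‖b n * Complex.exp (-s * Real.log (nr n))‖ ≤ nr n ^ (-s.re) := by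
  rcases eq_or_ne n 0 with rfl | hn
  · rw [hb.1, zero_mul, norm_zero]
    positivity
  · rw [norm_mul, norm_exp_log (nr_pos hn)]
    have := hb.2 n
    rw [Real.rpow_zero, mul_one] at this
    exact mul_le_of_le_one_left (by positivity) this

theorem integral_Tt {b : O → ℂ} (hb : PolyB b 1 0) {s : ℂ} (hs : 1 < s.re) (t : ℂ) :
    ∫ w, Tt b s t w = (∑' n : O, b n * (nr n : ℂ) ^ (-s)) * ∫ y, hc (s + t) y := by
  simp only [Tt_eq hb.1]
  rw [← integral_tsum_of_summable_integral_norm, ← tsum_mul_right]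
  · refine tsum_congr fun n => ?_
    rw [integral_const_mul, integral_sub_left_eq_self]
    rcases eq_or_ne n 0 with rfl | hn
    · simp [hb.1]
    · rw [cpow_eq (nr_pos hn)]
  · exact fun n => ((integrable_hc (s + t)).comp_sub_left _).const_mul _
  · refine Summable.of_nonneg_of_le (fun n => integral_nonneg fun _ => norm_nonneg _)
      (fun n => ?_) ((summable_nr_rpow hs).mul_right (∫ y, ‖hc (s + t) y‖))
    simp only [norm_mul (b n * _)]
    rw [integral_const_mul, integral_sub_left_eq_self (fun y => ‖hc (s + t) y‖)]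
    exact mul_le_mul_of_nonneg_right (norm_coef_le hb s n)
      (integral_nonneg fun _ => norm_nonneg _)

theorem mellin_eq (b : O → ℂ) (s t : ℂ) :
    mellin (fun X => Sm b X t) (-s) = ∫ w, Tt b s t w := by
  have h := integral_image_eq_integral_abs_deriv_smul (s := Set.univ) (f := Real.exp)
    (f' := Real.exp) MeasurableSet.univ (fun x _ => (Real.hasDerivAt_exp x).hasDerivWithinAt)
    Real.exp_injective.injOn (fun X : ℝ => (X : ℂ) ^ (-s - 1) • Sm b X t)
  rw [Set.image_univ, Real.range_exp, Measure.restrict_univ] at h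
  rw [mellin, h]
  refine integral_congr_ae (Eventually.of_forall fun w => ?_)
  have h1 := cpow_eq (Real.exp_pos w) (s + 1)
  rw [Real.log_exp, neg_add'] at h1
  simp only [Tt, h1, abs_of_pos (Real.exp_pos w), smul_eq_mul, Complex.real_smul]
  rw [Complex.ofReal_exp, ← mul_assoc, ← Complex.exp_add]
  congr 2
  ring

/-- decay for very large scales -/
theorem decay_top {M : O} (hM : Adm M) (J : ℝ) : ∃ C : ℝ, 0 < C ∧
    ∀ (N : ℝ) (s : ℂ) (ν : Chr M) (a : O), ¬ Exc M a → (nr a * (1 + |s.im|) ^ 2) ^ 2 ≤ N →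
      |s.re| ≤ 3 → ‖Pln ν a N s‖ ≤ C * N ^ (-J) := by
  obtain ⟨C, hC, h⟩ := Pln_decay hM (ε := 1 / 2) (by norm_num) J
  refine ⟨C, hC, fun N s ν a ha hN hs => ?_⟩
  have ha1 := one_le_nr (ne_zero_of_not_exc ha)
  have h0 := abs_nonneg s.im
  have h1 : 1 + |s.im| ≤ nr a * (1 + |s.im|) ^ 2 := by nlinarith
  have h2 : nr a * (1 + |s.im|) ^ 2 ≤ N := by nlinarith
  have hN0 : 0 ≤ N := by linarith
  refine h N N s ν a (by linarith) ha ?_ le_rfl hs (by linarith)
  rw [← Real.sqrt_eq_rpow]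
  have h3 : nr a * (1 + |s.im|) ^ 2 ≤ √N := Real.le_sqrt_of_sq_le hN
  calc nr a * √N * (1 + |s.im|) ^ 2 = nr a * (1 + |s.im|) ^ 2 * √N := by ring
    _ ≤ √N * √N := by gcongr
    _ = N := Real.mul_self_sqrt hN0

theorem small_le (A : ℝ) (hA : 0 ≤ A) : ∃ C : ℝ, 0 < C ∧ ∀ (b : O → ℂ) (X τ : ℝ), PolyB b 1 0 →
    0 < X → ‖Sm b X (τ * Complex.I)‖ ≤ C * X ∧ ‖Sm b X (τ * Complex.I)‖ ≤ C * X ^ (1 + A) := by
  obtain ⟨C, hC, h⟩ := tsum_norm_Sm_le A 0 0 le_rfl
  refine ⟨C, hC, fun b X τ hb hX => ?_⟩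
  have h1 := (norm_tsum_le_tsum_norm (summable_Sm hb hX (τ * Complex.I))).trans
    (h b 1 X (τ * Complex.I) hb hX (by simp))
  rw [mul_one, zero_add, Real.rpow_one, abs_of_nonneg hA] at h1
  exact ⟨h1.trans (mul_le_mul_of_nonneg_left (min_le_left _ _) hC.le),
    h1.trans (mul_le_mul_of_nonneg_left (min_le_right _ _) hC.le)⟩

theorem differentiable_mellin {M : O} (hM : Adm M) (ν : Chr M) {a : O} (ha : ¬ Exc M a) (τ : ℝ) :
    Differentiable ℂ (mellin fun X => Sm (rc ν a) X (τ * Complex.I)) := by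
  intro s
  have hb := polyB_rc hM ν a
  refine mellin_differentiableAt_of_isBigO_rpow (a := s.re + 1) (b := -(1 + |s.re|)) ?_ ?_
    (lt_add_one _) ?_ (by linarith [neg_abs_le s.re])
  · refine ContinuousOn.locallyIntegrableOn ?_ measurableSet_Ioi
    have h1 := (continuous_Sm hb τ).comp_continuousOn
      (Real.continuousOn_log.mono (t := Set.Ioi 0) fun x hx => ne_of_gt hx)
    refine h1.congr fun x hx => ?_
    simp only [Function.comp, Real.exp_log hx]
  · obtain ⟨C, -, h⟩ := decay_top hM (s.re + 1)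
    refine Asymptotics.IsBigO.of_bound C ?_
    filter_upwards [eventually_ge_atTop ((nr a * (1 + |(τ * Complex.I : ℂ).im|) ^ 2) ^ 2),
      eventually_gt_atTop 0] with X hX hX0
    rw [Real.norm_of_nonneg (by positivity)]
    exact h X _ ν a ha hX (by simp)
  · obtain ⟨C, -, h⟩ := small_le |s.re| (abs_nonneg _)
    refine Asymptotics.IsBigO.of_bound C ?_
    filter_upwards [self_mem_nhdsWithin] with X hX
    have hX0 : 0 < X := hX
    rw [Real.norm_of_nonneg (by positivity), neg_neg]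
    exact (h _ X τ hb hX0).2

theorem integral_Tt_rc {M : O} (hM : Adm M) (ν : Chr M) {a : O} (ha : ¬ Exc M a) (τ : ℝ) (s : ℂ) :
    ∫ w, Tt (rc ν a) s (τ * Complex.I) w = Lc ν a s * ∫ y, hc (s + τ * Complex.I) y := by
  obtain ⟨-, h2, h3⟩ := isL_Lc hM ν (ne_zero_of_not_exc ha)
  have hf : Differentiable ℂ fun s => mellin (fun X => Sm (rc ν a) X (τ * Complex.I)) (-s) :=
    (differentiable_mellin hM ν ha τ).comp differentiable_neg
  have hg : Differentiable ℂ fun s => Lc ν a s * ∫ y, hc (s + τ * Complex.I) y :=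
    (h3 (not_princ_of_not_exc hM ν ha)).mul
      (differentiable_integral_hc.comp (differentiable_id.add_const _))
  have key := AnalyticOnNhd.eq_of_eventuallyEq (Complex.analyticOnNhd_univ_iff_differentiable.2 hf)
    (Complex.analyticOnNhd_univ_iff_differentiable.2 hg) (z₀ := 2) (by
      have : ∀ᶠ z : ℂ in 𝓝 2, 1 < z.re :=
        (isOpen_lt continuous_const Complex.continuous_re).mem_nhds (by simp)
      filter_upwards [this] with z hz
      rw [mellin_eq, integral_Tt (polyB_rc hM ν a) hz, h2 z hz, Lser])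
  rw [← mellin_eq]
  exact congrFun key s

/-! ### The main identity -/

/-- the truncated product kernel -/
def kap (β y : ℝ) (q : ℝ × ℝ) : ℝ := if q.1 + q.2 ≤ y then hk β (-q.1) * hk β (-q.2) else 0

theorem kap_nonneg (β y : ℝ) (q : ℝ × ℝ) : 0 ≤ kap β y q := by
  unfold kap
  split_ifs
  · exact (mul_pos (hk_pos _ _) (hk_pos _ _)).le
  · exact le_rfl

theorem kap_le (β y : ℝ) (q : ℝ × ℝ) :
    kap β y q ≤ Real.exp (2 * y) * (hk (β + 2) (-q.1) * hk (β + 2) (-q.2)) := by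
  unfold kap
  split_ifs with h
  · simp only [hk, ← Real.exp_add]
    exact Real.exp_le_exp.2 (by linarith)
  · exact (mul_pos (Real.exp_pos _) (mul_pos (hk_pos _ _) (hk_pos _ _))).le

theorem integrable_hk2 (β : ℝ) : Integrable fun q : ℝ × ℝ => hk β (-q.1) * hk β (-q.2) :=
  (integrable_hk β).comp_neg.mul_prod (integrable_hk β).comp_neg

theorem integrable_kap (β y : ℝ) : Integrable (kap β y) := by
  have hs : MeasurableSet {q : ℝ × ℝ | q.1 + q.2 ≤ y} :=
    (isClosed_le (by fun_prop) continuous_const).measurableSet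
  refine ((integrable_hk2 β).indicator hs).congr (Eventually.of_forall fun q => ?_)
  simp [kap, Set.indicator_apply]

/-- the mass of the truncated kernel -/
def Gr (β y : ℝ) : ℝ := ∫ q, kap β y q

theorem Gr_nonneg (β y : ℝ) : 0 ≤ Gr β y := integral_nonneg (kap_nonneg β y)

theorem Gr_le (β y : ℝ) : Gr β y ≤
    Real.exp (2 * y) * ∫ q : ℝ × ℝ, hk (β + 2) (-q.1) * hk (β + 2) (-q.2) := by
  rw [← integral_const_mul]
  exact integral_mono (integrable_kap β y) ((integrable_hk2 _).const_mul _) (kap_le β y)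

theorem le_Gr {β y : ℝ} (hβ : 0 ≤ β) (hy : 0 ≤ y) : Real.exp (-2) ≤ Gr β y := by
  have hs : MeasurableSet (Set.Icc (-1 : ℝ) 0 ×ˢ Set.Icc (-1 : ℝ) 0) :=
    measurableSet_Icc.prod measurableSet_Icc
  have hv : volume.real (Set.Icc (-1 : ℝ) 0 ×ˢ Set.Icc (-1 : ℝ) 0) = 1 := by
    rw [Measure.real, Measure.volume_eq_prod, Measure.prod_prod]
    simp
  calc Real.exp (-2) = Real.exp (-2) * volume.real (Set.Icc (-1 : ℝ) 0 ×ˢ Set.Icc (-1 : ℝ) 0) := by
        rw [hv, mul_one]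
    _ ≤ ∫ q in Set.Icc (-1 : ℝ) 0 ×ˢ Set.Icc (-1 : ℝ) 0, kap β y q := by
        refine setIntegral_ge_of_const_le_real hs (isCompact_Icc.prod isCompact_Icc).measure_ne_top
          (fun q hq => ?_) (integrable_kap β y).integrableOn
        obtain ⟨⟨h1, h2⟩, h3, h4⟩ := hq
        rw [kap, if_pos (by linarith), hk, hk, ← Real.exp_add]
        exact Real.exp_le_exp.2 (by nlinarith)
    _ ≤ Gr β y := setIntegral_le_integral (integrable_kap β y)
        (Eventually.of_forall (kap_nonneg β y))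

theorem conv_weight {f : O → ℂ} (hf : LBA.CM f) (K : O → ℂ)
    (hs : Summable fun z : O × O => f z.1 * (mu z.2 * f z.2) * K (z.1 * z.2)) :
    ∑' z : O × O, f z.1 * (mu z.2 * f z.2) * K (z.1 * z.2) = K 1 := by
  classical
  have h := hs.hasSum.tsum_fiberwise fun z : O × O => z.1 * z.2
  have e : ∀ n : O, ∑' z : (fun z : O × O => z.1 * z.2) ⁻¹' {n},
      f z.1.1 * (mu z.1.2 * f z.1.2) * K (z.1.1 * z.1.2) = if n = 1 then K 1 else 0 := by
    intro n
    rw [tsum_congr (g := fun z : (fun z : O × O => z.1 * z.2) ⁻¹' {n} =>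
      f z.1.1 * (mu z.1.2 * f z.1.2) * K n) fun z => by rw [show z.1.1 * z.1.2 = n from z.2],
      tsum_mul_right, hf.fiber]
    split_ifs with h1
    · rw [h1, one_mul]
    · rw [zero_mul]
  simp only [e] at h
  exact h.unique (hasSum_ite_eq (1 : O) (K 1))

theorem prod_eq {b c : O → ℂ} (hb : PolyB b 1 0) (hc' : PolyB c 1 0) (ρ : ℂ) (V : ℝ) (p : ℝ × ℝ) :
    (if p.1 + p.2 ≤ V then Tt b ρ ((-ρ.im : ℝ) * Complex.I) p.1 *
      Tt c ρ ((-ρ.im : ℝ) * Complex.I) p.2 else 0) =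
    ∑' z : O × O, b z.1 * Complex.exp (-ρ * Real.log (nr z.1)) *
      (c z.2 * Complex.exp (-ρ * Real.log (nr z.2))) *
      (kap ρ.re (V - Real.log (nr z.1) - Real.log (nr z.2))
        (p - (Real.log (nr z.1), Real.log (nr z.2))) : ℝ) := by
  have hρ : ρ + (-ρ.im : ℝ) * Complex.I = (ρ.re : ℂ) := by
    apply Complex.ext <;> simp
  split_ifs with h
  · rw [Tt_eq hb.1, Tt_eq hc'.1,
      tsum_mul_tsum_of_summable_norm (summable_Tt hb _ _ _) (summable_Tt hc' _ _ _)]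
    refine tsum_congr fun z => ?_
    rw [kap, if_pos (by simp only [Prod.fst_sub, Prod.snd_sub]; linarith), hρ, hc_ofReal, hc_ofReal]
    simp only [Prod.fst_sub, Prod.snd_sub, neg_sub]
    push_cast
    ring
  · refine (tsum_zero.symm.trans (tsum_congr fun z => ?_))
    rw [kap, if_neg (by simp only [Prod.fst_sub, Prod.snd_sub]; intro h'; exact h (by linarith))]
    simp

theorem norm_coef_mul_le {b : O → ℂ} (hb : PolyB b 1 0) {s : ℂ} (hs : 0 ≤ s.re) (n : O) :
    ‖b n * Complex.exp (-s * Real.log (nr n))‖ * Real.exp (-2 * Real.log (nr n)) ≤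
      nr n ^ (-2 : ℝ) := by
  rcases eq_or_ne n 0 with rfl | hn
  · rw [hb.1, zero_mul, norm_zero, zero_mul]
    positivity
  · rw [Real.rpow_def_of_pos (nr_pos hn), mul_comm (Real.log _)]
    exact mul_le_of_le_one_left (Real.exp_pos _).le ((norm_coef_le hb s n).trans
      (Real.rpow_le_one_of_one_le_of_nonpos (one_le_nr hn) (by linarith)))

theorem summable_Gr {b c : O → ℂ} (hb : PolyB b 1 0) (hc' : PolyB c 1 0) {ρ : ℂ} (hρ : 0 ≤ ρ.re)
    (V : ℝ) : Summable fun z : O × O => ‖b z.1 * Complex.exp (-ρ * Real.log (nr z.1)) *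
      (c z.2 * Complex.exp (-ρ * Real.log (nr z.2)))‖ *
      Gr ρ.re (V - Real.log (nr z.1) - Real.log (nr z.2)) := by
  set K := ∫ q : ℝ × ℝ, hk (ρ.re + 2) (-q.1) * hk (ρ.re + 2) (-q.2) with hK
  have hK0 : 0 ≤ K := integral_nonneg fun q => (mul_pos (hk_pos _ _) (hk_pos _ _)).le
  have hs := (summable_nr_rpow one_lt_two).mul_of_nonneg (summable_nr_rpow one_lt_two)
    (fun n => by positivity) (fun n => by positivity)
  refine Summable.of_nonneg_of_le (fun z => mul_nonneg (norm_nonneg _) (Gr_nonneg _ _))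
    (fun z => ?_) (hs.mul_left (Real.exp (2 * V) * K))
  refine (mul_le_mul_of_nonneg_left (Gr_le _ _) (norm_nonneg _)).trans ?_
  have e : Real.exp (2 * (V - Real.log (nr z.1) - Real.log (nr z.2))) = Real.exp (2 * V) *
      (Real.exp (-2 * Real.log (nr z.1)) * Real.exp (-2 * Real.log (nr z.2))) := by
    rw [← Real.exp_add, ← Real.exp_add]
    congr 1
    ring
  have h1 := mul_le_mul (norm_coef_mul_le hb hρ z.1) (norm_coef_mul_le hc' hρ z.2)
    (by positivity) (by positivity)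
  rw [e, norm_mul (b z.1 * _), ← hK]
  refine le_trans (le_of_eq ?_) (mul_le_mul_of_nonneg_left h1 (by positivity))
  ring

theorem main_id {M : O} (hM : Adm M) (ν : Chr M) (a : O) {ρ : ℂ} (hρ : 0 ≤ ρ.re) (V : ℝ) :
    ∫ p : ℝ × ℝ, (if p.1 + p.2 ≤ V then Tt (rc ν a) ρ ((-ρ.im : ℝ) * Complex.I) p.1 *
      Tt (fun n => mu n * rc ν a n) ρ ((-ρ.im : ℝ) * Complex.I) p.2 else 0) = (Gr ρ.re V : ℂ) := by
  have hb := polyB_rc hM ν a
  have hc' := polyB_mu_rc hM ν a
  have hs := summable_Gr hb hc' hρ V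
  simp only [prod_eq hb hc']
  rw [← integral_tsum_of_summable_integral_norm]
  · have hf := LBA.cm_term hM ν a (s := 2) (by simp)
    have e : ∀ z : O × O, rc ν a z.1 * Complex.exp (-ρ * Real.log (nr z.1)) *
        (mu z.2 * rc ν a z.2 * Complex.exp (-ρ * Real.log (nr z.2))) *
        (Gr ρ.re (V - Real.log (nr z.1) - Real.log (nr z.2)) : ℝ) =
        rc ν a z.1 * (nr z.1 : ℂ) ^ (-2 : ℂ) * (mu z.2 * (rc ν a z.2 * (nr z.2 : ℂ) ^ (-2 : ℂ))) *
          (Complex.exp ((2 - ρ) * Real.log (nr (z.1 * z.2))) *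
            (Gr ρ.re (V - Real.log (nr (z.1 * z.2))) : ℝ)) := by
      intro z
      rcases eq_or_ne z.1 0 with h1 | h1
      · simp [h1, rc_zero]
      rcases eq_or_ne z.2 0 with h2 | h2
      · simp [h2, rc_zero]
      rw [cpow_eq (nr_pos h1), cpow_eq (nr_pos h2), nr_mul,
        Real.log_mul (nr_pos h1).ne' (nr_pos h2).ne', sub_sub]
      have e1 : Complex.exp (-ρ * Real.log (nr z.1)) * Complex.exp (-ρ * Real.log (nr z.2)) =
          Complex.exp (-2 * Real.log (nr z.1)) * Complex.exp (-2 * Real.log (nr z.2)) *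
            Complex.exp ((2 - ρ) * (Real.log (nr z.1) + Real.log (nr z.2) : ℝ)) := by
        simp only [← Complex.exp_add]
        congr 1
        push_cast
        ring
      linear_combination rc ν a z.1 * mu z.2 * rc ν a z.2 *
        (Gr ρ.re (V - (Real.log (nr z.1) + Real.log (nr z.2))) : ℝ) * e1
    have key := conv_weight hf (fun n => Complex.exp ((2 - ρ) * Real.log (nr n)) *
      (Gr ρ.re (V - Real.log (nr n)) : ℝ)) (by
        refine Summable.congr (Summable.of_norm (hs.congr fun z => ?_)) e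
        rw [norm_mul (_ * _) (Complex.ofReal _), Complex.norm_of_nonneg (Gr_nonneg _ _)])
    simp only [← e] at key
    refine Eq.trans (tsum_congr fun z => ?_) (key.trans (by simp [nr]))
    rw [integral_const_mul, integral_complex_ofReal, integral_sub_right_eq_self, Gr]
  · exact fun z => ((integrable_kap _ _).comp_sub_right _).ofReal.const_mul _
  · refine hs.congr fun z => ?_
    simp only [norm_mul (_ * _) (Complex.ofReal _), Complex.norm_of_nonneg (kap_nonneg _ _ _)]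
    rw [integral_const_mul, integral_sub_right_eq_self, Gr]

/-! ### The estimate -/

theorem integral_region_le {P Q : ℝ → ℂ} (hP : Continuous P) (hQ : Continuous Q) {k : ℝ → ℝ}
    (hk : Integrable k) (hk0 : ∀ x, 0 ≤ k x) {K δ U V : ℝ} (hK : 0 ≤ K) (hδ : 0 ≤ δ)
    (h1 : ∀ v, ‖P v‖ ≤ K * k v) (h2 : ∀ u, u ≤ U → ‖Q u‖ ≤ K * k u) (h0 : ∫ v, P v = 0)
    (h3 : ∀ v u, (U < u ∧ v + u ≤ V) ∨ (u ≤ U ∧ V < v + u) → ‖P v‖ * ‖Q u‖ ≤ δ * (k v * k u)) :
    ‖∫ p : ℝ × ℝ, (if p.1 + p.2 ≤ V then P p.1 * Q p.2 else 0)‖ ≤ δ * (∫ x, k x) ^ 2 := by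
  have iP : Integrable P := (hk.const_mul K).mono' hP.aestronglyMeasurable (Eventually.of_forall h1)
  have iQ : Integrable ((Set.Iic U).indicator Q) :=
    (hk.const_mul K).mono' (hQ.aestronglyMeasurable.indicator measurableSet_Iic)
      (Eventually.of_forall fun u => by
        by_cases hu : u ≤ U
        · rw [Set.indicator_of_mem (show u ∈ Set.Iic U from hu)]
          exact h2 u hu
        · rw [Set.indicator_of_notMem (show u ∉ Set.Iic U from hu), norm_zero]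
          exact mul_nonneg hK (hk0 u))
  have i2 : Integrable fun p : ℝ × ℝ => P p.1 * (Set.Iic U).indicator Q p.2 := iP.mul_prod iQ
  have e2 : ∫ p : ℝ × ℝ, P p.1 * (Set.Iic U).indicator Q p.2 = 0 := by
    rw [Measure.volume_eq_prod, integral_prod_mul, h0, zero_mul]
  have hs : MeasurableSet {q : ℝ × ℝ | q.1 + q.2 ≤ V} :=
    (isClosed_le (by fun_prop) continuous_const).measurableSet
  have m1 : AEStronglyMeasurable fun p : ℝ × ℝ => if p.1 + p.2 ≤ V then P p.1 * Q p.2 else 0 := by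
    have hc : Continuous fun p : ℝ × ℝ => P p.1 * Q p.2 := by fun_prop
    refine (hc.aestronglyMeasurable.indicator hs).congr (Eventually.of_forall fun q => ?_)
    simp [Set.indicator_apply]
  have ik : Integrable fun p : ℝ × ℝ => δ * (k p.1 * k p.2) := (hk.mul_prod hk).const_mul δ
  have hE : ∀ p : ℝ × ℝ, ‖(if p.1 + p.2 ≤ V then P p.1 * Q p.2 else 0) -
      P p.1 * (Set.Iic U).indicator Q p.2‖ ≤ δ * (k p.1 * k p.2) := by
    intro p
    have hn : 0 ≤ δ * (k p.1 * k p.2) := mul_nonneg hδ (mul_nonneg (hk0 _) (hk0 _))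
    by_cases hu : p.2 ≤ U
    · rw [Set.indicator_of_mem (show p.2 ∈ Set.Iic U from hu)]
      split_ifs with hv
      · rwa [sub_self, norm_zero]
      · rw [zero_sub, norm_neg, norm_mul]
        exact h3 _ _ (Or.inr ⟨hu, not_le.1 hv⟩)
    · rw [Set.indicator_of_notMem (show p.2 ∉ Set.Iic U from hu), mul_zero, sub_zero]
      split_ifs with hv
      · rw [norm_mul]
        exact h3 _ _ (Or.inl ⟨not_le.1 hu, hv⟩)
      · rwa [norm_zero]
  have iE := ik.mono' (m1.sub i2.aestronglyMeasurable) (Eventually.of_forall hE)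
  have i1 : Integrable fun p : ℝ × ℝ => if p.1 + p.2 ≤ V then P p.1 * Q p.2 else 0 :=
    (iE.add i2).congr (Eventually.of_forall fun p => by simp)
  have key := norm_integral_le_of_norm_le ik (Eventually.of_forall hE)
  rw [integral_sub i1 i2, e2, sub_zero, integral_const_mul] at key
  refine key.trans (le_of_eq ?_)
  rw [Measure.volume_eq_prod, integral_prod_mul, sq]

theorem cases_le {p q : ℝ → ℝ} {C A L e U v₁ : ℝ} (hC : 0 < C) (hp0 : ∀ w, 0 ≤ p w)
    (hq0 : ∀ w, 0 ≤ q w) (he : 0 ≤ e) (heU : e ≤ U) (hUL : U ≤ L) (hA : 1 ≤ A)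
    (hAe : 6 * L ≤ A * e) (hv₁ : v₁ ≤ 5 * L)
    (hp1 : ∀ w, 0 ≤ w → p w ≤ C * Real.exp w) (hp2 : ∀ w, w ≤ 0 → p w ≤ C * Real.exp (A * w))
    (hq1 : ∀ w, 0 ≤ w → q w ≤ C * Real.exp w) (hq2 : ∀ w, w ≤ 0 → q w ≤ C * Real.exp (A * w))
    (hp3 : ∀ v, v₁ ≤ v → p v ≤ C * Real.exp (-2 * L))
    (hbox : ∀ v u, -e ≤ u → u ≤ U → -e ≤ v → v ≤ v₁ → U - e ≤ v + u →
      p v * q u ≤ Real.exp (-e / 2))
    (v u : ℝ) (h : (U < u ∧ v + u ≤ U - e) ∨ (u ≤ U ∧ U - e < v + u)) :
    p v * q u ≤ C ^ 2 * Real.exp (-L) + Real.exp (-e / 2) := by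
  have aux : ∀ x y : ℝ, p v ≤ C * Real.exp x → q u ≤ C * Real.exp y → x + y ≤ -L →
      p v * q u ≤ C ^ 2 * Real.exp (-L) + Real.exp (-e / 2) := by
    intro x y h1 h2 h3
    calc p v * q u ≤ C * Real.exp x * (C * Real.exp y) :=
          mul_le_mul h1 h2 (hq0 _) (by positivity)
      _ = C ^ 2 * Real.exp (x + y) := by rw [Real.exp_add]; ring
      _ ≤ C ^ 2 * Real.exp (-L) := by gcongr
      _ ≤ _ := le_add_of_nonneg_right (Real.exp_pos _).le
  have up : ∀ {r : ℝ → ℝ}, (∀ w, 0 ≤ w → r w ≤ C * Real.exp w) →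
      (∀ w, w ≤ 0 → r w ≤ C * Real.exp (A * w)) → ∀ w B : ℝ, 0 ≤ B → w ≤ B →
      r w ≤ C * Real.exp B := by
    intro r h1 h2 w B hB hw
    rcases le_total 0 w with h0 | h0
    · exact (h1 w h0).trans (by gcongr)
    · exact (h2 w h0).trans (by gcongr; nlinarith)
  have hL : 0 ≤ L := by linarith
  rcases h with ⟨h1, h2⟩ | ⟨h1, h2⟩
  · refine aux _ _ (hp2 v (by linarith)) (hq1 u (by linarith)) ?_
    nlinarith
  have hqu := up hq1 hq2 u L hL (by linarith)
  by_cases h3 : v₁ ≤ v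
  · exact aux _ _ (hp3 v h3) hqu (by linarith)
  by_cases h4 : u < -e
  · refine aux _ _ (up hp1 hp2 v (5 * L) (by linarith) (by linarith)) (hq2 u (by linarith)) ?_
    nlinarith
  by_cases h5 : v < -e
  · refine aux _ _ (hp2 v (by linarith)) hqu ?_
    nlinarith
  exact (hbox v u (by linarith) h1 (by linarith) (by linarith) h2.le).trans
    (le_add_of_nonneg_left (by positivity))

theorem wt_le (A : ℝ) (hA : 0 ≤ A) : ∃ C : ℝ, 0 < C ∧ ∀ (b : O → ℂ) (ρ : ℂ) (τ η w : ℝ),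
    PolyB b 1 0 → 1 / 2 ≤ ρ.re → ρ.re ≤ 1 → η ≤ 1 / 2 →
      (0 ≤ w → ‖Tt b ρ (τ * Complex.I) w‖ * Real.exp (η * |w|) ≤ C * Real.exp w) ∧
      (w ≤ 0 → ‖Tt b ρ (τ * Complex.I) w‖ * Real.exp (η * |w|) ≤ C * Real.exp (A * w)) := by
  obtain ⟨C, hC, h⟩ := small_le (A + 1) (by linarith)
  refine ⟨C, hC, fun b ρ τ η w hb h1 h2 h3 => ?_⟩
  obtain ⟨b1, b2⟩ := h b (Real.exp w) τ hb (Real.exp_pos w)
  rw [← Real.exp_mul] at b2
  have aux : ∀ x y : ℝ, ‖Sm b (Real.exp w) (τ * Complex.I)‖ ≤ C * Real.exp x →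
      -ρ.re * w + x + η * |w| ≤ y →
      ‖Tt b ρ (τ * Complex.I) w‖ * Real.exp (η * |w|) ≤ C * Real.exp y := by
    intro x y hx hy
    rw [norm_Tt]
    calc _ ≤ Real.exp (-ρ.re * w) * (C * Real.exp x) * Real.exp (η * |w|) := by gcongr
      _ = C * Real.exp (-ρ.re * w + x + η * |w|) := by rw [Real.exp_add, Real.exp_add]; ring
      _ ≤ _ := by gcongr
  refine ⟨fun hw => aux _ _ b1 ?_, fun hw => aux _ _ b2 ?_⟩
  · rw [abs_of_nonneg hw]
    nlinarith
  · rw [abs_of_nonpos hw]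
    nlinarith

theorem cond_le_pow {R x τ : ℝ} (hR : 4 ≤ R) (hx0 : 0 ≤ x) (hx : x ≤ R) (hτ : |τ| ≤ R) :
    x * (1 + |τ|) ^ 2 ≤ R ^ 4 := by
  have h0 := abs_nonneg τ
  calc x * (1 + |τ|) ^ 2 ≤ R * (2 * R) ^ 2 := by gcongr; linarith
    _ = 4 * R ^ 3 := by ring
    _ ≤ R * R ^ 3 := by gcongr
    _ = R ^ 4 := by ring

theorem far {M : O} (hM : Adm M) {ε : ℝ} (hε : 0 < ε) : ∃ C : ℝ, 0 < C ∧
    ∀ (R N τ : ℝ) (ν : Chr M) (a : O), 4 ≤ R → ¬ Exc M a → nr a ≤ R → |τ| ≤ R →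
      nr a * R ^ ε * (1 + |τ|) ^ 2 ≤ N →
      ‖Pln ν a N (τ * Complex.I)‖ ≤ C * Real.exp (-2 * Real.log R) := by
  obtain ⟨C₁, hC₁, h₁⟩ := Pln_decay hM (ε := ε / 8) (by positivity) 1
  obtain ⟨C₂, hC₂, h₂⟩ := decay_top hM 1
  refine ⟨C₁ + C₂, by positivity, fun R N τ ν a hR ha haR hτ hN => ?_⟩
  have hR0 : 0 < R := by linarith
  have hR1 : 1 ≤ R := by linarith
  have him : (τ * Complex.I : ℂ).im = τ := by simp
  have h8 : R ≤ R ^ 8 := le_self_pow₀ hR1 (by norm_num)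
  have hfin : ∀ X : ℝ, R ^ 8 ≤ X → X ^ (-1 : ℝ) ≤ Real.exp (-2 * Real.log R) := by
    intro X hX
    rw [mul_comm, ← Real.rpow_def_of_pos hR0, Real.rpow_neg_one, Real.rpow_neg hR0.le,
      Real.rpow_two]
    exact inv_anti₀ (by positivity) ((pow_le_pow_right₀ hR1 (by norm_num)).trans hX)
  rcases le_total N (R ^ 8) with h | h
  · have e : (R ^ 8) ^ (ε / 8) = R ^ ε := by
      rw [← Real.rpow_natCast, ← Real.rpow_mul hR0.le]
      congr 1
      push_cast
      ring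
    refine (h₁ (R ^ 8) N _ ν a (by linarith) ha (by rwa [e, him]) h (by simp)
      (by rw [him]; linarith)).trans ?_
    exact mul_le_mul (by linarith) (hfin _ le_rfl) (by positivity) (by positivity)
  · refine (h₂ N _ ν a ha ?_ (by simp)).trans ?_
    · rw [him]
      calc _ ≤ (R ^ 4) ^ 2 := by gcongr; exact cond_le_pow hR (by positivity) haR hτ
        _ = R ^ 8 := by ring
        _ ≤ N := h
    · have : 0 < N := by linarith
      exact mul_le_mul (by linarith) (hfin _ h) (by positivity) (by positivity)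

theorem integrable_exp_abs {η : ℝ} (hη : 0 < η) : Integrable fun x : ℝ => Real.exp (-η * |x|) := by
  rw [← integrableOn_univ, ← Set.Iic_union_Ioi (a := (0 : ℝ))]
  refine IntegrableOn.union ?_ ?_
  · refine (integrableOn_exp_mul_Iic hη 0).congr_fun (fun x hx => ?_) measurableSet_Iic
    simp only [abs_of_nonpos (Set.mem_Iic.1 hx)]
    congr 1
    ring
  · refine (integrableOn_exp_mul_Ioi (neg_lt_zero.2 hη) 0).congr_fun (fun x hx => ?_)
      measurableSet_Ioi
    simp only [abs_of_pos (Set.mem_Ioi.1 hx)]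

theorem le_of_wt {x η w B : ℝ} (h : x * Real.exp (η * |w|) ≤ B) :
    x ≤ B * Real.exp (-η * |w|) := by
  rw [neg_mul, Real.exp_neg, ← div_eq_mul_inv, le_div_iff₀ (Real.exp_pos _)]
  exact h

theorem eventually_small (C I : ℝ) {ε : ℝ} (hε : 0 < ε) : ∃ R₀ : ℝ, ∀ R, R₀ ≤ R →
    (C * Real.exp (-Real.log R) + Real.exp (-(ε * Real.log R) / 2)) * I < Real.exp (-2) := by
  have h1 : Tendsto (fun R : ℝ => Real.exp (-Real.log R)) atTop (𝓝 0) :=
    Real.tendsto_exp_neg_atTop_nhds_zero.comp Real.tendsto_log_atTop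
  have h2 : Tendsto (fun R : ℝ => Real.exp (-(ε * Real.log R) / 2)) atTop (𝓝 0) := by
    have := Real.tendsto_exp_neg_atTop_nhds_zero.comp
      (Real.tendsto_log_atTop.const_mul_atTop (half_pos hε))
    refine this.congr fun R => ?_
    simp only [Function.comp]
    congr 1
    ring
  have h3 := ((h1.const_mul C).add h2).mul_const I
  rw [mul_zero, add_zero, zero_mul] at h3
  exact eventually_atTop.1 (h3.eventually (gt_mem_nhds (Real.exp_pos _)))

theorem detector_raw {M : O} (hM : Adm M) {ε : ℝ} (hε : 0 < ε) : ∃ R₀ : ℝ,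
    ∀ (R D₀ : ℝ) (ν : Chr M) (a : O) (ρ : ℂ), R₀ ≤ R → ¬ Exc M a → nr a ≤ R → R ^ ε ≤ D₀ →
      D₀ ≤ R → Lc ν a ρ = 0 → 1 / 2 ≤ ρ.re → ρ.re ≤ 1 → |ρ.im| ≤ R →
      ∃ D N : ℝ, R ^ (-ε) ≤ D ∧ D ≤ D₀ ∧ D₀ * R ^ (-ε) ≤ D * N ∧ R ^ (-ε) ≤ N ∧
        N ≤ nr a * R ^ ε * (1 + |ρ.im|) ^ 2 ∧
        R ^ (-ε) * (D * N) ^ ρ.re ≤
          ‖Mob ν a D ((-ρ.im : ℝ) * Complex.I)‖ * ‖Pln ν a N ((-ρ.im : ℝ) * Complex.I)‖ := by
  obtain ⟨η, hη, hη1, hη2⟩ : ∃ η : ℝ, 0 < η ∧ 16 * η ≤ ε ∧ η ≤ 1 / 2 :=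
    ⟨min (ε / 16) (1 / 2), lt_min (by positivity) (by norm_num),
      by linarith [min_le_left (ε / 16) (1 / 2)], min_le_right _ _⟩
  have hε6 : 0 < 6 / ε := by positivity
  obtain ⟨C₁, hC₁, h₁⟩ := wt_le (6 / ε + 1) (by positivity)
  obtain ⟨C₂, hC₂, h₂⟩ := far hM hε
  obtain ⟨R₁, h₃⟩ := eventually_small ((C₁ + C₂) ^ 2) ((∫ x : ℝ, Real.exp (-η * |x|)) ^ 2) hε
  refine ⟨max 4 R₁, fun R D₀ ν a ρ hR ha haR hD₀ hD₀R hρ hβ hβ1 hγ => ?_⟩
  obtain ⟨hR4, hRR₁⟩ := max_le_iff.1 hR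
  by_contra hcon
  push Not at hcon
  have hR0 : 0 < R := by linarith
  have hL : 0 ≤ Real.log R := Real.log_nonneg (by linarith)
  have hD0 : 0 < D₀ := lt_of_lt_of_le (by positivity) hD₀
  have ha1 := one_le_nr (ne_zero_of_not_exc ha)
  have hpe : R ^ ε = Real.exp (ε * Real.log R) := by rw [Real.rpow_def_of_pos hR0, mul_comm]
  have hne : R ^ (-ε) = Real.exp (-(ε * Real.log R)) := by
    rw [Real.rpow_def_of_pos hR0, mul_comm, neg_mul]
  have heU : ε * Real.log R ≤ Real.log D₀ := by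
    rw [Real.le_log_iff_exp_le hD0, ← hpe]
    exact hD₀
  have hUL : Real.log D₀ ≤ Real.log R := Real.log_le_log hD0 hD₀R
  have hX0 : 0 < nr a * R ^ ε * (1 + |ρ.im|) ^ 2 := by positivity
  have hX1 : 1 ≤ nr a * R ^ ε * (1 + |ρ.im|) ^ 2 :=
    one_le_mul_of_one_le_of_one_le
      (one_le_mul_of_one_le_of_one_le ha1 (Real.one_le_rpow (by linarith) hε.le))
      (one_le_pow₀ (by linarith [abs_nonneg ρ.im]))
  have hv0 := Real.log_nonneg hX1
  have hv₁ : Real.log (nr a * R ^ ε * (1 + |ρ.im|) ^ 2) ≤ 5 * Real.log R := by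
    have : nr a * R ^ ε * (1 + |ρ.im|) ^ 2 ≤ R ^ 5 := by
      calc _ = nr a * (1 + |ρ.im|) ^ 2 * R ^ ε := by ring
        _ ≤ R ^ 4 * R := mul_le_mul (cond_le_pow hR4 (by positivity) haR hγ) (hD₀.trans hD₀R)
          (by positivity) (by positivity)
        _ = R ^ 5 := by ring
    have h := Real.log_le_log hX0 this
    rwa [Real.log_pow, Nat.cast_ofNat] at h
  have hb := polyB_rc hM ν a
  have hc' := polyB_mu_rc hM ν a
  set P := Tt (rc ν a) ρ ((-ρ.im : ℝ) * Complex.I) with hP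
  set Q := Tt (fun n => mu n * rc ν a n) ρ ((-ρ.im : ℝ) * Complex.I) with hQ
  have hp1 : ∀ w, 0 ≤ w → ‖P w‖ * Real.exp (η * |w|) ≤ (C₁ + C₂) * Real.exp w := fun w hw =>
    ((h₁ _ ρ _ η w hb hβ hβ1 hη2).1 hw).trans (by gcongr; linarith)
  have hp2 : ∀ w, w ≤ 0 → ‖P w‖ * Real.exp (η * |w|) ≤
      (C₁ + C₂) * Real.exp ((6 / ε + 1) * w) := fun w hw =>
    ((h₁ _ ρ _ η w hb hβ hβ1 hη2).2 hw).trans (by gcongr; linarith)
  have hq1 : ∀ w, 0 ≤ w → ‖Q w‖ * Real.exp (η * |w|) ≤ (C₁ + C₂) * Real.exp w := fun w hw =>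
    ((h₁ _ ρ _ η w hc' hβ hβ1 hη2).1 hw).trans (by gcongr; linarith)
  have hq2 : ∀ w, w ≤ 0 → ‖Q w‖ * Real.exp (η * |w|) ≤
      (C₁ + C₂) * Real.exp ((6 / ε + 1) * w) := fun w hw =>
    ((h₁ _ ρ _ η w hc' hβ hβ1 hη2).2 hw).trans (by gcongr; linarith)
  have hp3 : ∀ v, Real.log (nr a * R ^ ε * (1 + |ρ.im|) ^ 2) ≤ v →
      ‖P v‖ * Real.exp (η * |v|) ≤ (C₁ + C₂) * Real.exp (-2 * Real.log R) := by
    intro v hv
    have h0 : 0 ≤ v := hv0.trans hv
    have h4 := h₂ R (Real.exp v) (-ρ.im) ν a hR4 ha haR (by rwa [abs_neg])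
      (by rw [abs_neg]; exact (Real.log_le_iff_le_exp hX0).1 hv)
    have h5 : Real.exp (-ρ.re * v) * Real.exp (η * |v|) ≤ 1 := by
      rw [← Real.exp_add, abs_of_nonneg h0]
      exact Real.exp_le_one_iff.2 (by nlinarith)
    rw [hP, norm_Tt, mul_right_comm]
    refine (mul_le_of_le_one_left (norm_nonneg _) h5).trans (h4.trans ?_)
    gcongr
    linarith
  have hbox : ∀ v u, -(ε * Real.log R) ≤ u → u ≤ Real.log D₀ → -(ε * Real.log R) ≤ v →
      v ≤ Real.log (nr a * R ^ ε * (1 + |ρ.im|) ^ 2) → Real.log D₀ - ε * Real.log R ≤ v + u →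
      ‖P v‖ * Real.exp (η * |v|) * (‖Q u‖ * Real.exp (η * |u|)) ≤
        Real.exp (-(ε * Real.log R) / 2) := by
    intro v u h4 h5 h6 h7 h8
    have h9 := hcon (Real.exp u) (Real.exp v) (by rw [hne]; exact Real.exp_le_exp.2 h4)
      ((Real.le_log_iff_exp_le hD0).1 h5)
      (by
        rw [hne, ← Real.exp_log hD0, ← Real.exp_add, ← Real.exp_add]
        exact Real.exp_le_exp.2 (by linarith))
      (by rw [hne]; exact Real.exp_le_exp.2 h6) ((Real.le_log_iff_exp_le hX0).1 h7)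
    rw [hne, ← Real.exp_add, ← Real.exp_mul, ← Real.exp_add, Mob_eq_Sm, Pln_eq_Sm] at h9
    have hu : |u| ≤ Real.log R := abs_le.2 ⟨by linarith, by linarith⟩
    have hv : |v| ≤ 5 * Real.log R := abs_le.2 ⟨by linarith, by linarith⟩
    have h10 : η * |u| ≤ η * Real.log R := by gcongr
    have h11 : η * |v| ≤ η * (5 * Real.log R) := by gcongr
    have h12 : 16 * η * Real.log R ≤ ε * Real.log R := by gcongr
    have h13 : 0 ≤ η * Real.log R := by positivity
    rw [hP, hQ, norm_Tt, norm_Tt]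
    calc _ = Real.exp (-ρ.re * v + η * |v| + (-ρ.re * u + η * |u|)) *
          (‖Sm (fun n => mu n * rc ν a n) (Real.exp u) ((-ρ.im : ℝ) * Complex.I)‖ *
            ‖Sm (rc ν a) (Real.exp v) ((-ρ.im : ℝ) * Complex.I)‖) := by
          simp only [Real.exp_add]
          ring
      _ ≤ Real.exp (-ρ.re * v + η * |v| + (-ρ.re * u + η * |u|)) *
          Real.exp (-(ε * Real.log R) + (u + v) * ρ.re) := by gcongr
      _ ≤ _ := by
          rw [← Real.exp_add]
          exact Real.exp_le_exp.2 (by linarith)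
  have hAe : 6 * Real.log R ≤ (6 / ε + 1) * (ε * Real.log R) := by
    have : (6 / ε + 1) * (ε * Real.log R) = 6 * Real.log R + ε * Real.log R := by
      field_simp
    rw [this]
    have : 0 ≤ ε * Real.log R := by positivity
    linarith
  have hcases := cases_le (p := fun w => ‖P w‖ * Real.exp (η * |w|))
    (q := fun w => ‖Q w‖ * Real.exp (η * |w|)) (add_pos hC₁ hC₂) (fun _ => by positivity)
    (fun _ => by positivity) (by positivity) heU hUL (by linarith) hAe hv₁ hp1 hp2 hq1 hq2 hp3 hbox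
  have hneg : ∀ w : ℝ, w ≤ 0 → Real.exp ((6 / ε + 1) * w) ≤ Real.exp (5 * Real.log R) :=
    fun w hw => Real.exp_le_exp.2 (by nlinarith)
  have key := integral_region_le (continuous_Tt hb ρ (-ρ.im)) (continuous_Tt hc' ρ (-ρ.im))
    (integrable_exp_abs hη) (fun _ => (Real.exp_pos _).le)
    (K := (C₁ + C₂) * Real.exp (5 * Real.log R))
    (δ := (C₁ + C₂) ^ 2 * Real.exp (-Real.log R) + Real.exp (-(ε * Real.log R) / 2))
    (U := Real.log D₀) (V := Real.log D₀ - ε * Real.log R) (by positivity) (by positivity)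
    (fun v => le_of_wt (by
      rcases le_total v 0 with h | h
      · exact (hp2 v h).trans (mul_le_mul_of_nonneg_left (hneg v h) (by positivity))
      rcases le_total v (Real.log (nr a * R ^ ε * (1 + |ρ.im|) ^ 2)) with h' | h'
      · exact (hp1 v h).trans (by gcongr; linarith)
      · exact (hp3 v h').trans (by gcongr; linarith)))
    (fun u hu => le_of_wt (by
      rcases le_total u 0 with h | h
      · exact (hq2 u h).trans (mul_le_mul_of_nonneg_left (hneg u h) (by positivity))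
      · exact (hq1 u h).trans (by gcongr; linarith)))
    (by rw [integral_Tt_rc hM ν ha, hρ, zero_mul])
    (fun v u h => by
      have h4 := hcases v u h
      rw [← mul_assoc]
      refine le_of_wt (le_of_wt (le_trans (le_of_eq ?_) h4))
      rw [hP, hQ]
      ring)
  rw [main_id hM ν a (by linarith), Complex.norm_of_nonneg (Gr_nonneg _ _)] at key
  exact absurd ((le_Gr (by linarith) (by linarith)).trans key) (not_le.2 (h₃ R hRR₁))

end Crest.Agent.R17.LZC
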