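import Crest.Agent.PVc.R17.Weight
import Crest.Agent.PVc.R17.LBasic
import Crest.Agent.PVc.R17.Contour
import Crest.Agent.PVc.R17.LZeroAuxA
import Crest.Agent.PVc.R17.LZeroAuxC
import Crest.Agent.PVc.R17.Recip
import Crest.Agent.PVc.R17.Poisson
import Crest.Agent.PVc.R17.Rows

-- ▼ part PVc/R17/LZeroAuxB
section

/-!
# Row 17, module M10 B: shifting the Mellin contour inside a window

`Sm_window`, `Sm_class`: a smooth sum is bounded by `K X^σ` as soon as the Dirichlet series of the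
coefficients continues to the window `σ ≤ Re w ≤ 2`, `|Im w + τ| ≤ U` and is bounded by `K` there.
-/

set_option autoImplicit false

noncomputable section

namespace Crest.Agent.R17

open scoped ComplexConjugate Interval
open MeasureTheory

namespace LZB

theorem norm_ker {X : ℝ} (hX : 0 < X) (τ : ℝ) {w : ℂ} (h0 : 0 ≤ w.re) (h2 : w.re ≤ 2) :
    ‖Wm (w + τ * Complex.I) * (X : ℂ) ^ w‖ ≤
      Real.sqrt Real.pi * Real.exp 1 * X ^ w.re * Real.exp (-(w.im + τ) ^ 2 / 4) := by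
  rw [norm_mul, norm_Wm, Complex.norm_cpow_eq_rpow_re_of_pos hX]
  have e1 : (w + τ * Complex.I).re = w.re := by simp
  have e2 : (w + τ * Complex.I).im = w.im + τ := by simp
  rw [e1, e2]
  have h3 : Real.exp ((w.re ^ 2 - (w.im + τ) ^ 2) / 4) ≤
      Real.exp 1 * Real.exp (-(w.im + τ) ^ 2 / 4) := by
    rw [← Real.exp_add]
    exact Real.exp_le_exp.2 (by nlinarith)
  have h4 : 0 ≤ X ^ w.re := by positivity
  calc _ ≤ Real.sqrt Real.pi * (Real.exp 1 * Real.exp (-(w.im + τ) ^ 2 / 4)) * X ^ w.re := by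
        gcongr
    _ = _ := by ring

/-- the Gaussian majorant -/
def gs8 (τ u : ℝ) : ℝ := Real.exp (-(1 / 8) * (u + τ) ^ 2)

theorem gs8_le_one (τ u : ℝ) : gs8 τ u ≤ 1 :=
  Real.exp_le_one_iff.2 (by nlinarith [sq_nonneg (u + τ)])

theorem integrable_gs8 (τ : ℝ) : Integrable (gs8 τ) :=
  (integrable_exp_neg_mul_sq (b := 1 / 8) (by norm_num)).comp_add_right τ

theorem integral_gs8 (τ : ℝ) : ∫ u, gs8 τ u = Real.sqrt (Real.pi / (1 / 8)) := by
  rw [← integral_gaussian]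
  exact integral_add_right_eq_self (fun u : ℝ => Real.exp (-(1 / 8) * u ^ 2)) τ

theorem norm_ker_in (κ : ℝ) {X : ℝ} (hX : 0 < X) (τ : ℝ) {w : ℂ} (h0 : 0 ≤ w.re) (h2 : w.re ≤ 2) :
    ‖Wm (w + τ * Complex.I) * (X : ℂ) ^ w‖ ≤
      Real.sqrt Real.pi * Real.exp (1 + 8 * κ ^ 2) * X ^ w.re * gs8 τ w.im := by
  refine (norm_ker hX τ h0 h2).trans ?_
  have h4 : 0 ≤ X ^ w.re := by positivity
  unfold gs8
  gcongr
  · nlinarith [sq_nonneg κ]
  · nlinarith [sq_nonneg (w.im + τ)]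

theorem norm_ker_out {κ X : ℝ} (hX : 1 ≤ X) (τ : ℝ) {w : ℂ} (h0 : 0 ≤ w.re) (h2 : w.re ≤ 2)
    (h : Real.log X ≤ κ * |w.im + τ|) :
    ‖Wm (w + τ * Complex.I) * (X : ℂ) ^ w‖ ≤
      Real.sqrt Real.pi * Real.exp (1 + 8 * κ ^ 2) * gs8 τ w.im := by
  have hX0 : 0 < X := one_pos.trans_le hX
  refine (norm_ker hX0 τ h0 h2).trans ?_
  have hL := Real.log_nonneg hX
  rw [gs8, Real.rpow_def_of_pos hX0, mul_assoc, mul_assoc, mul_assoc, ← Real.exp_add,
    ← Real.exp_add, ← Real.exp_add]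
  refine mul_le_mul_of_nonneg_left (Real.exp_le_exp.2 ?_) (Real.sqrt_nonneg _)
  nlinarith [sq_nonneg (|w.im + τ| - 8 * κ), mul_le_mul_of_nonneg_left h2 hL, sq_abs (w.im + τ)]

theorem norm_dir_le {b : O → ℂ} (hb : PolyB b 1 0) {w : ℂ} (hw : w.re = 2) :
    ‖∑' n : O, b n * (nr n : ℂ) ^ (-w)‖ ≤ ∑' n : O, nr n ^ (-2 : ℝ) := by
  refine tsum_of_norm_bounded (summable_nr_rpow one_lt_two).hasSum fun n => ?_
  by_cases h0 : n = 0
  · rw [h0, hb.1, zero_mul, norm_zero]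
    positivity
  · rw [norm_mul, Complex.norm_cpow_eq_rpow_re_of_pos (nr_pos h0), Complex.neg_re, hw]
    refine mul_le_of_le_one_left (by positivity) ?_
    simpa using hb.2 n

theorem norm_setIntegral_le {f : ℝ → ℂ} {s : Set ℝ} (hs : MeasurableSet s) {A : ℝ} (hA : 0 ≤ A)
    (τ : ℝ) (h : ∀ u ∈ s, ‖f u‖ ≤ A * gs8 τ u) :
    ‖∫ u in s, f u‖ ≤ A * Real.sqrt (Real.pi / (1 / 8)) := by
  have hi := (integrable_gs8 τ).const_mul A
  refine (norm_integral_le_of_norm_le hi.integrableOn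
    ((ae_restrict_iff' hs).2 (Filter.Eventually.of_forall h))).trans ?_
  refine (setIntegral_le_integral hi (Filter.Eventually.of_forall fun u => ?_)).trans_eq ?_
  · exact mul_nonneg hA (Real.exp_pos _).le
  · rw [integral_const_mul, integral_gs8]

end LZB

open LZB

/-- **Contour shift in a window** (scales `X ≥ 1`, window of half-height `U ≥ (log X) / κ`). -/
theorem Sm_window_gen {κ : ℝ} (hκ : 0 ≤ κ) : ∃ C : ℝ, 0 < C ∧
    ∀ (b : O → ℂ) (F : ℂ → ℂ) (X τ σ U K : ℝ), PolyB b 1 0 →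
    1 ≤ X → 0 ≤ σ → σ ≤ 2 → 0 ≤ U → Real.log X ≤ κ * U → 1 ≤ K →
    DifferentiableOn ℂ F {w | σ ≤ w.re ∧ w.re ≤ 2 ∧ |w.im + τ| ≤ U} →
    (∀ w : ℂ, w.re = 2 → |w.im + τ| ≤ U → F w = ∑' n : O, b n * (nr n : ℂ) ^ (-w)) →
    (∀ w : ℂ, σ ≤ w.re → w.re ≤ 2 → |w.im + τ| ≤ U → ‖F w‖ ≤ K) →
    ‖Sm b X (τ * Complex.I)‖ ≤ C * K * X ^ σ := by
  set A := Real.sqrt Real.pi * Real.exp (1 + 8 * κ ^ 2) with hA
  set g := Real.sqrt (Real.pi / (1 / 8)) with hg
  set Z := ∑' n : O, nr n ^ (-2 : ℝ) with hZ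
  have hA0 : 0 < A := by positivity
  have hg0 : 0 ≤ g := Real.sqrt_nonneg _
  have hZ0 : 0 ≤ Z := tsum_nonneg fun n => by positivity
  refine ⟨A * (g + 4 + Z * g), by positivity,
    fun b F X τ σ U K hb hX hσ0 hσ2 hU0 hU hK hF hD hB => ?_⟩
  have hX0 : 0 < X := one_pos.trans_le hX
  have hXσ : 1 ≤ X ^ σ := Real.one_le_rpow hX hσ0
  have hK0 : 0 ≤ K := zero_le_one.trans hK
  have hab : -τ - U ≤ -τ + U := by linarith
  rw [Sm_eq_integral hb hX0 (σ := 2) (by norm_num), norm_mul]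
  refine (mul_le_of_le_one_left (norm_nonneg _) ?_).trans ?_
  · rw [norm_div, norm_one, norm_mul, Complex.norm_real, Real.norm_of_nonneg Real.pi_pos.le,
      Complex.norm_ofNat, div_le_one (by positivity)]
    linarith [Real.pi_gt_three]
  set f : ℝ → ℂ := fun u => Wm ((2 : ℝ) + u * Complex.I + τ * Complex.I) *
    (X : ℂ) ^ ((2 : ℝ) + u * Complex.I) *
      ∑' n : O, b n * (nr n : ℂ) ^ (-((2 : ℝ) + u * Complex.I)) with hf
  by_cases hi : Integrable f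
  swap
  · rw [integral_undef hi, norm_zero]
    positivity
  rw [← integral_add_compl (measurableSet_Ioc (a := -τ - U) (b := -τ + U)) hi]
  set G : ℂ → ℂ := fun w => Wm (w + τ * Complex.I) * (X : ℂ) ^ w * F w with hG
  have hre : ∀ x y : ℝ, ((x : ℂ) + y * Complex.I).re = x := fun x y => by simp
  have him : ∀ x y : ℝ, ((x : ℂ) + y * Complex.I).im = y := fun x y => by simp
  -- the tails
  have t1 : ‖∫ u in (Set.Ioc (-τ - U) (-τ + U))ᶜ, f u‖ ≤ A * Z * g := by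
    refine norm_setIntegral_le measurableSet_Ioc.compl (by positivity) τ fun u hu => ?_
    have h1 := norm_ker_out (κ := κ) hX τ (w := (2 : ℝ) + u * Complex.I) (by rw [hre]; norm_num)
      (by rw [hre]) (by
        rw [him]
        refine hU.trans (mul_le_mul_of_nonneg_left ?_ hκ)
        rw [Set.mem_compl_iff, Set.mem_Ioc, not_and_or, not_lt, not_le] at hu
        rcases hu with hu | hu
        · exact le_abs.2 (Or.inr (by linarith))
        · exact le_abs.2 (Or.inl (by linarith)))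
    rw [him] at h1
    rw [hf, norm_mul]
    exact (mul_le_mul h1 (norm_dir_le hb (hre 2 u)) (norm_nonneg _)
      (mul_nonneg hA0.le (Real.exp_pos _).le)).trans_eq (by ring)
  -- the window
  have e1 : ∫ u in Set.Ioc (-τ - U) (-τ + U), f u =
      ∫ u in (-τ - U)..(-τ + U), G ((2 : ℝ) + u * Complex.I) := by
    rw [intervalIntegral.integral_of_le hab]
    refine setIntegral_congr_fun measurableSet_Ioc fun u hu => ?_
    simp only [hf, hG]
    rw [hD _ (hre 2 u) (by rw [him, abs_le]; constructor <;> linarith [hu.1, hu.2])]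
  have hGd : DifferentiableOn ℂ G ([[σ, 2]] ×ℂ [[-τ - U, -τ + U]]) := by
    refine DifferentiableOn.mul (Differentiable.differentiableOn ?_) (hF.mono fun w hw => ?_)
    · exact (differentiable_Wm.comp (by fun_prop)).mul
        (differentiable_id.const_cpow (Or.inl (Complex.ofReal_ne_zero.2 hX0.ne')))
    · rw [Set.uIcc_of_le hσ2, Set.uIcc_of_le hab] at hw
      obtain ⟨⟨h1, h2⟩, h3, h4⟩ := hw
      exact ⟨h1, h2, abs_le.2 ⟨by linarith, by linarith⟩⟩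
  have e2 := Complex.integral_boundary_rect_eq_zero_of_differentiableOn G ⟨σ, -τ - U⟩ ⟨2, -τ + U⟩ hGd
  dsimp only at e2
  have hor : ∀ y : ℝ, |y + τ| = U → ‖∫ x in σ..2, G (x + y * Complex.I)‖ ≤ A * K * 2 := by
    intro y hy
    refine (intervalIntegral.norm_integral_le_of_norm_le_const (C := A * K) fun x hx => ?_).trans ?_
    · rw [Set.uIoc_of_le hσ2] at hx
      have h1 := norm_ker_out (κ := κ) hX τ (w := x + y * Complex.I) (by rw [hre]; linarith [hx.1])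
        (by rw [hre]; exact hx.2) (by rw [him, hy]; exact hU)
      rw [hG, norm_mul]
      refine mul_le_mul (h1.trans (mul_le_of_le_one_right hA0.le (gs8_le_one _ _)))
        (hB _ (by rw [hre]; exact hx.1.le) (by rw [hre]; exact hx.2) (by rw [him, hy]))
        (norm_nonneg _) hA0.le
    · refine mul_le_mul_of_nonneg_left ?_ (by positivity)
      rw [abs_of_nonneg (by linarith)]
      linarith
  have ver : ‖∫ y in (-τ - U)..(-τ + U), G (σ + y * Complex.I)‖ ≤ A * X ^ σ * K * g := by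
    rw [intervalIntegral.integral_of_le hab]
    refine norm_setIntegral_le measurableSet_Ioc (by positivity) τ fun u hu => ?_
    have h1 := norm_ker_in κ hX0 τ (w := σ + u * Complex.I) (by rw [hre]; exact hσ0)
      (by rw [hre]; exact hσ2)
    rw [him, hre] at h1
    rw [hG, norm_mul]
    refine (mul_le_mul h1 (hB _ (by rw [hre]) (by rw [hre]; exact hσ2)
      (by rw [him, abs_le]; constructor <;> linarith [hu.1, hu.2])) (norm_nonneg _)
      (mul_nonneg (by positivity) (Real.exp_pos _).le)).trans_eq (by ring)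
  have t2 : ‖∫ u in (-τ - U)..(-τ + U), G ((2 : ℝ) + u * Complex.I)‖ ≤
      A * K * 2 + A * K * 2 + A * X ^ σ * K * g := by
    have e3 : Complex.I • ∫ u in (-τ - U)..(-τ + U), G ((2 : ℝ) + u * Complex.I) =
        (∫ x in σ..2, G (x + (-τ + U : ℝ) * Complex.I)) -
          (∫ x in σ..2, G (x + (-τ - U : ℝ) * Complex.I)) +
          Complex.I • ∫ y in (-τ - U)..(-τ + U), G (σ + y * Complex.I) := by
      linear_combination e2
    have e4 := congrArg norm e3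
    rw [norm_smul, Complex.norm_I, one_mul] at e4
    rw [e4]
    refine (norm_add_le _ _).trans (add_le_add ((norm_sub_le _ _).trans
      (add_le_add (hor _ ?_) (hor _ ?_))) ?_)
    · rw [show -τ + U + τ = U by ring, abs_of_nonneg hU0]
    · rw [show -τ - U + τ = -U by ring, abs_neg, abs_of_nonneg hU0]
    · rwa [norm_smul, Complex.norm_I, one_mul]
  refine (norm_add_le _ _).trans ?_
  rw [e1]
  have h5 : 1 ≤ K * X ^ σ := one_le_mul_of_one_le_of_one_le hK hXσ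
  have h6 : A * K * 1 ≤ A * K * X ^ σ := by gcongr
  have h7 : A * Z * g * 1 ≤ A * Z * g * (K * X ^ σ) := by gcongr
  nlinarith


/-- **Class bound**: all scales `0 < X ≤ R ^ k`, window `σ + δ ≤ Re w ≤ 2`, `|Im w + τ| ≤ log R`. -/
theorem Sm_class_gen (k : ℕ) : ∃ C : ℝ, 0 < C ∧
    ∀ (b : O → ℂ) (F : ℂ → ℂ) (R X τ σ δ K : ℝ), PolyB b 1 0 →
    1 ≤ R → 0 < X → X ≤ R ^ k → 0 ≤ σ → σ ≤ 1 → 0 ≤ δ → δ ≤ 1 → 1 ≤ K →
    DifferentiableOn ℂ F {w | σ + δ ≤ w.re ∧ w.re ≤ 2 ∧ |w.im + τ| ≤ Real.log R} →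
    (∀ w : ℂ, w.re = 2 → |w.im + τ| ≤ Real.log R → F w = ∑' n : O, b n * (nr n : ℂ) ^ (-w)) →
    (∀ w : ℂ, σ + δ ≤ w.re → w.re ≤ 2 → |w.im + τ| ≤ Real.log R → ‖F w‖ ≤ K) →
    ‖Sm b X (τ * Complex.I)‖ ≤ C * K * R ^ (k * δ) * X ^ σ := by
  obtain ⟨C₁, hC₁, h₁⟩ := Sm_window_gen (Nat.cast_nonneg k)
  obtain ⟨C₂, hC₂, h₂⟩ := tsum_norm_Sm_le 0 0 0 le_rfl
  refine ⟨C₁ + C₂, by positivity, fun b F R X τ σ δ K hb hR hX hXR hσ0 hσ1 hδ0 hδ1 hK hF hD hB => ?_⟩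
  have hK0 : 0 ≤ K := zero_le_one.trans hK
  rcases le_total 1 X with h1 | h1
  · refine (h₁ b F X τ (σ + δ) (Real.log R) K hb h1 (by linarith) (by linarith)
      (Real.log_nonneg hR) ((Real.log_le_log hX hXR).trans_eq (Real.log_pow _ _)) hK hF hD
      hB).trans ?_
    rw [Real.rpow_add hX, mul_comm (X ^ σ), ← mul_assoc, Real.rpow_natCast_mul (by linarith)]
    gcongr
    linarith
  · have h3 := h₂ b 1 X (τ * Complex.I) hb hX (by simp)
    refine ((norm_tsum_le_tsum_norm (summable_Sm hb hX _)).trans h3).trans ?_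
    have h4 : min (X ^ ((0 : ℝ) + 1)) (X ^ ((0 : ℝ) + 1 + |0|)) ≤ X ^ σ :=
      (min_le_left _ _).trans (Real.rpow_le_rpow_of_exponent_ge hX h1 (by linarith))
    have h5 : 1 ≤ R ^ (k * δ) := Real.one_le_rpow hR (by positivity)
    calc _ ≤ C₂ * 1 * 1 * X ^ σ := by rw [mul_one (C₂ * 1)]; gcongr
      _ ≤ _ := by gcongr; linarith

/-- **Class bound**: all scales `0 < X ≤ R`, window `σ + δ ≤ Re w ≤ 2`, `|Im w + τ| ≤ log R`. -/
theorem Sm_class : ∃ C : ℝ, 0 < C ∧ ∀ (b : O → ℂ) (F : ℂ → ℂ) (R X τ σ δ K : ℝ), PolyB b 1 0 →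
    1 ≤ R → 0 < X → X ≤ R → 0 ≤ σ → σ ≤ 1 → 0 ≤ δ → δ ≤ 1 → 1 ≤ K →
    DifferentiableOn ℂ F {w | σ + δ ≤ w.re ∧ w.re ≤ 2 ∧ |w.im + τ| ≤ Real.log R} →
    (∀ w : ℂ, w.re = 2 → |w.im + τ| ≤ Real.log R → F w = ∑' n : O, b n * (nr n : ℂ) ^ (-w)) →
    (∀ w : ℂ, σ + δ ≤ w.re → w.re ≤ 2 → |w.im + τ| ≤ Real.log R → ‖F w‖ ≤ K) →
    ‖Sm b X (τ * Complex.I)‖ ≤ C * K * R ^ δ * X ^ σ := by
  simpa only [pow_one, Nat.cast_one, one_mul] using Sm_class_gen 1

end Crest.Agent.R17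
end
end

-- ▼ part PVc/R17/LZeroAuxP
section

/-!
# Row 17, module M10, part B2: auxiliary lemmas for `Prm_class` and `Mob_of_zeroFree`
-/

set_option autoImplicit false

noncomputable section

namespace Crest.Agent.R17

namespace B2

open Complex Metric MeasureTheory

/-- A zero-free holomorphic function on a disc is `f(c) exp g`. -/
theorem exists_log {f : ℂ → ℂ} {c : ℂ} {R : ℝ} (hR : 0 < R) (hf : DifferentiableOn ℂ f (Metric.ball c R))
    (h0 : ∀ z ∈ Metric.ball c R, f z ≠ 0) :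
    ∃ g : ℂ → ℂ, DifferentiableOn ℂ g (Metric.ball c R) ∧ g c = 0 ∧
      ∀ z ∈ Metric.ball c R, f z = f c * Complex.exp (g z) := by
  have hd : DifferentiableOn ℂ (fun z => deriv f z / f z) (Metric.ball c R) :=
    (hf.deriv isOpen_ball).div hf h0
  obtain ⟨g, hg0, hg⟩ := hd.isExactOn_ball.with_val_at c 0
  have hgd : DifferentiableOn ℂ g (Metric.ball c R) := fun z hz =>
    (hg z hz).differentiableAt.differentiableWithinAt
  refine ⟨g, hgd, hg0, fun z hz => ?_⟩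
  have hq : ∀ w ∈ Metric.ball c R, HasDerivAt (fun w => f w * Complex.exp (-g w)) 0 w := fun w hw => by
    have h1 : HasDerivAt f (deriv f w) w :=
      ((hf w hw).differentiableAt (isOpen_ball.mem_nhds hw)).hasDerivAt
    have h2 := (hg w hw).neg.cexp
    refine (h1.mul h2).congr_deriv ?_
    have := h0 w hw
    simp only [Pi.neg_apply]
    field_simp
    ring
  have hc := isOpen_ball.is_const_of_deriv_eq_zero (convex_ball c R).isPreconnected
    (fun w hw => (hq w hw).differentiableAt.differentiableWithinAt)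
    (fun w hw => (hq w hw).deriv) hz (mem_ball_self hR)
  simp only [hg0, neg_zero, Complex.exp_zero, mul_one] at hc
  rw [← hc, mul_assoc, ← Complex.exp_add, neg_add_cancel, Complex.exp_zero, mul_one]

/-- Lower bound for a zero-free function in a smaller disc (Borel–Carathéodory). -/
theorem inv_le_of_disc {f : ℂ → ℂ} {c z : ℂ} {R r B b : ℝ} {n : ℕ} (hrR : r < R)
    (hn : 2 * r ≤ n * (R - r)) (hf : DifferentiableOn ℂ f (Metric.ball c R))
    (h0 : ∀ z ∈ Metric.ball c R, f z ≠ 0) (hB : ∀ z ∈ Metric.ball c R, ‖f z‖ ≤ B) (hb : 0 < b) (hbc : b ≤ ‖f c‖)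
    (hz : ‖z - c‖ ≤ r) : ‖f z‖⁻¹ ≤ b⁻¹ * (Real.exp 1 * B / b) ^ n := by
  have hr : 0 ≤ r := (norm_nonneg _).trans hz
  have hR : 0 < R := hr.trans_lt hrR
  obtain ⟨g, hg, hg0, hfg⟩ := exists_log hR hf h0
  have hbB : b ≤ B := hbc.trans (hB c (mem_ball_self hR))
  have hB0 : 0 < B := hb.trans_le hbB
  have hq : 1 ≤ B / b := (one_le_div hb).2 hbB
  set M := Real.log (B / b) + 1 with hM
  have hM0 : 0 < M := by linarith [Real.log_nonneg hq]
  have hmem : ∀ w ∈ Metric.ball (0 : ℂ) R, c + w ∈ Metric.ball c R := fun w hw => by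
    simpa [Metric.mem_ball, dist_eq_norm] using hw
  have hre : ∀ w ∈ Metric.ball c R, (g w).re ≤ M := fun w hw => by
    have h1 := hB w hw
    rw [hfg w hw, norm_mul, Complex.norm_exp] at h1
    have h2 : Real.exp (g w).re ≤ B / b := by
      rw [le_div_iff₀ hb]
      nlinarith [Real.exp_pos (g w).re]
    have h3 := (Real.le_log_iff_exp_le (by positivity)).2 h2
    linarith
  have hzc : z - c ∈ Metric.ball (0 : ℂ) R := by simpa [Metric.mem_ball] using hz.trans_lt hrR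
  have hbc' := Complex.borelCaratheodory_zero (f := fun w => g (c + w)) hM0
    (hg.comp (by fun_prop) hmem) (fun w hw => hre _ (hmem w hw)) hR hzc (by simpa using hg0)
  simp only [add_sub_cancel] at hbc'
  have h4 : 2 * M * ‖z - c‖ / (R - ‖z - c‖) ≤ n * M := by
    rw [div_le_iff₀ (by linarith)]
    have : 2 * ‖z - c‖ ≤ n * (R - ‖z - c‖) := by
      have : (n : ℝ) * (R - r) ≤ n * (R - ‖z - c‖) := by gcongr
      linarith
    nlinarith
  have h5 : -(g z).re ≤ n * M := ((neg_le_abs _).trans (abs_re_le_norm _)).trans (hbc'.trans h4)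
  have hzb : z ∈ Metric.ball c R := by simpa [Metric.mem_ball, dist_eq_norm] using hz.trans_lt hrR
  have h6 : Real.exp (n * M) = (Real.exp 1 * B / b) ^ n := by
    rw [Real.exp_nat_mul, hM, Real.exp_add, Real.exp_log (by positivity)]
    congr 1
    ring
  rw [hfg z hzb, norm_mul, Complex.norm_exp, mul_inv, ← Real.exp_neg, ← h6]
  gcongr

/-- The Dirichlet series of a bounded sequence. -/
theorem norm_term_le {b : O → ℂ} (hb : PolyB b 1 0) (w : ℂ) (n : O) :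
    ‖b n * (nr n : ℂ) ^ (-w)‖ ≤ nr n ^ (-w.re) := by
  by_cases h0 : n = 0
  · rw [h0, hb.1, zero_mul, norm_zero]
    positivity
  · rw [norm_mul, Complex.norm_cpow_eq_rpow_re_of_pos (nr_pos h0), neg_re]
    have := hb.2 n
    rw [Real.rpow_zero, mul_one] at this
    exact mul_le_of_le_one_left (by positivity) this

theorem summable_D {b : O → ℂ} (hb : PolyB b 1 0) {w : ℂ} (hw : 1 < w.re) :
    Summable fun n => ‖b n * (nr n : ℂ) ^ (-w)‖ :=
  Summable.of_nonneg_of_le (fun _ => norm_nonneg _) (norm_term_le hb w) (summable_nr_rpow hw)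

theorem norm_D_le {b : O → ℂ} (hb : PolyB b 1 0) {w : ℂ} (hw : 1 < w.re) :
    ‖∑' n, b n * (nr n : ℂ) ^ (-w)‖ ≤ ∑' n : O, nr n ^ (-w.re) :=
  (norm_tsum_le_tsum_norm (summable_D hb hw)).trans
    ((summable_D hb hw).tsum_le_tsum (norm_term_le hb w) (summable_nr_rpow hw))

/-- `1/L = h/G` with `G` entire of polynomial growth and zero-free in `Re s > β`. -/
theorem exists_G {β : ℝ} (h : ZeroFree β) {M : O} (hM : Adm M) (ψ : Chr M) :
    ∃ (G k : ℂ → ℂ) (C : ℝ) (J : ℕ), 0 < C ∧ Differentiable ℂ G ∧ Differentiable ℂ k ∧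
      (∀ w : ℂ, β < w.re → G w ≠ 0) ∧
      (∀ w : ℂ, -1 ≤ w.re → w.re ≤ 3 → ‖G w‖ ≤ C * (1 + |w.im|) ^ J) ∧
      (∀ w : ℂ, 1 < w.re → G w = k w * Lser ψ 1 w) ∧
      (∀ w : ℂ, w.re = 7 / 4 → 1 / 2 ≤ ‖k w‖) ∧
      (∀ w : ℂ, 0 ≤ w.re → w.re ≤ 2 → ‖k w‖ ≤ 1 + |w.im|) := by
  obtain ⟨C, J, hC, hg⟩ := Lc_growth hM
  have hL := isL_Lc hM ψ one_ne_zero
  by_cases hp : Princ ψ 1
  · obtain ⟨κ, G, hκ, hG, hG1, hGe⟩ := princ_pole hM ψ one_ne_zero hp
    refine ⟨G, fun w => w - 1, C + κ, J, by positivity, hG, by fun_prop, fun w hw => ?_,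
      fun w h1 h2 => ?_, fun w hw => ?_, fun w hw => ?_, fun w h1 h2 => ?_⟩
    · by_cases h1 : w = 1
      · rw [h1, hG1]
        exact_mod_cast hκ.ne'
      · rw [hGe w h1]
        exact mul_ne_zero (sub_ne_zero.2 h1) (h M hM ψ 1 one_ne_zero w hw (Or.inl h1))
    · have h4 : 1 ≤ (1 + |w.im|) ^ J := one_le_pow₀ (by linarith [abs_nonneg w.im])
      by_cases h3 : w = 1
      · rw [h3, hG1, Complex.norm_real, Real.norm_of_nonneg hκ.le]
        rw [h3] at h4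
        nlinarith
      · have := (hg ψ 1 w one_ne_zero h1 h2).1 h3
        rw [hGe w h3]
        simp only [nr, nm_one, Nat.cast_one, one_pow, mul_one] at this
        nlinarith
    · have h1 : w ≠ 1 := by
        rintro rfl
        simp at hw
      rw [hGe w h1, hL.2.1 w hw]
    · have := abs_re_le_norm (w - 1)
      rw [sub_re, hw, one_re] at this
      exact le_trans (by norm_num) this
    · refine (norm_le_abs_re_add_abs_im _).trans ?_
      rw [sub_re, sub_im, one_re, one_im, sub_zero]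
      gcongr
      rw [abs_le]
      constructor <;> linarith
  · refine ⟨Lc ψ 1, fun _ => 1, C, J, hC, hL.2.2 hp, by fun_prop,
      fun w hw => h M hM ψ 1 one_ne_zero w hw (Or.inr hp), fun w h1 h2 => ?_, fun w hw => ?_,
      fun w _ => ?_, fun w _ _ => ?_⟩
    · simpa [nr] using (hg ψ 1 w one_ne_zero h1 h2).2 hp
    · rw [hL.2.1 w hw, one_mul]
    · norm_num
    · simp

/-- `1/L` has polynomial growth in `Re s ≥ β + ε`. -/
theorem exists_invL {β : ℝ} (hβ : 1 / 2 ≤ β) (h : ZeroFree β) {M : O} (hM : Adm M) (ψ : Chr M)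
    {ε : ℝ} (hε : 0 < ε) (hβε : β + ε ≤ 1) :
    ∃ (F : ℂ → ℂ) (C : ℝ) (J : ℕ), 0 < C ∧ DifferentiableOn ℂ F (strip (β + ε) 2) ∧
      (∀ w : ℂ, 1 < w.re → F w = ∑' n : O, mu n * rc ψ 1 n * (nr n : ℂ) ^ (-w)) ∧
      ∀ w ∈ strip (β + ε) 2, ‖F w‖ ≤ C * (1 + |w.im|) ^ J := by
  obtain ⟨G, k, C, J, hC, hG, hk, hG0, hGb, hGe, hk1, hk2⟩ := exists_G h hM ψ
  set S : ℝ := ∑' n : O, nr n ^ (-(7 / 4 : ℝ)) + 1 with hS
  have hS0 : 0 < S := by
    have : 0 ≤ ∑' n : O, nr n ^ (-(7 / 4 : ℝ)) := tsum_nonneg fun n => by positivity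
    linarith
  obtain ⟨n, hn⟩ := exists_nat_ge (3 / ε)
  set b : ℝ := 1 / (2 * S) with hb
  have hb0 : 0 < b := by positivity
  refine ⟨fun w => k w / G w, b⁻¹ * (Real.exp 1 * C * 3 ^ J / b) ^ n, J * n + 1, by positivity,
    hk.differentiableOn.div hG.differentiableOn fun w hw => hG0 w (by linarith [hw.1]),
    fun w hw => ?_, fun w hw => ?_⟩
  · have h1 := Lser_mul_mob hM ψ 1 hw
    have h2 := hG0 w (by linarith)
    rw [div_eq_iff h2, hGe w hw]
    linear_combination (-k w) * h1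
  · set c : ℂ := ⟨7 / 4, w.im⟩ with hc
    have hcre : c.re = 7 / 4 := rfl
    have hball : ∀ z ∈ Metric.ball c (7 / 4 - β), β < z.re ∧ z.re ≤ 3 ∧ |z.im| ≤ |w.im| + 2 := by
      intro z hz
      rw [Metric.mem_ball, dist_eq_norm] at hz
      have h1 := (abs_re_le_norm (z - c)).trans_lt hz
      have h2 := (abs_im_le_norm (z - c)).trans_lt hz
      rw [sub_re, hcre, abs_lt] at h1
      rw [sub_im, show c.im = w.im from rfl] at h2
      refine ⟨by linarith [h1.1], by linarith [h1.2], ?_⟩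
      linarith [abs_sub_abs_le_abs_sub z.im w.im]
    have hcb : b ≤ ‖G c‖ := by
      have h1 := Lser_mul_mob hM ψ 1 (s := c) (by rw [hcre]; norm_num)
      have h2 := norm_D_le (polyB_mu_rc hM ψ 1) (w := c) (by rw [hcre]; norm_num)
      rw [hcre] at h2
      have h3 := congrArg norm h1
      rw [norm_mul, norm_one] at h3
      have h4 : 1 ≤ ‖Lser ψ 1 c‖ * S := by
        rw [← h3]
        gcongr
        linarith
      rw [hGe c (by rw [hcre]; norm_num), norm_mul, hb, div_le_iff₀ (by positivity)]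
      have h5 := hk1 c hcre
      nlinarith [norm_nonneg (Lser ψ 1 c)]
    have hinv := inv_le_of_disc (f := G) (c := c) (z := w) (R := 7 / 4 - β) (r := 7 / 4 - β - ε)
      (B := C * (3 * (1 + |w.im|)) ^ J) (n := n) (by linarith)
      (by rw [div_le_iff₀ hε] at hn; nlinarith) hG.differentiableOn
      (fun z hz => hG0 z (hball z hz).1)
      (fun z hz => (hGb z (by linarith [(hball z hz).1]) (hball z hz).2.1).trans (by
        gcongr
        linarith [(hball z hz).2.2, abs_nonneg w.im])) hb0 hcb (by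
        have e : w - c = ((w.re - 7 / 4 : ℝ) : ℂ) := by
          apply Complex.ext <;> simp [hc]
        rw [e, Complex.norm_real, Real.norm_eq_abs, abs_le]
        constructor <;> linarith [hw.1, hw.2])
    have h6 := hk2 w (by linarith [hw.1]) hw.2
    rw [norm_div, div_eq_mul_inv]
    calc ‖k w‖ * ‖G w‖⁻¹
        ≤ (1 + |w.im|) * (b⁻¹ * (Real.exp 1 * (C * (3 * (1 + |w.im|)) ^ J) / b) ^ n) := by gcongr
      _ = _ := by
        rw [pow_succ, pow_mul, mul_pow 3]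
        ring

theorem Mob_of_zeroFree {β : ℝ} (hβ : 1 / 2 ≤ β) (h : ZeroFree β) {M : O}
    (hM : Adm M) (ψ : Chr M) {ε : ℝ} (hε : 0 < ε) : ∃ (C : ℝ) (J : ℕ), 0 < C ∧
      ∀ (D : ℝ) (s : ℂ), 0 < D → |s.re| ≤ 3 →
        ‖Mob ψ 1 D s‖ ≤ C * (1 + |s.im|) ^ J * D ^ (β + ε) := by
  have hb := polyB_mu_rc hM ψ 1
  have hπ : ‖(1 / (2 * Real.pi) : ℂ)‖ ≤ 1 := by
    rw [norm_div, norm_one, norm_mul, Complex.norm_real, Real.norm_of_nonneg Real.pi_pos.le,
      Complex.norm_ofNat, div_le_one (by positivity)]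
    linarith [Real.pi_gt_three]
  have hB : ∀ s : ℂ, |s.re| ≤ 3 → |β + ε + s.re| ≤ β + ε + 3 := fun s hs => by
    rw [abs_le] at hs ⊢
    constructor <;> linarith [hs.1, hs.2]
  rcases lt_or_ge 1 (β + ε) with h1 | h1
  · obtain ⟨A, hA, hI⟩ := norm_integral_Wm_le (β + ε + 3) 0
    set S : ℝ := ∑' n : O, nr n ^ (-(β + ε)) + 1 with hS
    have hS0 : 0 < S := by
      have : 0 ≤ ∑' n : O, nr n ^ (-(β + ε)) := tsum_nonneg fun n => by positivity
      linarith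
    refine ⟨A * S, 0, by positivity, fun D s hD hs => ?_⟩
    rw [Mob_eq_Sm, Sm_eq_integral hb hD (σ := β + ε) (by linarith), norm_mul]
    refine (mul_le_of_le_one_left (norm_nonneg _) hπ).trans (hI _ _ S D s hD (hB s hs) fun u => ?_)
    have := norm_D_le hb (w := ((β + ε : ℝ) : ℂ) + u * I) (by simpa using h1)
    simp only [add_re, ofReal_re, mul_re, I_re, mul_zero, ofReal_im, I_im, mul_one, sub_self,
      add_zero] at this
    rw [pow_zero, mul_one]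
    linarith
  · obtain ⟨F, C, J, hC, hF, hFe, hFb⟩ := exists_invL hβ h hM ψ hε h1
    obtain ⟨A, hA, hI⟩ := norm_integral_Wm_le (β + ε + 3) J
    refine ⟨A * C, J, by positivity, fun D s hD hs => ?_⟩
    rw [Mob_eq_Sm, Sm_eq_integral hb hD (σ := 2) (by norm_num), norm_mul]
    refine (mul_le_of_le_one_left (norm_nonneg _) hπ).trans ?_
    have e : ∀ u : ℝ, ∑' n : O, mu n * rc ψ 1 n * (nr n : ℂ) ^ (-(((2 : ℝ) : ℂ) + u * I)) =
        F (((2 : ℝ) : ℂ) + u * I) := fun u => (hFe _ (by simp)).symm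
    simp only [e]
    rw [Wm_shift (G := F) (σ₀ := β + ε) (σ₁ := 2) (T := 0) (by linarith) hD s hF
      fun w hw _ => hFb w hw]
    refine hI _ _ C D s hD (hB s hs) fun u => ?_
    simpa using hFb _ (Contour.line_mem le_rfl (by linarith) u)

/-! ### primes -/

open Classical in
/-- Restriction of a sequence to the primes. -/
def pr (b : O → ℂ) (p : O) : ℂ := if Prime p then b p else 0

open Classical in
/-- The contribution of the higher powers of `p` to the logarithm of the Euler product. -/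
def qt (b : O → ℂ) (p : O) (w : ℂ) : ℂ :=
  if Prime p then -Complex.log (1 - b p * (nr p : ℂ) ^ (-w)) - b p * (nr p : ℂ) ^ (-w) else 0

theorem polyB_pr {b : O → ℂ} (hb : PolyB b 1 0) : PolyB (pr b) 1 0 := by
  refine ⟨by simp [pr], fun n => ?_⟩
  unfold pr
  split_ifs
  · exact hb.2 n
  · simp

theorem norm_z_le {b : O → ℂ} (hb : PolyB b 1 0) {p : O} (hp : Prime p) {w : ℂ}
    (hw : 1 / 2 ≤ w.re) : ‖b p * (nr p : ℂ) ^ (-w)‖ ≤ 3 / 4 := by
  have h2 : (2 : ℝ) ≤ nr p := by exact_mod_cast CountAux.two_le_nm hp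
  refine (norm_term_le hb w p).trans ?_
  calc nr p ^ (-w.re) ≤ nr p ^ (-(1 / 2) : ℝ) :=
        Real.rpow_le_rpow_of_exponent_le (by linarith) (by linarith)
    _ ≤ (2 : ℝ) ^ (-(1 / 2) : ℝ) := Real.rpow_le_rpow_of_nonpos two_pos h2 (by norm_num)
    _ ≤ 3 / 4 := by
        refine le_of_sq_le_sq ?_ (by norm_num)
        rw [← Real.rpow_natCast, ← Real.rpow_mul (by norm_num)]
        norm_num

theorem norm_qt_le {b : O → ℂ} (hb : PolyB b 1 0) {δ : ℝ} (hδ : 0 ≤ δ) (p : O) {w : ℂ}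
    (hw : 1 / 2 + δ ≤ w.re) : ‖qt b p w‖ ≤ 2 * nr p ^ (-(1 + 2 * δ)) := by
  unfold qt
  split_ifs with hp
  · have h1 := norm_z_le hb hp (w := w) (by linarith)
    have h2 := norm_term_le hb w p
    have h0 := nr_pos hp.ne_zero
    set z := b p * (nr p : ℂ) ^ (-w) with hz
    have h3 := Complex.norm_log_one_add_sub_self_le (z := -z) (by rw [norm_neg]; linarith)
    rw [norm_neg] at h3
    have h4 : (1 - ‖z‖)⁻¹ ≤ 4 := by
      rw [inv_le_comm₀ (by linarith) (by norm_num)]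
      linarith
    have h5 : ‖z‖ ^ 2 ≤ nr p ^ (-(1 + 2 * δ)) := by
      calc ‖z‖ ^ 2 ≤ (nr p ^ (-w.re)) ^ 2 := by gcongr
        _ = nr p ^ (-w.re * 2) := by rw [← Real.rpow_natCast, ← Real.rpow_mul h0.le]; norm_num
        _ ≤ _ := Real.rpow_le_rpow_of_exponent_le (one_le_nr hp.ne_zero) (by linarith)
    calc ‖-Complex.log (1 - z) - z‖ = ‖Complex.log (1 + -z) - -z‖ := by
          rw [← norm_neg, sub_eq_add_neg 1 z]
          congr 1
          ring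
      _ ≤ ‖z‖ ^ 2 * (1 - ‖z‖)⁻¹ / 2 := h3
      _ ≤ nr p ^ (-(1 + 2 * δ)) * 4 / 2 := by
          have : 0 ≤ (1 - ‖z‖)⁻¹ := inv_nonneg.2 (by linarith)
          gcongr
      _ = _ := by ring
  · rw [norm_zero]
    positivity

theorem differentiableOn_qt {b : O → ℂ} (hb : PolyB b 1 0) (p : O) :
    DifferentiableOn ℂ (qt b p) {w | 1 / 2 ≤ w.re} := by
  unfold qt
  split_ifs with hp
  · have h0 : (nr p : ℂ) ≠ 0 := by exact_mod_cast (nr_pos hp.ne_zero).ne'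
    have hz : Differentiable ℂ fun w : ℂ => b p * (nr p : ℂ) ^ (-w) :=
      (differentiable_neg.const_cpow (Or.inl h0)).const_mul _
    refine (DifferentiableOn.clog (hz.const_sub 1).differentiableOn fun w hw => ?_).neg.sub
      hz.differentiableOn
    rw [sub_eq_add_neg]
    refine Complex.mem_slitPlane_of_norm_lt_one ?_
    rw [norm_neg]
    linarith [norm_z_le hb hp hw]
  · exact differentiableOn_const _

/-- The class bound for prime sums from a bound for the logarithm of the Euler product. -/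
theorem Sm_pr {δ : ℝ} (hδ : 0 < δ) (hδ1 : δ ≤ 1) : ∃ C : ℝ, 0 < C ∧
    ∀ (b : O → ℂ) (ℓ : ℂ → ℂ) (R X τ σ K : ℝ), PolyB b 1 0 → 1 ≤ R → 0 < X → X ≤ R → 1 / 2 ≤ σ →
      σ ≤ 1 → 1 ≤ K →
      DifferentiableOn ℂ ℓ {w | σ + δ ≤ w.re ∧ w.re ≤ 2 ∧ |w.im + τ| ≤ Real.log R} →
      (∀ w : ℂ, w.re = 2 → |w.im + τ| ≤ Real.log R → ℓ w = ∑' p : O, by
        classical exact if Prime p then -Complex.log (1 - b p * (nr p : ℂ) ^ (-w)) else 0) →
      (∀ w : ℂ, σ + δ ≤ w.re → w.re ≤ 2 → |w.im + τ| ≤ Real.log R → ‖ℓ w‖ ≤ K) →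
      ‖Sm (pr b) X (τ * Complex.I)‖ ≤ C * K * R ^ δ * X ^ σ := by
  obtain ⟨C, hC, h⟩ := Sm_class
  have hs : Summable fun p : O => 2 * nr p ^ (-(1 + 2 * (δ / 2))) :=
    (summable_nr_rpow (by linarith)).mul_left 2
  set S : ℝ := ∑' p : O, 2 * nr p ^ (-(1 + 2 * (δ / 2))) with hS
  have hS0 : 0 ≤ S := tsum_nonneg fun n => by positivity
  refine ⟨C * (1 + S), by positivity, fun b ℓ R X τ σ K hb hR hX hXR hσ hσ1 hK hd he hB => ?_⟩
  have hq : ∀ (p : O) (w : ℂ), w ∈ {w : ℂ | 1 / 2 + δ / 2 < w.re} →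
      ‖qt b p w‖ ≤ 2 * nr p ^ (-(1 + 2 * (δ / 2))) := fun p w hw =>
    norm_qt_le hb (by linarith) p (le_of_lt hw)
  have hQ : DifferentiableOn ℂ (fun w => ∑' p : O, qt b p w) {w : ℂ | 1 / 2 + δ / 2 < w.re} :=
    Complex.differentiableOn_tsum_of_summable_norm hs
      (fun p => (differentiableOn_qt hb p).mono fun w hw => by
        simp only [Set.mem_ofPred_eq] at hw ⊢
        linarith) (isOpen_lt continuous_const continuous_re) hq
  refine (h (pr b) (fun w => ℓ w - ∑' p : O, qt b p w) R X τ σ δ (K * (1 + S)) (polyB_pr hb) hR hX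
    hXR (by linarith) hσ1 hδ.le hδ1 (by nlinarith) (hd.sub (hQ.mono fun w hw => ?_))
    (fun w h1 h2 => ?_) fun w h1 h2 h3 => ?_).trans_eq (by ring)
  · simp only [Set.mem_ofPred_eq] at hw ⊢
    linarith [hw.1]
  · have s1 : Summable fun p : O => qt b p w :=
      .of_norm_bounded hs fun p => hq p w (by simp only [Set.mem_ofPred_eq]; linarith)
    have s2 := (summable_D (polyB_pr hb) (w := w) (by linarith)).of_norm
    rw [sub_eq_iff_eq_add', ← s1.tsum_add s2, he w h1 h2]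
    refine tsum_congr fun p => ?_
    unfold qt pr
    split_ifs
    · ring
    · simp
  · have h4 : ‖∑' p : O, qt b p w‖ ≤ S :=
      tsum_of_norm_bounded hs.hasSum fun p => hq p w (by simp only [Set.mem_ofPred_eq]; linarith)
    have h5 := hB w h1 h2 h3
    refine (norm_sub_le _ _).trans ?_
    nlinarith

theorem Prm_eq_Sm {M : O} (ν : Chr M) (a : O) (P : ℝ) (s : ℂ) :
    Prm ν a P s = Sm (pr (rc ν a)) P s := by
  refine tsum_congr fun p => ?_
  unfold pr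
  split_ifs
  · rfl
  · simp

end B2

end Crest.Agent.R17
end
end

-- ▼ part PVc/R17/LZeroAuxA2
section

/-!
# Row 17, module M10 (auxiliary): the Euler-product logarithm and `log L` in a zero-free window
-/

set_option autoImplicit false

noncomputable section

namespace Crest.Agent.R17

open Complex Metric Set

open Classical in
/-- One term of the Euler-product logarithm. -/
def LZA.term {M : O} (ν : Chr M) (a p : O) (s : ℂ) : ℂ :=
  if Prime p then -Complex.log (1 - rc ν a p * (nr p : ℂ) ^ (-s)) else 0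

theorem LZA.two_le_nr {p : O} (hp : Prime p) : 2 ≤ nr p := by
  have h0 : nm p ≠ 0 := fun h => hp.ne_zero (nm_eq_zero.1 h)
  have h1 : nm p ≠ 1 := fun h => hp.not_isUnit (isUnit_iff_nm.2 h)
  have : 2 ≤ nm p := by omega
  exact_mod_cast this

theorem LZA.norm_le {M : O} (hM : Adm M) (ν : Chr M) (a : O) {p : O} (hp : Prime p) (s : ℂ) :
    ‖rc ν a p * (nr p : ℂ) ^ (-s)‖ ≤ nr p ^ (-s.re) := by
  have h2 := LZA.two_le_nr hp
  rw [norm_mul, norm_cpow_eq_rpow_re_of_pos (by linarith), neg_re]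
  exact mul_le_of_le_one_left (Real.rpow_nonneg (by linarith) _) (norm_rc_le hM ν a p)

theorem LZA.norm_le_half {M : O} (hM : Adm M) (ν : Chr M) (a : O) {p : O} (hp : Prime p) {s : ℂ}
    (hs : 1 ≤ s.re) : ‖rc ν a p * (nr p : ℂ) ^ (-s)‖ ≤ 1 / 2 := by
  have h2 := LZA.two_le_nr hp
  refine (LZA.norm_le hM ν a hp s).trans ?_
  calc nr p ^ (-s.re) ≤ nr p ^ (-1 : ℝ) :=
        Real.rpow_le_rpow_of_exponent_le (by linarith) (by linarith)
    _ = (nr p)⁻¹ := Real.rpow_neg_one _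
    _ ≤ 1 / 2 := by rw [one_div]; exact inv_anti₀ (by norm_num) h2

theorem LZA.norm_term_le {M : O} (hM : Adm M) (ν : Chr M) (a p : O) {σ : ℝ} (hσ : 1 ≤ σ) {s : ℂ}
    (hs : σ ≤ s.re) : ‖LZA.term ν a p s‖ ≤ 3 / 2 * nr p ^ (-σ) := by
  unfold LZA.term
  split_ifs with hp
  · have h2 := LZA.two_le_nr hp
    have h3 := norm_log_one_add_half_le_self (z := -(rc ν a p * (nr p : ℂ) ^ (-s)))
      (by rw [norm_neg]; exact LZA.norm_le_half hM ν a hp (hσ.trans hs))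
    rw [norm_neg, sub_eq_add_neg]
    refine h3.trans ?_
    rw [norm_neg]
    gcongr
    exact (LZA.norm_le hM ν a hp s).trans
      (Real.rpow_le_rpow_of_exponent_le (by linarith) (by linarith))
  · rw [norm_zero]
    exact mul_nonneg (by norm_num) (Real.rpow_nonneg (Nat.cast_nonneg _) _)

theorem LZA.differentiableOn_term {M : O} (hM : Adm M) (ν : Chr M) (a p : O) :
    DifferentiableOn ℂ (LZA.term ν a p) {s | 1 ≤ s.re} := by
  unfold LZA.term
  split_ifs with hp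
  · have h2 := LZA.two_le_nr hp
    intro s hs
    refine DifferentiableAt.differentiableWithinAt (DifferentiableAt.neg
      (DifferentiableAt.clog ?_ ?_))
    · refine DifferentiableAt.const_sub (DifferentiableAt.const_mul ?_ _) _
      refine DifferentiableAt.const_cpow differentiableAt_id.neg (Or.inl ?_)
      exact ofReal_ne_zero.2 (by linarith)
    · rw [sub_eq_add_neg]
      refine mem_slitPlane_of_norm_lt_one ?_
      rw [norm_neg]
      exact (LZA.norm_le_half hM ν a hp hs).trans_lt (by norm_num)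
  · exact differentiableOn_const _

theorem LZA.differentiableOn_euler {M : O} (hM : Adm M) (ν : Chr M) (a : O) :
    DifferentiableOn ℂ (fun s => ∑' p : O, LZA.term ν a p s) {s | 1 < s.re} := by
  intro s hs
  have hs' : 1 < s.re := hs
  have ho : IsOpen {w : ℂ | (1 + s.re) / 2 < w.re} := isOpen_lt continuous_const continuous_re
  have h := differentiableOn_tsum_of_summable_norm (F := fun p => LZA.term ν a p)
    ((summable_nr_rpow (σ := (1 + s.re) / 2) (by linarith)).mul_left (3 / 2))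
    (fun p => (LZA.differentiableOn_term hM ν a p).mono fun w (hw : (1 + s.re) / 2 < w.re) =>
      show 1 ≤ w.re by linarith) ho
    (fun p w (hw : (1 + s.re) / 2 < w.re) => LZA.norm_term_le hM ν a p (by linarith) hw.le)
  exact (h.differentiableAt (ho.mem_nhds (show (1 + s.re) / 2 < s.re by linarith))
    ).differentiableWithinAt

theorem LZA.norm_euler_le {M : O} (hM : Adm M) (ν : Chr M) (a : O) {σ : ℝ} (hσ : 1 < σ) {s : ℂ}
    (hs : σ ≤ s.re) : ‖∑' p : O, LZA.term ν a p s‖ ≤ ∑' p : O, 3 / 2 * nr p ^ (-σ) :=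
  tsum_of_norm_bounded ((summable_nr_rpow hσ).mul_left (3 / 2)).hasSum
    fun p => LZA.norm_term_le hM ν a p hσ.le hs

theorem LZA.log_class {M : O} (hM : Adm M) {ε δ : ℝ} (hε : 0 < ε) (hδ : 0 < δ) :
    ∃ C : ℝ, 0 < C ∧
    ∀ (R σ T : ℝ) (ν : Chr M) (a : O), 1 ≤ R → ¬ Exc M a → nr a ≤ R → 1 / 2 ≤ σ → σ ≤ 1 →
      (∀ s : ℂ, σ < s.re → |s.im| ≤ T → Lc ν a s ≠ 0) →
      ∃ ℓ : ℂ → ℂ, DifferentiableOn ℂ ℓ {s | σ < s.re ∧ |s.im| < T} ∧
        (∀ s : ℂ, σ < s.re → |s.im| < T → Complex.exp (ℓ s) = Lc ν a s) ∧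
        (∀ s : ℂ, 1 < s.re → |s.im| < T → ℓ s = ∑' p : O, LZA.term ν a p s) ∧
        ∀ s : ℂ, σ + δ ≤ s.re → |s.im| + 2 ≤ T → |s.im| ≤ 3 * R →
          ‖ℓ s‖ ≤ ε * Real.log R + C := by
  obtain ⟨C₀, J, hC₀, hgr⟩ := Lc_growth hM
  set A : ℝ := (∑' p : O, 3 / 2 * nr p ^ (-(3 / 2 : ℝ))) + 1 with hAdef
  have hA : 0 < A := by
    have : 0 ≤ ∑' p : O, 3 / 2 * nr p ^ (-(3 / 2 : ℝ)) :=
      tsum_nonneg fun p => mul_nonneg (by norm_num) (Real.rpow_nonneg (Nat.cast_nonneg _) _)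
    linarith
  set η : ℝ := ε / (2 * J + 1) with hη
  have hη0 : 0 < η := by positivity
  obtain ⟨C, hC, hcore⟩ := LZA.core hδ hη0 hA
  set K : ℝ := A + |Real.log C₀| + J * Real.log 6 with hK
  have hl6 : 0 < Real.log 6 := Real.log_pos (by norm_num)
  have hK0 : 0 < K := by positivity
  refine ⟨η * K + C + A, by positivity, fun R σ T ν a hR hexc haR hσ hσ1 hZ => ?_⟩
  have ha : a ≠ 0 := ne_zero_of_not_exc hexc
  have hnp : ¬ Princ ν a := not_princ_of_not_exc hM ν hexc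
  have hL := isL_Lc hM ν ha
  have hconv : ∀ x : ℝ, Convex ℝ {s : ℂ | x < s.re ∧ |s.im| < T} := fun x => by
    have := (convex_halfSpace_re_gt x).inter
      ((convex_halfSpace_im_gt (-T)).inter (convex_halfSpace_im_lt T))
    convert this using 1
    ext s
    simp only [mem_ofPred_eq, mem_inter_iff, abs_lt]
  have hopen : IsOpen {s : ℂ | σ < s.re ∧ |s.im| < T} :=
    (isOpen_lt continuous_const continuous_re).inter
      (isOpen_lt continuous_im.abs continuous_const)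
  obtain ⟨ℓ, hℓd, hℓe, hℓE⟩ := LZA.exists_log (V := {s : ℂ | 1 < s.re ∧ |s.im| < T})
    (L := Lc ν a) (E := fun s => ∑' p : O, LZA.term ν a p s) hopen (hconv σ)
    (fun s hs => ⟨hσ1.trans_lt hs.1, hs.2⟩) (hconv 1).isPreconnected
    (hL.2.2 hnp).differentiableOn (fun s hs => hZ s hs.1 hs.2.le)
    ((LZA.differentiableOn_euler hM ν a).continuousOn.mono fun s hs => hs.1)
    (fun s hs => by rw [hL.2.1 s hs.1, Lser_eq_exp hM ν a hs.1]; rfl)
  refine ⟨ℓ, hℓd, fun s h1 h2 => hℓe s ⟨h1, h2⟩, fun s h1 h2 => hℓE s ⟨h1, h2⟩,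
    fun s hs1 hs2 hs3 => ?_⟩
  have hlogR : 0 ≤ Real.log R := Real.log_nonneg hR
  have hsm : ∀ w : ℂ, 3 / 2 ≤ w.re → |w.im| < T → ‖ℓ w‖ ≤ A := fun w h1 h2 => by
    rw [hℓE w ⟨by linarith, h2⟩]
    exact (LZA.norm_euler_le hM ν a (by norm_num) h1).trans (by linarith)
  rcases le_total (3 / 2) s.re with h | h
  · exact (hsm s h (by linarith)).trans
      (by nlinarith [mul_pos hη0 hK0, mul_nonneg hε.le hlogR])
  set c : ℂ := 2 + s.im * I with hc
  have hcre : ∀ z : ℂ, (c + z).re = 2 + z.re := fun z => by simp [hc]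
  have hcim : ∀ z : ℂ, (c + z).im = s.im + z.im := fun z => by simp [hc]
  have him : ∀ z : ℂ, ‖z‖ ≤ 3 / 2 → |(c + z).im| ≤ |s.im| + 3 / 2 := fun z hz => by
    rw [hcim]
    exact (abs_add_le _ _).trans (by linarith [abs_im_le_norm z])
  have hmem : ∀ z ∈ Metric.ball (0 : ℂ) (2 - σ), c + z ∈ {s : ℂ | σ < s.re ∧ |s.im| < T} := by
    intro z hz
    have hz' := mem_ball_zero_iff.1 hz
    refine ⟨?_, ?_⟩
    · rw [hcre]
      linarith [(abs_le.1 (abs_re_le_norm z)).1]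
    · linarith [him z (by linarith)]
  have key := hcore (fun z => ℓ (c + z)) (2 - σ) (K + 2 * J * Real.log R) (by linarith)
    (by positivity) (hℓd.comp (differentiable_id.const_add c).differentiableOn hmem)
    (fun z hz => ?_) (fun z hz => hsm _ (by
      rw [hcre]; linarith [(abs_le.1 (abs_re_le_norm z)).1]) (by linarith [him z (by linarith)]))
    ((s.re - 2 : ℝ) : ℂ) (by rw [norm_real, Real.norm_eq_abs, abs_of_nonpos (by linarith)]; linarith)
  · have h1 : c + ((s.re - 2 : ℝ) : ℂ) = s := by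
      apply Complex.ext
      · rw [hcre]; simp
      · rw [hcim]; simp
    simp only [h1] at key
    have h2 : η * (2 * J) ≤ ε := by
      rw [hη, div_mul_eq_mul_div, div_le_iff₀ (by positivity)]; nlinarith
    have h3 : η * (2 * J) * Real.log R ≤ ε * Real.log R := mul_le_mul_of_nonneg_right h2 hlogR
    nlinarith
  · have hz' := mem_ball_zero_iff.1 hz
    have hJ : 0 ≤ (J : ℝ) * Real.log 6 := by positivity
    have hJR : 0 ≤ 2 * (J : ℝ) * Real.log R := by positivity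
    rcases le_total 3 (c + z).re with h3 | h3
    · have := (re_le_norm _).trans (hsm _ (by linarith) (hmem z hz).2)
      linarith [abs_nonneg (Real.log C₀)]
    · have h4 := (hgr ν a (c + z) ha (by linarith [(hmem z hz).1]) h3).2 hnp
      have h5 : 1 + |(c + z).im| ≤ 6 * R := by linarith [him z (by linarith)]
      have h6 : Real.exp (ℓ (c + z)).re ≤ C₀ * R ^ J * (6 * R) ^ J := by
        rw [← norm_exp, hℓe _ (hmem z hz)]
        refine h4.trans ?_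
        gcongr
      have hR0 : 0 < R := by linarith
      have h7 := (Real.le_log_iff_exp_le (by positivity)).2 h6
      rw [Real.log_mul (by positivity) (by positivity), Real.log_mul (by positivity)
        (by positivity), Real.log_pow, Real.log_pow, Real.log_mul (by norm_num) hR0.ne'] at h7
      linarith [le_abs_self (Real.log C₀)]

end Crest.Agent.R17
end
end

-- ▼ part PVc/R17/LZero
section

/-!
# Row 17, module M10: consequences of a zero-free window, and the zero detector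
-/

set_option autoImplicit false

noncomputable section

namespace Crest.Agent.R17

open scoped ComplexConjugate

/-- All L-functions of the (non-exceptional) row `a` are zero-free in `Re s > σ`, `|Im s| ≤ T`. -/
def ZF (M a : O) (σ T : ℝ) : Prop :=
  ∀ (ν : Chr M) (s : ℂ), σ < s.re → |s.im| ≤ T → Lc ν a s ≠ 0

theorem ZF.mono {M a : O} {σ σ' T T' : ℝ} (h : ZF M a σ T) (hσ : σ ≤ σ') (hT : T' ≤ T) :
    ZF M a σ' T' := fun ν s hs ht => h ν s (hσ.trans_lt hs) (ht.trans hT)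

theorem ZeroFree.zf {β : ℝ} (h : ZeroFree β) {M a : O} (hM : Adm M) (ha : ¬ Exc M a) (T : ℝ) :
    ZF M a β T := fun ν s hs _ =>
  h M hM ν a (ne_zero_of_not_exc ha) s hs (Or.inr (not_princ_of_not_exc hM ν ha))

/-! ## A. `log L` in a zero-free window (Borel–Carathéodory and three circles/lines) -/

/-- In the window `L = exp ℓ` with `ℓ` holomorphic, equal to the Euler-product logarithm for
`Re s > 1`, and `|ℓ| ≤ ε log R + C` for `Re s ≥ σ + δ`.  (Discs centred at `2 + it` of radius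
`< 2 - σ`; `Lc_growth` gives `Re ℓ ≤ C log R`; Borel–Carathéodory; Hadamard three circles gives
`|ℓ| ≤ C (log R)^θ`, `θ < 1`.  A general lemma about a holomorphic function on a disc is the core.) -/
theorem log_class {M : O} (hM : Adm M) {ε δ : ℝ} (hε : 0 < ε) (hδ : 0 < δ) : ∃ C : ℝ, 0 < C ∧
    ∀ (R σ T : ℝ) (ν : Chr M) (a : O), 1 ≤ R → ¬ Exc M a → nr a ≤ R → 1 / 2 ≤ σ → σ ≤ 1 →
      ZF M a σ T → ∃ ℓ : ℂ → ℂ, DifferentiableOn ℂ ℓ {s | σ < s.re ∧ |s.im| < T} ∧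
        (∀ s : ℂ, σ < s.re → |s.im| < T → Complex.exp (ℓ s) = Lc ν a s) ∧
        (∀ s : ℂ, 1 < s.re → |s.im| < T → ℓ s = ∑' p : O, by
          classical exact if Prime p then -Complex.log (1 - rc ν a p * (nr p : ℂ) ^ (-s)) else 0) ∧
        ∀ s : ℂ, σ + δ ≤ s.re → |s.im| + 2 ≤ T → |s.im| ≤ 3 * R →
          ‖ℓ s‖ ≤ ε * Real.log R + C := by
  obtain ⟨C, hC, h⟩ := LZA.log_class hM hε hδ
  exact ⟨C, hC, fun R σ T ν a hR hexc haR hσ hσ1 hZ => h R σ T ν a hR hexc haR hσ hσ1 (hZ ν)⟩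

/-! ## B. class bounds (`Sm_eq_integral`, shift the segment `|Im w + τ| ≤ log R` of the contour to
`Re w = σ + δ`; everything else is `O(R^{-J})` because `|Wm| ≪ exp(-(Im)²/4)`; for scales `≤ 1` the
trivial bound `tsum_norm_Sm_le` is enough) -/

/-- `log_class` on the window used by `Sm_class_gen`. -/
theorem log_window {M : O} (hM : Adm M) {ε : ℝ} (hε : 0 < ε) (k : ℕ) : ∃ C δ : ℝ, 0 < C ∧ 0 < δ ∧
    δ ≤ 1 ∧ k * δ ≤ ε / 2 ∧
    ∀ (R τ σ T : ℝ) (ν : Chr M) (a : O), 1 ≤ R → ¬ Exc M a → nr a ≤ R → 1 / 2 ≤ σ → σ ≤ 1 →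
      ZF M a σ T → |τ| + Real.log R + 3 ≤ T → |τ| ≤ R → ∃ ℓ : ℂ → ℂ,
        DifferentiableOn ℂ ℓ {w | σ + δ ≤ w.re ∧ w.re ≤ 2 ∧ |w.im + τ| ≤ Real.log R} ∧
        (∀ w : ℂ, w.re = 2 → |w.im + τ| ≤ Real.log R → Complex.exp (ℓ w) = Lser ν a w) ∧
        ∀ w : ℂ, σ + δ ≤ w.re → w.re ≤ 2 → |w.im + τ| ≤ Real.log R →
          ‖ℓ w‖ ≤ ε / 2 * Real.log R + C := by
  have hδ : 0 < min 1 (ε / 2 / (k + 1)) := lt_min one_pos (by positivity)
  obtain ⟨C, hC, h⟩ := log_class hM (half_pos hε) hδ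
  refine ⟨C, _, hC, hδ, min_le_left _ _, ?_, fun R τ σ T ν a hR ha haR hσ0 hσ1 hz hT hτ => ?_⟩
  · have := (le_div_iff₀ (by positivity)).1 (min_le_right 1 (ε / 2 / (k + 1)))
    linarith
  obtain ⟨ℓ, h1, h2, -, h4⟩ := h R σ T ν a hR ha haR hσ0 hσ1 hz
  have him : ∀ w : ℂ, |w.im + τ| ≤ Real.log R → |w.im| ≤ |τ| + Real.log R := fun w hw => by
    have := abs_sub (w.im + τ) τ
    rw [add_sub_cancel_right] at this
    linarith
  have hL := Real.log_le_sub_one_of_pos (one_pos.trans_le hR)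
  refine ⟨ℓ, h1.mono fun w hw => ⟨by linarith [hw.1], by linarith [him w hw.2.2]⟩,
    fun w hw hw' => ?_,
    fun w hw _ hw' => h4 w hw (by linarith [him w hw']) (by linarith [him w hw'])⟩
  rw [h2 w (by linarith) (by linarith [him w hw']),
    (isL_Lc hM ν (ne_zero_of_not_exc ha)).2.1 w (by linarith)]

theorem class_aux {C C' ε δ R X σ x : ℝ} (hC : 0 < C) (hδ : δ ≤ ε / 2) (hR : 1 ≤ R) (hX : 0 < X)
    (h : x ≤ C * Real.exp (ε / 2 * Real.log R + C') * R ^ δ * X ^ σ) :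
    x ≤ C * Real.exp C' * R ^ ε * X ^ σ := by
  have hR0 : 0 < R := one_pos.trans_le hR
  refine h.trans (mul_le_mul_of_nonneg_right ?_ (by positivity))
  rw [mul_assoc, mul_assoc, Real.rpow_def_of_pos hR0, Real.rpow_def_of_pos hR0, ← Real.exp_add,
    ← Real.exp_add]
  refine mul_le_mul_of_nonneg_left (Real.exp_le_exp.2 ?_) hC.le
  nlinarith [mul_le_mul_of_nonneg_left hδ (Real.log_nonneg hR)]

/-- `Mob_class` for scales up to `R ^ k` (same window). -/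
theorem Mob_class_gen {M : O} (hM : Adm M) {ε : ℝ} (hε : 0 < ε) (k : ℕ) : ∃ C : ℝ, 0 < C ∧
    ∀ (R D τ σ T : ℝ) (ν : Chr M) (a : O), 1 ≤ R → ¬ Exc M a → nr a ≤ R → 1 / 2 ≤ σ → σ ≤ 1 →
      ZF M a σ T → |τ| + Real.log R + 3 ≤ T → |τ| ≤ R → 0 < D → D ≤ R ^ k →
      ‖Mob ν a D (τ * Complex.I)‖ ≤ C * R ^ ε * D ^ σ := by
  obtain ⟨C₁, hC₁, h₁⟩ := Sm_class_gen k
  obtain ⟨C₂, δ, hC₂, hδ0, hδ1, hδ2, h₂⟩ := log_window hM hε k
  refine ⟨C₁ * Real.exp C₂, by positivity,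
    fun R D τ σ T ν a hR ha haR hσ0 hσ1 hz hT hτ hD hDR => ?_⟩
  obtain ⟨ℓ, h1, h2, h4⟩ := h₂ R τ σ T ν a hR ha haR hσ0 hσ1 hz hT hτ
  have hL := Real.log_nonneg hR
  refine class_aux hC₁ hδ2 hR hD (h₁ _ (fun w => Complex.exp (-ℓ w)) R D τ σ δ _
    (polyB_mu_rc hM ν a) hR hD hDR (by linarith) hσ1 hδ0.le hδ1
    (Real.one_le_exp (by positivity)) h1.neg.cexp (fun w hw hw' => ?_) fun w hw hw' hw'' => ?_)
  · rw [Complex.exp_neg, h2 w hw hw']
    exact (eq_inv_of_mul_eq_one_right (Lser_mul_mob hM ν a (by linarith))).symm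
  · refine (Complex.norm_exp_le_exp_norm _).trans (Real.exp_le_exp.2 ?_)
    rw [norm_neg]
    exact h4 w hw hw' hw''

/-- `Pln_class` for scales up to `R ^ k` (same window). -/
theorem Pln_class_gen {M : O} (hM : Adm M) {ε : ℝ} (hε : 0 < ε) (k : ℕ) : ∃ C : ℝ, 0 < C ∧
    ∀ (R N τ σ T : ℝ) (ν : Chr M) (a : O), 1 ≤ R → ¬ Exc M a → nr a ≤ R → 1 / 2 ≤ σ → σ ≤ 1 →
      ZF M a σ T → |τ| + Real.log R + 3 ≤ T → |τ| ≤ R → 0 < N → N ≤ R ^ k →
      ‖Pln ν a N (τ * Complex.I)‖ ≤ C * R ^ ε * N ^ σ := by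
  obtain ⟨C₁, hC₁, h₁⟩ := Sm_class_gen k
  obtain ⟨C₂, δ, hC₂, hδ0, hδ1, hδ2, h₂⟩ := log_window hM hε k
  refine ⟨C₁ * Real.exp C₂, by positivity,
    fun R D τ σ T ν a hR ha haR hσ0 hσ1 hz hT hτ hD hDR => ?_⟩
  obtain ⟨ℓ, h1, h2, h4⟩ := h₂ R τ σ T ν a hR ha haR hσ0 hσ1 hz hT hτ
  have hL := Real.log_nonneg hR
  exact class_aux hC₁ hδ2 hR hD (h₁ _ (fun w => Complex.exp (ℓ w)) R D τ σ δ _
    (polyB_rc hM ν a) hR hD hDR (by linarith) hσ1 hδ0.le hδ1
    (Real.one_le_exp (by positivity)) h1.cexp h2 fun w hw hw' hw'' =>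
      (Complex.norm_exp_le_exp_norm _).trans (Real.exp_le_exp.2 (h4 w hw hw' hw'')))

theorem Mob_class {M : O} (hM : Adm M) {ε : ℝ} (hε : 0 < ε) : ∃ C : ℝ, 0 < C ∧
    ∀ (R D τ σ T : ℝ) (ν : Chr M) (a : O), 1 ≤ R → ¬ Exc M a → nr a ≤ R → 1 / 2 ≤ σ → σ ≤ 1 →
      ZF M a σ T → |τ| + Real.log R + 3 ≤ T → |τ| ≤ R → 0 < D → D ≤ R →
      ‖Mob ν a D (τ * Complex.I)‖ ≤ C * R ^ ε * D ^ σ := by
  simpa only [pow_one] using Mob_class_gen hM hε 1


/-- (the prime powers `k ≥ 2` of `ℓ` converge absolutely for `Re w > 1/2`) -/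
theorem Prm_class {M : O} (hM : Adm M) {ε : ℝ} (hε : 0 < ε) : ∃ C : ℝ, 0 < C ∧
    ∀ (R P τ σ T : ℝ) (ν : Chr M) (a : O), 1 ≤ R → ¬ Exc M a → nr a ≤ R → 1 / 2 ≤ σ → σ ≤ 1 →
      ZF M a σ T → |τ| + Real.log R + 3 ≤ T → |τ| ≤ R → 0 < P → P ≤ R →
      ‖Prm ν a P (τ * Complex.I)‖ ≤ C * R ^ ε * P ^ σ := by
  obtain ⟨δ, hδ, hδ1, hδε⟩ : ∃ δ : ℝ, 0 < δ ∧ δ ≤ 1 ∧ δ + δ ≤ ε :=
    ⟨min 1 (ε / 2), lt_min one_pos (by positivity), min_le_left _ _,
      by linarith [min_le_right 1 (ε / 2)]⟩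
  obtain ⟨C₁, hC₁, h₁⟩ := log_class hM hδ hδ
  obtain ⟨C₂, hC₂, h₂⟩ := B2.Sm_pr hδ hδ1
  refine ⟨C₂ * (1 + C₁), by positivity,
    fun R P τ σ T ν a hR ha haR hσ hσ1 hZ hT hτ hP hPR => ?_⟩
  obtain ⟨ℓ, hd, -, he, hb⟩ := h₁ R σ T ν a hR ha haR hσ hσ1 hZ
  have hR0 : 0 < R := by linarith
  have him : ∀ w : ℂ, |w.im + τ| ≤ Real.log R → |w.im| ≤ |τ| + Real.log R := fun w hw => by
    have := abs_sub_abs_le_abs_sub w.im (-τ)
    rw [abs_neg, sub_neg_eq_add] at this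
    linarith
  have hRδ : 1 ≤ R ^ δ := Real.one_le_rpow hR hδ.le
  have hl : δ * Real.log R ≤ R ^ δ := by
    rw [← Real.log_rpow hR0]
    linarith [Real.log_le_sub_one_of_pos (show 0 < R ^ δ by linarith)]
  rw [B2.Prm_eq_Sm]
  refine (h₂ (rc ν a) ℓ R P τ σ ((1 + C₁) * R ^ δ) (polyB_rc hM ν a) hR hP hPR hσ hσ1
    (by nlinarith) (hd.mono fun w hw => ⟨by linarith [hw.1], by linarith [him w hw.2.2]⟩)
    (fun w h1 h2 => he w (by linarith) (by linarith [him w h2])) fun w h1 _ h3 => ?_).trans ?_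
  · refine (hb w h1 (by linarith [him w h3]) ?_).trans (by nlinarith)
    linarith [him w h3, Real.log_le_sub_one_of_pos hR0]
  · have : R ^ δ * R ^ δ ≤ R ^ ε := by
      rw [← Real.rpow_add hR0]
      exact Real.rpow_le_rpow_of_exponent_le hR hδε
    calc C₂ * ((1 + C₁) * R ^ δ) * R ^ δ * P ^ σ = C₂ * (1 + C₁) * (R ^ δ * R ^ δ) * P ^ σ := by ring
      _ ≤ _ := by gcongr

/-- `Pln_class'` for scales up to `R ^ k`. -/
theorem Pln_class'_gen {M : O} (hM : Adm M) {ε : ℝ} (hε : 0 < ε) (k : ℕ) (hk : 1 ≤ k) :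
    ∃ C : ℝ, 0 < C ∧
    ∀ (R N τ σ T : ℝ) (ν : Chr M) (a : O), 1 ≤ R → ¬ Exc M a → nr a ≤ R → 1 / 2 ≤ σ → σ ≤ 1 →
      ZF M a σ T → |τ| + (k + 2) * Real.log R + 3 ≤ T → |τ| ≤ R → 0 < N → N ≤ R ^ k →
      ‖Pln ν a N (τ * Complex.I)‖ ≤
        C * R ^ ε * N ^ (1 - σ) * (cond M a * (1 + |τ|) ^ 2) ^ (σ - 1 / 2) := by
  have hk1 : (1 : ℝ) ≤ k := by exact_mod_cast hk
  obtain ⟨η, hη, hη1, hη2⟩ : ∃ η : ℝ, 0 < η ∧ k * η ≤ 1 ∧ k * η ≤ ε / 4 := by
    refine ⟨min 1 (ε / 4) / k, by positivity, ?_⟩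
    rw [mul_div_cancel₀ _ (by positivity)]
    exact ⟨min_le_left _ _, min_le_right _ _⟩
  obtain ⟨C₁, hC₁, h₁⟩ := Pln_reflect hM hη 0
  obtain ⟨C₂, hC₂, h₂⟩ := Pln_class_gen hM hη 3
  obtain ⟨C₃, hC₃, h₃⟩ := tsum_norm_Sm_le 0 0 0 le_rfl
  have hB : (1 : ℝ) ≤ (k + 1) ^ k := one_le_pow₀ (by linarith)
  refine ⟨C₁ * C₂ + C₁ + C₃ * (k + 1) ^ k, by positivity,
    fun R N τ σ T ν a hR ha haR hσ0 hσ1 hz hT hτ hN hNR => ?_⟩
  have hR0 : 0 < R := one_pos.trans_le hR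
  have hq := one_le_cond M a
  have hτ1 : 1 ≤ (1 + |τ|) ^ 2 := one_le_pow₀ (by linarith [abs_nonneg τ])
  have hq1 : 1 ≤ (cond M a * (1 + |τ|) ^ 2) ^ (σ - 1 / 2) :=
    Real.one_le_rpow (one_le_mul_of_one_le_of_one_le hq hτ1) (by linarith)
  have hR1 : 1 ≤ R ^ ε := Real.one_le_rpow hR hε.le
  have hC₁₂ := mul_pos hC₁ hC₂
  rcases le_or_gt N ((k + 1) ^ k) with h1 | h1
  · have h3 := h₃ _ 1 N (τ * Complex.I) (polyB_rc hM ν a) hN (by simp)
    refine ((norm_tsum_le_tsum_norm (summable_Sm (polyB_rc hM ν a) hN _)).trans h3).trans ?_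
    have h5 : N ^ σ ≤ (k + 1) ^ k :=
      (Real.rpow_le_rpow hN.le h1 (by linarith)).trans (Real.rpow_le_self_of_one_le hB hσ1)
    have h4 : min (N ^ ((0 : ℝ) + 1)) (N ^ ((0 : ℝ) + 1 + |0|)) ≤ (k + 1) ^ k * N ^ (1 - σ) := by
      refine (min_le_left _ _).trans ?_
      rw [show (0 : ℝ) + 1 = σ + (1 - σ) by ring, Real.rpow_add hN]
      gcongr
    calc _ ≤ C₃ * 1 * ((k + 1) ^ k * N ^ (1 - σ)) := by gcongr
      _ = C₃ * (k + 1) ^ k * 1 * N ^ (1 - σ) * 1 := by ring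
      _ ≤ _ := by gcongr; linarith
  have hkR : (k + 1 : ℝ) < R := lt_of_pow_lt_pow_left₀ k hR0.le (h1.trans_le hNR)
  have hN1 : 1 ≤ N := hB.trans h1.le
  have hRk : R ≤ R ^ k := le_self_pow₀ hR (by omega)
  obtain ⟨ν', e, Y, t, he, hqe, hY0, hY1, ht, hP⟩ := h₁ (R ^ k) N τ ν a (hR.trans hRk) ha
    (haR.trans hRk) ((inv_le_one_of_one_le₀ (hR.trans hRk)).trans hN1) hNR (hτ.trans hRk)
  rw [Real.log_pow] at ht
  rw [← Real.rpow_natCast_mul hR0.le] at hY1 hP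
  have hL := Real.log_le_sub_one_of_pos hR0
  have hY : 0 < Y := (inv_pos.2 (pow_pos hR0 k)).trans_le hY0
  have he0 : 0 < e := one_pos.trans_le he
  have hq0 : 0 < cond M a := one_pos.trans_le hq
  have hRη : R ^ (k * η) ≤ R := Real.rpow_le_self_of_one_le hR hη1
  have hYR : Y ≤ (R ^ 2) ^ 3 := by
    refine hY1.trans ((div_le_self (by positivity) hN1).trans ?_)
    have h4 : 1 + |τ| ≤ R ^ 2 := by nlinarith
    calc _ ≤ R * R * (R ^ 2) ^ 2 := by gcongr; exact hqe.trans haR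
      _ = _ := by ring
  have h2 := h₂ (R ^ 2) Y t σ T ν' a (one_le_pow₀ hR) ha (haR.trans (by nlinarith)) hσ0 hσ1 hz
    (by rw [Real.log_pow]; push_cast; linarith) (by nlinarith) hY hYR
  have h5 : R ^ (k * η) * Real.sqrt (N / (e * Y)) * ((R ^ 2) ^ η * Y ^ σ) ≤
      R ^ ε * N ^ (1 - σ) * (cond M a * (1 + |τ|) ^ 2) ^ (σ - 1 / 2) := by
    have h6 := Real.log_le_log hY (hY1.trans_eq (by ring :
      _ = cond M a * (1 + |τ|) ^ 2 * e * R ^ (k * η) / N))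
    have hQ : 0 < cond M a * (1 + |τ|) ^ 2 := by positivity
    rw [Real.log_div (by positivity) hN.ne', Real.log_mul (by positivity) (by positivity),
      Real.log_mul hQ.ne' he0.ne', Real.log_rpow hR0] at h6
    rw [Real.sqrt_eq_rpow, Real.rpow_def_of_pos hR0, Real.rpow_def_of_pos hR0,
      Real.rpow_def_of_pos (by positivity : 0 < N / (e * Y)), Real.rpow_def_of_pos hY,
      Real.rpow_def_of_pos hN, Real.rpow_def_of_pos hQ,
      Real.rpow_def_of_pos (by positivity : 0 < R ^ 2), Real.log_div hN.ne' (by positivity),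
      Real.log_mul he0.ne' hY.ne', Real.log_pow]
    simp only [← Real.exp_add]
    refine Real.exp_le_exp.2 ?_
    have h7 := mul_le_mul_of_nonneg_left h6 (sub_nonneg.2 hσ0)
    have h8 := mul_nonneg (sub_nonneg.2 hσ1) (Real.log_nonneg he)
    have h9 := mul_nonneg (mul_nonneg (zero_le_one.trans hk1) hη.le) (Real.log_nonneg hR)
    have h10 := mul_le_mul_of_nonneg_right hη2 (Real.log_nonneg hR)
    have h11 := mul_nonneg (sub_nonneg.2 hσ1) h9
    have h12 := mul_le_mul_of_nonneg_right hk1 (mul_nonneg hη.le (Real.log_nonneg hR))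
    push_cast
    nlinarith
  have h6 : 1 ≤ R ^ ε * N ^ (1 - σ) * (cond M a * (1 + |τ|) ^ 2) ^ (σ - 1 / 2) :=
    one_le_mul_of_one_le_of_one_le (one_le_mul_of_one_le_of_one_le hR1
      (Real.one_le_rpow hN1 (by linarith))) hq1
  rw [neg_zero, Real.rpow_zero, mul_one] at hP
  refine hP.trans ?_
  set W := R ^ ε * N ^ (1 - σ) * (cond M a * (1 + |τ|) ^ 2) ^ (σ - 1 / 2) with hW
  calc _ ≤ C₁ * R ^ (k * η) * Real.sqrt (N / (e * Y)) * (C₂ * (R ^ 2) ^ η * Y ^ σ) + C₁ := by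
        gcongr
    _ = C₁ * C₂ * (R ^ (k * η) * Real.sqrt (N / (e * Y)) * ((R ^ 2) ^ η * Y ^ σ)) + C₁ * 1 +
        0 := by ring
    _ ≤ C₁ * C₂ * W + C₁ * W + C₃ * (k + 1) ^ k * W := by gcongr; positivity
    _ = _ := by rw [hW]; ring

/-- From `Pln_reflect` and `Pln_class` (analytic conductor `cond · (1 + |τ|)²`). -/
theorem Pln_class' {M : O} (hM : Adm M) {ε : ℝ} (hε : 0 < ε) : ∃ C : ℝ, 0 < C ∧
    ∀ (R N τ σ T : ℝ) (ν : Chr M) (a : O), 1 ≤ R → ¬ Exc M a → nr a ≤ R → 1 / 2 ≤ σ → σ ≤ 1 →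
      ZF M a σ T → |τ| + 3 * Real.log R + 3 ≤ T → |τ| ≤ R → 0 < N → N ≤ R →
      ‖Pln ν a N (τ * Complex.I)‖ ≤
        C * R ^ ε * N ^ (1 - σ) * (cond M a * (1 + |τ|) ^ 2) ^ (σ - 1 / 2) := by
  simpa only [pow_one, Nat.cast_one, show (1 : ℝ) + 2 = 3 by norm_num] using
    Pln_class'_gen hM hε 1 le_rfl

/-- Möbius sums of a fixed character under a global zero-free half-plane (the character may be
principal: use `princ_pole`, `1/L = (s-1)/G`). -/
theorem Mob_of_zeroFree {β : ℝ} (hβ : 1 / 2 ≤ β) (hβ1 : β ≤ 1) (h : ZeroFree β) {M : O}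
    (hM : Adm M) (ψ : Chr M) {ε : ℝ} (hε : 0 < ε) : ∃ (C : ℝ) (J : ℕ), 0 < C ∧
      ∀ (D : ℝ) (s : ℂ), 0 < D → |s.re| ≤ 3 →
        ‖Mob ψ 1 D s‖ ≤ C * (1 + |s.im|) ^ J * D ^ (β + ε) :=
  have _ := hβ1
  B2.Mob_of_zeroFree hβ h hM ψ hε

/-! ## C. zero detector -/

/-- With `π^{-1/2} ∫ Wc(y/e^v) dv = 1`: `L(ρ) = π^{-1/2} ∫ e^{-vρ} Pln(e^v, -ρ) dv` (both sides are
entire; or directly by Mellin inversion), so
`0 = ∫∫_{v₂ ≤ log D₀} e^{-(v₁+v₂)ρ} Pln(e^{v₁},-ρ) Mob(e^{v₂},-ρ)`.  The integral over the region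
`v₁ + v₂ ≤ V := log D₀ - (ε/2) log R` equals `∑_{m,d} μ(d) rc(dm) N(dm)^{-ρ} G(log N(dm) - V)`
with `G(x) = ∫∫_{y₁+y₂ ≥ x} e^{-y₁²-y₂²}`, i.e. `G(-V)` (only `dm = 1` survives), which is
`≥ π/2` if `V ≥ 0` (if `V < 0` take `V = 0`, i.e. `D₀ R^{-ε} ≤ 1`...); the part of that region with
`v₂ > log D₀` is negligible.  Finally `Sm_shift` removes the real part of the twist. -/
theorem detector_raw {M : O} (hM : Adm M) {ε : ℝ} (hε : 0 < ε) : ∃ R₀ : ℝ,
    ∀ (R D₀ : ℝ) (ν : Chr M) (a : O) (ρ : ℂ), R₀ ≤ R → ¬ Exc M a → nr a ≤ R → R ^ ε ≤ D₀ →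
      D₀ ≤ R → Lc ν a ρ = 0 → 1 / 2 ≤ ρ.re → ρ.re ≤ 1 → |ρ.im| ≤ R →
      ∃ D N : ℝ, R ^ (-ε) ≤ D ∧ D ≤ D₀ ∧ D₀ * R ^ (-ε) ≤ D * N ∧ R ^ (-ε) ≤ N ∧
        N ≤ nr a * R ^ ε * (1 + |ρ.im|) ^ 2 ∧
        R ^ (-ε) * (D * N) ^ ρ.re ≤
          ‖Mob ν a D ((-ρ.im : ℝ) * Complex.I)‖ * ‖Pln ν a N ((-ρ.im : ℝ) * Complex.I)‖ :=
  LZC.detector_raw hM hε

theorem detector_log_le {u C R e D σ : ℝ} (hu : 0 < u) (hC : 0 < C) (hR : 0 < R) (hD : 0 < D)
    (hCR : C ≤ R ^ e) {k : ℝ} (h : u ≤ C * R ^ k * D ^ σ) :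
    Real.log u ≤ (e + k) * Real.log R + σ * Real.log D := by
  have h1 := Real.log_le_log hu h
  rw [Real.log_mul (by positivity) (by positivity), Real.log_mul hC.ne' (by positivity),
    Real.log_rpow hR, Real.log_rpow hD] at h1
  have h2 := Real.log_le_log hC hCR
  rw [Real.log_rpow hR] at h2
  linarith

theorem detector_le_of_log {u R e D σ : ℝ} (hu : 0 < u) (hR : 0 < R) (hD : 0 < D)
    (h : e * Real.log R + σ * Real.log D ≤ Real.log u) : R ^ e * D ^ σ ≤ u := by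
  rw [← Real.log_le_log_iff (by positivity) hu, Real.log_mul (by positivity) (by positivity),
    Real.log_rpow hR, Real.log_rpow hD]
  exact h

theorem detector_const {C η : ℝ} (hη : 0 < η) : ∃ R₀ : ℝ, ∀ R, R₀ ≤ R → C ≤ R ^ η :=
  Filter.eventually_atTop.1 ((tendsto_rpow_atTop hη).eventually_ge_atTop C)

/-- **Detector.**  A zero near the edge of the zero-free window makes a Möbius sum and a plain sum
extremal (`detector_raw`, `Mob_class`, `Pln_class`, `Pln_class'`). -/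
theorem detector {M : O} (hM : Adm M) {ε : ℝ} (hε : 0 < ε) : ∃ ε₁ R₀ : ℝ, 0 < ε₁ ∧
    ∀ (R D₀ σ T : ℝ) (ν : Chr M) (a : O) (ρ : ℂ), R₀ ≤ R → ¬ Exc M a → nr a ≤ R → R ^ ε ≤ D₀ →
      D₀ ≤ R → 51 / 100 ≤ σ → σ ≤ 1 → ZF M a σ T → Lc ν a ρ = 0 → σ - ε₁ ≤ ρ.re →
      |ρ.im| + 7 * Real.log R + 7 ≤ T → |ρ.im| ≤ R →
      ∃ D N : ℝ, R ^ (-ε) ≤ D ∧ D ≤ D₀ ∧ D₀ * R ^ (-ε) ≤ D * N ∧ R ^ (-ε) ≤ N ∧
        N ≤ Real.sqrt (nr a) * R ^ ε * (1 + |ρ.im|) ∧
        R ^ (-ε) * D ^ σ ≤ ‖Mob ν a D ((-ρ.im : ℝ) * Complex.I)‖ ∧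
        R ^ (-ε) * N ^ σ ≤ ‖Pln ν a N ((-ρ.im : ℝ) * Complex.I)‖ := by
  obtain ⟨η, hη, hη1, hη2⟩ : ∃ η : ℝ, 0 < η ∧ 600 * η ≤ ε ∧ η ≤ 1 / 100 :=
    ⟨min (ε / 600) (1 / 100), lt_min (by positivity) (by norm_num),
      by linarith [min_le_left (ε / 600) (1 / 100)], min_le_right _ _⟩
  obtain ⟨R₁, h₁⟩ := detector_raw hM hη
  obtain ⟨C₁, hC₁, hMob⟩ := Mob_class hM hη
  obtain ⟨C₂, hC₂, hPln⟩ := Pln_class_gen hM hη 5
  obtain ⟨C₃, hC₃, hPln'⟩ := Pln_class'_gen hM hη 5 (by norm_num)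
  obtain ⟨Q₁, hQ₁⟩ := detector_const (C := C₁) hη
  obtain ⟨Q₂, hQ₂⟩ := detector_const (C := C₂) hη
  obtain ⟨Q₃, hQ₃⟩ := detector_const (C := C₃) hη
  refine ⟨η, max (max 4 R₁) (max Q₁ (max Q₂ Q₃)), hη, ?_⟩
  intro R D₀ σ T ν a ρ hR ha haR hD₀ hD₀R hσ hσ1 hZ hρ hρσ hT hρR
  simp only [max_le_iff] at hR
  obtain ⟨⟨hR4, hRR₁⟩, hRQ₁, hRQ₂, hRQ₃⟩ := hR
  have hR1 : 1 ≤ R := by linarith
  have hR0 : 0 < R := by linarith
  have hL : 0 ≤ Real.log R := Real.log_nonneg hR1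
  have ha0 := ne_zero_of_not_exc ha
  have ha1 := one_le_nr ha0
  have hρ1 : ρ.re ≤ σ := by
    by_contra h
    exact hZ ν ρ (not_le.1 h) (by linarith) hρ
  have hηε : R ^ η ≤ R ^ ε := Real.rpow_le_rpow_of_exponent_le hR1 (by linarith)
  have hεη : R ^ (-ε) ≤ R ^ (-η) := Real.rpow_le_rpow_of_exponent_le hR1 (by linarith)
  obtain ⟨D, N, e1, e2, e3, e4, e5, e6⟩ := h₁ R D₀ ν a ρ hRR₁ ha haR (hηε.trans hD₀) hD₀R hρ
    (by linarith) (by linarith) hρR
  have hD : 0 < D := lt_of_lt_of_le (by positivity) e1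
  have hN : 0 < N := lt_of_lt_of_le (by positivity) e4
  have hD₀0 : 0 < D₀ := lt_of_lt_of_le hD e2
  have hRη : R ^ η ≤ R := by
    calc R ^ η ≤ R ^ (1 : ℝ) := Real.rpow_le_rpow_of_exponent_le hR1 (by linarith)
      _ = R := Real.rpow_one R
  have hγ : 0 < 1 + |ρ.im| := by positivity
  have hNR : N ≤ R ^ 5 := by
    calc N ≤ nr a * R ^ η * (1 + |ρ.im|) ^ 2 := e5
      _ ≤ R * R * (2 * R) ^ 2 := by gcongr; linarith
      _ = 4 * R ^ 4 := by ring
      _ ≤ R * R ^ 4 := by gcongr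
      _ = R ^ 5 := by ring
  have habs : |(-ρ.im)| = |ρ.im| := abs_neg _
  have b1 := hMob R D (-ρ.im) σ T ν a hR1 ha haR (by linarith) hσ1 hZ (by rw [habs]; linarith)
    (by rw [habs]; exact hρR) hD (e2.trans hD₀R)
  have b2 := hPln R N (-ρ.im) σ T ν a hR1 ha haR (by linarith) hσ1 hZ
    (by rw [habs]; linarith) (by rw [habs]; linarith) hN hNR
  have b3 := hPln' R N (-ρ.im) σ T ν a hR1 ha haR (by linarith) hσ1 hZ
    (by rw [habs]; push_cast; linarith) (by rw [habs]; linarith) hN hNR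
  rw [habs] at b3
  set m := ‖Mob ν a D ((-ρ.im : ℝ) * Complex.I)‖ with hm
  set p := ‖Pln ν a N ((-ρ.im : ℝ) * Complex.I)‖ with hp
  have hmp : 0 < m * p := lt_of_lt_of_le (by positivity) e6
  have hm0 : 0 < m := by
    have hm' : 0 ≤ m := norm_nonneg _
    rcases hm'.eq_or_lt with h | h
    · rw [← h, zero_mul] at hmp; exact absurd hmp (lt_irrefl _)
    · exact h
  have hp0 : 0 < p := (pos_iff_pos_of_mul_pos hmp).1 hm0
  have l1 := detector_log_le hm0 hC₁ hR0 hD (hQ₁ R hRQ₁) b1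
  have l2 := detector_log_le hp0 hC₂ hR0 hN (hQ₂ R hRQ₂) b2
  have hc1 := one_le_cond M a
  have hc2 := cond_le M ha0
  have l3 : Real.log p ≤ (η + η) * Real.log R + (1 - σ) * Real.log N +
      (σ - 1 / 2) * (Real.log (nr a) + 2 * Real.log (1 + |ρ.im|)) := by
    have h1 : (cond M a * (1 + |ρ.im|) ^ 2) ^ (σ - 1 / 2) ≤
        (nr a * (1 + |ρ.im|) ^ 2) ^ (σ - 1 / 2) :=
      Real.rpow_le_rpow (by positivity) (by gcongr) (by linarith)
    have h2 : p / (nr a * (1 + |ρ.im|) ^ 2) ^ (σ - 1 / 2) ≤ C₃ * R ^ η * N ^ (1 - σ) := by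
      rw [div_le_iff₀ (by positivity)]
      exact b3.trans (mul_le_mul_of_nonneg_left h1 (by positivity))
    have h3 := detector_log_le (by positivity) hC₃ hR0 hN (hQ₃ R hRQ₃) h2
    rw [Real.log_div hp0.ne' (by positivity), Real.log_rpow (by positivity),
      Real.log_mul (by positivity) (by positivity), Real.log_pow] at h3
    push_cast at h3
    linarith
  have l4 := Real.log_le_log (by positivity) e6
  rw [Real.log_mul (by positivity) (by positivity), Real.log_rpow hR0,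
    Real.log_rpow (by positivity), Real.log_mul hD.ne' hN.ne', Real.log_mul hm0.ne' hp0.ne'] at l4
  have l5 : Real.log D ≤ Real.log R := Real.log_le_log hD (e2.trans hD₀R)
  have l6 : Real.log N ≤ 5 * Real.log R := by
    simpa only [Real.log_pow, Nat.cast_ofNat] using Real.log_le_log hN hNR
  have l7 : 0 ≤ Real.log D + Real.log N := by
    rw [← Real.log_mul hD.ne' hN.ne']
    refine Real.log_nonneg (le_trans ?_ e3)
    calc (1 : ℝ) = R ^ η * R ^ (-η) := by rw [← Real.rpow_add hR0]; simp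
      _ ≤ D₀ * R ^ (-η) := by gcongr; exact hηε.trans hD₀
  set L := Real.log R
  set x := Real.log D
  set y := Real.log N
  have l8 : σ * (x + y) - 6 * η * L ≤ ρ.re * (x + y) := by
    have h1 : (σ - η) * (x + y) ≤ ρ.re * (x + y) := mul_le_mul_of_nonneg_right hρσ l7
    have h2 : η * (x + y) ≤ η * (6 * L) := mul_le_mul_of_nonneg_left (by linarith) hη.le
    linarith
  have hεL : 600 * η * L ≤ ε * L := mul_le_mul_of_nonneg_right hη1 hL
  have hηL : 0 ≤ η * L := mul_nonneg hη.le hL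
  refine ⟨D, N, hεη.trans e1, e2, le_trans (by gcongr) e3, hεη.trans e4, ?_,
    detector_le_of_log hm0 hR0 hD (by linarith), detector_le_of_log hp0 hR0 hN (by linarith)⟩
  rw [← Real.log_le_log_iff hN (by positivity), Real.log_mul (by positivity) (by positivity),
    Real.log_mul (by positivity) (by positivity), Real.log_rpow hR0, Real.log_sqrt (by linarith)]
  set A := Real.log (nr a)
  set B := Real.log (1 + |ρ.im|)
  have h1 : (2 * σ - 1) * (y - A / 2 - B) ≤ 11 * (η * L) := by linarith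
  by_contra h
  have h2 : 600 * η * L < y - A / 2 - B := by linarith [not_le.1 h]
  have h3 : 1 / 50 * (y - A / 2 - B) ≤ (2 * σ - 1) * (y - A / 2 - B) :=
    mul_le_mul_of_nonneg_right (by linarith) (by linarith)
  linarith

end Crest.Agent.R17
end
end

-- ▼ part PVc/R17/PDefsAuxB2
section

/-!
# Row 17, module M15: local values of the coefficients of the probe
-/

set_option autoImplicit false

noncomputable section

namespace Crest.Agent.R17.PB2

open scoped ComplexConjugate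

/-- The Fourier factor. -/
def Fc (n x a : O) : ℂ := ft (n * x) (fun k => sym n k * conj (gs 5 x k)) a

/-- The coefficient without the support condition. -/
def cf {M : O} (ψ : Chr M) (a n x : O) : ℂ :=
  th n * ev ψ n * Gf n * sym n (-1) * Rs n x * Fc n x a / ((Real.sqrt (nr n) * nr x : ℝ) : ℂ)

theorem po_one : PO 1 := ⟨primary_one, isCoprime_one_left⟩

theorem po_pow {p : O} (h : PO p) (i : ℕ) : PO (p ^ i) := ⟨h.1.pow i, h.2.pow_left⟩

theorem po_of {M p : O} (hM : Adm M) (hp : Prime p) (hp' : Primary p) (hpM : ¬ p ∣ M) : PO p :=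
  PO.of_adm hM hp' (hp.coprime_iff_not_dvd.2 hpM)

theorem supp {M p : O} (hp : Prime p) (hp' : Primary p) (hpM : ¬ p ∣ M) (j : ℕ) :
    Primary (p ^ j) ∧ IsCoprime (p ^ j) M :=
  ⟨hp'.pow j, (hp.coprime_iff_not_dvd.2 hpM).pow_left⟩

theorem sym_dvd {p k : O} (hp : Prime p) (h : Primary p) (hk : p ∣ k) : sym p k = 0 :=
  (sym_eq_zero_iff h).2 fun hc => hp.not_isUnit (hc.isUnit_of_dvd' dvd_rfl hk)

theorem Fc_one_left {x : O} (hx : Primary x) (a : O) : Fc 1 x a = nm x * sym x a := by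
  have h := ft_ft hx.ne_zero _ (Gauss_sym_per x (5 + 6)) (-a)
  have e : Fc 1 x a = conj (ft x (ft x fun y => sym x y ^ (5 + 6)) (-a)) := by
    rw [Fc, one_mul, ft, ft, map_sum]
    refine Finset.sum_congr rfl fun k _ => ?_
    rw [sym_one_left, one_mul, map_mul, neg_mul, eq_neg, Complex.conj_conj]
    rfl
  rw [e, h, neg_neg, map_mul, map_natCast, map_pow, conj_sym hx, ← pow_mul,
    Gauss_sym_pow hx a one_ne_zero 9, pow_one]

theorem Fc_one_right {n : O} (hn : Primary n) (a : O) : Fc n 1 a = gs 1 n a := by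
  rw [Fc, mul_one]
  exact Finset.sum_congr rfl fun x _ => by
    beta_reduce
    rw [gs_one, map_one, mul_one, sym_pow_add_six hn x one_ne_zero, pow_one]

open Classical in
theorem Fc_prime {p : O} (hp : Prime p) (h : PO p) (i : ℕ) (a : O) : Fc (p ^ i) p a =
    conj (gs 5 p 1) * if p ^ i ∣ a then (nm p : ℂ) ^ i * gs (i + 5) p (a / p ^ i) else 0 := by
  have e := Gauss_pow hp.ne_zero (Gauss_sym_per p (i + 5 + 6)) i a
  refine Eq.trans ?_ (congrArg _ e)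
  rw [Fc, ← pow_succ, Gauss_G, Finset.mul_sum]
  refine Finset.sum_congr rfl fun k _ => ?_
  beta_reduce
  rw [gs_sqfree (by norm_num) h hp.squarefree k, map_mul, Complex.conj_conj,
    sym_pow_left hp.ne_zero, sym_pow_add_six h.1 k (by omega)]
  ring

theorem Fc_two {p : O} (hp : Prime p) (h : PO p) {i j : ℕ} (hi : 1 ≤ i) (hj : 2 ≤ j) (a : O) :
    Fc (p ^ i) (p ^ j) a = 0 := by
  obtain ⟨j, rfl⟩ : ∃ k, j = k + 1 := ⟨j - 1, by omega⟩
  refine Finset.sum_eq_zero fun k _ => ?_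
  beta_reduce
  rw [Gauss_gs_pow 5 j h]
  split_ifs with hk
  · rw [sym_pow_left hp.ne_zero, sym_dvd hp h.1 ((dvd_pow_self p (by omega)).trans hk),
      zero_pow (by omega), zero_mul, zero_mul]
  · simp

theorem th_one : th 1 = 1 := by
  have := mu_gam_five po_one squarefree_one
  simpa [Gf_one, gam, nr] using this.symm

theorem norm_th {p : O} (hp : Prime p) (h : Primary p) (i : ℕ) :
    ‖th (p ^ i)‖ ≤ nr p ^ (((i / 3 : ℕ) : ℝ) / 2) := by
  have q0 := nr_pos hp.ne_zero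
  unfold th
  split_ifs with hc
  · obtain ⟨-, h1, h2, -⟩ := eq_sq1_mul_cu hc.1 hc.2
    have e : cu (p ^ i) = p ^ (i / 3) := by
      rcases Nat.eq_zero_or_pos i with rfl | hi
      · simp [cu, BasicB.pf_unit isUnit_one]
      · rw [cu, pf_pow hi.ne', pf_prime hp h, Finset.prod_singleton, vp_pow hp hp.ne_zero,
          vp_self hp, mul_one]
    have := Real.sqrt_pos.2 (nr_pos h1.ne_zero)
    rw [norm_mul, norm_mul, norm_div, norm_gc h1 h2, Complex.norm_conj, norm_arg hc.1.ne_zero,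
      Complex.norm_real, Complex.norm_real, Real.norm_of_nonneg this.le, div_self this.ne', e,
      Real.norm_of_nonneg (Real.sqrt_nonneg _), nr_pow, Real.sqrt_eq_rpow, ← Real.rpow_natCast,
      ← Real.rpow_mul q0.le, one_mul, mul_one, mul_one_div]
  · rw [norm_zero]; positivity

theorem cf_one_left {M : O} (ψ : Chr M) (a : O) {x : O} (hx : PO x) : cf ψ a 1 x = sym x a := by
  have := (nr_pos hx.1.ne_zero).ne'
  have h2 : (nm x : ℂ) ≠ 0 := by exact_mod_cast this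
  rw [cf, Fc_one_left hx.1, th_one, ev_one, Gf_one, sym_one_left, Rs_one_left hx.2]
  simp [h2, nr]

theorem cf_eq_zero {M : O} (ψ : Chr M) {a n x : O} (h : Fc n x a = 0) : cf ψ a n x = 0 := by
  rw [cf, h, mul_zero, zero_div]

theorem th_Gf {p : O} (hp : Prime p) (h : PO p) : Gf p * th p = -gam 5 p := by
  rw [← mu_gam_five h hp.squarefree, mu_prime hp h.1, neg_one_mul]

theorem unram {M : O} (ψ : Chr M) {a p : O} (hp : Prime p) (h : PO p) (ha : ¬ p ∣ a) (i j : ℕ) :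
    cf ψ a (p ^ i) (p ^ j) =
      if i = 0 then sym p a ^ j else if i = 1 ∧ j = 0 then -(ev ψ p * conj (sym p a)) else 0 := by
  split_ifs with h1 h2
  · rw [h1, pow_zero, cf_one_left ψ a (po_pow h j), sym_pow_left hp.ne_zero]
  · obtain ⟨rfl, rfl⟩ := h2
    have e1 := th_Gf hp h
    have e2 := gam_mul_gam (j := 1) (by norm_num) h hp.squarefree
    have e3 := Gauss_neg_one h
    rw [pow_one, pow_zero, cf, Fc_one_right h.1, gs_sqfree (by norm_num) h hp.squarefree, Rs_comm,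
      Rs_one_left h.2, show nr (1 : O) = 1 by simp, mul_one, mul_one, mul_div_assoc,
      mul_div_assoc, ← gam, pow_one]
    rw [pow_one, mul_one] at e2
    linear_combination (ev ψ p * sym p (-1) * conj (sym p a) * gam 1 p) * e1 -
      (ev ψ p * sym p (-1) * conj (sym p a)) * e2 - (ev ψ p * conj (sym p a)) * e3
  · refine cf_eq_zero ψ ?_
    have hd : ∀ k, k ≠ 0 → ¬ p ^ k ∣ a := fun k hk hd => ha ((dvd_pow_self p hk).trans hd)
    rcases Nat.lt_trichotomy j 1 with c | rfl | c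
    · obtain rfl : j = 0 := by omega
      obtain ⟨i, rfl⟩ : ∃ k, i = k + 1 := ⟨i - 1, by omega⟩
      rw [pow_zero, Fc_one_right (h.1.pow _), Gauss_gs_pow 1 i h, if_neg (hd i (by omega))]
    · rw [pow_one, Fc_prime hp h, if_neg (hd i h1), mul_zero]
    · exact Fc_two hp h (by omega) c a

theorem ram_zero {M : O} (ψ : Chr M) {a p : O} (hp : Prime p) (h : PO p) (ha : p ∣ a) {i j : ℕ}
    (hij : (i = 0 ∧ 1 ≤ j) ∨ 2 ≤ j) : cf ψ a (p ^ i) (p ^ j) = 0 := by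
  rcases Nat.eq_zero_or_pos i with rfl | hi
  · rw [pow_zero, cf_one_left ψ a (po_pow h j), sym_pow_left hp.ne_zero, sym_dvd hp h.1 ha,
      zero_pow (by omega)]
  · exact cf_eq_zero ψ (Fc_two hp h hi (by omega) a)

theorem dvd_div_iff {a p : O} (hp : Prime p) (ha0 : a ≠ 0) {i : ℕ} (h : p ^ i ∣ a) :
    p ∣ a / p ^ i ↔ i + 1 ≤ vp p a := by
  rw [← pow_dvd_iff_le_vp hp ha0]
  obtain ⟨k, rfl⟩ := h
  have hi := pow_ne_zero i hp.ne_zero
  rw [mul_div_cancel_left₀ _ hi, pow_succ, mul_dvd_mul_iff_left hi]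

theorem ram_one_one {M : O} (ψ : Chr M) {a p : O} (hp : Prime p) (h : PO p) (ha : p ∣ a)
    (ha0 : a ≠ 0) :
    cf ψ a p p = if vp p a = 1 then ev ψ p else -((nr p : ℂ) - 1) * ev ψ p := by
  classical
  have h1 : p ^ 1 ∣ a := by rwa [pow_one]
  have hv := (pow_dvd_iff_le_vp hp ha0).1 h1
  have e := Fc_prime hp h 1 a
  rw [if_pos h1, gs_prime_zero dvd_rfl hp h, dvd_div_iff hp ha0 h1, pow_one, pow_one] at e
  have e1 := th_Gf hp h
  have e2 := Gauss_conj_mul (norm_gam (j := 5) (by norm_num) h hp.squarefree)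
  have e3 := Gauss_neg_one h
  have q0 := nr_pos hp.ne_zero
  have s0 : (Real.sqrt (nr p) : ℂ) ≠ 0 := by exact_mod_cast (Real.sqrt_pos.2 q0).ne'
  have s1 : (nm p : ℂ) ≠ 0 := by exact_mod_cast q0.ne'
  have e4 : ∀ z : ℂ, conj (gs 5 p 1) * (nm p * z) / ((Real.sqrt (nr p) * nr p : ℝ) : ℂ) =
      conj (gam 5 p) * z := fun z => by
    rw [gam, map_div₀, Complex.conj_ofReal]
    push_cast
    field_simp
  have key : ∀ z : ℂ, th p * ev ψ p * Gf p * sym p (-1) * sym p (-1) * (conj (gam 5 p) * z) =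
      -z * ev ψ p := fun z => by
    linear_combination (ev ψ p * sym p (-1) ^ 2 * conj (gam 5 p) * z) * e1 -
      (ev ψ p * sym p (-1) ^ 2 * z) * e2 - (ev ψ p * z) * e3
  rw [cf, e, Rs_self h, mul_div_assoc, e4, key]
  split_ifs with c1 c2 c2
  · omega
  · simp
  · simp
  · omega

theorem norm_cf {M : O} (hM : Adm M) (ψ : Chr M) {a p : O} (hp : Prime p) (h : PO p) (i j : ℕ)
    {c : ℝ} (hF : ‖Fc (p ^ i) (p ^ j) a‖ ≤ nr p ^ c) :
    ‖cf ψ a (p ^ i) (p ^ j)‖ ≤ nr p ^ (((i / 3 : ℕ) : ℝ) / 2 + c - (i / 2 + j)) := by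
  have q0 := nr_pos hp.ne_zero
  have r : ‖Rs (p ^ i) (p ^ j)‖ = 1 := by
    rcases sq_eq_one_iff.1 (Rs_sq (po_pow h i).2 (po_pow h j).2) with e | e <;> rw [e] <;> simp
  have e : Real.sqrt (nr (p ^ i)) * nr (p ^ j) = nr p ^ ((i : ℝ) / 2 + j) := by
    rw [nr_pow, nr_pow, Real.sqrt_eq_rpow, ← Real.rpow_natCast, ← Real.rpow_natCast,
      ← Real.rpow_mul q0.le, Real.rpow_add q0, mul_one_div]
  rw [cf, norm_div, e, Complex.norm_real, Real.norm_of_nonneg (by positivity), Real.rpow_sub q0,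
    Real.rpow_add q0 _ c]
  simp only [norm_mul, r, norm_Gf (po_pow h i), mul_one]
  gcongr ?_ * ?_ / _
  calc _ ≤ nr p ^ (((i / 3 : ℕ) : ℝ) / 2) * 1 * 1 := by
        gcongr
        · exact norm_th hp h.1 i
        · exact norm_ev_le hM.1 ψ _
        · exact norm_sym_le _ _
    _ = _ := by ring

theorem norm_gs_le {j : ℕ} (hj : ¬ 6 ∣ j) {p : O} (hp : Prime p) (h : PO p) (k : O) :
    ‖gs j p k‖ ≤ nr p ^ (1 / 2 : ℝ) := by
  rw [gs_sqfree hj h hp.squarefree, norm_mul, Gauss_norm_gs hj h hp.squarefree, Complex.norm_conj,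
    norm_pow, Real.sqrt_eq_rpow]
  exact mul_le_of_le_one_left (by positivity) (pow_le_one₀ (norm_nonneg _) (norm_sym_le _ _))

theorem gs_dvd {j : ℕ} (hj : ¬ 6 ∣ j) {p k : O} (hp : Prime p) (h : PO p) (hk : p ∣ k) :
    gs j p k = 0 := by
  rw [gs_sqfree hj h hp.squarefree, sym_dvd hp h.1 hk, zero_pow (by omega), map_zero, zero_mul]

theorem norm_nm_pow (p : O) (i : ℕ) : ‖(nm p : ℂ) ^ i‖ = nr p ^ (i : ℝ) := by
  rw [norm_pow, Complex.norm_natCast, Real.rpow_natCast]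

theorem norm_sub_one {p : O} (hp : p ≠ 0) : ‖(nm p : ℂ) - 1‖ ≤ nr p := by
  have := one_le_nr hp
  rw [show (nm p : ℂ) - 1 = ((nr p - 1 : ℝ) : ℂ) by push_cast; rfl, Complex.norm_real,
    Real.norm_of_nonneg (by linarith)]
  linarith

theorem ram_zero_le {M : O} (hM : Adm M) (ψ : Chr M) {a p : O} (hp : Prime p) (h : PO p)
    (ha0 : a ≠ 0) {i : ℕ} (hi : 1 ≤ i) :
    ‖cf ψ a (p ^ i) 1‖ ≤
      if 6 ∣ i then
        (if i ≤ vp p a then nr p ^ (2 * i / 3 : ℝ) else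
          if i = vp p a + 1 then nr p ^ (2 * i / 3 - 1 : ℝ) else 0)
      else if i = vp p a + 1 then nr p ^ ((((i / 3 : ℕ) : ℝ) + i - 1) / 2) else 0 := by
  classical
  obtain ⟨i, rfl⟩ : ∃ k, i = k + 1 := ⟨i - 1, by omega⟩
  have q0 := nr_pos hp.ne_zero
  have e := Fc_one_right (h.1.pow (i + 1)) a
  rw [Gauss_gs_pow 1 i h, one_mul] at e
  have key := fun c => norm_cf (a := a) (c := c) hM ψ hp h (i + 1) 0
  rw [pow_zero] at key
  by_cases hd : p ^ i ∣ a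
  swap
  · rw [if_neg hd] at e
    rw [pow_dvd_iff_le_vp hp ha0] at hd
    rw [cf_eq_zero ψ e, norm_zero]
    positivity
  rw [if_pos hd] at e
  have hv := (pow_dvd_iff_le_vp hp ha0).1 hd
  have hq := dvd_div_iff hp ha0 hd
  by_cases h6 : 6 ∣ i + 1
  · have c3 : (((i + 1) / 3 : ℕ) : ℝ) = ((i + 1 : ℕ) : ℝ) / 3 := by
      rw [Nat.cast_div (by omega) (by norm_num), Nat.cast_ofNat]
    rw [gs_prime_zero h6 hp h, hq] at e
    rw [if_pos h6]
    split_ifs with c1 c2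
    · refine (key (i + 1) ?_).trans_eq ?_
      · rw [e, if_pos c1, norm_mul, norm_nm_pow, Real.rpow_add q0, Real.rpow_one]
        gcongr
        exact norm_sub_one hp.ne_zero
      · rw [c3]; congr 1; push_cast; ring
    · refine (key i ?_).trans_eq ?_
      · rw [e, if_neg c1, norm_mul, norm_nm_pow]
        simp
      · rw [c3]; congr 1; push_cast; ring
    · omega
  · rw [if_neg h6]
    split_ifs with c1
    · refine (key (i + 1 / 2) ?_).trans_eq ?_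
      · rw [e, norm_mul, norm_nm_pow, Real.rpow_add q0]
        gcongr
        exact norm_gs_le h6 hp h _
      · congr 1; push_cast; ring
    · rw [gs_dvd h6 hp h (hq.2 (by omega)), mul_zero] at e
      rw [cf_eq_zero ψ e, norm_zero]

theorem ram_one_le {M : O} (hM : Adm M) (ψ : Chr M) {a p : O} (hp : Prime p) (h : PO p)
    (ha0 : a ≠ 0) (i : ℕ) :
    ‖cf ψ a (p ^ i) p‖ ≤
      if i = vp p a then nr p ^ ((((i / 3 : ℕ) : ℝ) + i) / 2) else
        if i % 6 = 1 ∧ i < vp p a then nr p ^ ((((i / 3 : ℕ) : ℝ) + i + 1) / 2) else 0 := by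
  classical
  have q1 := one_le_nr hp.ne_zero
  have q0 := nr_pos hp.ne_zero
  have e := Fc_prime hp h i a
  have key := fun c => norm_cf (a := a) (c := c) hM ψ hp h i 1
  rw [pow_one] at key
  by_cases hd : p ^ i ∣ a
  swap
  · rw [if_neg hd, mul_zero] at e
    rw [cf_eq_zero ψ e, norm_zero]
    positivity
  rw [if_pos hd] at e
  have hv := (pow_dvd_iff_le_vp hp ha0).1 hd
  have hq := dvd_div_iff hp ha0 hd
  have b : ∀ c : ℝ, ‖gs (i + 5) p (a / p ^ i)‖ ≤ nr p ^ c →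
      ‖Fc (p ^ i) p a‖ ≤ nr p ^ (1 / 2 + (i + c)) := fun c hc => by
    rw [e, norm_mul, norm_mul, norm_nm_pow, Real.rpow_add q0, Real.rpow_add q0, Complex.norm_conj]
    gcongr
    exact norm_gs_le (by norm_num) hp h _
  split_ifs with c1 c2
  · refine (key _ (b (1 / 2) ?_)).trans_eq (by congr 1; push_cast; ring)
    by_cases h6 : 6 ∣ i + 5
    · rw [gs_prime_zero h6 hp h, hq, if_neg (by omega), zero_sub, norm_neg, norm_one]
      exact Real.one_le_rpow q1 (by norm_num)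
    · exact norm_gs_le h6 hp h _
  · refine (key _ (b 1 ?_)).trans_eq (by congr 1; push_cast; ring)
    rw [gs_prime_zero (by omega) hp h, hq, if_pos (by omega), Real.rpow_one]
    exact norm_sub_one hp.ne_zero
  · rw [gs_dvd (by omega) hp h (hq.2 (by omega)), mul_zero, mul_zero] at e
    rw [cf_eq_zero ψ e, norm_zero]

end Crest.Agent.R17.PB2
end
end

-- ▼ part PVc/R17/PDefs

/-!
# Row 17, module M15: the probe (definitions, arithmetic of the coefficients)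

Parameters: `A = B^{13/16}` (rows), `X = B^{23/48}` (plain sum), `K₀` prime slots of total length
`B^{1/6}`; the dual length is `K = B · B^{1/6} · X / A = B^{5/6}`.  Heuristically
`Ia a = Mob ψ a B · ∏ slot_i(a) · conj (Pln 1 a X) · gw(N a/A)`; the coefficients `cf` are defined in
such a way that the dual side of `∑_a xiR(a) Ia(a)` is exactly a completed theta sum times a Gauss
sum average.
-/

set_option autoImplicit false

noncomputable section

namespace Crest.Agent.R17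

open scoped ComplexConjugate

open Classical in
/-- Indicator of the rows: primary and coprime to `M`. -/
def xiR (M a : O) : ℂ := if Primary a ∧ IsCoprime a M then 1 else 0

open Classical in
/-- The coefficient of the pair `(n, x)` in the row `a`; for `n` squarefree and `n, x, a` pairwise
coprime it is `μ(n) ψ(n) conj χ_n(a) χ_x(a)`. -/
def cf {M : O} (ψ : Chr M) (a n x : O) : ℂ :=
  if Primary x ∧ IsCoprime x M then
    th n * ev ψ n * Gf n * sym n (-1) * Rs n x *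
      ft (n * x) (fun k => sym n k * conj (gs 5 x k)) a / ((Real.sqrt (nr n) * nr x : ℝ) : ℂ)
  else 0

def Apar (B : ℝ) : ℝ := B ^ (13 / 16 : ℝ)
def Xpar (B : ℝ) : ℝ := B ^ (23 / 48 : ℝ)

/-- The test function of the row `a`. -/
def Phi (B : ℝ) (a : O) (m y : ℝ) : ℂ :=
  Wc (m / B) 0 * (gw (nr a * B / (Apar B * m)) : ℂ) * Wc (y / Xpar B) 0

open Classical in
/-- The row sum with mark `z` and compensation `π`. -/
def Irow {M : O} (ψ : Chr M) (B : ℝ) (a z π : O) : ℂ :=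
  ∑' v : O × O, if z ∣ v.1 then cf ψ a v.1 v.2 * Phi B a (nr v.1 / nr z) (nr v.2 * nr π) else 0

/-- Half-width (exponent) of the slot windows. -/
def kapS (K₀ : ℕ) : ℝ := 1 / (24 * (K₀ : ℝ) ^ 2)
/-- Exponent of the centre of slot `i`; `∑_{i < K₀} ell K₀ i = 1/6`,
`1/(8K₀) ≤ ell - kapS`, `ell + kapS ≤ 5/(24 K₀)`. -/
def ell (K₀ : ℕ) (i : ℕ) : ℝ := 1 / (6 * (K₀ : ℝ)) + kapS K₀ * (2 * i + 1 - K₀)
/-- Centre of slot `i`. -/
def Pw (K₀ : ℕ) (B : ℝ) (i : ℕ) : ℝ := B ^ ell K₀ i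

open Classical in
/-- The primes of slot `i`. -/
def Pset (M : O) (K₀ : ℕ) (B : ℝ) (i : ℕ) : Finset O :=
  (ball ⌊B ^ (ell K₀ i + kapS K₀)⌋₊).filter
    (fun p => Prime p ∧ Primary p ∧ ¬ p ∣ M ∧ B ^ (ell K₀ i - kapS K₀) < nr p)

/-- The weight of a prime in slot `i`. -/
def cw (K₀ : ℕ) (B : ℝ) (i : ℕ) (p : O) : ℂ := Wc (nr p / Pw K₀ B i) 0

/-- The slot sum of the row `a`. -/
def slt (M : O) (K₀ : ℕ) (B : ℝ) (i : ℕ) (a : O) : ℂ := slot (Pset M K₀ B i) (cw K₀ B i) a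

/-- The contribution of the row `a`; `J` is the set of compensated slots. -/
def Ia {M : O} (ψ : Chr M) (K₀ : ℕ) (B : ℝ) (a : O) : ℂ :=
  ∑ p ∈ Fintype.piFinset (fun i : Fin K₀ => Pset M K₀ B i), ∑ J : Finset (Fin K₀),
    (∏ i : Fin K₀, cw K₀ B i (p i)) * (∏ i ∈ Jᶜ, -conj (ev ψ (p i))) *
      Irow ψ B a (∏ i ∈ Jᶜ, p i) (∏ i ∈ J, p i)

/-- The total mass of the slots. -/
def Pt (M : O) (K₀ : ℕ) (B : ℝ) : ℂ := ∏ i : Fin K₀, ∑ p ∈ Pset M K₀ B i, cw K₀ B i p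

/-- The common size `A^{1/6} X B^{1/6}` of all the terms. -/
def NrmB (B : ℝ) : ℝ := Apar B ^ (1 / 6 : ℝ) * Xpar B * B ^ (1 / 6 : ℝ)

open Classical in
/-- Sixth-power free rows `r ≠ 1`. -/
def RS (M : O) (A : ℝ) : Finset O :=
  (rows A).filter (fun r => Primary r ∧ IsCoprime r M ∧ r ≠ 1 ∧ ∀ p ∈ pf r, vp p r < 6)

/-! ## A. slots -/

theorem PA.kap_nonneg (K₀ : ℕ) : 0 ≤ kapS K₀ := by unfold kapS; positivity

theorem PA.kap_pos {K₀ : ℕ} (h : 1 ≤ K₀) : 0 < kapS K₀ := by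
  have : (0 : ℝ) < K₀ := by exact_mod_cast h
  unfold kapS; positivity

theorem PA.sum_odd (K : ℕ) : ∑ i ∈ Finset.range K, (2 * (i : ℝ) + 1) = (K : ℝ) ^ 2 := by
  induction K with
  | zero => simp
  | succ k ih => rw [Finset.sum_range_succ, ih]; push_cast; ring

theorem sum_ell {K₀ : ℕ} (h : 1 ≤ K₀) : ∑ i : Fin K₀, ell K₀ i = 1 / 6 := by
  have hK : (0 : ℝ) < K₀ := by exact_mod_cast h
  rw [Fin.sum_univ_eq_sum_range (fun i => ell K₀ i) K₀]
  unfold ell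
  rw [Finset.sum_add_distrib, ← Finset.mul_sum, Finset.sum_sub_distrib, PA.sum_odd]
  simp only [Finset.sum_const, Finset.card_range, nsmul_eq_mul]
  field_simp
  ring
theorem ell_bounds {K₀ i : ℕ} (h : i < K₀) :
    1 / (8 * (K₀ : ℝ)) ≤ ell K₀ i - kapS K₀ ∧ ell K₀ i + kapS K₀ ≤ 5 / (24 * (K₀ : ℝ)) := by
  have hi : (i : ℝ) + 1 ≤ K₀ := by exact_mod_cast h
  have hi0 : (0 : ℝ) ≤ i := Nat.cast_nonneg i
  have hK : (0 : ℝ) < K₀ := by linarith
  have hk := PA.kap_nonneg K₀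
  have e1 : 1 / (8 * (K₀ : ℝ)) = 1 / (6 * (K₀ : ℝ)) - kapS K₀ * K₀ := by
    unfold kapS; field_simp; ring
  have e2 : 5 / (24 * (K₀ : ℝ)) = 1 / (6 * (K₀ : ℝ)) + kapS K₀ * K₀ := by
    unfold kapS; field_simp; ring
  rw [e1, e2]
  unfold ell
  constructor
  · nlinarith [mul_nonneg hk hi0]
  · nlinarith [mul_nonneg hk (sub_nonneg.2 hi)]
theorem prod_Pw {K₀ : ℕ} (h : 1 ≤ K₀) {B : ℝ} (hB : 0 < B) :
    ∏ i : Fin K₀, Pw K₀ B i = B ^ (1 / 6 : ℝ) := by
  rw [← sum_ell h, Real.rpow_sum_of_pos hB]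
  rfl
theorem mem_Pset {M p : O} {K₀ i : ℕ} {B : ℝ} (hB : 0 < B) : p ∈ Pset M K₀ B i ↔
    Prime p ∧ Primary p ∧ ¬ p ∣ M ∧ B ^ (ell K₀ i - kapS K₀) < nr p ∧
      nr p ≤ B ^ (ell K₀ i + kapS K₀) := by
  classical
  rw [Pset, Finset.mem_filter, mem_ball, Nat.le_floor_iff (by positivity)]
  tauto

theorem PA.ell_step (K₀ : ℕ) {i j : ℕ} (h : i < j) : ell K₀ i + kapS K₀ ≤ ell K₀ j - kapS K₀ := by
  have hi : (i : ℝ) + 1 ≤ j := by exact_mod_cast h
  unfold ell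
  nlinarith [mul_nonneg (PA.kap_nonneg K₀) (sub_nonneg.2 hi)]

theorem disjoint_Pset (M : O) (K₀ : ℕ) {B : ℝ} (hB : 1 ≤ B) {i j : ℕ} (h : i ≠ j) :
    Disjoint (Pset M K₀ B i) (Pset M K₀ B j) := by
  have hB0 : 0 < B := one_pos.trans_le hB
  wlog hij : i < j generalizing i j
  · exact (this h.symm (by omega)).symm
  rw [Finset.disjoint_left]
  intro p h1 h2
  rw [mem_Pset hB0] at h1 h2
  have := Real.rpow_le_rpow_of_exponent_le hB (PA.ell_step K₀ hij)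
  linarith [h1.2.2.2.2, h2.2.2.2.1]
theorem norm_cw_le (K₀ : ℕ) (B : ℝ) (i : ℕ) (p : O) : ‖cw K₀ B i p‖ ≤ 1 := by
  simpa [cw] using norm_Wc_le (nr p / Pw K₀ B i) 0

theorem PA.Pw_pos (K₀ : ℕ) {B : ℝ} (hB : 0 < B) (i : ℕ) : 0 < Pw K₀ B i := by
  unfold Pw; positivity

theorem PA.one_le_Pw {K₀ i : ℕ} (h : i < K₀) {B : ℝ} (hB : 1 ≤ B) : 1 ≤ Pw K₀ B i := by
  refine Real.one_le_rpow hB ?_
  have h1 := (ell_bounds h).1
  have h2 := PA.kap_nonneg K₀
  have h3 : 0 ≤ 1 / (8 * (K₀ : ℝ)) := by positivity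
  linarith

theorem PA.Pw_le {K₀ i : ℕ} (h : i < K₀) {B : ℝ} (hB : 1 ≤ B) : Pw K₀ B i ≤ B := by
  refine Real.rpow_le_self_of_one_le hB ?_
  have h1 := (ell_bounds h).2
  have h2 := PA.kap_nonneg K₀
  have hK : (1 : ℝ) ≤ K₀ := by exact_mod_cast (show 1 ≤ K₀ by omega)
  have h3 : 5 / (24 * (K₀ : ℝ)) ≤ 1 := by
    rw [div_le_one (by positivity)]; linarith
  linarith

theorem PA.norm_Wc_mul {y P : ℝ} (hy : 0 < y) (hP : 0 < P) (σ : ℝ) :
    ‖Wc (y / P) 0‖ * y ^ σ = ‖Wc (y / P) σ‖ * P ^ σ := by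
  rw [norm_Wc, norm_Wc, Real.rpow_def_of_pos hy, Real.rpow_def_of_pos hP, ← Real.exp_add,
    ← Real.exp_add, Real.log_div hy.ne' hP.ne']
  congr 1
  simp only [Complex.zero_re, Complex.ofReal_re]
  ring

open Classical in
/-- the indicator of the non-zero elements -/
def PA.ind (n : O) : ℂ := if n = 0 then 0 else 1

theorem PA.polyB_ind : PolyB PA.ind 1 0 := by
  refine ⟨by simp [PA.ind], fun n => ?_⟩
  unfold PA.ind
  split_ifs <;> simp

theorem PA.ind_mul {n : O} (hn : n ≠ 0) (z : ℂ) : PA.ind n * z = z := by simp [PA.ind, hn]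

/-- `∑_p |cw p| N p^{σ} ≪ P^{1+σ}` and `|cw p| N p^σ ≪ P^σ`. -/
theorem sum_cw_le (b : ℝ) : ∃ C : ℝ, 0 < C ∧ ∀ (M : O) (K₀ i : ℕ) (B σ : ℝ), 0 < B → |σ| ≤ b →
    ∑ p ∈ Pset M K₀ B i, ‖cw K₀ B i p‖ * nr p ^ σ ≤ C * Pw K₀ B i ^ (1 + σ) ∧
    ∀ p : O, p ≠ 0 → ‖cw K₀ B i p‖ * nr p ^ σ ≤ C * Pw K₀ B i ^ σ := by
  obtain ⟨C, hC, h⟩ := tsum_norm_Sm_le 0 0 b le_rfl
  refine ⟨C + Real.exp (b ^ 2 / 4), by positivity, fun M K₀ i B σ hB hσ => ⟨?_, fun p hp => ?_⟩⟩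
  · have hP := PA.Pw_pos K₀ hB i
    have h1 := h PA.ind 1 _ (σ : ℂ) PA.polyB_ind hP (by simpa using hσ)
    have h2 : ∑ p ∈ Pset M K₀ B i, ‖cw K₀ B i p‖ * nr p ^ σ =
        (∑ p ∈ Pset M K₀ B i, ‖PA.ind p * Wc (nr p / Pw K₀ B i) σ‖) * Pw K₀ B i ^ σ := by
      rw [Finset.sum_mul]
      refine Finset.sum_congr rfl fun p hp => ?_
      have hp0 := ((mem_Pset hB).1 hp).1.ne_zero
      rw [PA.ind_mul hp0, cw, PA.norm_Wc_mul (nr_pos hp0) hP]
    have h3 := ((summable_Sm PA.polyB_ind hP (σ : ℂ)).sum_le_tsum (Pset M K₀ B i)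
      fun _ _ => norm_nonneg _).trans (h1.trans
        (mul_le_mul_of_nonneg_left (min_le_left _ _) (by positivity)))
    rw [zero_add, Real.rpow_one, mul_one] at h3
    rw [h2, Real.rpow_add hP, Real.rpow_one]
    calc _ ≤ C * Pw K₀ B i * Pw K₀ B i ^ σ := by gcongr
      _ = C * (Pw K₀ B i * Pw K₀ B i ^ σ) := by ring
      _ ≤ _ := by gcongr; linarith [Real.exp_pos (b ^ 2 / 4)]
  · have hP := PA.Pw_pos K₀ hB i
    rw [cw, PA.norm_Wc_mul (nr_pos hp) hP]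
    gcongr
    refine (norm_Wc_le _ _).trans ?_
    have : σ ^ 2 ≤ b ^ 2 := sq_le_sq' (by linarith [(abs_le.1 hσ).1]) (abs_le.1 hσ).2
    have h2 : Real.exp ((σ : ℂ).re ^ 2 / 4) ≤ Real.exp (b ^ 2 / 4) := by
      rw [Complex.ofReal_re]; gcongr
    linarith
/-- The primes far from the centre are negligible. -/
theorem sum_cw_tail {ε : ℝ} (hε : 0 < ε) (J : ℝ) : ∃ C : ℝ, 0 < C ∧
    ∀ (K₀ i : ℕ) (B : ℝ) (S : Finset O), 1 ≤ B → i < K₀ →
      (∀ p ∈ S, p ≠ 0 ∧ (nr p ≤ Pw K₀ B i * B ^ (-ε) ∨ Pw K₀ B i * B ^ ε ≤ nr p)) →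
      ∑ p ∈ S, ‖cw K₀ B i p‖ ≤ C * B ^ (-J) := by
  obtain ⟨C, hC, h⟩ := WeightB.term_le ((|J| + 1) / ε) 0 0 (by positivity)
  obtain ⟨C', hC', h'⟩ := WeightB.tsum_g_le
  refine ⟨C * C', by positivity, fun K₀ i B S hB hi hS => ?_⟩
  have hB0 : 0 < B := one_pos.trans_le hB
  have hP := PA.Pw_pos K₀ hB0 i
  have e : (B ^ ε) ^ (-((|J| + 1) / ε)) = B ^ (-(|J| + 1)) := by
    rw [← Real.rpow_mul hB0.le]; congr 1; field_simp
  have h1 : ∀ p ∈ S, ‖cw K₀ B i p‖ ≤ C * B ^ (-(|J| + 1)) * WeightB.g (Pw K₀ B i) p := by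
    intro p hp
    obtain ⟨hp0, hp1⟩ := hS p hp
    have := h PA.ind 1 (Pw K₀ B i) (B ^ ε) 0 PA.polyB_ind hP (Real.one_le_rpow hB hε.le)
      (by simp) p fun _ => by
        rcases hp1 with h2 | h2
        · right
          rw [div_le_iff₀ hP, ← Real.rpow_neg hB0.le, mul_comm]
          exact h2
        · left
          rw [le_div_iff₀ hP, mul_comm]
          exact h2
    rwa [PA.ind_mul hp0, e, Real.rpow_zero, mul_one, mul_one] at this
  refine (Finset.sum_le_sum h1).trans ?_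
  rw [← Finset.mul_sum]
  have h2 := ((WeightB.summable_g hP).sum_le_tsum S fun n _ => WeightB.g_nonneg hP n).trans
    ((h' _ hP).trans (mul_le_mul_of_nonneg_left (PA.Pw_le hi hB) hC'.le))
  have h3 : B ^ (-(|J| + 1)) * B ≤ B ^ (-J) := by
    rw [← Real.rpow_add_one hB0.ne']
    exact Real.rpow_le_rpow_of_exponent_le hB (by linarith [le_abs_self J])
  calc _ ≤ C * B ^ (-(|J| + 1)) * (C' * B) := by gcongr
    _ = C * C' * (B ^ (-(|J| + 1)) * B) := by ring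
    _ ≤ _ := by gcongr

theorem PA.Wc_zero (y : ℝ) : Wc y 0 = ((Real.exp (-(Real.log y) ^ 2) : ℝ) : ℂ) := by
  simp [Wc]

theorem PA.slot_lower {M : O} {K₀ i : ℕ} {B : ℝ} (hB : 1 ≤ B) (h2 : 2 ≤ B ^ kapS K₀) :
    Real.exp (-1) * (primesIn M (Pw K₀ B i)).card ≤ ‖∑ p ∈ Pset M K₀ B i, cw K₀ B i p‖ := by
  have hB0 : 0 < B := one_pos.trans_le hB
  have hP := PA.Pw_pos K₀ hB0 i
  have hsub : primesIn M (Pw K₀ B i) ⊆ Pset M K₀ B i := by
    intro p hp
    rw [mem_primesIn hP.le] at hp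
    obtain ⟨a1, a2, a3, a4, a5⟩ := hp
    refine (mem_Pset hB0).2 ⟨a1, a2, a3, lt_of_le_of_lt ?_ a4, a5.trans ?_⟩
    · exact Real.rpow_le_rpow_of_exponent_le hB (by linarith [PA.kap_nonneg K₀])
    · rw [Real.rpow_add hB0, mul_comm]
      exact mul_le_mul_of_nonneg_left h2 hP.le
  simp only [cw, PA.Wc_zero]
  rw [← Complex.ofReal_sum, Complex.norm_real, Real.norm_eq_abs,
    abs_of_nonneg (Finset.sum_nonneg fun _ _ => (Real.exp_pos _).le)]
  refine le_trans ?_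
    (Finset.sum_le_sum_of_subset_of_nonneg hsub fun _ _ _ => (Real.exp_pos _).le)
  rw [mul_comm, ← nsmul_eq_mul]
  refine Finset.card_nsmul_le_sum _ _ _ fun p hp => ?_
  rw [mem_primesIn hP.le] at hp
  obtain ⟨-, -, -, a4, a5⟩ := hp
  have b1 : 1 ≤ nr p / Pw K₀ B i := (one_le_div hP).2 a4.le
  have b2 : nr p / Pw K₀ B i ≤ 2 := (div_le_iff₀ hP).2 a5
  have b3 := Real.log_nonneg b1
  have b4 := Real.log_le_sub_one_of_pos (one_pos.trans_le b1)
  refine Real.exp_le_exp.2 ?_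
  nlinarith

theorem Pt_lower {M : O} (hM : Adm M) {K₀ : ℕ} (h : 1 ≤ K₀) {ε : ℝ} (hε : 0 < ε) :
    ∃ B₀ : ℝ, ∀ B ≥ B₀, B ^ (1 / 6 - ε) ≤ ‖Pt M K₀ B‖ := by
  have hK : (0 : ℝ) < K₀ := by exact_mod_cast h
  obtain ⟨P₀, hP₀⟩ := card_primesIn_ge hM.1 (show 0 < 3 * ε by positivity)
  obtain ⟨P₁, hP₁⟩ := detector_const (C := Real.exp 1) (show 0 < 3 * ε by positivity)
  obtain ⟨B₁, hB₁⟩ := detector_const (C := max P₀ P₁) (show 0 < 1 / (8 * (K₀ : ℝ)) by positivity)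
  obtain ⟨B₂, hB₂⟩ := detector_const (C := 2) (PA.kap_pos h)
  refine ⟨max 1 (max B₁ B₂), fun B hB => ?_⟩
  simp only [ge_iff_le, max_le_iff] at hB
  obtain ⟨hB, hB1, hB2⟩ := hB
  have hB0 : 0 < B := one_pos.trans_le hB
  have key : ∀ i : Fin K₀, Pw K₀ B i ^ (1 - 6 * ε) ≤ ‖∑ p ∈ Pset M K₀ B i, cw K₀ B i p‖ := by
    intro i
    have hP := PA.Pw_pos K₀ hB0 i
    have h1 : max P₀ P₁ ≤ Pw K₀ B i := (hB₁ B hB1).trans
      (Real.rpow_le_rpow_of_exponent_le hB (by linarith [(ell_bounds i.2).1, PA.kap_nonneg K₀]))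
    rw [max_le_iff] at h1
    refine le_trans ?_ (PA.slot_lower hB (hB₂ B hB2))
    refine le_trans ?_ (mul_le_mul_of_nonneg_left (hP₀ _ h1.1) (Real.exp_pos _).le)
    rw [Real.exp_neg, le_inv_mul_iff₀ (Real.exp_pos _),
      show 1 - 3 * ε = 3 * ε + (1 - 6 * ε) by ring, Real.rpow_add hP]
    exact mul_le_mul_of_nonneg_right (hP₁ _ h1.2) (by positivity)
  rw [Pt, norm_prod]
  refine le_trans (le_of_eq ?_) (Finset.prod_le_prod
    (fun i _ => (Real.rpow_pos_of_pos (PA.Pw_pos K₀ hB0 i) _).le) fun i _ => key i)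
  rw [Real.finsetProd_rpow Finset.univ (fun i : Fin K₀ => Pw K₀ B i)
    fun i _ => (PA.Pw_pos K₀ hB0 i).le, prod_Pw h hB0, ← Real.rpow_mul hB0.le]
  congr 1
  ring

theorem PA.ev_one_chr {M n : O} (h : IsCoprime n M) : ev (1 : Chr M) n = 1 :=
  MulChar.one_apply (isUnit_mk_iff.2 h)

/-- Class bound for a slot (`Prm_class` for the trivial character and `sum_cw_tail`). -/
theorem slt_class {M : O} (hM : Adm M) {K₀ : ℕ} {ε : ℝ} (hε : 0 < ε) : ∃ C : ℝ, 0 < C ∧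
    ∀ (B σ T : ℝ) (i : ℕ) (a : O), 1 ≤ B → i < K₀ → ¬ Exc M a → nr a ≤ B → 1 / 2 ≤ σ → σ ≤ 1 →
      ZF M a σ T → Real.log B + 3 ≤ T → ‖slt M K₀ B i a‖ ≤ C * B ^ ε * Pw K₀ B i ^ σ := by
  classical
  rcases Nat.eq_zero_or_pos K₀ with rfl | hK
  · exact ⟨1, one_pos, fun _ _ _ _ _ _ h => absurd h (Nat.not_lt_zero _)⟩
  obtain ⟨C, hC, h⟩ := Prm_class hM hε
  obtain ⟨C', hC', h'⟩ := sum_cw_tail (PA.kap_pos hK) 0
  refine ⟨C + C', by positivity, fun B σ T i a hB hi ha haB hσ hσ1 hZ hT => ?_⟩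
  have hB0 : 0 < B := one_pos.trans_le hB
  have hP := PA.Pw_pos K₀ hB0 i
  have h1 := h B (Pw K₀ B i) 0 σ T 1 a hB ha haB hσ hσ1 hZ (by simpa using hT)
    (by simpa using hB0.le) hP (PA.Pw_le hi hB)
  rw [Complex.ofReal_zero, zero_mul] at h1
  set f : O → ℂ := fun p => if Prime p then rc (1 : Chr M) a p * Wc (nr p / Pw K₀ B i) 0 else 0
    with hf
  have hfn : Summable fun p => ‖f p‖ := by
    refine Summable.of_nonneg_of_le (fun _ => norm_nonneg _) (fun p => ?_)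
      (summable_Sm (polyB_rc hM (1 : Chr M) a) hP 0)
    simp only [hf]
    split_ifs
    · exact le_rfl
    · rw [norm_zero]; exact norm_nonneg _
  have hfs : Summable f := hfn.of_norm
  have e1 : ∑ p ∈ Pset M K₀ B i, f p = slt M K₀ B i a := by
    refine Finset.sum_congr rfl fun p hp => ?_
    obtain ⟨a1, a2, a3, -⟩ := (mem_Pset hB0).1 hp
    simp only [hf, if_pos a1, rc, if_pos a2,
      PA.ev_one_chr (a1.irreducible.coprime_iff_not_dvd.2 a3), cw]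
    ring
  have e2 : slt M K₀ B i a = Prm (1 : Chr M) a (Pw K₀ B i) 0 -
      ∑' p : ↑((Pset M K₀ B i : Set O)ᶜ), f p := by
    rw [← e1, eq_sub_iff_add_eq]
    exact hfs.sum_add_tsum_compl
  have h2 : ‖∑' p : ↑((Pset M K₀ B i : Set O)ᶜ), f p‖ ≤ C' := by
    refine (norm_tsum_le_tsum_norm (hfn.subtype _)).trans ?_
    refine (hfn.subtype _).tsum_le_of_sum_le fun S => ?_
    have h3 := h' K₀ i B ((S.map (Function.Embedding.subtype _)).filter fun p => f p ≠ 0) hB hi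
      fun p hp => by
        rw [Finset.mem_filter, Finset.mem_map] at hp
        obtain ⟨⟨⟨q, hq⟩, -, rfl⟩, hp⟩ := hp
        simp only [Function.Embedding.subtype_apply] at hp ⊢
        have a1 : Prime q := by
          by_contra hc
          exact hp (by simp only [hf, if_neg hc])
        have a2 : Primary q := by
          by_contra hc
          exact hp (by simp only [hf, rc, if_neg hc, zero_mul, ite_self])
        have a3 : ¬ q ∣ M := by
          intro hc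
          refine hp ?_
          simp only [hf, rc, ev_eq_zero (1 : Chr M)
            (fun hco => a1.irreducible.coprime_iff_not_dvd.1 hco hc), zero_mul, ite_self]
        refine ⟨a1.ne_zero, ?_⟩
        by_contra hc
        rw [not_or, not_le, not_le, Pw, ← Real.rpow_add hB0, ← Real.rpow_add hB0] at hc
        exact hq ((mem_Pset hB0).2 ⟨a1, a2, a3, by simpa only [sub_eq_add_neg] using hc.1, hc.2.le⟩)
    rw [neg_zero, Real.rpow_zero, mul_one] at h3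
    refine le_trans ?_ h3
    rw [Finset.sum_filter, Finset.sum_map]
    refine Finset.sum_le_sum fun p _ => ?_
    simp only [Function.Embedding.subtype_apply, Function.comp]
    split_ifs with hp
    · simp only [hf]
      split_ifs
      · rw [norm_mul, cw]
        exact mul_le_of_le_one_left (norm_nonneg _) (norm_rc_le hM _ _ _)
      · simp
    · rw [not_not.1 hp, norm_zero]
  have h4 : 1 ≤ B ^ ε * Pw K₀ B i ^ σ :=
    one_le_mul_of_one_le_of_one_le (Real.one_le_rpow hB hε.le)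
      (Real.one_le_rpow (PA.one_le_Pw hi hB) (by linarith))
  rw [e2]
  refine (norm_sub_le _ _).trans ?_
  calc _ ≤ C * B ^ ε * Pw K₀ B i ^ σ + C' * 1 := by rw [mul_one]; exact add_le_add h1 h2
    _ ≤ C * B ^ ε * Pw K₀ B i ^ σ + C' * (B ^ ε * Pw K₀ B i ^ σ) := by gcongr
    _ = _ := by ring

theorem PA.prod_slot {M : O} {κ : Type} (Z : κ → ℝ) (Ps : κ → Finset O) (c : κ → O → ℂ)
    (hc : ∀ i p, ‖c i p‖ ≤ 1) (I : Finset κ)
    (h : ∀ i ∈ I, ∀ p ∈ Ps i, Prime p ∧ Primary p ∧ ¬ p ∣ M ∧ nr p ≤ Z i)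
    (hd : (I : Set κ).PairwiseDisjoint Ps) :
    ∃ (Zs : Finset O) (c' : O → ℂ), (∀ z ∈ Zs, (SP M z ∧ nr z ≤ ∏ i ∈ I, Z i) ∧
      ∀ p, Prime p → Primary p → p ∣ z → ∃ i ∈ I, p ∈ Ps i) ∧
      (∀ z, ‖c' z‖ ≤ 1) ∧ ∀ a, ∏ i ∈ I, slot (Ps i) (c i) a = slot Zs c' a := by
  classical
  induction I using Finset.induction_on with
  | empty =>
    refine ⟨{1}, fun _ => 1, fun z hz => ?_, fun _ => by simp, fun a => by simp [slot]⟩
    rw [Finset.mem_singleton.1 hz]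
    exact ⟨⟨⟨primary_one, squarefree_one, isCoprime_one_left⟩, by simp [nr]⟩,
      fun p hp _ h1 => absurd h1 hp.not_dvd_one⟩
  | insert j I hj ih =>
    obtain ⟨Zs, c', h1, h2, h3⟩ := ih (fun i hi => h i (Finset.mem_insert_of_mem hi))
      (hd.subset (by simp))
    have hj' := h j (Finset.mem_insert_self _ _)
    have hnd : ∀ p ∈ Ps j, ∀ z ∈ Zs, ¬ p ∣ z := by
      intro p hp z hz hpz
      obtain ⟨i, hi, hpi⟩ := (h1 z hz).2 p (hj' p hp).1 (hj' p hp).2.1 hpz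
      have hne : j ≠ i := fun e => hj (e ▸ hi)
      exact Finset.disjoint_left.1 (hd (by simp) (by simp [hi]) hne) hp hpi
    set F : O × O → O := fun v => v.1 * v.2 with hF
    have hinj : Set.InjOn F ↑(Ps j ×ˢ Zs) := by
      rintro ⟨p, z⟩ hv ⟨q, w⟩ hw e
      rw [Finset.mem_coe, Finset.mem_product] at hv hw
      simp only [hF] at e hv hw
      have hp := hj' p hv.1
      have hq := hj' q hw.1
      have hpq : p = q := by
        rcases hp.1.dvd_or_dvd (e ▸ dvd_mul_right p z : p ∣ q * w) with h4 | h4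
        · exact BasicB.eq_of_dvd hp.1 hq.1 hp.2.1 hq.2.1 h4
        · exact absurd h4 (hnd p hv.1 w hw.2)
      subst hpq
      rw [mul_left_cancel₀ hp.1.ne_zero e]
    refine ⟨(Ps j ×ˢ Zs).image F, fun w => c j (Function.invFunOn F ↑(Ps j ×ˢ Zs) w).1 *
      c' (Function.invFunOn F ↑(Ps j ×ˢ Zs) w).2, fun w hw => ?_, fun w => ?_, fun a => ?_⟩
    · obtain ⟨⟨p, z⟩, hv, rfl⟩ := Finset.mem_image.1 hw
      rw [Finset.mem_product] at hv
      obtain ⟨a1, a2, a3, a4⟩ := hj' p hv.1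
      obtain ⟨⟨⟨b1, b2, b3⟩, b4⟩, b5⟩ := h1 z hv.2
      simp only [hF] at *
      refine ⟨⟨⟨a2.mul b1, squarefree_mul_iff.2 ⟨?_, a1.squarefree, b2⟩,
        (a1.irreducible.coprime_iff_not_dvd.2 a3).mul_left b3⟩, ?_⟩, fun q q1 q2 q3 => ?_⟩
      · exact (a1.irreducible.coprime_iff_not_dvd.2 (hnd p hv.1 z hv.2)).isRelPrime
      · rw [Finset.prod_insert hj, nr_mul]
        exact mul_le_mul a4 b4 (Nat.cast_nonneg _) ((Nat.cast_nonneg _).trans a4)
      · rcases q1.dvd_or_dvd q3 with h4 | h4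
        · exact ⟨j, Finset.mem_insert_self _ _, BasicB.eq_of_dvd q1 a1 q2 a2 h4 ▸ hv.1⟩
        · obtain ⟨i, hi, hq⟩ := b5 q q1 q2 h4
          exact ⟨i, Finset.mem_insert_of_mem hi, hq⟩
    · rw [norm_mul]
      exact mul_le_one₀ (hc _ _) (norm_nonneg _) (h2 _)
    · rw [Finset.prod_insert hj, h3, slot, slot, slot, Finset.sum_image hinj,
        Finset.sum_mul_sum, Finset.sum_product]
      refine Finset.sum_congr rfl fun p hp => Finset.sum_congr rfl fun z hz => ?_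
      have hv : (p, z) ∈ (↑(Ps j ×ˢ Zs) : Set (O × O)) := by
        rw [Finset.mem_coe, Finset.mem_product]; exact ⟨hp, hz⟩
      rw [hinj.leftInvOn_invFunOn hv]
      simp only [hF]
      rw [sym_mul_left (hj' p hp).1.ne_zero (h1 z hz).1.1.1.ne_zero, map_mul]
      ring

open Classical in
/-- A product of disjoint prime slots is one slot over squarefree products. -/
theorem prod_slot_eq {M : O} (hM : Adm M) {ι : Type} (I : Finset ι) (Z : ι → ℝ) (Ps : ι → Finset O)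
    (c : ι → O → ℂ)
    (h : ∀ i ∈ I, ∀ p ∈ Ps i, Prime p ∧ Primary p ∧ ¬ p ∣ M ∧ nr p ≤ Z i)
    (hd : (I : Set ι).PairwiseDisjoint Ps) (hc : ∀ i p, ‖c i p‖ ≤ 1) :
    ∃ (Zs : Finset O) (c' : O → ℂ), (∀ z ∈ Zs, SP M z ∧ nr z ≤ ∏ i ∈ I, Z i) ∧
      (∀ z, ‖c' z‖ ≤ 1) ∧ ∀ a, ∏ i ∈ I, slot (Ps i) (c i) a = slot Zs c' a := by
  have _ := hM
  obtain ⟨Zs, c', h1, h2, h3⟩ := PA.prod_slot Z Ps c hc I h hd
  exact ⟨Zs, c', fun z hz => (h1 z hz).1, h2, h3⟩

/-! ## B. the coefficients `cf` -/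

theorem PB1_th_one : th 1 = 1 := by
  have h := sq1_cu primary_one squarefree_one primary_one
  simp only [one_pow, mul_one] at h
  rw [th, if_pos ⟨primary_one, h.2.2⟩, h.1, h.2.1]
  simp [arg, nr]

theorem PB1_norm_th_le (n : O) : ‖th n‖ ≤ Real.sqrt (nr n) := by
  unfold th
  split_ifs with h
  · obtain ⟨e, hm, hs, hd⟩ := eq_sq1_mul_cu h.1 h.2
    have h0 : 0 < Real.sqrt (nr (sq1 n)) := Real.sqrt_pos.2 (nr_pos hm.ne_zero)
    rw [norm_mul, norm_mul, norm_div, norm_gc hm hs, Complex.norm_conj, norm_arg h.1.ne_zero,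
      Complex.norm_real, Complex.norm_real, Real.norm_of_nonneg h0.le,
      Real.norm_of_nonneg (Real.sqrt_nonneg _), div_self h0.ne', one_mul, mul_one]
    refine Real.sqrt_le_sqrt ?_
    have : cu n ∣ n := by
      conv_rhs => rw [e]
      exact Dvd.dvd.mul_left (dvd_pow_self _ (by norm_num)) _
    exact_mod_cast nm_le_of_dvd this h.1.ne_zero
  · simp

theorem PB1_cub_cube {m d m' d' : O} (hm : Primary m) (hd : Primary d)
    (h : IsCoprime (m * d ^ 3) (m' * d' ^ 3)) : cub (m * d ^ 3) (m' * d' ^ 3) = cub m m' := by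
  have h1 : IsCoprime d (m' * d' ^ 3) :=
    (IsCoprime.pow_left_iff (by norm_num : 0 < 3)).1 h.of_mul_left_right
  have h2 : IsCoprime m d' :=
    (IsCoprime.pow_right_iff (by norm_num : 0 < 3)).1 h.of_mul_left_left.of_mul_right_right
  rw [cub_mul_left hm.ne_zero (pow_ne_zero _ hd.ne_zero), cub_pow_left hd.ne_zero,
    cub_pow_three hd h1, mul_one, cub_mul_right, cub_pow_right, cub_pow_three hm h2, mul_one]

theorem PB1_th_eq {m d : O} (hm : Primary m) (hs : Squarefree m) (hd : Primary d) :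
    th (m * d ^ 3) = gc m 1 / (Real.sqrt (nr m) : ℂ) * (Real.sqrt (nr d) : ℂ) *
      conj (arg (m * d ^ 3)) := by
  obtain ⟨h1, h2, h3⟩ := sq1_cu hm hs hd
  rw [th, if_pos ⟨hm.mul (hd.pow 3), h3⟩, h1, h2]

theorem PB1_th_zero {m n : O} (hm : Primary m) (hn : Primary n) (h : IsCoprime m n)
    (h2 : ¬ ∀ p ∈ pf m, vp p m % 3 ≠ 2) : th (m * n) = 0 := by
  rw [th, if_neg]
  rintro ⟨-, h3⟩
  refine h2 fun p hp => ?_
  have hp' := BasicB.of_mem_pf hp
  have := h3 p (by rw [pf_mul hm.ne_zero hn.ne_zero]; exact Finset.mem_union_left _ hp)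
  rw [vp_mul hp'.1 hm.ne_zero hn.ne_zero, (vp_eq_zero_iff hp'.1 hn.ne_zero).2 fun hpn =>
    hp'.1.not_isUnit (h.isUnit_of_dvd' hp'.2.2 hpn), add_zero] at this
  exact this

theorem PB1_th_mul {m n : O} (hm : Primary m) (hn : Primary n) (h : IsCoprime m n) :
    th (m * n) = cub m n * cub n m * th m * th n := by
  by_cases h1 : ∀ p ∈ pf m, vp p m % 3 ≠ 2
  swap
  · rw [PB1_th_zero hm hn h h1, show th m = 0 by rw [th, if_neg fun h' => h1 h'.2]]; ring
  by_cases h2 : ∀ p ∈ pf n, vp p n % 3 ≠ 2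
  swap
  · rw [mul_comm m n, PB1_th_zero hn hm h.symm h2,
      show th n = 0 by rw [th, if_neg fun h' => h2 h'.2]]; ring
  obtain ⟨e₁, hm₁, hs₁, hd₁⟩ := eq_sq1_mul_cu hm h1
  obtain ⟨e₂, hm₂, hs₂, hd₂⟩ := eq_sq1_mul_cu hn h2
  generalize sq1 m = a at e₁ hm₁ hs₁
  generalize cu m = b at e₁ hd₁
  generalize sq1 n = c at e₂ hm₂ hs₂
  generalize cu n = d at e₂ hd₂
  subst e₁ e₂
  have hac : IsCoprime a c := h.of_mul_left_left.of_mul_right_left
  have e : a * b ^ 3 * (c * d ^ 3) = a * c * (b * d) ^ 3 := by ring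
  have ha := arg_mul (a * b ^ 3) (c * d ^ 3)
  rw [PB1_cub_cube hm₁ hd₁ h, PB1_cub_cube hm₂ hd₂ h.symm, PB1_th_eq hm₁ hs₁ hd₁,
    PB1_th_eq hm₂ hs₂ hd₂]
  rw [e] at ha ⊢
  rw [PB1_th_eq (hm₁.mul hm₂) ((squarefree_mul_iff).2 ⟨hac.isRelPrime, hs₁, hs₂⟩) (hd₁.mul hd₂), ha,
    gc_mul hm₁ hm₂ hac, nr_mul, nr_mul, Real.sqrt_mul (Nat.cast_nonneg _),
    Real.sqrt_mul (Nat.cast_nonneg _), map_mul]
  push_cast
  ring

theorem PB1_norm_gs_le (j : ℕ) {n : O} (hn : n ≠ 0) (k : O) : ‖gs j n k‖ ≤ nr n := by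
  unfold gs
  refine (norm_sum_le _ _).trans ?_
  refine (Finset.sum_le_card_nsmul _ _ 1 fun x _ => ?_).trans ?_
  · rw [norm_mul, norm_eq, mul_one, norm_pow]
    exact pow_le_one₀ (norm_nonneg _) (norm_sym_le _ _)
  · rw [card_res hn]; simp

theorem PB1_norm_ft_le {q : O} (hq : q ≠ 0) {f : O → ℂ} {C : ℝ} (hf : ∀ x, ‖f x‖ ≤ C) (a : O) :
    ‖ft q f a‖ ≤ nr q * C := by
  unfold ft
  refine (norm_sum_le _ _).trans ?_
  refine (Finset.sum_le_card_nsmul _ _ C fun x _ => ?_).trans ?_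
  · rw [norm_mul, norm_eq, mul_one]; exact hf x
  · rw [card_res hq]; simp

theorem PB1_norm_Rs {m n : O} (hm : IsCoprime m 2) (hn : IsCoprime n 2) : ‖Rs m n‖ = 1 := by
  rw [Rs, norm_mul, norm_mul, Complex.norm_conj, Complex.norm_conj, norm_g4 (hm.mul_left hn),
    norm_g4 hm, norm_g4 hn]; norm_num

theorem PB1_ft_const (q : O) (c : ℂ) (f : O → ℂ) (a : O) :
    ft q (fun k => c * f k) a = c * ft q f a := by
  unfold ft
  rw [Finset.mul_sum]
  exact Finset.sum_congr rfl fun x _ => by ring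

theorem PB1_per (n x : O) (k k' : O) (h : n * x ∣ k - k') :
    sym n k * conj (gs 5 x k) = sym n k' * conj (gs 5 x k') := by
  rw [sym_congr ((rad_dvd n).trans ((dvd_mul_right n x).trans h)),
    gs_congr 5 ((dvd_mul_left x n).trans h)]

theorem PB1_twist {n x y : O} (hn : PO n) (hx : PO x) (h : IsCoprime y x) (k : O) :
    sym n (y * k) * conj (gs 5 x (y * k)) =
      sym n y * conj (sym x y) * (sym n k * conj (gs 5 x k)) := by
  rw [sym_mul_right hn, mul_comm y k, gs_mul_unit 5 hx h, map_mul, Complex.conj_conj,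
    conj_sym hx.1]
  ring

theorem PB1_mul_conj {n y : O} (hn : Primary n) (h : IsCoprime n y) :
    sym n y * conj (sym n y) = 1 := by
  rw [mul_comm]; exact Gauss_conj_mul (norm_sym hn h)

theorem PB1_ft_row {n x y : O} (hn : PO n) (hx : PO x) (h : IsCoprime y (n * x)) (a : O) :
    ft (n * x) (fun k => sym n k * conj (gs 5 x k)) (a * y) =
      conj (sym n y) * sym x y * ft (n * x) (fun k => sym n k * conj (gs 5 x k)) a := by
  have hq : n * x ≠ 0 := mul_ne_zero hn.1.ne_zero hx.1.ne_zero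
  have h1 := sum_res_affine hq (fun k => sym n k * conj (gs 5 x k) * eq (a * k) (n * x))
    (fun k k' hk => by
      rw [PB1_per n x k k' hk, eq_congr (show n * x ∣ a * k - a * k' by
        rw [← mul_sub]; exact hk.mul_left a)]) h 0
  have h2 := PB1_mul_conj hn.1 h.of_mul_right_left.symm
  have h3 := PB1_mul_conj hx.1 h.of_mul_right_right.symm
  unfold ft
  rw [← h1, Finset.mul_sum]
  refine Finset.sum_congr rfl fun k _ => ?_
  rw [add_zero, PB1_twist hn hx h.of_mul_right_right, mul_assoc a y k]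
  linear_combination (-(sym n k * conj (gs 5 x k) * eq (a * (y * k)) (n * x))) *
    (sym x y * conj (sym x y) * h2 + h3)

theorem PB1_ft_mul {n₁ x₁ n₂ x₂ : O} (h₁ : PO n₁) (h₂ : PO n₂) (h₃ : PO x₁) (h₄ : PO x₂)
    (h : IsCoprime (n₁ * x₁) (n₂ * x₂)) (a : O) :
    ft (n₁ * n₂ * (x₁ * x₂)) (fun k => sym (n₁ * n₂) k * conj (gs 5 (x₁ * x₂) k)) a =
      sym n₁ n₂ * sym n₂ n₁ * Rs n₁ x₂ * Rs n₂ x₁ *
        ft (n₁ * x₁) (fun k => sym n₁ k * conj (gs 5 x₁ k)) a *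
        ft (n₂ * x₂) (fun k => sym n₂ k * conj (gs 5 x₂ k)) a := by
  have hxx : IsCoprime x₁ x₂ := h.of_mul_left_right.of_mul_right_right
  have hq₁ : n₁ * x₁ ≠ 0 := mul_ne_zero h₁.1.ne_zero h₃.1.ne_zero
  have hq₂ : n₂ * x₂ ≠ 0 := mul_ne_zero h₂.1.ne_zero h₄.1.ne_zero
  have e1 : (fun k => sym (n₁ * n₂) k * conj (gs 5 (x₁ * x₂) k)) =
      fun k => (sym x₁ x₂ * sym x₂ x₁) *
        ((sym n₁ k * conj (gs 5 x₁ k)) * (sym n₂ k * conj (gs 5 x₂ k))) := by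
    funext k
    rw [sym_mul_left h₁.1.ne_zero h₂.1.ne_zero, gs_mul 5 h₃ h₄ hxx, ← conj_sym h₃.1,
      ← conj_sym h₄.1]
    simp only [map_mul, Complex.conj_conj]
    ring
  rw [e1, PB1_ft_const, show n₁ * n₂ * (x₁ * x₂) = n₁ * x₁ * (n₂ * x₂) by ring,
    ft_mul hq₁ hq₂ h _ _ (PB1_per n₁ x₁) (PB1_per n₂ x₂)]
  simp only [PB1_twist h₁ h₃ h.symm.of_mul_right_right, PB1_twist h₂ h₄ h.of_mul_right_right]
  rw [PB1_ft_const, PB1_ft_const, sym_mul_right h₁, sym_mul_right h₂, sym_mul_right h₃,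
    sym_mul_right h₄, sym_recip h₁ h₄, sym_recip h₂ h₃, map_mul, map_mul]
  have a1 := PB1_mul_conj h₃.1 hxx
  have a2 := PB1_mul_conj h₄.1 hxx.symm
  have a3 := PB1_mul_conj h₃.1 h.of_mul_left_right.of_mul_right_left
  have a4 := PB1_mul_conj h₄.1 h.of_mul_left_left.of_mul_right_right.symm
  generalize ft (n₁ * x₁) _ a = F₁
  generalize ft (n₂ * x₂) _ a = F₂
  have : sym x₁ x₂ * conj (sym x₁ x₂) * (sym x₂ x₁ * conj (sym x₂ x₁)) *
      (sym x₁ n₂ * conj (sym x₁ n₂)) * (sym x₂ n₁ * conj (sym x₂ n₁)) = 1 := by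
    rw [a1, a2, a3, a4]; norm_num
  linear_combination (sym n₁ n₂ * sym n₂ n₁ * Rs n₁ x₂ * Rs n₂ x₁ * F₁ * F₂) * this

theorem cf_one {M : O} (ψ : Chr M) (a : O) : cf ψ a 1 1 = 1 := by
  have h : ft 1 (fun k => sym 1 k * conj (gs 5 1 k)) a = 1 := by
    have := sum_res_eq_char (one_ne_zero (α := O)) a
    simp only [one_dvd, if_true, nm_one, Nat.cast_one] at this
    simpa [ft] using this
  rw [cf, if_pos ⟨primary_one, isCoprime_one_left⟩, PB1_th_one, ev_one, Gf_one, sym_one_left,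
    Rs_one_left isCoprime_one_left, mul_one (1 : O), h]
  simp [nr]
theorem cf_support {M : O} (ψ : Chr M) {a n x : O} (h : cf ψ a n x ≠ 0) :
    Primary n ∧ IsCoprime n M ∧ Primary x ∧ IsCoprime x M := by
  unfold cf at h
  split_ifs at h with hx
  · refine ⟨?_, ?_, hx⟩
    · by_contra hn
      exact h (by rw [show th n = 0 by rw [th, if_neg fun h' => hn h'.1]]; simp)
    · by_contra hn
      exact h (by rw [ev_eq_zero ψ hn]; simp)
  · exact absurd rfl h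
theorem norm_cf_le {M : O} (hM : Adm M) (ψ : Chr M) (a n x : O) :
    ‖cf ψ a n x‖ ≤ nr n * nr x := by
  by_cases h0 : cf ψ a n x = 0
  · rw [h0, norm_zero]; positivity
  obtain ⟨hn, hnM, hx, hxM⟩ := cf_support ψ h0
  have hn' := PO.of_adm hM hn hnM
  have hx' := PO.of_adm hM hx hxM
  have h1 : 0 < Real.sqrt (nr n) := Real.sqrt_pos.2 (nr_pos hn.ne_zero)
  have h2 : 0 < nr x := nr_pos hx.ne_zero
  have h3 : ‖ft (n * x) (fun k => sym n k * conj (gs 5 x k)) a‖ ≤ nr (n * x) * nr x :=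
    PB1_norm_ft_le (mul_ne_zero hn.ne_zero hx.ne_zero) (fun k => by
      rw [norm_mul, Complex.norm_conj]
      exact (mul_le_of_le_one_left (norm_nonneg _) (norm_sym_le _ _)).trans
        (PB1_norm_gs_le 5 hx.ne_zero k)) a
  rw [cf, if_pos ⟨hx, hxM⟩, norm_div, Complex.norm_real, Real.norm_of_nonneg (by positivity),
    div_le_iff₀ (by positivity), norm_mul, norm_mul, norm_mul, norm_mul, norm_mul,
    norm_ev hM.1 ψ hnM, norm_Gf hn', PB1_norm_Rs hn'.2 hx'.2,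
    norm_sym hn isCoprime_one_right.neg_right]
  rw [nr_mul] at h3
  calc ‖th n‖ * 1 * 1 * 1 * 1 * ‖ft (n * x) (fun k => sym n k * conj (gs 5 x k)) a‖
      = ‖th n‖ * ‖ft (n * x) (fun k => sym n k * conj (gs 5 x k)) a‖ := by ring
    _ ≤ Real.sqrt (nr n) * (nr n * nr x * nr x) :=
      mul_le_mul (PB1_norm_th_le n) h3 (norm_nonneg _) h1.le
    _ = _ := by ring
/-- Multiplicativity (`ft_mul`, `gs_mul`, `gs_mul_unit`, `gc_mul`, `Gf_mul`, `sym_recip`,
`quad_recip`, `Rs_mul_left`). -/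
theorem cf_mul {M : O} (hM : Adm M) (ψ : Chr M) (a : O) {n₁ x₁ n₂ x₂ : O} (h₁ : Primary n₁)
    (h₂ : Primary n₂) (h₃ : Primary x₁) (h₄ : Primary x₂) (h : IsCoprime (n₁ * x₁) (n₂ * x₂)) :
    cf ψ a (n₁ * n₂) (x₁ * x₂) = cf ψ a n₁ x₁ * cf ψ a n₂ x₂ := by
  by_cases hc : IsCoprime n₁ M ∧ IsCoprime x₁ M ∧ IsCoprime n₂ M ∧ IsCoprime x₂ M
  swap
  · have e1 : cf ψ a (n₁ * n₂) (x₁ * x₂) = 0 := by
      by_contra h0
      obtain ⟨-, a1, -, a2⟩ := cf_support ψ h0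
      exact hc ⟨a1.of_mul_left_left, a2.of_mul_left_left, a1.of_mul_left_right,
        a2.of_mul_left_right⟩
    rw [e1]
    symm
    by_contra h0
    obtain ⟨-, a1, -, a2⟩ := cf_support ψ (left_ne_zero_of_mul h0)
    obtain ⟨-, a3, -, a4⟩ := cf_support ψ (right_ne_zero_of_mul h0)
    exact hc ⟨a1, a2, a3, a4⟩
  obtain ⟨c₁, c₃, c₂, c₄⟩ := hc
  have p₁ := PO.of_adm hM h₁ c₁
  have p₂ := PO.of_adm hM h₂ c₂
  have p₃ := PO.of_adm hM h₃ c₃
  have p₄ := PO.of_adm hM h₄ c₄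
  have hnn : IsCoprime n₁ n₂ := h.of_mul_left_left.of_mul_right_left
  have key : cub n₁ n₂ * cub n₂ n₁ * Rs n₁ n₂ * (sym n₁ n₂ * sym n₂ n₁) = 1 := by
    have b1 := sym_pow_three h₁ n₂
    have b2 := sym_pow_three h₂ n₁
    have b3 := quad_recip p₁ p₂
    have b4 := quad_sq h₂ hnn.symm
    have b5 := Rs_sq p₁.2 p₂.2
    rw [← sym_sq h₁, ← sym_sq h₂]
    calc _ = sym n₁ n₂ ^ 3 * sym n₂ n₁ ^ 3 * Rs n₁ n₂ := by ring
      _ = Rs n₁ n₂ ^ 2 * quad n₂ n₁ ^ 2 := by rw [b1, b2, b3]; ring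
      _ = 1 := by rw [b4, b5, mul_one]
  have r1 := Rs_sq p₁.2 p₄.2
  have r2 := Rs_sq p₂.2 p₃.2
  have hR : Rs (n₁ * n₂) (x₁ * x₂) = Rs n₁ x₁ * Rs n₁ x₂ * (Rs n₂ x₁ * Rs n₂ x₂) := by
    rw [Rs_mul_left p₁.2 p₂.2 (p₃.mul p₄).2, Rs_comm n₁, Rs_comm n₂,
      Rs_mul_left p₃.2 p₄.2 p₁.2, Rs_mul_left p₃.2 p₄.2 p₂.2, Rs_comm x₁ n₁, Rs_comm x₂ n₁,
      Rs_comm x₁ n₂, Rs_comm x₂ n₂]
  rw [cf, cf, cf, if_pos ⟨h₃.mul h₄, c₃.mul_left c₄⟩, if_pos ⟨h₃, c₃⟩, if_pos ⟨h₄, c₄⟩,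
    PB1_th_mul h₁ h₂ hnn, ev_mul, Gf_mul p₁ p₂, sym_mul_left h₁.ne_zero h₂.ne_zero, hR,
    PB1_ft_mul p₁ p₂ p₃ p₄ h, nr_mul, nr_mul, Real.sqrt_mul (Nat.cast_nonneg _), div_mul_div_comm]
  generalize ft (n₁ * x₁) _ a = F₁
  generalize ft (n₂ * x₂) _ a = F₂
  congr 1
  · have : cub n₁ n₂ * cub n₂ n₁ * Rs n₁ n₂ * (sym n₁ n₂ * sym n₂ n₁) * Rs n₁ x₂ ^ 2 *
        Rs n₂ x₁ ^ 2 = 1 := by rw [key, r1, r2]; norm_num
    linear_combination (th n₁ * ev ψ n₁ * Gf n₁ * sym n₁ (-1) * Rs n₁ x₁ * F₁ *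
      (th n₂ * ev ψ n₂ * Gf n₂ * sym n₂ (-1) * Rs n₂ x₂ * F₂)) * this
  · push_cast; ring
theorem cf_row_mul {M : O} (hM : Adm M) (ψ : Chr M) (a : O) {n x y : O}
    (h : IsCoprime y (n * x)) : cf ψ (a * y) n x = conj (sym n y) * sym x y * cf ψ a n x := by
  by_cases hc : Primary n ∧ IsCoprime n M ∧ Primary x ∧ IsCoprime x M
  swap
  · have e : ∀ b, cf ψ b n x = 0 := fun b => by
      by_contra h0
      exact hc (cf_support ψ h0)
    rw [e, e, mul_zero]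
  obtain ⟨hn, hnM, hx, hxM⟩ := hc
  rw [cf, cf, if_pos ⟨hx, hxM⟩, if_pos ⟨hx, hxM⟩,
    PB1_ft_row (PO.of_adm hM hn hnM) (PO.of_adm hM hx hxM) h]
  ring
/-- Local values at a prime not dividing the row. -/
theorem cf_unram {M : O} (hM : Adm M) (ψ : Chr M) {a p : O} (hp : Prime p) (hp' : Primary p)
    (hpM : ¬ p ∣ M) (ha : ¬ p ∣ a) (i j : ℕ) :
    cf ψ a (p ^ i) (p ^ j) =
      if i = 0 then sym p a ^ j else if i = 1 ∧ j = 0 then -(ev ψ p * conj (sym p a)) else 0 :=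
  (if_pos (PB2.supp hp hp' hpM j)).trans (PB2.unram ψ hp (PB2.po_of hM hp hp' hpM) ha i j)
/-- Local values at a prime dividing the row: vanishing. -/
theorem cf_ram_zero {M : O} (hM : Adm M) (ψ : Chr M) {a p : O} (hp : Prime p) (hp' : Primary p)
    (hpM : ¬ p ∣ M) (ha : p ∣ a) {i j : ℕ} (h : (i = 0 ∧ 1 ≤ j) ∨ 2 ≤ j) :
    cf ψ a (p ^ i) (p ^ j) = 0 :=
  (if_pos (PB2.supp hp hp' hpM j)).trans (PB2.ram_zero ψ hp (PB2.po_of hM hp hp' hpM) ha h)
theorem cf_ram_one_one {M : O} (hM : Adm M) (ψ : Chr M) {a p : O} (hp : Prime p) (hp' : Primary p)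
    (hpM : ¬ p ∣ M) (ha : p ∣ a) (ha0 : a ≠ 0) :
    cf ψ a p p = if vp p a = 1 then ev ψ p else -((nr p : ℂ) - 1) * ev ψ p :=
  (if_pos ⟨hp', hp.coprime_iff_not_dvd.2 hpM⟩).trans
    (PB2.ram_one_one ψ hp (PB2.po_of hM hp hp' hpM) ha ha0)
/-- Local sizes, `j = 0`. -/
theorem norm_cf_ram_zero {M : O} (hM : Adm M) (ψ : Chr M) {a p : O} (hp : Prime p)
    (hp' : Primary p) (hpM : ¬ p ∣ M) (ha0 : a ≠ 0) {i : ℕ} (hi : 1 ≤ i) :
    ‖cf ψ a (p ^ i) 1‖ ≤
      if 6 ∣ i then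
        (if i ≤ vp p a then nr p ^ (2 * i / 3 : ℝ) else
          if i = vp p a + 1 then nr p ^ (2 * i / 3 - 1 : ℝ) else 0)
      else if i = vp p a + 1 then nr p ^ ((((i / 3 : ℕ) : ℝ) + i - 1) / 2) else 0 :=
  (congrArg norm (if_pos ⟨primary_one, isCoprime_one_left⟩)).trans_le
    (PB2.ram_zero_le hM ψ hp (PB2.po_of hM hp hp' hpM) ha0 hi)
/-- Local sizes, `j = 1`. -/
theorem norm_cf_ram_one {M : O} (hM : Adm M) (ψ : Chr M) {a p : O} (hp : Prime p)
    (hp' : Primary p) (hpM : ¬ p ∣ M) (ha0 : a ≠ 0) {i : ℕ} (hi : 1 ≤ i) :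
    ‖cf ψ a (p ^ i) p‖ ≤
      if i = vp p a then nr p ^ ((((i / 3 : ℕ) : ℝ) + i) / 2) else
        if i % 6 = 1 ∧ i < vp p a then nr p ^ ((((i / 3 : ℕ) : ℝ) + i + 1) / 2) else 0 :=
  (congrArg norm (if_pos ⟨hp', hp.coprime_iff_not_dvd.2 hpM⟩)).trans_le
    (PB2.ram_one_le hM ψ hp (PB2.po_of hM hp hp' hpM) ha0 i)

end Crest.Agent.R17
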