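import Crest.Agent.PVc.R17.T2Defs

-- ▼ part PVc/R17/T2Mark
section

/-!
# Row 17, module T2: marks which are products of slots
-/

set_option autoImplicit false

noncomputable section

namespace Crest.Agent.R17

open scoped ComplexConjugate

variable {M : O} {Ps : ℕ → Finset O} {P : ℕ → ℝ} {I : Finset ℕ}

theorem Slots.mono (h : Slots M Ps P I) {I' : Finset ℕ} (hI : I' ⊆ I) : Slots M Ps P I' :=
  ⟨fun j hj => h.prime j (hI hj), fun j hj => h.one_le j (hI hj),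
    fun i hi j hj => h.disj i (hI hi) j (hI hj)⟩
theorem Dy.mono (h : Dy Ps P I) {I' : Finset ℕ} (hI : I' ⊆ I) : Dy Ps P I' :=
  fun j hj => h j (hI hj)
open scoped Pointwise in
theorem Zs_empty (Ps : ℕ → Finset O) : Zs Ps ∅ = {1} := by
  rw [Zs, Finset.prod_empty]
  rfl
theorem ZI_empty (P : ℕ → ℝ) : ZI P ∅ = 1 := Finset.prod_empty
theorem cm_one (c : O → ℂ) : cm c 1 = 1 := by
  rw [cm, BasicB.pf_unit isUnit_one, Finset.prod_empty]
theorem cm_mul (c : O → ℂ) {m n : O} (hm : m ≠ 0) (hn : n ≠ 0) (h : IsCoprime m n) :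
    cm c (m * n) = cm c m * cm c n := by
  rw [cm, cm, cm, pf_mul hm hn, Finset.prod_union (disjoint_pf h)]
theorem cm_mul_fun (c c' : O → ℂ) (z : O) : cm (fun p => c p * c' p) z = cm c z * cm c' z :=
  Finset.prod_mul_distrib
theorem norm_cm_le {c : O → ℂ} (hc : ∀ p, ‖c p‖ ≤ 1) (z : O) : ‖cm c z‖ ≤ 1 := by
  rw [cm, norm_prod]
  exact Finset.prod_le_one (fun _ _ => norm_nonneg _) fun p _ => hc p
theorem cm_ev (ν : Chr M) {z : O} (hz : SP M z) : cm (ev ν) z = ev ν z := by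
  conv_rhs => rw [← hz.1.eq_rad hz.2.1]
  simp only [cm, rad, ev, map_prod]
open Classical in
theorem cm_ite (c : O → ℂ) {T z : O} (hz : Primary z) :
    cm (fun p => if p ∣ T then 0 else c p) z = if IsCoprime z T then cm c z else 0 := by
  split_ifs with h
  · refine Finset.prod_congr rfl fun p hp => if_neg fun hT => ?_
    obtain ⟨h1, -, h2⟩ := BasicB.of_mem_pf hp
    exact h1.not_isUnit (h.isUnit_of_dvd' h2 hT)
  · by_cases hex : ∃ p ∈ pf z, p ∣ T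
    · obtain ⟨p, hp, hT⟩ := hex
      exact Finset.prod_eq_zero hp (if_pos hT)
    · refine absurd ?_ h
      rw [hz.eq_prod]
      refine IsCoprime.prod_left fun p hp => IsCoprime.pow_left ?_
      exact ((BasicB.of_mem_pf hp).1.irreducible.coprime_iff_not_dvd).2 fun hT => hex ⟨p, hp, hT⟩
theorem Slots.one_le_ZI (h : Slots M Ps P I) : 1 ≤ ZI P I :=
  Finset.one_le_prod fun j hj => h.one_le j hj
theorem Slots.ZI_mono (h : Slots M Ps P I) {I' : Finset ℕ} (hI : I' ⊆ I) :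
    ZI P I' ≤ ZI P I := by
  have h1 : 1 ≤ ZI P (I \ I') := (h.mono Finset.sdiff_subset).one_le_ZI
  have h2 : 1 ≤ ZI P I' := (h.mono hI).one_le_ZI
  have h3 : ZI P (I \ I') * ZI P I' = ZI P I := Finset.prod_sdiff hI
  nlinarith
theorem ZI_sdiff (P : ℕ → ℝ) {I' : Finset ℕ} (hI : I' ⊆ I) :
    ZI P (I \ I') * ZI P I' = ZI P I :=
  Finset.prod_sdiff hI

open scoped Pointwise in
theorem T2MarkA.mem_insert {j : ℕ} (hj : j ∉ I) {z : O} :
    z ∈ Zs Ps (insert j I) ↔ ∃ p ∈ Ps j, ∃ w ∈ Zs Ps I, p * w = z := by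
  rw [Zs, Finset.prod_insert hj, Finset.mem_mul]
  rfl

theorem T2MarkA.coprime {j : ℕ} (hj : j ∉ I) (h : Slots M Ps P (insert j I)) {p w : O}
    (hp : p ∈ Ps j) (hw0 : w ≠ 0) (hw : ∀ q ∈ pf w, ∃ i ∈ I, q ∈ Ps i) : IsCoprime p w := by
  obtain ⟨h1, h2, -, -⟩ := h.prime j (Finset.mem_insert_self j I) p hp
  refine h1.irreducible.coprime_iff_not_dvd.2 fun hd => ?_
  obtain ⟨i, hi, hpi⟩ := hw p ((mem_pf hw0).2 ⟨h1, h2, hd⟩)
  exact Finset.disjoint_left.1 (h.disj j (Finset.mem_insert_self j I) i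
    (Finset.mem_insert_of_mem hi) (fun e => hj (e ▸ hi))) hp hpi

theorem T2MarkA.key (h : Slots M Ps P I) {z : O} (hz : z ∈ Zs Ps I) :
    SP M z ∧ nr z ≤ ZI P I ∧ (∀ q ∈ pf z, ∃ i ∈ I, q ∈ Ps i) ∧
      (Dy Ps P I → ZI P I ≤ 2 ^ I.card * nr z) := by
  induction I using Finset.induction_on generalizing z with
  | empty =>
    rw [Zs_empty, Finset.mem_singleton] at hz
    subst hz
    have h1 : nr (1 : O) = 1 := by rw [nr, BasicA.nm_of_isUnit isUnit_one, Nat.cast_one]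
    refine ⟨⟨primary_one, squarefree_one, isCoprime_one_left⟩, by rw [ZI_empty, h1], ?_, fun _ => ?_⟩
    · rw [BasicB.pf_unit isUnit_one]
      simp
    · rw [ZI_empty, h1]
      simp
  | insert j I hj ih =>
    obtain ⟨p, hp, w, hw, rfl⟩ := (T2MarkA.mem_insert hj).1 hz
    obtain ⟨⟨w1, w2, w3⟩, w4, w5, w6⟩ := ih (h.mono (Finset.subset_insert j I)) hw
    obtain ⟨h1, h2, h3, h4⟩ := h.prime j (Finset.mem_insert_self j I) p hp
    have hc := T2MarkA.coprime hj h hp w1.ne_zero w5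
    have hZ : ZI P (insert j I) = P j * ZI P I := Finset.prod_insert hj
    refine ⟨⟨h2.mul w1, ?_, h3.mul_left w3⟩, ?_, ?_, fun hd => ?_⟩
    · exact squarefree_mul_iff.2 ⟨hc.isRelPrime, h1.squarefree, w2⟩
    · rw [hZ, nr_mul]
      exact mul_le_mul h4 w4 (by positivity) ((Nat.cast_nonneg _).trans h4)
    · intro q hq
      rw [pf_mul h1.ne_zero w1.ne_zero, pf_prime h1 h2, Finset.mem_union,
        Finset.mem_singleton] at hq
      rcases hq with rfl | hq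
      · exact ⟨j, Finset.mem_insert_self j I, hp⟩
      · obtain ⟨i, hi, hq⟩ := w5 q hq
        exact ⟨i, Finset.mem_insert_of_mem hi, hq⟩
    · have h5 := hd j (Finset.mem_insert_self j I) p hp
      have h6 := w6 (hd.mono (Finset.subset_insert j I))
      have h7 : 1 ≤ ZI P I := (h.mono (Finset.subset_insert j I)).one_le_ZI
      rw [hZ, nr_mul, Finset.card_insert_of_notMem hj, pow_succ]
      calc P j * ZI P I ≤ (2 * nr p) * (2 ^ I.card * nr w) :=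
            mul_le_mul h5 h6 (by linarith) (by positivity)
        _ = _ := by ring

theorem Slots.marks (h : Slots M Ps P I) : Marks M (Zs Ps I) (ZI P I) :=
  fun _ hz => ⟨(T2MarkA.key h hz).1, (T2MarkA.key h hz).2.1⟩
/-- the primes of a mark lie in the slots -/
theorem Slots.pf_sub (h : Slots M Ps P I) {z p : O} (hz : z ∈ Zs Ps I) (hp : p ∈ pf z) :
    ∃ j ∈ I, p ∈ Ps j :=
  (T2MarkA.key h hz).2.2.1 p hp
theorem Slots.ZI_le (h : Slots M Ps P I) (hd : Dy Ps P I) {z : O} (hz : z ∈ Zs Ps I) :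
    ZI P I ≤ 2 ^ I.card * nr z :=
  (T2MarkA.key h hz).2.2.2 hd
theorem Slots.coprime (h : Slots M Ps P I) {I₁ I₂ : Finset ℕ} (h1 : I₁ ⊆ I) (h2 : I₂ ⊆ I)
    (hd : Disjoint I₁ I₂) {z₁ z₂ : O} (hz₁ : z₁ ∈ Zs Ps I₁) (hz₂ : z₂ ∈ Zs Ps I₂) :
    IsCoprime z₁ z₂ := by
  refine isCoprime_of_disjoint_pf ((h.mono h1).marks z₁ hz₁).1.1
    ((h.mono h2).marks z₂ hz₂).1.1.ne_zero (Finset.disjoint_left.2 fun p hp₁ hp₂ => ?_)
  obtain ⟨i, hi, hpi⟩ := (h.mono h1).pf_sub hz₁ hp₁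
  obtain ⟨j, hj, hpj⟩ := (h.mono h2).pf_sub hz₂ hp₂
  exact Finset.disjoint_left.1 (h.disj i (h1 hi) j (h2 hj)
    (fun e => Finset.disjoint_left.1 hd hi (e ▸ hj))) hpi hpj
theorem Marks.card_le {Z : Finset O} {Zm : ℝ} (h : Marks M Z Zm) (hZ : 0 ≤ Zm) :
    (Z.card : ℝ) ≤ 7 * Zm :=
  En.card_le hZ fun z hz => ⟨(h z hz).1.1.ne_zero, (h z hz).2⟩

open scoped Pointwise in
/-- Unique factorisation of a mark. -/
theorem Slots.sum_sdiff {β : Type*} [AddCommMonoid β] (h : Slots M Ps P I) {I' : Finset ℕ}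
    (hI : I' ⊆ I) (F : O → β) :
    ∑ z ∈ Zs Ps I, F z = ∑ r ∈ Zs Ps (I \ I'), ∑ z' ∈ Zs Ps I', F (r * z') := by
  have hs : I \ I' ⊆ I := Finset.sdiff_subset
  have hp : ∀ r ∈ Zs Ps (I \ I'), Primary r := fun r hr => ((h.mono hs).marks r hr).1.1
  conv_lhs => rw [Zs, ← Finset.prod_sdiff hI, Finset.mul_def]
  rw [Finset.sum_image, Finset.sum_product]
  · rfl
  rintro ⟨r, z⟩ h1 ⟨r', z'⟩ h2 (e : r * z = r' * z')
  obtain ⟨a1, a2⟩ := Finset.mem_product.1 h1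
  obtain ⟨b1, b2⟩ := Finset.mem_product.1 h2
  have c1 := h.coprime hs hI Finset.sdiff_disjoint a1 b2
  have c2 := h.coprime hs hI Finset.sdiff_disjoint b1 a2
  obtain rfl : r = r' := (hp r a1).eq_of_associated (hp r' b1) (associated_of_dvd_dvd
    (c1.dvd_of_dvd_mul_right ⟨z, e.symm⟩) (c2.dvd_of_dvd_mul_right ⟨z', e⟩))
  rw [mul_left_cancel₀ (hp r a1).ne_zero e]

theorem T2MarkB.sum_insert {β : Type*} [AddCommMonoid β] {j : ℕ} (hj : j ∉ I)
    (h : Slots M Ps P (insert j I)) (F : O → β) :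
    ∑ z ∈ Zs Ps (insert j I), F z = ∑ p ∈ Ps j, ∑ z ∈ Zs Ps I, F (p * z) := by
  rw [h.sum_sdiff (Finset.subset_insert j I), Finset.insert_sdiff_of_notMem _ hj,
    Finset.sdiff_self, Zs]
  simp

theorem T2MarkB.sum_pdiv_mul {β : Type*} [AddCommMonoid β] {p z : O} (hp : Prime p)
    (hp' : Primary p) (hz : z ≠ 0) (hpz : ¬ p ∣ z) (F : O → O → β) :
    ∑ r ∈ pdiv (p * z), F r (p * z / r) =
      ∑ r ∈ pdiv z, F (p * r) (z / r) + ∑ r ∈ pdiv z, F r (p * (z / r)) := by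
  classical
  have h0 := mul_ne_zero hp.ne_zero hz
  rw [← Finset.sum_filter_add_sum_filter_not _ (p ∣ ·)]
  congr 1
  · symm
    refine Finset.sum_nbij (p * ·) (fun r hr => ?_)
      (fun _ _ _ _ e => mul_left_cancel₀ hp.ne_zero e) (fun r hr => ?_) fun r hr => ?_
    · obtain ⟨a1, a2⟩ := (mem_pdiv hz).1 hr
      exact Finset.mem_filter.2
        ⟨(mem_pdiv h0).2 ⟨hp'.mul a1, mul_dvd_mul_left p a2⟩, dvd_mul_right _ _⟩
    · obtain ⟨a1, k, rfl⟩ := Finset.mem_filter.1 hr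
      obtain ⟨a2, a3⟩ := (mem_pdiv h0).1 a1
      exact ⟨k, (mem_pdiv hz).2 ⟨hp'.of_mul a2, (mul_dvd_mul_iff_left hp.ne_zero).1 a3⟩, rfl⟩
    · obtain ⟨a1, k, rfl⟩ := (mem_pdiv hz).1 hr
      rw [← mul_assoc, mul_div_cancel_left₀ _ a1.ne_zero,
        mul_div_cancel_left₀ _ (mul_ne_zero hp.ne_zero a1.ne_zero)]
  · refine Finset.sum_congr ?_ fun r hr => ?_
    · ext r
      rw [Finset.mem_filter, mem_pdiv h0, mem_pdiv hz]
      exact ⟨fun ⟨⟨a1, a2⟩, a3⟩ =>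
          ⟨a1, (hp.coprime_iff_not_dvd.2 a3).symm.dvd_of_dvd_mul_left a2⟩,
        fun ⟨a1, a2⟩ => ⟨⟨a1, a2.mul_left p⟩, fun a3 => hpz (a3.trans a2)⟩⟩
    · obtain ⟨a1, k, rfl⟩ := (mem_pdiv hz).1 hr
      rw [mul_left_comm, mul_div_cancel_left₀ _ a1.ne_zero, mul_div_cancel_left₀ _ a1.ne_zero]

/-- The divisors of a mark correspond to the subsets of the slots. -/
theorem Slots.sum_pdiv {β : Type*} [AddCommMonoid β] (h : Slots M Ps P I) (F : O → O → β) :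
    ∑ z ∈ Zs Ps I, ∑ r ∈ pdiv z, F r (z / r) =
      ∑ I' ∈ I.powerset, ∑ r ∈ Zs Ps (I \ I'), ∑ z' ∈ Zs Ps I', F r z' := by
  induction I using Finset.induction_on generalizing F with
  | empty =>
    have : pdiv 1 = {1} := by
      ext d
      rw [mem_pdiv one_ne_zero, Finset.mem_singleton]
      exact ⟨fun h => h.1.eq_one_of_isUnit (isUnit_of_dvd_one h.2),
        fun h => by rw [h]; exact ⟨primary_one, dvd_rfl⟩⟩
    simp [Zs_empty, this]
  | insert j I hj ih =>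
    have hI := h.mono (Finset.subset_insert j I)
    have hj' := Finset.mem_insert_self j I
    have h1 : ∀ p ∈ Ps j, ∑ z ∈ Zs Ps I, ∑ r ∈ pdiv (p * z), F r (p * z / r) =
        ∑ I' ∈ I.powerset, ∑ r ∈ Zs Ps (I \ I'), ∑ z' ∈ Zs Ps I', F (p * r) z' +
        ∑ I' ∈ I.powerset, ∑ r ∈ Zs Ps (I \ I'), ∑ z' ∈ Zs Ps I', F r (p * z') := fun p hp => by
      obtain ⟨a1, a2, -⟩ := h.prime j hj' p hp
      rw [← ih hI fun r z => F (p * r) z, ← ih hI fun r z => F r (p * z), ← Finset.sum_add_distrib]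
      refine Finset.sum_congr rfl fun z hz => T2MarkB.sum_pdiv_mul a1 a2
        (hI.marks z hz).1.1.ne_zero (a1.coprime_iff_not_dvd.1 ?_) F
      exact h.coprime (Finset.singleton_subset_iff.2 hj') (Finset.subset_insert j I)
        (Finset.disjoint_singleton_left.2 hj) (by simpa [Zs] using hp) hz
    rw [T2MarkB.sum_insert hj h, Finset.sum_congr rfl h1, Finset.sum_add_distrib,
      Finset.sum_powerset_insert hj, Finset.sum_comm, Finset.sum_comm (s := Ps j)]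
    congr 1
    · refine Finset.sum_congr rfl fun I' hI' => ?_
      have hs := Finset.mem_powerset.1 hI'
      rw [Finset.insert_sdiff_of_notMem _ fun h' => hj (hs h'), T2MarkB.sum_insert
        (fun h' => hj (Finset.sdiff_subset h'))
        (h.mono (Finset.insert_subset_insert j Finset.sdiff_subset))]
    · refine Finset.sum_congr rfl fun I' hI' => ?_
      have hs := Finset.mem_powerset.1 hI'
      rw [Finset.insert_sdiff_insert, Finset.sdiff_insert_of_notMem hj, Finset.sum_comm]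
      exact Finset.sum_congr rfl fun r _ => (T2MarkB.sum_insert (fun h' => hj (hs h'))
        (h.mono (Finset.insert_subset_insert j hs)) _).symm

open Classical in
/-- Splitting a mark according to its common part `r` with `u`. -/
theorem Slots.sum_gcd {β : Type*} [AddCommMonoid β] (h : Slots M Ps P I) {u : O} (hu : u ≠ 0)
    (F : O → β) :
    ∑ z ∈ Zs Ps I, F z = ∑ I' ∈ I.powerset, ∑ r ∈ (Zs Ps (I \ I')).filter (· ∣ u),
      ∑ z' ∈ (Zs Ps I').filter (fun z' => IsCoprime z' u), F (r * z') := by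
  have h1 := h.sum_pdiv fun r z' => if r ∣ u ∧ IsCoprime z' u then F (r * z') else 0
  refine Eq.trans (Finset.sum_congr rfl fun z hz => ?_)
    (h1.trans (Finset.sum_congr rfl fun I' _ => ?_))
  · obtain ⟨hz1, hz2, -⟩ := (h.marks z hz).1
    have h0 := hz1.ne_zero
    have hg := primary_pgcd z u
    obtain ⟨⟨k, hk⟩, hgu⟩ := (dvd_pgcd_iff h0 hu hg).1 dvd_rfl
    have hkp : Primary k := hg.of_mul (hk ▸ hz1)
    have hq : z / pgcd z u = k := by
      conv_lhs => rw [hk]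
      rw [← hk, EuclideanDomain.eq_div_of_mul_eq_right hg.ne_zero hk.symm]
    have hku : IsCoprime k u := by
      rw [← pgcd_eq_one_iff hkp hu]
      have hd := primary_pgcd k u
      obtain ⟨d1, d2⟩ := (dvd_pgcd_iff hkp.ne_zero hu hd).1 dvd_rfl
      refine hd.eq_one_of_isUnit (hz2 _ ?_)
      conv_rhs => rw [hk]
      exact mul_dvd_mul ((dvd_pgcd_iff h0 hu hd).2 ⟨d1.trans (Dvd.intro_left _ hk.symm), d2⟩) d1
    rw [Finset.sum_eq_single_of_mem (pgcd z u) ((mem_pdiv h0).2 ⟨hg, k, hk⟩), hq,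
      if_pos ⟨hgu, hku⟩, ← hk]
    intro r hr hne
    obtain ⟨a1, l, hl⟩ := (mem_pdiv h0).1 hr
    refine if_neg fun ⟨b1, b2⟩ => hne (a1.eq_of_associated hg (associated_of_dvd_dvd
      ((dvd_pgcd_iff h0 hu a1).2 ⟨⟨l, hl⟩, b1⟩) ?_))
    rw [← EuclideanDomain.eq_div_of_mul_eq_right a1.ne_zero hl.symm] at b2
    exact (b2.of_isCoprime_of_dvd_right hgu).symm.dvd_of_dvd_mul_right ⟨k, hl.symm.trans hk⟩
  · rw [Finset.sum_filter]
    refine Finset.sum_congr rfl fun r _ => ?_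
    rw [Finset.sum_filter]
    by_cases hr : r ∣ u <;> simp [hr]

open scoped Pointwise in
theorem Slots.slot_Zs (hM : Adm M) (h : Slots M Ps P I) (c : O → ℂ) (a : O) :
    slot (Zs Ps I) (cm c) a = ∏ j ∈ I, slot (Ps j) c a := by
  have _ := hM
  induction I using Finset.induction_on with
  | empty => simp [slot, Zs_empty, cm_one]
  | insert j I hj ih =>
    have hI := h.mono (Finset.subset_insert j I)
    have e1 : insert j I \ I = {j} := by
      rw [Finset.insert_sdiff_of_notMem _ hj, Finset.sdiff_self]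
      rfl
    have e2 : Zs Ps {j} = Ps j := Finset.prod_singleton _ _
    rw [Finset.prod_insert hj, ← ih hI, slot, h.sum_sdiff (Finset.subset_insert j I), e1, e2, slot,
      slot, Finset.sum_mul_sum]
    refine Finset.sum_congr rfl fun p hp => Finset.sum_congr rfl fun w hw => ?_
    obtain ⟨h1, h2, -, -⟩ := h.prime j (Finset.mem_insert_self j I) p hp
    have hw0 := (hI.marks w hw).1.1.ne_zero
    have e3 : cm c p = c p := by rw [cm, pf_prime h1 h2, Finset.prod_singleton]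
    rw [cm_mul c h1.ne_zero hw0 (T2MarkA.coprime hj h hp hw0 fun q hq => hI.pf_sub hw hq),
      sym_mul_left h1.ne_zero hw0, map_mul, e3]
    ring

/-- `∑_{z} N z^{-σ} ≪ Z^{1-σ}`. -/
theorem Marks.sum_rpow_le {σ : ℝ} (hσ : σ < 1) : ∃ C : ℝ, 0 < C ∧ ∀ (M : O) (Z : Finset O) (Zm : ℝ),
    Marks M Z Zm → 1 ≤ Zm → ∑ z ∈ Z, nr z ^ (-σ) ≤ C * Zm ^ (1 - σ) := by
  obtain ⟨C, hC, h⟩ := sum_nr_rpow_le (σ := -σ) (by linarith)
  refine ⟨C, hC, fun M Z Zm hZ h1 => ?_⟩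
  have h0 : 0 ≤ Zm := zero_le_one.trans h1
  have h2 : Z ⊆ (ball ⌊Zm⌋₊).erase 0 := fun z hz =>
    Finset.mem_erase.2 ⟨(hZ z hz).1.1.ne_zero, mem_ball.2 (Nat.le_floor (hZ z hz).2)⟩
  calc ∑ z ∈ Z, nr z ^ (-σ) ≤ ∑ z ∈ (ball ⌊Zm⌋₊).erase 0, nr z ^ (-σ) :=
        Finset.sum_le_sum_of_subset_of_nonneg h2 fun _ _ _ => by positivity
    _ ≤ C * (⌊Zm⌋₊ : ℝ) ^ (1 + -σ) := h _ (Nat.le_floor (by exact_mod_cast h1))
    _ ≤ C * Zm ^ (1 - σ) := by
        rw [← sub_eq_add_neg]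
        exact mul_le_mul_of_nonneg_left
          (Real.rpow_le_rpow (Nat.cast_nonneg _) (Nat.floor_le h0) (by linarith)) hC.le

end Crest.Agent.R17
end
end

-- ▼ part PVc/R17/T2AlAuxB
section

/-!
# Row 17, module T2: auxiliary lemmas for `ext_al` (helper33)
-/

set_option autoImplicit false

noncomputable section

namespace Crest.Agent.R17.T2AlB

open scoped ComplexConjugate

variable {M : O} {Ps : ℕ → Finset O} {P : ℕ → ℝ} {I : Finset ℕ}

theorem mem_sp' {X : ℝ} {n : O} : n ∈ sp M X ↔ SP M n ∧ nr n ≤ X := by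
  by_cases hX : 0 ≤ X
  · exact mem_sp hX
  · rw [sp_eq_empty M (by linarith [not_le.1 hX] : X < 1)]
    refine ⟨fun h => absurd h (Finset.notMem_empty n), fun h => absurd ?_ hX⟩
    exact (Nat.cast_nonneg _).trans h.2

open Classical in
/-- the coefficient on the primes of the slots -/
def kap (Ps : ℕ → Finset O) (P : ℕ → ℝ) (I : Finset ℕ) (s : ℂ) (p : O) : ℂ :=
  ∑ j ∈ I, if p ∈ Ps j then ((nr p / P j : ℝ) : ℂ) ^ s / 2 else 0

theorem kap_eq (h : Slots M Ps P I) (s : ℂ) {j : ℕ} (hj : j ∈ I) {p : O} (hp : p ∈ Ps j) :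
    kap Ps P I s p = ((nr p / P j : ℝ) : ℂ) ^ s / 2 := by
  classical
  rw [kap, Finset.sum_eq_single j]
  · rw [if_pos hp]
  · intro i hi hij
    exact if_neg fun hpi => Finset.disjoint_left.1 (h.disj i hi j hj hij) hpi hp
  · intro h'; exact absurd hj h'

theorem rpow_le_of {x σ B : ℝ} (hx : 0 < x) (h1 : -1 ≤ σ) (h0 : σ ≤ 0) (hB : 1 ≤ B)
    (hxB : 1 ≤ x * B) : x ^ σ ≤ B := by
  rcases le_total 1 x with h | h
  · exact (Real.rpow_le_one_of_one_le_of_nonpos h h0).trans hB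
  · calc x ^ σ ≤ x ^ (-1 : ℝ) := Real.rpow_le_rpow_of_exponent_ge hx h h1
      _ = x⁻¹ := Real.rpow_neg_one x
      _ ≤ B := by rw [inv_le_iff_one_le_mul₀' hx]; exact hxB

theorem norm_kap_le (h : Slots M Ps P I) (hd : Dy Ps P I) {s : ℂ} (h1 : -1 ≤ s.re)
    (h0 : s.re ≤ 0) (p : O) : ‖kap Ps P I s p‖ ≤ 1 := by
  classical
  by_cases hp : ∃ j ∈ I, p ∈ Ps j
  · obtain ⟨j, hj, hp⟩ := hp
    have hP : 0 < P j := lt_of_lt_of_le one_pos (h.one_le j hj)
    have hn : 0 < nr p := nr_pos (h.prime j hj p hp).1.ne_zero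
    have hx : 0 < nr p / P j := div_pos hn hP
    rw [kap_eq h s hj hp, norm_div, Complex.norm_cpow_eq_rpow_re_of_pos hx, Complex.norm_two,
      div_le_one two_pos]
    refine rpow_le_of hx h1 h0 one_le_two ?_
    rw [div_mul_eq_mul_div, one_le_div hP]
    linarith [hd j hj p hp]
  · rw [kap, Finset.sum_eq_zero fun j hj => if_neg fun h' => hp ⟨j, hj, h'⟩]
    simp

theorem cm_kap (h : Slots M Ps P I) (s : ℂ) {I' : Finset ℕ} (hI : I' ⊆ I) {z : O}
    (hz : z ∈ Zs Ps I') : 2 ^ I'.card * cm (kap Ps P I s) z = ((nr z / ZI P I' : ℝ) : ℂ) ^ s := by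
  induction I' using Finset.induction_on generalizing z with
  | empty =>
    rw [Zs_empty, Finset.mem_singleton] at hz
    subst hz
    have h1 : nr (1 : O) = 1 := by rw [nr, BasicA.nm_of_isUnit isUnit_one, Nat.cast_one]
    rw [cm_one, ZI_empty, h1]
    simp
  | insert j I' hj ih =>
    obtain ⟨p, hp, w, hw, rfl⟩ := (T2MarkA.mem_insert hj).1 hz
    have hI' : I' ⊆ I := (Finset.subset_insert j I').trans hI
    have hjI : j ∈ I := hI (Finset.mem_insert_self j I')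
    have h' := h.mono hI
    obtain ⟨⟨w1, -, -⟩, -, w5, -⟩ := T2MarkA.key (h.mono hI') hw
    obtain ⟨p1, p2, -, -⟩ := h.prime j hjI p hp
    have hc := T2MarkA.coprime hj h' hp w1.ne_zero w5
    have hZ : ZI P (insert j I') = P j * ZI P I' := Finset.prod_insert hj
    have hP : 0 < P j := lt_of_lt_of_le one_pos (h.one_le j hjI)
    have hZ' : 0 < ZI P I' := lt_of_lt_of_le one_pos (h.mono hI').one_le_ZI
    have e1 : cm (kap Ps P I s) p = kap Ps P I s p := by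
      rw [cm, pf_prime p1 p2, Finset.prod_singleton]
    have e2 : nr (p * w) / ZI P (insert j I') = (nr p / P j) * (nr w / ZI P I') := by
      rw [hZ, nr_mul]; field_simp
    rw [cm_mul _ p1.ne_zero w1.ne_zero hc, e1, kap_eq h s hjI hp, e2, Complex.ofReal_mul,
      Complex.mul_cpow_ofReal_nonneg (by positivity) (by positivity), ← ih hI' hw,
      Finset.card_insert_of_notMem hj]
    ring

open Classical in
/-- one mark: the sum over the Möbius variable has at most one term -/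
theorem sum_one (X : ℝ) {z : O} (hz : z ≠ 0) (m : O) (G : O → ℂ) :
    (∑ m' ∈ sp M X, if m' * z = m * z then G m' else 0) = if m ∈ sp M X then G m else 0 := by
  simp only [mul_left_inj' hz]
  exact Finset.sum_ite_eq' _ _ _

open Classical in
theorem sum_none (X : ℝ) {z n : O} (hz : ¬ z ∣ n) (G : O → ℂ) :
    (∑ m' ∈ sp M X, if m' * z = n then G m' else 0) = 0 :=
  Finset.sum_eq_zero fun m' _ => if_neg fun e => hz (Dvd.intro_left m' e)

open Classical in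
/-- the identity for fixed `u = u₀ r` and fixed `z'` -/
theorem term (h : Slots M Ps P I) (s' : ℂ) {I' : Finset ℕ} (hI : I' ⊆ I) (ν₀ ν' : Chr M)
    {D f Ls : ℝ} (Λ : ℝ) (s₀ : ℂ) (c₀ : O → ℂ) {u₀ r z n : O} (hD : 0 < D) (hf : 0 < f)
    (hLs : 0 < Ls) (hu₀ : SP M u₀) (hr : r ≠ 0) (hz : z ∈ Zs Ps I') (hn : SP M n)
    (hc : IsCoprime n (u₀ * r)) :
    (if IsCoprime z (u₀ * r) then
      (∑ m ∈ sp M (D * Λ), if m * (r * z) = u₀ * r * n then
        cm c₀ (r * z) * (mu m * ev ν₀ m * Wc (nr m / D) s₀) else 0) else 0) *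
        ev ν' n * ((nr n * f / Ls : ℝ) : ℂ) ^ s' =
      (mu u₀ * ev ν₀ u₀ * cm c₀ r * 2 ^ I'.card *
        ((D / nr u₀ * ZI P I' * f / Ls : ℝ) : ℂ) ^ s') *
      ∑ m ∈ sp M (D / nr u₀ * Λ), if m * z = n then
        cm (fun p => c₀ p * kap Ps P I s' p * ev ν' p) z *
          (mu m * ev (ν₀ * ν') m * Wc (nr m / (D / nr u₀)) (s₀ + s')) else 0 := by
  have hz' : SP M z := ((h.mono hI).marks z hz).1
  have hz0 : z ≠ 0 := hz'.1.ne_zero
  have hu0 : u₀ ≠ 0 := hu₀.1.ne_zero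
  by_cases hzn : z ∣ n
  · obtain ⟨m, rfl⟩ := hzn
    have hzc : IsCoprime z (u₀ * r) := hc.of_mul_left_left
    have hmc : IsCoprime m (u₀ * r) := hc.of_mul_left_right
    have hm : SP M m := En.SP.of_dvd hn (hz'.1.of_mul hn.1) (Dvd.intro_left z rfl)
    have hm0 : m ≠ 0 := hm.1.ne_zero
    have hum : IsCoprime u₀ m := hmc.of_mul_right_left.symm
    have hrz : IsCoprime r z := hzc.of_mul_right_right.symm
    have hU : 0 < nr u₀ := nr_pos hu0
    have hN : 0 < nr m := nr_pos hm0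
    have hZ : 0 < nr z := nr_pos hz0
    have hZI : 0 < ZI P I' := lt_of_lt_of_le one_pos (h.mono hI).one_le_ZI
    rw [if_pos hzc, show u₀ * r * (z * m) = (u₀ * m) * (r * z) by ring,
      sum_one _ (mul_ne_zero hr hz0), mul_comm z m, sum_one _ hz0]
    have hiff : u₀ * m ∈ sp M (D * Λ) ↔ m ∈ sp M (D / nr u₀ * Λ) := by
      rw [mem_sp', mem_sp', nr_mul, div_mul_eq_mul_div, le_div_iff₀ hU, mul_comm (nr m)]
      refine and_congr_left fun _ => ⟨fun _ => hm, fun _ => ?_⟩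
      exact ⟨hu₀.1.mul hm.1, squarefree_mul_iff.2 ⟨hum.isRelPrime, hu₀.2.1, hm.2.1⟩,
        hu₀.2.2.mul_left hm.2.2⟩
    by_cases hmem : m ∈ sp M (D / nr u₀ * Λ)
    · rw [if_pos (hiff.2 hmem), if_pos hmem]
      have e1 : nr (u₀ * m) / D = nr m / (D / nr u₀) := by
        rw [nr_mul]; field_simp
      have e2 : nr (m * z) * f / Ls =
          (nr m / (D / nr u₀)) * ((nr z / ZI P I') * (D / nr u₀ * ZI P I' * f / Ls)) := by
        rw [nr_mul]; field_simp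
      rw [e1, e2, Complex.ofReal_mul,
        Complex.mul_cpow_ofReal_nonneg (by positivity) (by positivity),
        Complex.ofReal_mul (nr z / ZI P I'),
        Complex.mul_cpow_ofReal_nonneg (by positivity) (by positivity), ← cm_kap h s' hI hz,
        Wc_add (by positivity), cm_mul _ hr hz0 hrz, mu_mul hu₀.1 hm.1 hum, ev_mul, ev_mul,
        cm_mul_fun, cm_mul_fun, cm_ev ν' hz', ev_mul_chr]
      ring
    · rw [if_neg (fun h' => hmem (hiff.1 h')), if_neg hmem]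
      simp
  · rw [sum_none _ hzn, mul_zero]
    split_ifs with hzc
    · rw [sum_none, zero_mul, zero_mul]
      intro hd
      refine hzn (hzc.dvd_of_dvd_mul_left ((Dvd.intro_left r rfl).trans hd))
    · simp

open Classical in
/-- the weight -/
def om' (Ps : ℕ → Finset O) (P : ℕ → ℝ) (I₁ : Finset ℕ) (ν₀ : Chr M) (D f Ls : ℝ) (s' : ℂ)
    (c₀ : O → ℂ) (u u₀ : O) (I' : Finset ℕ) : ℂ :=
  if u₀ ∈ pdiv u ∧ I' ⊆ I₁ ∧ u / u₀ ∈ Zs Ps (I₁ \ I') then
    mu u₀ * ev ν₀ u₀ * cm c₀ (u / u₀) * 2 ^ I'.card *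
      ((D / nr u₀ * ZI P I' * f / Ls : ℝ) : ℂ) ^ s' else 0

theorem norm_om'_le (hM : Adm M) (h : Slots M Ps P I) (hd : Dy Ps P I) {s' : ℂ}
    (h1 : -1 ≤ s'.re) (h0 : s'.re ≤ 0) {I₁ : Finset ℕ} (hI : I₁ ⊆ I) (ν₀ : Chr M)
    {D f Ls ρ : ℝ} {c₀ : O → ℂ} {u : O} (hD : 0 < D) (hf : 0 < f) (hLs : 0 < Ls) (hρ : 1 ≤ ρ)
    (hu : SP M u) (hc : ∀ p, ‖c₀ p‖ ≤ 1) (hL : Ls * nr u ≤ ρ * (D * ZI P I₁ * f)) (u₀ : O)
    (I' : Finset ℕ) : ‖om' Ps P I₁ ν₀ D f Ls s' c₀ u u₀ I'‖ ≤ 2 ^ I.card * ρ := by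
  classical
  rw [om']
  split_ifs with hh
  · obtain ⟨hu₀, hI', hr⟩ := hh
    obtain ⟨p₀, r, rfl⟩ := (mem_pdiv hu.1.ne_zero).1 hu₀
    have hu0 : u₀ ≠ 0 := p₀.ne_zero
    rw [mul_div_cancel_left₀ _ hu0] at hr ⊢
    have hS : I₁ \ I' ⊆ I := Finset.sdiff_subset.trans hI
    have hU : 0 < nr u₀ := nr_pos hu0
    have hR : 0 < nr r := nr_pos ((h.mono hS).marks r hr).1.1.ne_zero
    have hZ : 0 < ZI P I' := lt_of_lt_of_le one_pos (h.mono (hI'.trans hI)).one_le_ZI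
    have hx : 0 < D / nr u₀ * ZI P I' * f / Ls := by positivity
    have h2 := (h.mono hS).ZI_le (hd.mono hS) hr
    have h3 := ZI_sdiff P hI'
    have h4 : (1 : ℝ) ≤ 2 ^ (I₁ \ I').card := one_le_pow₀ one_le_two
    have h5 : (D / nr u₀ * ZI P I' * f / Ls) ^ s'.re ≤ 2 ^ (I₁ \ I').card * ρ := by
      refine rpow_le_of hx h1 h0 (one_le_mul_of_one_le_of_one_le h4 hρ) ?_
      have e : D / nr u₀ * ZI P I' * f / Ls * (2 ^ (I₁ \ I').card * ρ) =
          ρ * (D * (2 ^ (I₁ \ I').card * nr r * ZI P I') * f) / (Ls * nr (u₀ * r)) := by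
        rw [nr_mul]; field_simp
      rw [e, one_le_div (by rw [nr_mul]; positivity)]
      refine hL.trans ?_
      rw [← h3]
      gcongr
    have h6 : (2 : ℝ) ^ I'.card * 2 ^ (I₁ \ I').card ≤ 2 ^ I.card := by
      rw [← pow_add, add_comm, Finset.card_sdiff_add_card_eq_card hI']
      exact pow_le_pow_right₀ one_le_two (Finset.card_le_card hI)
    rw [norm_mul, norm_mul, norm_mul, norm_mul, Complex.norm_cpow_eq_rpow_re_of_pos hx, norm_pow,
      Complex.norm_two]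
    have a1 := norm_mu_le u₀
    have a2 := norm_ev_le hM.1 ν₀ u₀
    have a3 := norm_cm_le hc r
    calc ‖mu u₀‖ * ‖ev ν₀ u₀‖ * ‖cm c₀ r‖ * 2 ^ I'.card * (D / nr u₀ * ZI P I' * f / Ls) ^ s'.re
        ≤ 1 * 1 * 1 * 2 ^ I'.card * (2 ^ (I₁ \ I').card * ρ) := by gcongr
      _ = (2 ^ I'.card * 2 ^ (I₁ \ I').card) * ρ := by ring
      _ ≤ 2 ^ I.card * ρ := by gcongr
  · rw [norm_zero]; positivity

open Classical in
theorem main (h : Slots M Ps P I) (s' : ℂ) {I₁ : Finset ℕ} (hI : I₁ ⊆ I) (ν₀ ν' : Chr M)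
    {D f Ls : ℝ} (Λ : ℝ) (s₀ : ℂ) (c₀ : O → ℂ) {u n : O} (hD : 0 < D) (hf : 0 < f)
    (hLs : 0 < Ls) (hu : SP M u) (hn : SP M n) :
    ext (al ν₀ D Λ s₀ (Zs Ps I₁) (cm c₀)) u ν' f Ls s' n =
      ∑ u₀ ∈ pdiv u, ∑ I' ∈ I₁.powerset, om' Ps P I₁ ν₀ D f Ls s' c₀ u u₀ I' *
        (if IsCoprime n u then al (ν₀ * ν') (D / nr u₀) Λ (s₀ + s') (Zs Ps I')
          (cm fun p => c₀ p * kap Ps P I s' p * ev ν' p) n else 0) := by
  have hu0 : u ≠ 0 := hu.1.ne_zero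
  rw [ext]
  by_cases hc : IsCoprime n u
  swap
  · simp [hc]
  simp only [if_pos hc]
  rw [al, (h.mono hI).sum_gcd hu0, Finset.sum_comm (s := pdiv u), Finset.sum_mul, Finset.sum_mul]
  refine Finset.sum_congr rfl fun I' hI' => ?_
  have hI'' : I' ⊆ I₁ := Finset.mem_powerset.1 hI'
  have hS : I₁ \ I' ⊆ I := Finset.sdiff_subset.trans hI
  rw [Finset.sum_mul, Finset.sum_mul]
  symm
  rw [← Finset.sum_filter_of_ne (s := pdiv u) (p := fun u₀ => u / u₀ ∈ Zs Ps (I₁ \ I'))]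
  swap
  · intro u₀ _ hne
    by_contra hh
    exact hne (by rw [om', if_neg fun h' => hh h'.2.2, zero_mul])
  refine Finset.sum_nbij' (fun u₀ => u / u₀) (fun r => u / r) ?_ ?_ ?_ ?_ ?_
  · intro u₀ hu₀
    obtain ⟨h1, h2⟩ := Finset.mem_filter.1 hu₀
    obtain ⟨p₀, r, rfl⟩ := (mem_pdiv hu0).1 h1
    refine Finset.mem_filter.2 ⟨h2, ?_⟩
    rw [mul_div_cancel_left₀ _ p₀.ne_zero]
    exact Dvd.intro_left _ rfl
  · intro r hr
    obtain ⟨h1, u₀, rfl⟩ := Finset.mem_filter.1 hr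
    have hr' : Primary r := ((h.mono hS).marks r h1).1.1
    have hp : Primary u₀ := hr'.of_mul hu.1
    rw [mul_div_cancel_left₀ _ hr'.ne_zero]
    refine Finset.mem_filter.2 ⟨(mem_pdiv hu0).2 ⟨hp, Dvd.intro_left _ rfl⟩, ?_⟩
    rw [mul_div_cancel_right₀ _ hp.ne_zero]
    exact h1
  · intro u₀ hu₀
    obtain ⟨h1, -⟩ := Finset.mem_filter.1 hu₀
    obtain ⟨p₀, r, rfl⟩ := (mem_pdiv hu0).1 h1
    rw [mul_div_cancel_left₀ _ p₀.ne_zero, mul_div_cancel_right₀ _ (right_ne_zero_of_mul hu0)]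
  · intro r hr
    obtain ⟨h1, u₀, rfl⟩ := Finset.mem_filter.1 hr
    rw [mul_div_cancel_left₀ _ (left_ne_zero_of_mul hu0),
      mul_div_cancel_right₀ _ (right_ne_zero_of_mul hu0)]
  · intro u₀ hu₀
    obtain ⟨h1, h2⟩ := Finset.mem_filter.1 hu₀
    rw [om', if_pos ⟨h1, hI'', h2⟩]
    obtain ⟨p₀, r, rfl⟩ := (mem_pdiv hu0).1 h1
    rw [mul_div_cancel_left₀ _ p₀.ne_zero, al, Finset.mul_sum, Finset.sum_filter, Finset.sum_mul,
      Finset.sum_mul]
    refine Finset.sum_congr rfl fun z hz => ?_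
    exact (term h s' (hI''.trans hI) ν₀ ν' Λ s₀ c₀ hD hf hLs
      (En.SP.of_dvd hu p₀ (Dvd.intro _ rfl)) (right_ne_zero_of_mul hu0) hz hn hc).symm

end Crest.Agent.R17.T2AlB
end
end

-- ▼ part PVc/R17/T2Al

/-!
# Row 17, module T2: the truncated coefficient `al`
-/

set_option autoImplicit false

noncomputable section

namespace Crest.Agent.R17

open scoped ComplexConjugate

theorem T2AlA_mem {M : O} {X : ℝ} {m : O} (hm : m ∈ sp M X) : SP M m ∧ nr m ≤ X := by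
  rcases lt_or_ge X 1 with h | h
  · rw [sp_eq_empty M h] at hm
    exact absurd hm (Finset.notMem_empty _)
  · exact (mem_sp (by linarith)).1 hm

open Classical in
theorem T2AlA_term {M : O} (hM : Adm M) (ν : Chr M) (a : O) {X L Zm : ℝ} {z m : O}
    (hz : SP M z ∧ nr z ≤ Zm) (hm : m ∈ sp M X) (hL : X * Zm ≤ L) (c W : ℂ) :
    (if m * z ∈ sp M L then c * (mu m * ev ν m * W) * conj (sym (m * z) a) else 0) =
      c * conj (sym z a) * (if nr m ≤ X then mu m * rc ν (a * z ^ 6) m * W else 0) := by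
  obtain ⟨h1, h2⟩ := T2AlA_mem hm
  have hm0 := h1.1.ne_zero
  have hz0 := hz.1.1.ne_zero
  have hX : 0 ≤ X := (nr_pos hm0).le.trans h2
  have h3 : nr (m * z) ≤ L := by
    rw [nr_mul]
    exact (mul_le_mul h2 hz.2 (nr_pos hz0).le hX).trans hL
  rw [if_pos h2, rc_mul_row hM, rc, if_pos h1.1]
  by_cases hc : IsCoprime m z
  · have hpo : PO m := En.SP.po (En.SP.six (h := 1) hM (by rwa [mul_one]))
    rw [if_pos ((mem_sp ((nr_pos (mul_ne_zero hm0 hz0)).le.trans h3)).2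
      ⟨⟨h1.1.mul hz.1.1, squarefree_mul_iff.2 ⟨hc.isRelPrime, h1.2.1, hz.1.2.1⟩,
        h1.2.2.mul_left hz.1.2.2⟩, h3⟩), sym_mul_left hm0 hz0, sym_pow_right hpo,
      sym_pow_six h1.1 hc, map_one, map_mul]
    ring
  · rw [if_neg fun h => hc (squarefree_mul_iff.1 (T2AlA_mem h).1.2.1).1.isCoprime,
      (sym_eq_zero_iff h1.1).2 fun h => hc ((IsCoprime.pow_right_iff (by norm_num)).1 h)]
    simp

/-- Truncation (`MBa_fib`, `MBa_trunc`, `Marks.card_le`; `m z` is squarefree iff `(m, z) = 1`, and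
`rc ν (a z⁶) m = ν(m) conj χ_m(a) 1_{(m,z)=1}`). -/
theorem al_trunc {M : O} (hM : Adm M) (B : ℝ) : ∃ C : ℝ, 0 < C ∧
    ∀ (ν : Chr M) (a : O) (D Λ L Zm : ℝ) (s : ℂ) (Z : Finset O) (c : O → ℂ), Marks M Z Zm →
      (∀ z, ‖c z‖ ≤ 1) → 0 < D → 1 ≤ Λ → 0 ≤ Zm → |s.re| ≤ 3 → D * Λ * Zm ≤ L →
      ‖Sr M L (al ν D Λ s Z c) a - MQ ν a D s Z c‖ ≤ C * Zm * D * Λ ^ (-B) := by
  classical
  obtain ⟨C, hC, h⟩ := MBa_trunc B 3
  refine ⟨7 * C, by positivity, fun ν a D Λ L Zm s Z c hZ hc hD hΛ hZm hs hL => ?_⟩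
  have e1 : Sr M L (al ν D Λ s Z c) a = ∑ z ∈ Z, c z * conj (sym z a) * ∑ m ∈ sp M (D * Λ),
      (if nr m ≤ D * Λ then mu m * rc ν (a * z ^ 6) m * Wc (nr m / D) s else 0) := by
    unfold Sr al
    simp only [Finset.sum_mul]
    rw [Finset.sum_comm]
    refine Finset.sum_congr rfl fun z hz => ?_
    rw [Finset.sum_comm, Finset.mul_sum]
    refine Finset.sum_congr rfl fun m hm => ?_
    rw [← T2AlA_term hM ν a (hZ z hz) hm hL]
    simp only [ite_mul, zero_mul]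
    rw [Finset.sum_ite_eq]
  rw [e1, MQ, ← Finset.sum_sub_distrib]
  have hb : 0 ≤ C * D * Λ ^ (-B) := by positivity
  calc _ ≤ ∑ z ∈ Z, C * D * Λ ^ (-B) := by
        refine (norm_sum_le _ _).trans (Finset.sum_le_sum fun z _ => ?_)
        rw [← mul_sub, norm_mul, norm_mul, Complex.norm_conj, Mob_eq_Sm]
        refine (mul_le_of_le_one_left (norm_nonneg _)
          (mul_le_one₀ (hc z) (norm_nonneg _) (norm_sym_le _ _))).trans ?_
        refine h _ D Λ s _ (polyB_mu_rc hM ν _) hD hΛ hs fun n hn hle => ?_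
        refine (mem_sp (by positivity)).2 ⟨⟨?_, ?_, ?_⟩, hle⟩
        · by_contra h2
          exact hn (by rw [rc, if_neg h2, mul_zero])
        · by_contra h2
          exact hn (by rw [BasicB.mu_of_not h2, zero_mul])
        · by_contra h2
          exact hn (by rw [rc_eq_zero _ fun h3 => h2 h3.of_mul_right_left, mul_zero])
    _ ≤ 7 * Zm * (C * D * Λ ^ (-B)) := by
        rw [Finset.sum_const, nsmul_eq_mul]
        exact mul_le_mul_of_nonneg_right (hZ.card_le hZm) hb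
    _ = _ := by ring

theorem al_supp {M : O} {ν : Chr M} {D Λ Zm : ℝ} {s : ℂ} {Z : Finset O} {c : O → ℂ}
    (hZ : Marks M Z Zm) {n : O} (h : al ν D Λ s Z c n ≠ 0) : nr n ≤ D * Λ * Zm := by
  classical
  obtain ⟨z, hz, h1⟩ := Finset.exists_ne_zero_of_sum_ne_zero h
  obtain ⟨m, hm, h2⟩ := Finset.exists_ne_zero_of_sum_ne_zero h1
  have h3 : m * z = n := by
    by_contra h3
    exact h2 (if_neg h3)
  obtain ⟨h4, h5⟩ := T2AlA_mem hm
  rw [← h3, nr_mul]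
  exact mul_le_mul h5 (hZ z hz).2 (Nat.cast_nonneg _) ((Nat.cast_nonneg _).trans h5)

theorem norm_al_le {M : O} (hM : Adm M) {ε : ℝ} (hε : 0 < ε) : ∃ C : ℝ, 0 < C ∧
    ∀ (ν : Chr M) (D Λ Zm : ℝ) (s : ℂ) (Z : Finset O) (c : O → ℂ) (n : O), Marks M Z Zm →
      (∀ z, ‖c z‖ ≤ 1) → |s.re| ≤ 3 → n ≠ 0 → ‖al ν D Λ s Z c n‖ ≤ C * nr n ^ ε := by
  classical
  obtain ⟨C, hC, h⟩ := card_pdiv_le hε
  refine ⟨Real.exp (9 / 4) * C, by positivity, fun ν D Λ Zm s Z c n hZ hc hs hn => ?_⟩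
  have hW : ∀ y, ‖Wc y s‖ ≤ Real.exp (9 / 4) := fun y =>
    (norm_Wc_le y s).trans (Real.exp_le_exp.2 (by nlinarith [abs_le.1 hs]))
  have h1 : ∀ z ∈ Z, ‖∑ m ∈ sp M (D * Λ), if m * z = n then
      c z * (mu m * ev ν m * Wc (nr m / D) s) else 0‖ ≤
      if z ∈ pdiv n then Real.exp (9 / 4) else 0 := by
    intro z hz
    have hz0 := (hZ z hz).1.1.ne_zero
    split_ifs with h2
    · obtain ⟨m, hm⟩ := ((mem_pdiv hn).1 h2).2
      by_cases hmem : m ∈ sp M (D * Λ)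
      · rw [Finset.sum_eq_single_of_mem m hmem fun m' _ hne =>
          if_neg fun h3 => hne (mul_right_cancel₀ hz0 (by rw [h3, hm, mul_comm]))]
        split_ifs
        · rw [norm_mul, norm_mul, norm_mul]
          refine (mul_le_of_le_one_left (by positivity) (hc z)).trans ?_
          exact (mul_le_of_le_one_left (norm_nonneg _)
            (mul_le_one₀ (norm_mu_le m) (norm_nonneg _) (norm_ev_le hM.1 ν m))).trans (hW _)
        · rw [norm_zero]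
          positivity
      · rw [Finset.sum_eq_zero fun m' hm' => if_neg fun h3 => hmem (by
          rwa [← mul_right_cancel₀ hz0 (show m' * z = m * z by rw [h3, hm, mul_comm])]), norm_zero]
        positivity
    · rw [Finset.sum_eq_zero fun m _ => if_neg fun h3 =>
        h2 ((mem_pdiv hn).2 ⟨(hZ z hz).1.1, Dvd.intro_left m h3⟩), norm_zero]
  refine (norm_sum_le _ _).trans ((Finset.sum_le_sum h1).trans ?_)
  rw [← Finset.sum_filter, Finset.sum_const, nsmul_eq_mul, mul_comm, mul_assoc]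
  refine mul_le_mul_of_nonneg_left (le_trans ?_ (h n hn)) (by positivity)
  exact_mod_cast Finset.card_le_card fun z hz => (Finset.mem_filter.1 hz).2

theorem nsq_le {M : O} {L L' b : ℝ} {α : O → ℂ} (hL' : 0 ≤ L') (h : ∀ n ∈ sp M L, ‖α n‖ ≤ b)
    (h' : ∀ n ∈ sp M L, α n ≠ 0 → nr n ≤ L') : nsq M L α ≤ 7 * L' * b ^ 2 := by
  classical
  rw [nsq, ← Finset.sum_filter_of_ne (p := fun n => α n ≠ 0) fun n _ hn h0 => hn (by simp [h0])]
  refine (Finset.sum_le_card_nsmul _ _ (b ^ 2) fun n hn => ?_).trans ?_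
  · exact pow_le_pow_left₀ (norm_nonneg _) (h n (Finset.mem_filter.1 hn).1) 2
  · rw [nsmul_eq_mul]
    refine mul_le_mul_of_nonneg_right (En.card_le hL' fun n hn => ?_) (sq_nonneg _)
    obtain ⟨h1, h2⟩ := Finset.mem_filter.1 hn
    exact ⟨(T2AlA_mem h1).1.1.ne_zero, h' n h1 h2⟩

theorem nsq1_le {ε : ℝ} (hε : 0 < ε) : ∃ C : ℝ, 0 < C ∧ ∀ (M : O) (L b : ℝ) (α : O → ℂ), 1 ≤ L →
    (∀ n ∈ sp M L, ‖α n‖ ≤ b) → nsq1 M L α ≤ C * L ^ ε * L * b ^ 2 := by
  obtain ⟨C, hC, h⟩ := En.sum_inv_le hε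
  refine ⟨C, hC, fun M L b α hL hb => ?_⟩
  have h1 := h L (sp M L) hL fun n hn => ⟨(T2AlA_mem hn).1.1.ne_zero, (T2AlA_mem hn).2⟩
  calc nsq1 M L α ≤ ∑ n ∈ sp M L, (nr n)⁻¹ * (L * b ^ 2) := by
        refine Finset.sum_le_sum fun n hn => ?_
        have h2 := pow_le_pow_left₀ (norm_nonneg _) (hb n hn) 2
        calc ‖α n‖ ^ 2 * (L / nr n) ≤ b ^ 2 * (L / nr n) :=
              mul_le_mul_of_nonneg_right h2 (by positivity)
          _ = _ := by ring
    _ ≤ C * L ^ ε * (L * b ^ 2) := by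
        rw [← Finset.sum_mul]
        exact mul_le_mul_of_nonneg_right h1 (by positivity)
    _ = _ := by ring

open Classical in
/-- **Extraction of a factor `u`.**  For `n` squarefree and coprime to `u` the factorisations
`u n = m z` are `m = u₀ m'`, `z = u₁ z'`, `u₀ u₁ = u`, `m' z' = n` (`Slots.sum_gcd`).  With
`D' = D / N u₀`, `(N n f / Ls)^{s'} = (N m'/D')^{s'} (N z'/ZI I')^{s'} (D' ZI I' f/Ls)^{s'}`, the first
factor goes into `Wc` (`Wc_add`), the second one is `2^{|I'|} cm κ z'` where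
`κ p = (N p / P j)^{s'} / 2` for `p ∈ Ps j`, `j ∈ I` (and `0` off the slots), the third one has
modulus `≤ 2^{|I₁ ∖ I'|} ρ` (`Slots.ZI_le`, `ZI_sdiff`). -/
theorem ext_al {M : O} (hM : Adm M) {Ps : ℕ → Finset O} {P : ℕ → ℝ} {I : Finset ℕ}
    (h : Slots M Ps P I) (hd : Dy Ps P I) {s' : ℂ} (h1 : -1 ≤ s'.re) (h0 : s'.re ≤ 0) :
    ∃ κ : O → ℂ, (∀ p, ‖κ p‖ ≤ 1) ∧ ∀ I₁ ⊆ I, ∀ (ν₀ ν' : Chr M) (D Λ f Ls ρ : ℝ) (s₀ : ℂ)
      (c₀ : O → ℂ) (u : O), 0 < D → 0 < f → 0 < Ls → 1 ≤ ρ → SP M u → (∀ p, ‖c₀ p‖ ≤ 1) →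
      Ls * nr u ≤ ρ * (D * ZI P I₁ * f) →
      ∃ ω : O → Finset ℕ → ℂ, (∀ u₀ I', ‖ω u₀ I'‖ ≤ 2 ^ I.card * ρ) ∧
        (∀ u₀ I', ω u₀ I' ≠ 0 → u / u₀ ∈ Zs Ps (I₁ \ I')) ∧ ∀ n, SP M n →
        ext (al ν₀ D Λ s₀ (Zs Ps I₁) (cm c₀)) u ν' f Ls s' n =
          ∑ u₀ ∈ pdiv u, ∑ I' ∈ I₁.powerset, ω u₀ I' *
            (if IsCoprime n u then al (ν₀ * ν') (D / nr u₀) Λ (s₀ + s') (Zs Ps I')
              (cm fun p => c₀ p * κ p * ev ν' p) n else 0) := by
  refine ⟨T2AlB.kap Ps P I s', T2AlB.norm_kap_le h hd h1 h0, ?_⟩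
  intro I₁ hI ν₀ ν' D Λ f Ls ρ s₀ c₀ u hD hf hLs hρ hu hc hL
  refine ⟨T2AlB.om' Ps P I₁ ν₀ D f Ls s' c₀ u,
    T2AlB.norm_om'_le hM h hd h1 h0 hI ν₀ hD hf hLs hρ hu hc hL, fun u₀ I' hne => ?_,
    fun n hn => T2AlB.main h s' hI ν₀ ν' Λ s₀ c₀ hD hf hLs hu hn⟩
  by_contra hh
  exact hne (by rw [T2AlB.om', if_neg fun h' => hh h'.2.2])

end Crest.Agent.R17
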