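import Crest.Agent.PVc.R17.T2Al

-- ▼ part PVc/R17/T2CubeAuxA
section

/-!
# Row 17, module T2: completion of the cubes (proofs of the first half of `T2Cube`)
-/

set_option autoImplicit false

noncomputable section

namespace Crest.Agent.R17.T2CA

open scoped ComplexConjugate

theorem arg_cube (d : O) : arg (d ^ 3) = arg d ^ 3 := by
  rw [show d ^ 3 = d * d * d by ring, arg_mul, arg_mul]
  ring

theorem th_of {n : O} (hn : Primary n) (h : ∀ p ∈ pf n, vp p n % 3 ≠ 2) :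
    th n = gc (sq1 n) 1 / (Real.sqrt (nr (sq1 n)) : ℂ) * (Real.sqrt (nr (cu n)) : ℂ) *
      conj (arg n) := if_pos ⟨hn, h⟩

theorem th_of_not {n : O} (h : ¬ ∀ p ∈ pf n, vp p n % 3 ≠ 2) : th n = 0 :=
  if_neg fun h' => h h'.2

theorem th_mul_cube {m d : O} (hm : Primary m) (hd : Primary d) :
    th (m * d ^ 3) = (Real.sqrt (nr d) : ℂ) * conj (arg d) ^ 3 * th m := by
  by_cases h : ∀ p ∈ pf m, vp p m % 3 ≠ 2
  · obtain ⟨e, h1, h2, h3⟩ := eq_sq1_mul_cu hm h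
    have e' : m * d ^ 3 = sq1 m * (cu m * d) ^ 3 := by
      conv_lhs => rw [e]
      ring
    obtain ⟨a1, a2, a3⟩ := sq1_cu h1 h2 (h3.mul hd)
    rw [← e'] at a1 a2 a3
    rw [th_of (hm.mul (hd.pow 3)) a3, th_of hm h, a1, a2, nr_mul,
      Real.sqrt_mul (Nat.cast_nonneg _), arg_mul, arg_cube, map_mul, map_pow]
    push_cast
    ring
  · have h' : ¬ ∀ p ∈ pf (m * d ^ 3), vp p (m * d ^ 3) % 3 ≠ 2 := fun h' => h fun p hp h2 => by
      obtain ⟨p1, p2, p3⟩ := BasicB.of_mem_pf hp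
      have hne := (hm.mul (hd.pow 3)).ne_zero
      refine h' p ((mem_pf hne).2 ⟨p1, p2, p3.mul_right _⟩) ?_
      rw [vp_mul p1 hm.ne_zero (hd.pow 3).ne_zero, vp_pow p1 hd.ne_zero]
      omega
    rw [th_of_not h, th_of_not h', mul_zero]

theorem norm_th_le (n : O) : ‖th n‖ ≤ nr n ^ (1 / 2 : ℝ) := by
  by_cases h : Primary n ∧ ∀ p ∈ pf n, vp p n % 3 ≠ 2
  · obtain ⟨e, h1, h2, h3⟩ := eq_sq1_mul_cu h.1 h.2
    have hd : cu n ∣ n := ⟨sq1 n * cu n ^ 2, by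
      conv_lhs => rw [e]
      ring⟩
    rw [th_of h.1 h.2, norm_mul, norm_mul, norm_div, norm_gc h1 h2, Complex.norm_real,
      Complex.norm_real, Real.norm_of_nonneg (Real.sqrt_nonneg _),
      Real.norm_of_nonneg (Real.sqrt_nonneg _), div_self (Real.sqrt_pos.2 (nr_pos h1.ne_zero)).ne',
      Complex.norm_conj, norm_arg h.1.ne_zero, one_mul, mul_one, ← Real.sqrt_eq_rpow]
    exact Real.sqrt_le_sqrt (MBa_nr_le hd h.1.ne_zero)
  · rw [show th n = 0 from if_neg h, norm_zero]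
    positivity


open Classical in
theorem lamY_eq {Y : ℝ} (hY : 1 ≤ Y) {d : O} (hd : Primary d) :
    (if d = 1 then 1 else 0 : ℂ) = lamY Y d - if Y < nr d then lamY Y d else 0 := by
  by_cases h : Y < nr d
  · rw [if_pos h, sub_self, if_neg]
    rintro rfl
    simp only [nr, nm_one, Nat.cast_one] at h
    linarith
  · rw [if_neg h, sub_zero, lamY, Finset.filter_true_of_mem fun x hx =>
      (MBa_nr_le ((mem_pdiv hd.ne_zero).1 hx).2 hd.ne_zero).trans (not_lt.1 h),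
      sum_mu_pdiv hd.ne_zero]
    refine if_congr ⟨fun h1 => by rw [h1, pf_one], fun h1 => ?_⟩ rfl rfl
    rw [hd.eq_prod, h1, Finset.prod_empty]

/-! ## the cube part -/

theorem primary_cu (n : O) : Primary (cu n) :=
  BasicB.primary_prod_pow (fun _ => BasicB.pf_sub) _

theorem vp_cu {n p : O} (hn : n ≠ 0) (hp : Prime p) (hp' : Primary p) :
    vp p (cu n) = vp p n / 3 := by
  rw [cu, vp_prod_pow (fun _ => BasicB.pf_sub) _ hp hp']
  split_ifs with h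
  · rfl
  · rw [BasicB.mem_pf_iff hn hp hp', not_not] at h
    rw [h]

theorem dvd_cu_iff {n d : O} (hn : n ≠ 0) (hd : Primary d) : d ∣ cu n ↔ d ^ 3 ∣ n := by
  rw [hd.dvd_iff_vp (primary_cu n).ne_zero, (hd.pow 3).dvd_iff_vp hn, pf_pow (by norm_num)]
  refine forall₂_congr fun p hp => ?_
  obtain ⟨p1, p2⟩ := BasicB.pf_sub hp
  rw [vp_cu hn p1 p2, vp_pow p1 hd.ne_zero]
  omega

open Classical in
theorem lamY_cu {M n : O} {Y : ℝ} (hY : 0 ≤ Y) (hn : Primary n) (hM : IsCoprime n M) :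
    lamY Y (cu n) = ∑ d ∈ sp M Y, if d ^ 3 ∣ n then mu d else 0 := by
  rw [← Finset.sum_filter, lamY]
  symm
  refine Finset.sum_subset (fun d hd => ?_) fun d hd hd' => ?_
  · obtain ⟨h1, h2⟩ := Finset.mem_filter.1 hd
    obtain ⟨h3, h4⟩ := (mem_sp hY).1 h1
    exact Finset.mem_filter.2 ⟨(mem_pdiv (primary_cu n).ne_zero).2
      ⟨h3.1, (dvd_cu_iff hn.ne_zero h3.1).2 h2⟩, h4⟩
  · obtain ⟨h1, h2⟩ := Finset.mem_filter.1 hd
    obtain ⟨h3, h4⟩ := (mem_pdiv (primary_cu n).ne_zero).1 h1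
    have h5 := (dvd_cu_iff hn.ne_zero h3).1 h4
    refine BasicB.mu_of_not fun hs => hd' (Finset.mem_filter.2 ⟨(mem_sp hY).2 ⟨⟨h3, hs, ?_⟩, h2⟩, h5⟩)
    exact hM.of_isCoprime_of_dvd_left ((dvd_pow_self d three_ne_zero).trans h5)

theorem Rs_mul_sq (m n : O) {y : O} (hy : IsCoprime y 2) : Rs m (n * y ^ 2) = Rs m n := by
  rw [Rs, Rs, ← mul_assoc, g4_mul_sq hy, g4_mul_sq hy]

theorem exists_sq {d : O} (hd : Primary d) :
    ∃ d₀ d₁ : O, Primary d₀ ∧ Squarefree d₀ ∧ Primary d₁ ∧ d = d₀ * d₁ ^ 2 := by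
  have h0 : Primary (∏ p ∈ pf d, p ^ (vp p d % 2)) :=
    BasicB.primary_prod_pow (fun _ => BasicB.pf_sub) _
  refine ⟨_, _, h0, h0.squarefree_iff.2 fun p hp => ?_,
    BasicB.primary_prod_pow (fun _ => BasicB.pf_sub) _, BasicB.eq_mod_mul_div hd 2⟩
  have h1 := BasicB.vp_ne_zero hp
  obtain ⟨p1, p2⟩ := BasicB.pf_sub hp
  rw [vp_prod_pow (fun _ => BasicB.pf_sub) _ p1 p2] at h1 ⊢
  split_ifs at h1 ⊢ <;> omega

theorem sq_unique {a b a' b' : O} (ha : Primary a) (has : Squarefree a) (hb : Primary b)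
    (ha' : Primary a') (has' : Squarefree a') (hb' : Primary b') (h : a * b ^ 2 = a' * b' ^ 2) :
    a = a' ∧ b = b' := by
  have key : ∀ p, Prime p → vp p a = vp p a' ∧ vp p b = vp p b' := fun p hp => by
    have h1 := congrArg (vp p) h
    rw [vp_mul hp ha.ne_zero (hb.pow 2).ne_zero, vp_mul hp ha'.ne_zero (hb'.pow 2).ne_zero,
      vp_pow hp hb.ne_zero, vp_pow hp hb'.ne_zero] at h1
    have h2 := BasicB.vp_le_one has hp
    have h3 := BasicB.vp_le_one has' hp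
    omega
  exact ⟨ha.ext_vp ha' fun p hp _ => (key p hp).1, hb.ext_vp hb' fun p hp _ => (key p hp).2⟩

/-- Parametrisation of the support of `th` by the triples `(d₁, d₀, m)`. -/
theorem sum_triples {M : O} {L : ℝ} (hL : 0 ≤ L) (G : O → ℂ)
    (hG : ∀ n, (¬ ∀ p ∈ pf n, vp p n % 3 ≠ 2) → G n = 0) :
    ∑ n ∈ pr M L, G n = ∑ d₁ ∈ pr M L, ∑ d₀ ∈ sp M (L / nr d₁ ^ 6),
      ∑ m ∈ sp M (L / nr d₁ ^ 6 / nr d₀ ^ 3), G (m * (d₀ * d₁ ^ 2) ^ 3) := by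
  classical
  have hmem : ∀ d₁ d₀ m : O, d₁ ∈ pr M L → d₀ ∈ sp M (L / nr d₁ ^ 6) →
      m ∈ sp M (L / nr d₁ ^ 6 / nr d₀ ^ 3) →
      (Primary d₁ ∧ IsCoprime d₁ M) ∧ SP M d₀ ∧ SP M m ∧ nr (m * (d₀ * d₁ ^ 2) ^ 3) ≤ L := by
    intro d₁ d₀ m h1 h0 hm
    obtain ⟨a1, a2, -⟩ := (MBa_mem_pr hL).1 h1
    obtain ⟨b1, -⟩ := (mem_sp (by positivity)).1 h0
    obtain ⟨c1, c2⟩ := (mem_sp (by positivity)).1 hm
    refine ⟨⟨a1, a2⟩, b1, c1, ?_⟩
    have p1 := nr_pos a1.ne_zero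
    have p0 := nr_pos b1.1.ne_zero
    rw [le_div_iff₀ (by positivity), le_div_iff₀ (by positivity)] at c2
    rw [nr_mul, nr_pow, nr_mul, nr_pow]
    refine le_trans (le_of_eq ?_) c2
    ring
  simp only [Finset.sum_sigma']
  symm
  refine Finset.sum_of_injOn
    (fun x : (_ : O) × (_ : O) × O => x.2.2 * (x.2.1 * x.1 ^ 2) ^ 3) ?_ ?_ ?_ fun _ _ => rfl
  · rintro ⟨d₁, d₀, m⟩ hx ⟨d₁', d₀', m'⟩ hx' h
    simp only [Finset.coe_sigma, Set.mem_sigma_iff, Finset.mem_coe] at hx hx'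
    obtain ⟨a1, a0, am, -⟩ := hmem _ _ _ hx.1 hx.2.1 hx.2.2
    obtain ⟨b1, b0, bm, -⟩ := hmem _ _ _ hx'.1 hx'.2.1 hx'.2.2
    obtain ⟨c1, c2, -⟩ := sq1_cu am.1 am.2.1 (a0.1.mul (a1.1.pow 2))
    obtain ⟨c3, c4, -⟩ := sq1_cu bm.1 bm.2.1 (b0.1.mul (b1.1.pow 2))
    have h' : m * (d₀ * d₁ ^ 2) ^ 3 = m' * (d₀' * d₁' ^ 2) ^ 3 := h
    rw [h'] at c1 c2
    obtain ⟨e0, e1⟩ := sq_unique a0.1 a0.2.1 a1.1 b0.1 b0.2.1 b1.1 (c2.symm.trans c4)
    have em : m = m' := c1.symm.trans c3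
    subst e0 e1 em
    rfl
  · rintro ⟨d₁, d₀, m⟩ hx
    simp only [Finset.coe_sigma, Set.mem_sigma_iff, Finset.mem_coe] at hx
    obtain ⟨a1, a0, am, h⟩ := hmem _ _ _ hx.1 hx.2.1 hx.2.2
    exact Finset.mem_coe.2 ((MBa_mem_pr hL).2 ⟨am.1.mul ((a0.1.mul (a1.1.pow 2)).pow 3),
      am.2.2.mul_left (a0.2.2.mul_left a1.2.pow_left).pow_left, h⟩)
  · intro n hn hn'
    refine hG n fun h => hn' ?_
    obtain ⟨a1, a2, a3⟩ := (MBa_mem_pr hL).1 hn
    obtain ⟨e, h1, h2, h3⟩ := eq_sq1_mul_cu a1 h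
    obtain ⟨d₀, d₁, b0, b0', b1, e'⟩ := exists_sq h3
    rw [e'] at e
    have p1 := one_le_nr b1.ne_zero
    have p0 := one_le_nr b0.ne_zero
    have pm := one_le_nr h1.ne_zero
    have hN : nr (sq1 n) * nr d₀ ^ 3 * nr d₁ ^ 6 ≤ L := by
      refine le_trans (le_of_eq ?_) a3
      conv_rhs => rw [e]
      rw [nr_mul, nr_pow, nr_mul, nr_pow]
      ring
    have c1 : d₁ ∣ n := ⟨sq1 n * d₀ ^ 3 * d₁ ^ 5, by
      conv_lhs => rw [e]
      ring⟩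
    have c0 : d₀ ∣ n := ⟨sq1 n * d₀ ^ 2 * d₁ ^ 6, by
      conv_lhs => rw [e]
      ring⟩
    have cm : sq1 n ∣ n := ⟨_, e⟩
    refine ⟨⟨d₁, d₀, sq1 n⟩, ?_, e.symm⟩
    simp only [Finset.coe_sigma, Set.mem_sigma_iff, Finset.mem_coe]
    refine ⟨(MBa_mem_pr hL).2 ⟨b1, a2.of_isCoprime_of_dvd_left c1,
      (MBa_nr_le c1 a1.ne_zero).trans a3⟩, (mem_sp (by positivity)).2
        ⟨⟨b0, b0', a2.of_isCoprime_of_dvd_left c0⟩, ?_⟩, (mem_sp (by positivity)).2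
          ⟨⟨h1, h2, a2.of_isCoprime_of_dvd_left cm⟩, ?_⟩⟩
    · rw [le_div_iff₀ (by positivity)]
      refine le_trans (mul_le_mul_of_nonneg_right ?_ (by positivity)) hN
      exact (le_self_pow₀ p0 three_ne_zero).trans (le_mul_of_one_le_left (by positivity) pm)
    · rw [le_div_iff₀ (by positivity), le_div_iff₀ (by positivity)]
      exact hN

/-- The first step: the coefficient `al` on a squarefree index. -/
theorem al_term {M : O} (hM : Adm M) (ν : Chr M) {D Λ : ℝ} (hD : 0 < D) (hΛ : 0 < Λ) (s : ℂ)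
    (c : O → ℂ) (r k : O) {n z : O} (hn : SP M n) (hz : SP M z)
    [DecidableEq O] [Decidable (z ∣ n ∧ nr n ≤ D * Λ * nr z)] :
    (∑ m ∈ sp M (D * Λ), if m * z = n then c z * (mu m * ev ν m * Wc (nr m / D) s) else 0) *
        conj (sym n r) * gam 5 n * sym n k =
      th n * Gf n * ev ν n * sym n (k * r ^ 5) *
        if z ∣ n ∧ nr n ≤ D * Λ * nr z then
          mu z * conj (ev ν z) * c z * Wc (nr n / (D * nr z)) s else 0 := by
  have pz := nr_pos hz.1.ne_zero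
  split_ifs with h
  · obtain ⟨⟨m, rfl⟩, h2⟩ := h
    have hm1 : Primary m := hz.1.of_mul hn.1
    have hm : SP M m := ⟨hm1, hn.2.1.of_mul_right, hn.2.2.of_mul_left_right⟩
    have hcop : IsCoprime z m := (IsRelPrime.of_squarefree_mul hn.2.1).isCoprime
    have hmem : m ∈ sp M (D * Λ) := by
      refine (mem_sp (by positivity)).2 ⟨hm, ?_⟩
      rw [nr_mul, mul_comm (nr z)] at h2
      exact le_of_mul_le_mul_right h2 pz
    rw [Finset.sum_eq_single_of_mem m hmem fun m' _ hne => if_neg fun h' =>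
      hne (mul_right_cancel₀ hz.1.ne_zero (h'.trans (mul_comm z m))), if_pos (mul_comm m z)]
    have po := PO.of_adm hM hn.1 hn.2.2
    have e1 := mu_gam_five po hn.2.1
    have e2 := mu_mul hz.1 hm1 hcop
    have e3 := mu_sq hz.2.1
    have e4 : conj (ev ν z) * ev ν z = 1 := Gauss_conj_mul (norm_ev hM.1 ν hz.2.2)
    have e5 : nr (z * m) / (D * nr z) = nr m / D := by
      rw [nr_mul]
      field_simp
    rw [e5, ev_mul, sym_mul_right po, sym_pow_right po, ← conj_sym hn.1]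
    rw [e2] at e1
    generalize conj (ev ν z) = a at e4 ⊢
    generalize conj (sym (z * m) r) = b
    linear_combination (c z * ev ν m * Wc (nr m / D) s * b * sym (z * m) k) *
      (mu z * (a * ev ν z) * e1 - mu m * gam 5 (z * m) * (a * ev ν z) * e3 -
        mu m * gam 5 (z * m) * e4)
  · rw [Finset.sum_eq_zero, zero_mul, zero_mul, zero_mul, mul_zero]
    intro m hm
    refine if_neg fun h' => h ?_
    obtain ⟨-, h2⟩ := (mem_sp (by positivity)).1 hm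
    rw [← h', nr_mul]
    exact ⟨dvd_mul_left _ _, mul_le_mul_of_nonneg_right h2 pz.le⟩

/-- The factorisation of the summand on `n = m (d₀ d₁²)³`. -/
theorem big_term {M : O} (hM : Adm M) (ν : Chr M) (r k : O) {d₁ d₀ m : O} (h1 : Primary d₁)
    (h1' : IsCoprime d₁ M) (h0 : SP M d₀) (hm : SP M m) :
    th (m * (d₀ * d₁ ^ 2) ^ 3) * Gf (m * (d₀ * d₁ ^ 2) ^ 3) * ev ν (m * (d₀ * d₁ ^ 2) ^ 3) *
        sym (m * (d₀ * d₁ ^ 2) ^ 3) (k * r ^ 5) =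
      ((nr d₁ : ℝ) : ℂ) * sym (d₁ ^ 6) (k * r ^ 5) *
        (conj (arg (d₀ * d₁ ^ 2)) ^ 3 * Gf ((d₀ * d₁ ^ 2) ^ 3) * ev ν ((d₀ * d₁ ^ 2) ^ 3) *
          sym (d₀ ^ 3) (r ^ 5) * (Rs m d₀ * ev ν m * mu m * conj (sym m r))) *
        ((Real.sqrt (nr d₀) : ℂ) * gam 5 m * sym (m * d₀ ^ 3) k) := by
  have q1 := PO.of_adm hM h1 h1'
  have q0 := PO.of_adm hM h0.1 h0.2.2
  have qm := PO.of_adm hM hm.1 hm.2.2
  have hd : Primary (d₀ * d₁ ^ 2) := h0.1.mul (h1.pow 2)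
  have q3 : PO (d₀ ^ 3) := ⟨h0.1.pow 3, q0.2.pow_left⟩
  have qd : PO ((d₀ * d₁ ^ 2) ^ 3) := ⟨hd.pow 3, (q0.2.mul_left q1.2.pow_left).pow_left⟩
  have e1 : Rs m ((d₀ * d₁ ^ 2) ^ 3) = Rs m d₀ := by
    rw [show (d₀ * d₁ ^ 2) ^ 3 = d₀ * (d₀ * d₁ ^ 3) ^ 2 by ring]
    exact Rs_mul_sq m d₀ (q0.2.mul_left q1.2.pow_left)
  have e2 : Real.sqrt (nr (d₀ * d₁ ^ 2)) = Real.sqrt (nr d₀) * nr d₁ := by
    rw [nr_mul, nr_pow, Real.sqrt_mul (Nat.cast_nonneg _), Real.sqrt_sq (Nat.cast_nonneg _)]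
  have e3 : sym (m * (d₀ * d₁ ^ 2) ^ 3) (k * r ^ 5) = sym (m * d₀ ^ 3) k *
      (conj (sym m r) * sym (d₀ ^ 3) (r ^ 5)) * sym (d₁ ^ 6) (k * r ^ 5) := by
    rw [show m * (d₀ * d₁ ^ 2) ^ 3 = m * d₀ ^ 3 * d₁ ^ 6 by ring,
      sym_mul_left (qm.mul q3).1.ne_zero (h1.pow 6).ne_zero, sym_mul_right (qm.mul q3),
      sym_mul_left hm.1.ne_zero q3.1.ne_zero (r ^ 5), sym_pow_right qm, ← conj_sym hm.1]
  have e4 := mu_gam_five qm hm.2.1
  rw [th_mul_cube hm.1 hd, Gf_mul qm qd, e1, e2, e3, ev_mul, Complex.ofReal_mul]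
  generalize conj (arg (d₀ * d₁ ^ 2)) = a
  generalize conj (sym m r) = b
  linear_combination (-((nr d₁ : ℝ) : ℂ) * sym (d₁ ^ 6) (k * r ^ 5) * a ^ 3 *
    Gf ((d₀ * d₁ ^ 2) ^ 3) * ev ν ((d₀ * d₁ ^ 2) ^ 3) * sym (d₀ ^ 3) (r ^ 5) * Rs m d₀ * ev ν m *
    b * (Real.sqrt (nr d₀) : ℂ) * sym (m * d₀ ^ 3) k) * e4

/-- The exact identity. -/
theorem cube_eq {M : O} (hM : Adm M) {D Λ L' Zm Y : ℝ} (ν : Chr M) (s : ℂ) {Z : Finset O}
    (c : O → ℂ) (r k : O) (hL : 0 ≤ L') (hY : 1 ≤ Y) (hD : 0 < D) (hΛ : 0 < Λ) (hZ : Marks M Z Zm)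
    (hZL : D * Λ * Zm ≤ L') :
    Sd M L' (fun n => al ν D Λ s Z c n * conj (sym n r)) k =
      Small ν D Λ s Z c r Y k - ∑ d₁ ∈ pr M L', ((nr d₁ : ℝ) : ℂ) * sym (d₁ ^ 6) (k * r ^ 5) *
        Sg M (L' / nr d₁ ^ 6) (betaG ν D Λ s Z c r Y d₁) k := by
  classical
  obtain ⟨F, hF⟩ : ∃ F : O → ℂ, ∀ n, F n = th n * Gf n * ev ν n * sym n (k * r ^ 5) :=
    ⟨_, fun _ => rfl⟩
  obtain ⟨w, hw⟩ : ∃ w : O → ℂ, ∀ n, w n = ∑ z ∈ Z, if z ∣ n ∧ nr n ≤ D * Λ * nr z then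
      mu z * conj (ev ν z) * c z * Wc (nr n / (D * nr z)) s else 0 := ⟨_, fun _ => rfl⟩
  have hF0 : ∀ n, (¬ ∀ p ∈ pf n, vp p n % 3 ≠ 2) → F n = 0 := fun n h => by
    rw [hF, th_of_not h, zero_mul, zero_mul, zero_mul]
  have s1 : Sd M L' (fun n => al ν D Λ s Z c n * conj (sym n r)) k =
      ∑ n ∈ sp M L', F n * w n := by
    refine Finset.sum_congr rfl fun n hn => ?_
    rw [hF, hw, Finset.mul_sum]
    simp only [al, Finset.sum_mul]
    refine Finset.sum_congr rfl fun z hz => ?_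
    rw [← al_term hM ν hD hΛ s c r k ((mem_sp hL).1 hn).1 (hZ z hz).1]
    simp only [Finset.sum_mul]
  have s2 : ∑ n ∈ sp M L', F n * w n =
      ∑ n ∈ pr M L', (if cu n = 1 then 1 else 0 : ℂ) * (F n * w n) := by
    refine Finset.sum_subset_zero_on_sdiff (fun n hn => ?_) (fun n hn => ?_) fun n hn => ?_
    · obtain ⟨h1, h2⟩ := (mem_sp hL).1 hn
      exact (MBa_mem_pr hL).2 ⟨h1.1, h1.2.2, h2⟩
    · obtain ⟨h1, h2⟩ := Finset.mem_sdiff.1 hn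
      obtain ⟨a1, a2, a3⟩ := (MBa_mem_pr hL).1 h1
      by_cases h : ∀ p ∈ pf n, vp p n % 3 ≠ 2
      · obtain ⟨e, -, b2, -⟩ := eq_sq1_mul_cu a1 h
        rw [if_neg, zero_mul]
        intro hc
        rw [hc, one_pow, mul_one] at e
        exact h2 ((mem_sp hL).2 ⟨⟨a1, e ▸ b2, a2⟩, a3⟩)
      · rw [hF0 n h, zero_mul, mul_zero]
    · obtain ⟨h1, -⟩ := (mem_sp hL).1 hn
      have := (sq1_cu h1.1 h1.2.1 primary_one).2.1
      rw [one_pow, mul_one] at this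
      rw [if_pos this, one_mul]
  have s3 : Small ν D Λ s Z c r Y k = ∑ n ∈ pr M L', lamY Y (cu n) * (F n * w n) := by
    have t1 : ∑ n ∈ pr M L', lamY Y (cu n) * (F n * w n) =
        ∑ n ∈ pr M L', ∑ d ∈ sp M Y, ∑ z ∈ Z, (if d ^ 3 ∣ n then mu d else 0) * (F n *
          if z ∣ n ∧ nr n ≤ D * Λ * nr z then
            mu z * conj (ev ν z) * c z * Wc (nr n / (D * nr z)) s else 0) := by
      refine Finset.sum_congr rfl fun n hn => ?_
      obtain ⟨a1, a2, -⟩ := (MBa_mem_pr hL).1 hn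
      rw [lamY_cu (by linarith) a1 a2, hw, Finset.sum_mul]
      refine Finset.sum_congr rfl fun d _ => ?_
      rw [Finset.mul_sum, Finset.mul_sum]
    rw [t1, Finset.sum_comm, Small]
    refine Finset.sum_congr rfl fun d _ => ?_
    rw [Finset.sum_comm, Finset.mul_sum]
    refine Finset.sum_congr rfl fun z hz => ?_
    have hz0 : 0 ≤ D * Λ * nr z := by positivity
    have hzL : D * Λ * nr z ≤ L' :=
      (mul_le_mul_of_nonneg_left (hZ z hz).2 (by positivity)).trans hZL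
    rw [Finset.mul_sum, Finset.mul_sum]
    refine Finset.sum_subset_zero_on_sdiff (fun n hn => ?_) (fun n hn => ?_) fun n hn => ?_
    · obtain ⟨a1, a2, a3⟩ := (MBa_mem_pr hz0).1 hn
      exact (MBa_mem_pr hL).2 ⟨a1, a2, a3.trans hzL⟩
    · obtain ⟨h1, h2⟩ := Finset.mem_sdiff.1 hn
      obtain ⟨a1, a2, -⟩ := (MBa_mem_pr hL).1 h1
      rw [if_neg (c := z ∣ n ∧ nr n ≤ D * Λ * nr z) fun h => h2 ((MBa_mem_pr hz0).2 ⟨a1, a2, h.2⟩),
        mul_zero, mul_zero]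
    · obtain ⟨-, -, a3⟩ := (MBa_mem_pr hz0).1 hn
      rw [hF]
      by_cases h1 : d ^ 3 ∣ n <;> by_cases h2 : z ∣ n <;> simp only [h1, h2, a3, and_self,
        and_true, and_false, if_true, if_false, mul_zero, zero_mul]
      ring
  have s4 : ∑ n ∈ pr M L', (if Y < nr (cu n) then lamY Y (cu n) else 0) * (F n * w n) =
      ∑ d₁ ∈ pr M L', ((nr d₁ : ℝ) : ℂ) * sym (d₁ ^ 6) (k * r ^ 5) *
        Sg M (L' / nr d₁ ^ 6) (betaG ν D Λ s Z c r Y d₁) k := by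
    rw [sum_triples hL _ fun n h => by rw [hF0 n h, zero_mul, mul_zero]]
    refine Finset.sum_congr rfl fun d₁ h1 => ?_
    obtain ⟨a1, a2, -⟩ := (MBa_mem_pr hL).1 h1
    rw [Sg, Finset.mul_sum]
    refine Finset.sum_congr rfl fun d₀ h0 => ?_
    obtain ⟨b1, -⟩ := (mem_sp (by positivity)).1 h0
    rw [Finset.mul_sum]
    refine Finset.sum_congr rfl fun m hm => ?_
    obtain ⟨c1, -⟩ := (mem_sp (by positivity)).1 hm
    rw [(sq1_cu c1.1 c1.2.1 (b1.1.mul (a1.pow 2))).2.1, hF, big_term hM ν r k a1 a2 b1 c1, hw,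
      betaG]
    split_ifs
    · ring
    · ring
  rw [s1, s2, s3, ← s4, ← Finset.sum_sub_distrib]
  refine Finset.sum_congr rfl fun n _ => ?_
  rw [← sub_mul, ← lamY_eq hY (primary_cu n)]

theorem sum_inv_pr {ε : ℝ} (hε : 0 < ε) : ∃ C : ℝ, 0 < C ∧ ∀ (M : O) (R L : ℝ), 1 ≤ R → 0 ≤ L →
    L ≤ R → ∑ d ∈ pr M L, (nr d)⁻¹ ≤ C * R ^ ε := by
  classical
  obtain ⟨C, hC, h⟩ := sum_inv_nr_le
  refine ⟨C * (1 + 2 ^ ε / ε), by positivity, fun M R L hR hL hLR => ?_⟩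
  have h1 : ∑ d ∈ pr M L, (nr d)⁻¹ ≤ ∑ n ∈ (ball ⌊L⌋₊).erase 0, (nr n)⁻¹ := by
    refine Finset.sum_le_sum_of_subset_of_nonneg (fun d hd => ?_) fun _ _ _ => by positivity
    obtain ⟨a1, -, a3⟩ := (MBa_mem_pr hL).1 hd
    exact Finset.mem_erase.2 ⟨a1.ne_zero, mem_ball.2 ((Nat.le_floor_iff hL).2 a3)⟩
  have h2 : Real.log ((⌊L⌋₊ : ℝ) + 1) ≤ 2 ^ ε / ε * R ^ ε := by
    have a1 : (⌊L⌋₊ : ℝ) + 1 ≤ 2 * R := by linarith [Nat.floor_le hL]
    refine (Real.log_le_log (by positivity) a1).trans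
      ((Real.log_le_rpow_div (by positivity) hε).trans (le_of_eq ?_))
    rw [Real.mul_rpow (by norm_num) (by linarith)]
    ring
  have h3 : 1 ≤ R ^ ε := Real.one_le_rpow hR hε.le
  refine h1.trans ((h _).trans ?_)
  rw [mul_assoc]
  refine mul_le_mul_of_nonneg_left ?_ hC.le
  linarith

theorem cube_le {M : O} (hM : Adm M) {ε : ℝ} (hε : 0 < ε) : ∃ C : ℝ, 0 < C ∧
    ∀ (R D Λ L' Zm Y : ℝ) (ν : Chr M) (s : ℂ) (Z : Finset O) (c : O → ℂ) (r k : O), 1 ≤ R →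
      L' ≤ R → 1 ≤ Y → 0 < D → 0 < Λ → Marks M Z Zm → D * Λ * Zm ≤ L' →
      ‖Sd M L' (fun n => al ν D Λ s Z c n * conj (sym n r)) k‖ ^ 2 ≤
        2 * ‖Small ν D Λ s Z c r Y k‖ ^ 2 + C * R ^ ε * ∑ d₁ ∈ pr M L', nr d₁ ^ 3 *
          ‖Sg M (L' / nr d₁ ^ 6) (betaG ν D Λ s Z c r Y d₁) k‖ ^ 2 := by
  obtain ⟨C, hC, h⟩ := sum_inv_pr hε
  refine ⟨2 * C, by positivity, fun R D Λ L' Zm Y ν s Z c r k hR hLR hY hD hΛ hZ hZL => ?_⟩
  have hR0 : 0 ≤ R := by linarith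
  rcases lt_or_ge L' 1 with hL | hL
  · rw [Sd, sp_eq_empty M hL, Finset.sum_empty, norm_zero, zero_pow two_ne_zero]
    positivity
  have hL0 : 0 ≤ L' := by linarith
  rw [cube_eq (Y := Y) hM ν s c r k hL0 hY hD hΛ hZ hZL]
  set S : O → ℝ := fun d₁ => ‖Sg M (L' / nr d₁ ^ 6) (betaG ν D Λ s Z c r Y d₁) k‖ with hS
  set B := ∑ d₁ ∈ pr M L', ((nr d₁ : ℝ) : ℂ) * sym (d₁ ^ 6) (k * r ^ 5) *
        Sg M (L' / nr d₁ ^ 6) (betaG ν D Λ s Z c r Y d₁) k with hB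
  have h1 : ‖B‖ ≤ ∑ d₁ ∈ pr M L', nr d₁ * S d₁ := by
    refine (norm_sum_le _ _).trans (Finset.sum_le_sum fun d _ => ?_)
    rw [norm_mul, norm_mul, Complex.norm_real, Real.norm_of_nonneg (Nat.cast_nonneg _)]
    exact mul_le_mul_of_nonneg_right
      (mul_le_of_le_one_right (Nat.cast_nonneg _) (norm_sym_le _ _)) (norm_nonneg _)
  have h2 : (∑ d₁ ∈ pr M L', nr d₁ * S d₁) ^ 2 ≤
      (∑ d₁ ∈ pr M L', (nr d₁)⁻¹) * ∑ d₁ ∈ pr M L', nr d₁ ^ 3 * S d₁ ^ 2 := by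
    refine Finset.sum_sq_le_sum_mul_sum_of_sq_le_mul _ (fun _ _ => by positivity)
      (fun _ _ => by positivity) fun d hd => le_of_eq ?_
    have := (nr_pos ((MBa_mem_pr hL0).1 hd).1.ne_zero).ne'
    field_simp
  have h3 : 0 ≤ ∑ d₁ ∈ pr M L', nr d₁ ^ 3 * S d₁ ^ 2 :=
    Finset.sum_nonneg fun _ _ => by positivity
  have h4 := (pow_le_pow_left₀ (norm_nonneg _) h1 2).trans
    (h2.trans (mul_le_mul_of_nonneg_right (h M R L' hR hL0 hLR) h3))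
  have h5 := pow_le_pow_left₀ (norm_nonneg _) (norm_sub_le (Small ν D Λ s Z c r Y k) B) 2
  nlinarith [sq_nonneg (‖Small ν D Λ s Z c r Y k‖ - ‖B‖)]

end Crest.Agent.R17.T2CA
end
end

-- ▼ part PVc/R17/T2CubeAuxC

/-!
# Row 17, module T2: the small cubes (proof of `small_le`)
-/

set_option autoImplicit false

noncomputable section

namespace Crest.Agent.R17.T2CubeC

open scoped ComplexConjugate
open Finset

open Classical in
/-- the coefficient of the inner sum -/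
def bb {M : O} (ν : Chr M) (d z a n : O) : ℂ :=
  if (Primary n ∧ IsCoprime n M) ∧ d ^ 3 ∣ n ∧ z ∣ n then th n * Gf n * ev ν n * sym n a else 0

open Classical in
/-- the periodic factor -/
def ph {M : O} (ν : Chr M) (d n : O) : ℂ :=
  if Primary n ∧ IsCoprime n M then Gf (n * d ^ 3) * ev ν (n * d ^ 3) else 0

open Classical in
/-- one term of `Tc` -/
def T1 (φ : O → ℂ) (D : ℝ) (s : ℂ) (a z : O) : ℂ :=
  ∑' n : O, if z ∣ n then th n * φ n * sym n a * Wc (nr n / (D * nr z)) s else 0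

theorem Tc_eq (φ : O → ℂ) (Zs : Finset O) (c : O → ℂ) (D : ℝ) (s : ℂ) (a : O) :
    Tc φ Zs c D s a = ∑ z ∈ Zs, c z * T1 φ D s a z := rfl

/-- the factor which comes out of the cube -/
def wd (d a : O) : ℂ := (Real.sqrt (nr d) : ℂ) * conj (arg d) ^ 3 * sym (d ^ 3) a

theorem norm_wd {d : O} (hd : d ≠ 0) (a : O) : ‖wd d a‖ ^ 2 ≤ nr d := by
  have h1 : ‖wd d a‖ ≤ Real.sqrt (nr d) := by
    rw [wd, norm_mul, norm_mul, norm_pow, Complex.norm_conj, norm_arg hd, one_pow, mul_one,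
      Complex.norm_real, Real.norm_of_nonneg (Real.sqrt_nonneg _)]
    exact mul_le_of_le_one_right (Real.sqrt_nonneg _) (norm_sym_le _ _)
  refine (pow_le_pow_left₀ (norm_nonneg _) h1 2).trans_eq (Real.sq_sqrt (Nat.cast_nonneg _))

theorem polyB_bb {M : O} (hM : Adm M) (hth : ∀ n : O, ‖th n‖ ≤ nr n ^ (1 / 2 : ℝ)) (ν : Chr M)
    (d z a : O) : PolyB (bb ν d z a) 1 (1 / 2) := by
  refine ⟨?_, fun n => ?_⟩
  · rw [bb, if_neg fun h => Primary.ne_zero h.1.1 rfl]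
  · rw [bb, one_mul]
    split_ifs with h
    · rw [norm_mul, norm_mul, norm_mul, norm_Gf (PO.of_adm hM h.1.1 h.1.2), norm_ev hM.1 ν h.1.2,
        mul_one, mul_one]
      exact (mul_le_of_le_one_right (norm_nonneg _) (norm_sym_le _ _)).trans (hth n)
    · rw [norm_zero]
      positivity

theorem perB_ph {M : O} (hM : Adm M) (ν : Chr M) {d : O} (hd : SP M d) : PerB M (ph ν d) := by
  have h3 : (3 : O) ∣ M := Dvd.dvd.trans ⟨24, by norm_num⟩ hM.2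
  have h4 : (4 : O) ∣ M := Dvd.dvd.trans ⟨18, by norm_num⟩ hM.2
  have hpo : ∀ n, Primary n ∧ IsCoprime n M → PO (n * d ^ 3) := fun n h =>
    PO.of_adm hM (h.1.mul (hd.1.pow 3)) (h.2.mul_left hd.2.2.pow_left)
  have key : ∀ n n', M ∣ n - n' → Primary n ∧ IsCoprime n M → Primary n' ∧ IsCoprime n' M := by
    intro n n' h hn
    refine ⟨?_, ?_⟩
    · have := dvd_sub hn.1 (h3.trans h)
      rwa [show n - 1 - (n - n') = n' - 1 by ring] at this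
    · obtain ⟨q, hq⟩ := h
      have : n' = n + M * (-q) := by linear_combination -hq
      rw [this]
      exact hn.2.add_mul_left_left _
  refine ⟨fun n => ?_, fun n n' h => ?_, fun n hn => ?_⟩
  · rw [ph]
    split_ifs with h
    · rw [norm_mul, norm_Gf (hpo n h), one_mul]
      exact norm_ev_le hM.1 ν _
    · simp
  · have h' : M ∣ n * d ^ 3 - n' * d ^ 3 := by
      rw [← sub_mul]
      exact h.mul_right _
    by_cases hn : Primary n ∧ IsCoprime n M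
    · have hn' := key n n' h hn
      rw [ph, ph, if_pos hn, if_pos hn', Gf_congr (hpo n hn) (hpo n' hn') (h4.trans h'),
        ev_congr ν h']
    · have hn' : ¬ (Primary n' ∧ IsCoprime n' M) := fun h2 =>
        hn (key n' n (by rw [← dvd_neg, neg_sub]; exact h) h2)
      rw [ph, ph, if_neg hn, if_neg hn']
  · rw [ph, if_neg fun h => hn h.2]

open Classical in
theorem trunc (B σ : ℝ) : ∃ C : ℝ, 0 < C ∧ ∀ (b : O → ℂ) (X Λ : ℝ) (s : ℂ) (S : Finset O),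
    PolyB b 1 (1 / 2) → 0 < X → 1 ≤ Λ → |s.re| ≤ σ → (∀ n, b n ≠ 0 → nr n ≤ X * Λ → n ∈ S) →
    ‖∑ n ∈ S, (if nr n ≤ X * Λ then b n * Wc (nr n / X) s else 0) - Sm b X s‖ ≤
      C * X ^ (1 / 2 + 1 : ℝ) * Λ ^ (-B) := by
  obtain ⟨C, hC, h⟩ := tsum_norm_Sm_tail_le B (1 / 2) σ (by norm_num)
  refine ⟨C, hC, fun b X Λ s S hb hX hΛ hs hS => ?_⟩
  have h1 := h b 1 X Λ s hb hX hΛ hs
  rw [mul_one] at h1
  have hsum := summable_Sm hb hX s
  have e1 : ∑ n ∈ S, (if nr n ≤ X * Λ then b n * Wc (nr n / X) s else 0) =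
      ∑' n, (if nr n ≤ X * Λ then b n * Wc (nr n / X) s else 0) := by
    refine (tsum_eq_sum fun n hn => ?_).symm
    split_ifs with h2
    · by_cases h3 : b n = 0
      · rw [h3, zero_mul]
      · exact absurd (hS n h3 h2) hn
    · rfl
  have s1 : Summable fun n => (if nr n ≤ X * Λ then b n * Wc (nr n / X) s else 0) := by
    refine Summable.of_norm_bounded hsum fun n => ?_
    split_ifs
    · exact le_rfl
    · rw [norm_zero]; exact norm_nonneg _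
  have s2 : Summable fun n =>
      (if X / Λ ≤ nr n ∧ nr n ≤ X * Λ then 0 else ‖b n * Wc (nr n / X) s‖) := by
    refine Summable.of_nonneg_of_le (fun n => ?_) (fun n => ?_) hsum
    · split_ifs
      exacts [le_rfl, norm_nonneg _]
    · split_ifs
      exacts [norm_nonneg _, le_rfl]
  rw [e1, Sm, ← s1.tsum_sub hsum.of_norm]
  refine (tsum_of_norm_bounded s2.hasSum fun n => ?_).trans h1
  by_cases h2 : nr n ≤ X * Λ
  · rw [if_pos h2, sub_self, norm_zero]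
    split_ifs
    exacts [le_rfl, norm_nonneg _]
  · rw [if_neg h2, if_neg (fun h3 => h2 h3.2), zero_sub, norm_neg]

/-- the sum without truncation -/
def Full {M : O} (ν : Chr M) (D : ℝ) (s : ℂ) (Z : Finset O) (c : O → ℂ) (Y : ℝ) (a : O) : ℂ :=
  ∑ d ∈ sp M Y, mu d * ∑ z ∈ Z, mu z * conj (ev ν z) * c z * Sm (bb ν d z a) (D * nr z) s

theorem norm_coef {M : O} (hM : Adm M) (ν : Chr M) {c : O → ℂ} (hc : ∀ z, ‖c z‖ ≤ 1) (z : O) :
    ‖mu z * conj (ev ν z) * c z‖ ≤ 1 := by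
  rw [norm_mul, norm_mul, Complex.norm_conj]
  exact mul_le_one₀ (mul_le_one₀ (norm_mu_le z) (norm_nonneg _) (norm_ev_le hM.1 ν z))
    (norm_nonneg _) (hc z)

theorem small_sub_full {M : O} (hM : Adm M) (hth : ∀ n : O, ‖th n‖ ≤ nr n ^ (1 / 2 : ℝ)) (B : ℝ) :
    ∃ C : ℝ, 0 < C ∧ ∀ (R D Λ Zm Y : ℝ) (ν : Chr M) (s : ℂ) (Z : Finset O) (c : O → ℂ) (r k : O),
      1 ≤ Λ → 1 ≤ Y → Y ≤ R → 1 ≤ Zm → Zm ≤ R → 0 < D → D ≤ R → Marks M Z Zm →
      (∀ z, ‖c z‖ ≤ 1) → |s.re| ≤ 3 →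
      ‖Small ν D Λ s Z c r Y k - Full ν D s Z c Y (k * r ^ 5)‖ ≤ C * R ^ 5 * Λ ^ (-B) := by
  classical
  obtain ⟨C, hC, h⟩ := trunc B 3
  refine ⟨49 * C, by positivity, fun R D Λ Zm Y ν s Z c r k hΛ hY hYR hZ hZR hD hDR hm hc hs => ?_⟩
  have hR : 1 ≤ R := hY.trans hYR
  have hΛB : 0 ≤ Λ ^ (-B) := by positivity
  have hcZ : (Z.card : ℝ) ≤ 7 * R :=
    En.card_le (by linarith) fun z hz => ⟨(hm z hz).1.1.ne_zero, (hm z hz).2.trans hZR⟩
  have hcY : ((sp M Y).card : ℝ) ≤ 7 * R := (En.card_sp M (by linarith)).trans (by linarith)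
  set E := C * R ^ 3 * Λ ^ (-B) with hE
  have hE0 : 0 ≤ E := by positivity
  rw [Small, Full, ← sum_sub_distrib]
  refine (norm_sum_le _ _).trans ((sum_le_card_nsmul _ _ (7 * R * E) fun d hd => ?_).trans ?_)
  · rw [← mul_sub, norm_mul, ← sum_sub_distrib]
    refine (mul_le_of_le_one_left (norm_nonneg _) (norm_mu_le d)).trans ?_
    refine (norm_sum_le _ _).trans ((sum_le_card_nsmul _ _ E fun z hz => ?_).trans ?_)
    · rw [← mul_sub, norm_mul]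
      refine (mul_le_of_le_one_left (norm_nonneg _) (norm_coef hM ν hc z)).trans ?_
      have hz0 := nr_pos (hm z hz).1.1.ne_zero
      have hX : 0 < D * nr z := by positivity
      have hX' : D * Λ * nr z = D * nr z * Λ := by ring
      have h0 : 0 ≤ D * nr z * Λ := by positivity
      have h1 := h (bb ν d z (k * r ^ 5)) (D * nr z) Λ s (pr M (D * nr z * Λ))
        (polyB_bb hM hth ν d z _) hX hΛ hs fun n hn hn' => by
          refine (MBa_mem_pr h0).2 ?_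
          rw [bb] at hn
          split_ifs at hn with h2
          · exact ⟨h2.1.1, h2.1.2, hn'⟩
          · exact absurd rfl hn
      rw [hX']
      refine le_of_eq_of_le ?_ (h1.trans ?_)
      · congr 2
        refine sum_congr rfl fun n hn => ?_
        obtain ⟨h2, h3, h4⟩ := (MBa_mem_pr h0).1 hn
        rw [if_pos h4, bb]
        by_cases h5 : d ^ 3 ∣ n ∧ z ∣ n
        · rw [if_pos h5, if_pos ⟨⟨h2, h3⟩, h5⟩]
        · rw [if_neg h5, if_neg fun h6 => h5 h6.2, zero_mul]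
      · refine mul_le_mul_of_nonneg_right (mul_le_mul_of_nonneg_left ?_ hC.le) hΛB
        have h2 : D * nr z ≤ R ^ (2 : ℝ) := by
          rw [Real.rpow_two, sq]
          exact mul_le_mul hDR ((hm z hz).2.trans hZR) hz0.le (by linarith)
        refine (Real.rpow_le_rpow hX.le h2 (by norm_num)).trans_eq ?_
        rw [← Real.rpow_mul (by linarith), ← Real.rpow_natCast]
        norm_num
    · rw [nsmul_eq_mul]
      exact mul_le_mul_of_nonneg_right hcZ hE0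
  · rw [nsmul_eq_mul]
    refine (mul_le_mul_of_nonneg_right hcY (by positivity)).trans_eq ?_
    rw [hE]
    ring

theorem dvd_iff {z d t z₁ : O} (hz : Primary z) (hs : Squarefree z) (hd : d ≠ 0)
    (ht : pgcd z d = t) (e : z = t * z₁) (n : O) : z ∣ n * d ^ 3 ↔ z₁ ∣ n := by
  have hp : Primary t := ht ▸ primary_pgcd z d
  have htd : t ∣ d := ((dvd_pgcd_iff hz.ne_zero hd hp).1 (ht ▸ dvd_rfl)).2
  have h1 : Primary z₁ := hp.of_mul (e ▸ hz)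
  constructor
  · intro h
    have hc : IsCoprime z₁ d := by
      refine isCoprime_of_disjoint_pf h1 hd (disjoint_left.2 fun p hp1 hp2 => ?_)
      obtain ⟨q1, q2, q3⟩ := BasicB.of_mem_pf hp1
      have q4 : p ∣ t := by
        rw [← ht]
        exact (dvd_pgcd_iff hz.ne_zero hd q2).2
          ⟨e ▸ q3.mul_left t, (BasicB.of_mem_pf hp2).2.2⟩
      exact q1.not_isUnit (hs p (e ▸ mul_dvd_mul q4 q3))
    exact hc.pow_right.dvd_of_dvd_mul_right ((Dvd.intro_left t e.symm).trans h)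
  · intro h
    rw [e, mul_comm t]
    exact mul_dvd_mul h (htd.trans (dvd_pow_self d three_ne_zero))

theorem Sm_bb {M : O}
    (hcu : ∀ {m d : O}, Primary m → Primary d →
      th (m * d ^ 3) = (Real.sqrt (nr d) : ℂ) * conj (arg d) ^ 3 * th m)
    (ν : Chr M) {z d t z₁ : O} (hz : SP M z) (hd : SP M d) (ht : pgcd z d = t) (e : z = t * z₁)
    (D : ℝ) (s : ℂ) (a : O) :
    Sm (bb ν d z a) (D * nr z) s = wd d a * T1 (ph ν d) (D * nr t / nr d ^ 3) s a z₁ := by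
  classical
  have hd0 := hd.1.ne_zero
  have hinj : Function.Injective fun n : O => n * d ^ 3 := mul_left_injective₀ (pow_ne_zero 3 hd0)
  rw [Sm, T1, ← tsum_mul_left, ← hinj.tsum_eq]
  · refine tsum_congr fun n => ?_
    have h1 : Primary (n * d ^ 3) ∧ IsCoprime (n * d ^ 3) M ↔ Primary n ∧ IsCoprime n M :=
      ⟨fun h => ⟨(hd.1.pow 3).of_mul (mul_comm n _ ▸ h.1), h.2.of_mul_left_left⟩,
        fun h => ⟨h.1.mul (hd.1.pow 3), h.2.mul_left hd.2.2.pow_left⟩⟩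
    have h2 := dvd_iff hz.1 hz.2.1 hd0 ht e n
    rw [bb, ph]
    by_cases h3 : Primary n ∧ IsCoprime n M
    · by_cases h4 : z₁ ∣ n
      · rw [if_pos ⟨h1.2 h3, dvd_mul_left _ _, h2.2 h4⟩, if_pos h4, if_pos h3, hcu h3.1 hd.1,
          sym_mul_left h3.1.ne_zero (pow_ne_zero 3 hd0), wd]
        have h5 : nr (n * d ^ 3) / (D * nr z) = nr n / (D * nr t / nr d ^ 3 * nr z₁) := by
          rw [e, nr_mul, nr_mul, nr_pow, div_mul_eq_mul_div, div_div_eq_mul_div, mul_assoc]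
        rw [h5]
        ring
      · rw [if_neg fun h => h4 (h2.1 h.2.2), if_neg h4, zero_mul, mul_zero]
    · rw [if_neg fun h => h3 (h1.1 h.1), if_neg h3]
      simp
  · intro n hn
    rw [Function.mem_support, bb] at hn
    split_ifs at hn with h
    · obtain ⟨q, hq⟩ := h.2.1
      exact ⟨q, by rw [hq, mul_comm]⟩
    · exact absurd (zero_mul _) hn

/-- the index of the block of a mark -/
def ix (d z : O) : O × ℕ := (pgcd z d, Nat.log 2 (nm (z / pgcd z d)))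

open Classical in
/-- the block -/
def blk (Z : Finset O) (d : O) (q : O × ℕ) : Finset O :=
  (Z.filter fun z => ix d z = q).image fun z => z / q.1

theorem eq_mul {z d : O} (hz : z ≠ 0) (hd : d ≠ 0) : z = pgcd z d * (z / pgcd z d) :=
  (EuclideanDomain.mul_div_cancel' (primary_pgcd z d).ne_zero
    ((dvd_pgcd_iff hz hd (primary_pgcd z d)).1 dvd_rfl).1).symm

theorem sum_blk {M : O} {Z : Finset O} {Zm : ℝ} (hm : Marks M Z Zm) (hZ : 0 ≤ Zm) {d : O}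
    (hd : d ≠ 0) (F : O → O → ℂ) :
    ∑ z ∈ Z, F (pgcd z d) (z / pgcd z d) =
      ∑ q ∈ pdiv d ×ˢ range (Nat.log 2 ⌊Zm⌋₊ + 1), ∑ z₁ ∈ blk Z d q, F q.1 z₁ := by
  classical
  rw [← sum_fiberwise_of_maps_to (g := ix d) (t := pdiv d ×ˢ range (Nat.log 2 ⌊Zm⌋₊ + 1))]
  · refine sum_congr rfl fun q _ => ?_
    rw [blk, sum_image]
    · refine sum_congr rfl fun z hz => ?_
      rw [← (mem_filter.1 hz).2]
      rfl
    · intro z hz z' hz' h
      obtain ⟨h1, h2⟩ := mem_filter.1 (mem_coe.1 hz)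
      obtain ⟨h1', h2'⟩ := mem_filter.1 (mem_coe.1 hz')
      have e1 : pgcd z d = q.1 := congrArg Prod.fst h2
      have e2 : pgcd z' d = q.1 := congrArg Prod.fst h2'
      rw [eq_mul (hm z h1).1.1.ne_zero hd, eq_mul (hm z' h1').1.1.ne_zero hd, e1, e2]
      exact congrArg _ h
  · intro z hz
    have h0 := (hm z hz).1.1.ne_zero
    refine mem_product.2 ⟨(mem_pdiv hd).2 ⟨primary_pgcd z d,
      ((dvd_pgcd_iff h0 hd (primary_pgcd z d)).1 dvd_rfl).2⟩,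
      mem_range.2 (Nat.lt_succ_of_le ?_)⟩
    refine Nat.log_mono_right (b := 2) (n := nm (z / pgcd z d)) ?_
    refine (nm_le_of_dvd (Dvd.intro_left _ (eq_mul h0 hd).symm) h0).trans ?_
    exact (Nat.le_floor_iff hZ).2 (hm z hz).2

theorem mem_blk {M : O} {Z : Finset O} {Zm : ℝ} (hm : Marks M Z Zm) {d : O} (hd : d ≠ 0)
    {q : O × ℕ} {z₁ : O} (h : z₁ ∈ blk Z d q) :
    SP M z₁ ∧ (2 : ℝ) ^ q.2 ≤ nr z₁ ∧ nr z₁ ≤ 2 * 2 ^ q.2 := by
  classical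
  obtain ⟨z, hz, rfl⟩ := mem_image.1 h
  obtain ⟨h1, rfl⟩ := mem_filter.1 hz
  have h0 := (hm z h1).1.1.ne_zero
  have e := eq_mul h0 hd
  have hp : Primary (z / pgcd z d) := (primary_pgcd z d).of_mul (e ▸ (hm z h1).1.1)
  have hn : nm (z / pgcd z d) ≠ 0 := fun h => hp.ne_zero (nm_eq_zero.1 h)
  refine ⟨En.SP.of_dvd (hm z h1).1 hp (Dvd.intro_left _ e.symm), ?_, ?_⟩
  · exact_mod_cast Nat.pow_log_le_self 2 hn
  · have := (Nat.lt_pow_succ_log_self one_lt_two (nm (z / pgcd z d))).le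
    rw [pow_succ'] at this
    exact_mod_cast this

theorem Full_eq {M : O}
    (hcu : ∀ {m d : O}, Primary m → Primary d →
      th (m * d ^ 3) = (Real.sqrt (nr d) : ℂ) * conj (arg d) ^ 3 * th m)
    (ν : Chr M) (D : ℝ) (s : ℂ) {Z : Finset O} {Zm : ℝ} (hm : Marks M Z Zm) (hZ : 0 ≤ Zm)
    (c : O → ℂ) (Y : ℝ) (a : O) :
    Full ν D s Z c Y a = ∑ d ∈ sp M Y, ∑ q ∈ pdiv d ×ˢ range (Nat.log 2 ⌊Zm⌋₊ + 1),
      mu d * wd d a * Tc (ph ν d) (blk Z d q)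
        (fun z₁ => mu (q.1 * z₁) * conj (ev ν (q.1 * z₁)) * c (q.1 * z₁))
        (D * nr q.1 / nr d ^ 3) s a := by
  refine sum_congr rfl fun d hd => ?_
  have hd' := MBa_sp hd
  have h1 := sum_blk hm hZ hd'.1.ne_zero fun t z₁ =>
    mu d * wd d a * (mu (t * z₁) * conj (ev ν (t * z₁)) * c (t * z₁) *
      T1 (ph ν d) (D * nr t / nr d ^ 3) s a z₁)
  simp only [Tc_eq, mul_sum]
  rw [← h1]
  refine sum_congr rfl fun z hz => ?_
  have e := eq_mul (hm z hz).1.1.ne_zero hd'.1.ne_zero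
  rw [Sm_bb hcu ν (hm z hz).1 hd' rfl e, ← e]
  ring

theorem num_le {D D' Z Zm K : ℝ} (hD' : 0 < D') (hD : D' ≤ D) (hZ : 0 ≤ Z) (hZm : Z ≤ Zm)
    (hK : 0 ≤ K) :
    D' * Z * (K + K ^ 2 * Z / D' + min (Z ^ 2 * Real.sqrt K) (K * Z ^ 2 / Real.sqrt D') +
      min (K * Z) (Real.sqrt K * Z * D' ^ (1 / 4 : ℝ))) ≤
      D * Zm * K + Zm ^ 2 * K ^ 2 + Real.sqrt D * Zm ^ 3 * K + D * Zm ^ 2 * K := by
  have h0 : 0 < Real.sqrt D' := Real.sqrt_pos.2 hD'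
  have h1 : Real.sqrt D' ≤ Real.sqrt D := Real.sqrt_le_sqrt hD
  have h2 : 0 ≤ D := by linarith
  have h3 : 0 ≤ Zm := by linarith
  calc _ ≤ D' * Z * (K + K ^ 2 * Z / D' + K * Z ^ 2 / Real.sqrt D' + K * Z) := by
        gcongr
        · exact min_le_right _ _
        · exact min_le_left _ _
    _ = D' * Z * K + Z ^ 2 * K ^ 2 + Real.sqrt D' * Z ^ 3 * K + D' * Z ^ 2 * K := by
        have h4 : D' = Real.sqrt D' ^ 2 := (Real.sq_sqrt hD'.le).symm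
        generalize Real.sqrt D' = u at h0 h4
        subst h4
        field_simp
    _ ≤ _ := by gcongr

theorem full_le {M : O} (hM : Adm M)
    (hcu : ∀ {m d : O}, Primary m → Primary d →
      th (m * d ^ 3) = (Real.sqrt (nr d) : ℂ) * conj (arg d) ^ 3 * th m)
    {ε : ℝ} (hε : 0 < ε) : ∃ (C : ℝ) (J₀ : ℕ), 0 < C ∧
    ∀ (R K K' D Zm Y : ℝ) (ν : Chr M) (s : ℂ) (Z : Finset O) (c : O → ℂ) (r : O), 1 ≤ Y →
      Y ≤ R → 1 ≤ Zm → Zm ≤ R → 0 < D → D ≤ R → Y ^ 3 ≤ R * D → r ≠ 0 → 1 ≤ K →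
      K * nr r ^ 5 ≤ K' → K' ≤ R → Marks M Z Zm → (∀ z, ‖c z‖ ≤ 1) → |s.re| ≤ 3 →
      ∑ k ∈ rows K, ‖Full ν D s Z c Y (k * r ^ 5)‖ ^ 2 ≤
        C * R ^ ε * (1 + |s.im|) ^ J₀ * Y ^ 3 *
          (D * Zm * K' + Zm ^ 2 * K' ^ 2 + Real.sqrt D * Zm ^ 3 * K' + D * Zm ^ 2 * K') := by
  classical
  have hε' : 0 < ε / 5 := by positivity
  obtain ⟨C₁, J, hC₁, h₁⟩ := energy hM hε'
  obtain ⟨C₂, hC₂, h₂⟩ := En.card_pdiv_le' hε'
  obtain ⟨C₃, hC₃, h₃⟩ := En.log_le hε'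
  refine ⟨49 * (C₂ * C₃) ^ 2 * C₁, J, by positivity,
    fun R K K' D Zm Y ν s Z c r hY hYR hZ hZR hD hDR hYD hr hK hKK hKR hm hc hs => ?_⟩
  have hR : 1 ≤ R := hY.trans hYR
  have hR0 : 0 < R := by linarith
  have hr1 : 1 ≤ nr r ^ 5 := one_le_pow₀ (one_le_nr hr)
  have hone : nr 1 = 1 := by simp [nr]
  have hK' : 1 ≤ K' := by nlinarith
  have hZ0 : 0 ≤ Zm := by linarith
  set G := D * Zm * K' + Zm ^ 2 * K' ^ 2 + Real.sqrt D * Zm ^ 3 * K' + D * Zm ^ 2 * K' with hG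
  have hG0 : 0 ≤ G := by positivity
  set E := Y * (C₁ * R ^ (ε / 5) * (1 + |s.im|) ^ J * G) with hE
  have hE0 : 0 ≤ E := by positivity
  have hL : (2 : ℝ) ^ Nat.log 2 ⌊Zm⌋₊ ≤ Zm := by
    have h0 : ⌊Zm⌋₊ ≠ 0 := by
      have := (Nat.one_le_floor_iff Zm).2 hZ
      omega
    exact le_trans (by exact_mod_cast Nat.pow_log_le_self 2 h0) (Nat.floor_le hZ0)
  simp only [Full_eq hcu ν D s hm hZ0]
  refine (En.l2_sum_le _ _ _ (E := (C₂ * R ^ (ε / 5) * (C₃ * R ^ (ε / 5))) ^ 2 * E)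
    fun d hd => ?_).trans ?_
  · obtain ⟨hd1, hd2⟩ := (En.mem_sp (by linarith)).1 hd
    have hd0 := hd1.1.ne_zero
    have hn1 := one_le_nr hd0
    refine (En.l2_sum_le _ _ _ (E := E) fun q hq => ?_).trans ?_
    · obtain ⟨hq1, hq2⟩ := mem_product.1 hq
      obtain ⟨hq3, hq4⟩ := (mem_pdiv hd0).1 hq1
      have ht1 := one_le_nr hq3.ne_zero
      have ht2 : nr q.1 ≤ nr d ^ 3 :=
        (En.nr_le_of_dvd hq4 hd0).trans (le_self_pow₀ hn1 three_ne_zero)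
      have hD1 : 0 < D * nr q.1 / nr d ^ 3 := by positivity
      have hD2 : D * nr q.1 / nr d ^ 3 ≤ D := by
        rw [div_le_iff₀ (by positivity)]
        exact mul_le_mul_of_nonneg_left ht2 hD.le
      have hD3 : (D * nr q.1 / nr d ^ 3)⁻¹ ≤ R := by
        rw [inv_div, div_le_iff₀ (by positivity)]
        calc nr d ^ 3 ≤ Y ^ 3 := by gcongr
          _ ≤ R * (D * 1) := by rw [mul_one]; exact hYD
          _ ≤ _ := by gcongr
      have hZq : (2 : ℝ) ^ q.2 ≤ Zm :=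
        (pow_le_pow_right₀ one_le_two (Nat.lt_succ_iff.1 (mem_range.1 hq2))).trans hL
      have h4 := h₁ R K' (D * nr q.1 / nr d ^ 3) (2 ^ q.2) (ph ν d) 1 (blk Z d q)
        (fun z₁ => mu (q.1 * z₁) * conj (ev ν (q.1 * z₁)) * c (q.1 * z₁)) s hK' hKR
        (one_le_pow₀ one_le_two) (hZq.trans hZR) hD1 (hD2.trans hDR) hD3 (hone.trans_le hR)
        (perB_ph hM ν hd1) primary_one isCoprime_one_left (fun z hz => mem_blk hm hd0 hz)
        (fun z => norm_coef hM ν hc _) hs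
      simp only [mul_one, hone, one_pow] at h4
      set T := Tc (ph ν d) (blk Z d q)
        (fun z₁ => mu (q.1 * z₁) * conj (ev ν (q.1 * z₁)) * c (q.1 * z₁))
        (D * nr q.1 / nr d ^ 3) s with hT
      have h5 : ∑ k ∈ rows K, ‖T (k * r ^ 5)‖ ^ 2 ≤ ∑ k ∈ rows K', ‖T k‖ ^ 2 := by
        rw [← sum_image (s := rows K) (g := fun k => k * r ^ 5) (f := fun k => ‖T k‖ ^ 2)
          (mul_left_injective₀ (pow_ne_zero 5 hr)).injOn]
        refine sum_le_sum_of_subset_of_nonneg (fun x hx => ?_) fun _ _ _ => sq_nonneg _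
        obtain ⟨k, hk, rfl⟩ := mem_image.1 hx
        obtain ⟨hk1, hk2⟩ := (mem_rows (by linarith)).1 hk
        refine (mem_rows (by linarith)).2 ⟨mul_ne_zero hk1 (pow_ne_zero 5 hr), ?_⟩
        rw [nr_mul, nr_pow]
        exact (mul_le_mul_of_nonneg_right hk2 (by positivity)).trans hKK
      have h6 := num_le (K := K') hD1 hD2 (by positivity) hZq (by linarith)
      calc ∑ k ∈ rows K, ‖mu d * wd d (k * r ^ 5) * T (k * r ^ 5)‖ ^ 2
          ≤ ∑ k ∈ rows K, Y * ‖T (k * r ^ 5)‖ ^ 2 := by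
            refine sum_le_sum fun k _ => ?_
            rw [norm_mul, norm_mul, mul_pow, mul_pow]
            refine mul_le_mul_of_nonneg_right ?_ (sq_nonneg _)
            refine (mul_le_of_le_one_left (sq_nonneg _)
              (pow_le_one₀ (norm_nonneg _) (norm_mu_le d))).trans ((norm_wd hd0 _).trans hd2)
        _ ≤ E := by
            rw [← mul_sum, hE]
            refine mul_le_mul_of_nonneg_left (h5.trans (h4.trans ?_)) (by linarith)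
            rw [mul_assoc _ (D * nr q.1 / nr d ^ 3 * 2 ^ q.2)]
            exact mul_le_mul_of_nonneg_left h6 (by positivity)
    · refine mul_le_mul_of_nonneg_right (pow_le_pow_left₀ (Nat.cast_nonneg _) ?_ 2) hE0
      rw [card_product, card_range, Nat.cast_mul, Nat.cast_succ]
      exact mul_le_mul (h₂ R d hd0 (hd2.trans hYR)) (h₃ R _ (hL.trans hZR)) (by positivity)
        (by positivity)
  · refine (mul_le_mul_of_nonneg_right (pow_le_pow_left₀ (Nat.cast_nonneg _)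
      (En.card_sp M (by linarith)) 2) (by positivity)).trans_eq ?_
    have h4 : R ^ ε = (R ^ (ε / 5)) ^ 5 := by
      rw [← Real.rpow_natCast, ← Real.rpow_mul hR0.le]
      norm_num
    rw [hE, h4]
    ring

theorem small_le_of {M : O} (hM : Adm M)
    (hcu : ∀ {m d : O}, Primary m → Primary d →
      th (m * d ^ 3) = (Real.sqrt (nr d) : ℂ) * conj (arg d) ^ 3 * th m)
    (hth : ∀ n : O, ‖th n‖ ≤ nr n ^ (1 / 2 : ℝ))
    {ε : ℝ} (hε : 0 < ε) (B : ℝ) : ∃ (C : ℝ) (J₀ : ℕ), 0 < C ∧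
    ∀ (R K K' D Λ Zm Y : ℝ) (ν : Chr M) (s : ℂ) (Z : Finset O) (c : O → ℂ) (r : O), 1 ≤ Λ → 1 ≤ Y →
      Y ≤ R → 1 ≤ Zm → Zm ≤ R → 0 < D → D ≤ R → Y ^ 3 ≤ R * D → r ≠ 0 → 0 ≤ K →
      K * nr r ^ 5 ≤ K' → K' ≤ R → Marks M Z Zm → (∀ z, ‖c z‖ ≤ 1) → |s.re| ≤ 3 →
      ∑ k ∈ rows K, ‖Small ν D Λ s Z c r Y k‖ ^ 2 ≤
        C * R ^ ε * (1 + |s.im|) ^ J₀ * Y ^ 3 *
          (D * Zm * K' + Zm ^ 2 * K' ^ 2 + Real.sqrt D * Zm ^ 3 * K' + D * Zm ^ 2 * K') +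
        C * R ^ 12 * Λ ^ (-B) := by
  obtain ⟨C₁, J, hC₁, h₁⟩ := full_le hM hcu hε
  obtain ⟨C₂, hC₂, h₂⟩ := small_sub_full hM hth (B / 2)
  refine ⟨2 * C₁ + 14 * C₂ ^ 2, J, by positivity,
    fun R K K' D Λ Zm Y ν s Z c r hΛ hY hYR hZ hZR hD hDR hYD hr hK hKK hKR hm hc hs => ?_⟩
  have hR : 1 ≤ R := hY.trans hYR
  have hr1 : 1 ≤ nr r ^ 5 := one_le_pow₀ (one_le_nr hr)
  have hK' : K ≤ K' := by nlinarith
  have hK0 : 0 ≤ K' := hK.trans hK'
  have hZ0 : 0 ≤ Zm := by linarith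
  have hΛ0 : 0 < Λ := by linarith
  set G := R ^ ε * (1 + |s.im|) ^ J * Y ^ 3 *
    (D * Zm * K' + Zm ^ 2 * K' ^ 2 + Real.sqrt D * Zm ^ 3 * K' + D * Zm ^ 2 * K') with hG
  have hG0 : 0 ≤ G := by positivity
  have hH0 : 0 ≤ R ^ 12 * Λ ^ (-B) := by positivity
  have key : ∑ k ∈ rows K, ‖Small ν D Λ s Z c r Y k‖ ^ 2 ≤
      2 * (C₁ * G) + 14 * C₂ ^ 2 * (R ^ 12 * Λ ^ (-B)) := by
    rcases lt_or_ge K 1 with hK1 | hK1
    · rw [rows_eq_empty hK1, sum_empty]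
      positivity
    have h3 := En.l2_add_le (rows K) (fun k => Full ν D s Z c Y (k * r ^ 5))
      (fun k => Small ν D Λ s Z c r Y k - Full ν D s Z c Y (k * r ^ 5))
    simp only [add_sub_cancel] at h3
    have h4 := h₁ R K K' D Zm Y ν s Z c r hY hYR hZ hZR hD hDR hYD hr hK1 hKK hKR hm hc hs
    have h5 : ∑ k ∈ rows K, ‖Small ν D Λ s Z c r Y k - Full ν D s Z c Y (k * r ^ 5)‖ ^ 2 ≤
        7 * C₂ ^ 2 * (R ^ 12 * Λ ^ (-B)) := by
      refine (sum_le_card_nsmul _ _ ((C₂ * R ^ 5 * Λ ^ (-(B / 2))) ^ 2) fun k _ =>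
        pow_le_pow_left₀ (norm_nonneg _)
          (h₂ R D Λ Zm Y ν s Z c r k hΛ hY hYR hZ hZR hD hDR hm hc hs) 2).trans ?_
      have h6 : (Λ ^ (-(B / 2))) ^ 2 = Λ ^ (-B) := by
        rw [← Real.rpow_natCast, ← Real.rpow_mul hΛ0.le]
        norm_num
      have h7 : ((rows K).card : ℝ) ≤ 7 * R ^ 2 := (card_rows_le hK).trans (by nlinarith)
      rw [nsmul_eq_mul, mul_pow, h6]
      refine (mul_le_mul_of_nonneg_right h7 (by positivity)).trans_eq ?_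
      ring
    have h6 : C₁ * R ^ ε * (1 + |s.im|) ^ J * Y ^ 3 *
      (D * Zm * K' + Zm ^ 2 * K' ^ 2 + Real.sqrt D * Zm ^ 3 * K' + D * Zm ^ 2 * K') = C₁ * G := by
      rw [hG]
      ring
    linarith
  refine key.trans ?_
  have h6 : (2 * C₁ + 14 * C₂ ^ 2) * R ^ ε * (1 + |s.im|) ^ J * Y ^ 3 *
      (D * Zm * K' + Zm ^ 2 * K' ^ 2 + Real.sqrt D * Zm ^ 3 * K' + D * Zm ^ 2 * K') =
      (2 * C₁ + 14 * C₂ ^ 2) * G := by
    rw [hG]
    ring
  rw [h6, mul_assoc (2 * C₁ + 14 * C₂ ^ 2)]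
  nlinarith [mul_nonneg (sq_nonneg C₂) hG0, mul_nonneg hC₁.le hH0]

end Crest.Agent.R17.T2CubeC
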