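import Crest.Agent.PVc.R17.LBasic
import Crest.Agent.PVc.R17.Count
import Crest.Agent.PVc.R17.Rows
import Crest.Agent.PVc.R17.T2Al
import Crest.Agent.PVc.R17.T2CubeAuxC_Mg
import Crest.Agent.PVc.R17.T2Dom
import Crest.Agent.PVc.R17.T2Defs
import Crest.Agent.PVc.R17.T2Sup

-- ▼ part PVc/R17/InvAuxL
section

/-!
# Row 17, module M12: amplification (the long inverse moment from the unmarked inverse moment)
-/

set_option autoImplicit false

noncomputable section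

namespace Crest.Agent.R17.InvL

open scoped ComplexConjugate Classical

theorem rc_six {M : O} (hM : Adm M) (ν : Chr M) (a : O) {p : O} (hp : Prime p) (n : O) :
    rc ν (a * p ^ 6) n = if p ∣ n then 0 else rc ν a n := by
  split_ifs with h
  · exact rc_eq_zero ν fun h1 => hp.not_isUnit (h1.isUnit_of_dvd' h
      (((dvd_pow_self p (by norm_num)).mul_left a).mul_left M))
  · by_cases hn : Primary n
    · by_cases h1 : IsCoprime n M
      · rw [rc_mul_row hM, sym_pow_right (PO.of_adm hM hn h1),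
          sym_pow_six hn (hp.irreducible.coprime_iff_not_dvd.2 h).symm, map_one, mul_one]
      · rw [LBA.rc_pos ν _ hn, LBA.rc_pos ν _ hn, ev_eq_zero ν h1, zero_mul, zero_mul]
    · rw [LBA.rc_neg ν _ hn, LBA.rc_neg ν _ hn]

theorem Mob_split {M : O} (hM : Adm M) (ν : Chr M) (a : O) {p : O} (hp : Prime p)
    (hp' : Primary p) {D : ℝ} (hD : 0 < D) (s : ℂ) :
    Mob ν a D s = Mob ν (a * p ^ 6) D s - rc ν a p * Mob ν (a * p ^ 6) (D / nr p) s := by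
  have h1 := (summable_Sm (polyB_mu_rc hM ν a) hD s).of_norm
  have h2 := (summable_Sm (polyB_mu_rc hM ν (a * p ^ 6)) hD s).of_norm
  rw [eq_sub_iff_add_eq, ← eq_sub_iff_add_eq', eq_comm, Mob, Mob, Mob, ← h2.tsum_sub h1,
    ← (mul_right_injective₀ hp.ne_zero).tsum_eq, ← tsum_mul_left]
  · refine tsum_congr fun m => ?_
    have e : nr (p * m) / D = nr m / (D / nr p) := by
      rw [nr_mul, div_div_eq_mul_div, mul_comm]
    rw [rc_six hM ν a hp, rc_six hM ν a hp, if_pos (dvd_mul_right p m), LBA.rc_mul' ν a hp', e]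
    split_ifs with h
    · rw [mu_mul_of_not_coprime fun h3 => hp.irreducible.coprime_iff_not_dvd.1 h3 h]
      ring
    · by_cases hm : Primary m
      · rw [mu_mul hp' hm (hp.irreducible.coprime_iff_not_dvd.2 h), mu_prime hp hp']
        ring
      · rw [LBA.rc_neg ν _ hm]
        ring
  · intro n hn
    by_contra h
    refine hn ?_
    simp only
    rw [rc_six hM ν a hp, if_neg fun ⟨c, hc⟩ => h ⟨c, hc.symm⟩, sub_self]

theorem sq_Mob_le {M : O} (hM : Adm M) (ν : Chr M) (a : O) {p : O} (hp : Prime p)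
    (hp' : Primary p) {D : ℝ} (hD : 0 < D) (s : ℂ) :
    ‖Mob ν a D s‖ ^ 2 ≤
      2 * ‖Mob ν (a * p ^ 6) D s‖ ^ 2 + 2 * ‖Mob ν (a * p ^ 6) (D / nr p) s‖ ^ 2 := by
  have h1 : ‖Mob ν a D s‖ ≤ ‖Mob ν (a * p ^ 6) D s‖ + ‖Mob ν (a * p ^ 6) (D / nr p) s‖ := by
    rw [Mob_split hM ν a hp hp' hD]
    refine (norm_sub_le _ _).trans (add_le_add_right ?_ _)
    rw [norm_mul]
    exact mul_le_of_le_one_left (norm_nonneg _) (norm_rc_le hM ν a p)
  nlinarith [norm_nonneg (Mob ν a D s),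
    sq_nonneg (‖Mob ν (a * p ^ 6) D s‖ - ‖Mob ν (a * p ^ 6) (D / nr p) s‖)]

theorem sum_mul_le {A B : ℝ} (hA : 0 ≤ A) (hB : 0 ≤ B) {p : O} (hp : Prime p) (hp' : Primary p)
    (h : A * nr p ^ 6 ≤ B) {f : O → ℝ} (hf : ∀ b, 0 ≤ f b) :
    ∑ a ∈ rows A, f (a * p ^ 6) ≤ ∑ b ∈ (rows B).filter (fun b => p ∈ pf b), f b := by
  have h6 : p ^ 6 ≠ 0 := pow_ne_zero _ hp.ne_zero
  rw [← Finset.sum_image (f := f) (g := fun a => a * p ^ 6)
    fun a _ b _ hab => mul_right_cancel₀ h6 hab]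
  refine Finset.sum_le_sum_of_subset_of_nonneg (fun b hb => ?_) fun b _ _ => hf b
  obtain ⟨a, ha, rfl⟩ := Finset.mem_image.1 hb
  obtain ⟨h1, h2⟩ := (mem_rows hA).1 ha
  refine Finset.mem_filter.2 ⟨(mem_rows hB).2 ⟨mul_ne_zero h1 h6, ?_⟩,
    (mem_pf (mul_ne_zero h1 h6)).2 ⟨hp, hp', (dvd_pow_self p (by norm_num)).mul_left a⟩⟩
  rw [nr_mul, nr_pow]
  exact (mul_le_mul_of_nonneg_right h2 (by positivity)).trans h

theorem sum_filter_le (S Ps : Finset O) {f : O → ℝ} (hf : ∀ b, 0 ≤ f b) {K : ℝ}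
    (hK : ∀ b ∈ S, ((pf b).card : ℝ) ≤ K) :
    ∑ p ∈ Ps, ∑ b ∈ S.filter (fun b => p ∈ pf b), f b ≤ K * ∑ b ∈ S, f b := by
  simp only [Finset.sum_filter]
  rw [Finset.sum_comm, Finset.mul_sum]
  refine Finset.sum_le_sum fun b hb => ?_
  rw [← Finset.sum_filter, Finset.sum_const, nsmul_eq_mul]
  refine mul_le_mul_of_nonneg_right (le_trans ?_ (hK b hb)) (hf b)
  exact_mod_cast Finset.card_le_card fun p hp => (Finset.mem_filter.1 hp).2

theorem long_of_moment {M : O} (hM : Adm M)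
    (h : ∀ ε : ℝ, 0 < ε → ∃ (C : ℝ) (J : ℕ), 0 < C ∧ ∀ (A D τ : ℝ) (ν : Chr M), 1 ≤ A → 0 < D →
      D ≤ A → ∑ a ∈ rows A, ‖Mob ν a D (τ * Complex.I)‖ ^ 2 ≤ C * A ^ ε * (1 + |τ|) ^ J * (A * D))
    {ε : ℝ} (hε : 0 < ε) : ∃ (C : ℝ) (J : ℕ), 0 < C ∧
    ∀ (A D τ : ℝ) (ν : Chr M), 1 ≤ A → A ≤ D →
      ∑ a ∈ rows A, ‖Mob ν a D (τ * Complex.I)‖ ^ 2 ≤
        C * D ^ ε * (1 + |τ|) ^ J * (D ^ 2 * (A / D) ^ (1 / 6 : ℝ)) := by
  have hδ : 0 < ε / 3 := by positivity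
  obtain ⟨C₁, J, hC₁, h1⟩ := h _ hδ
  obtain ⟨C₂, hC₂, h2⟩ := pow_card_pf_le hδ 2
  obtain ⟨P₀, h3⟩ := card_primesIn_ge hM.1 hδ
  obtain ⟨E, hE⟩ : ∃ E : ℝ, E = 64 ^ (ε / 3) := ⟨_, rfl⟩
  have hE0 : 0 < E := by rw [hE]; positivity
  refine ⟨C₁ * (|P₀| + 128 * C₂ * E ^ 2 + 128 * E), J, by positivity, fun A D τ ν hA hAD => ?_⟩
  have hD : 1 ≤ D := hA.trans hAD
  have hD0 : 0 < D := by linarith
  obtain ⟨P, hP⟩ : ∃ P : ℝ, P = (D / A) ^ (1 / 6 : ℝ) := ⟨_, rfl⟩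
  have hDA : 1 ≤ D / A := (one_le_div (by linarith)).2 hAD
  have hP1 : 1 ≤ P := by rw [hP]; exact Real.one_le_rpow hDA (by norm_num)
  have hP6 : A * P ^ 6 = D := by
    rw [hP, ← Real.rpow_natCast, ← Real.rpow_mul (by positivity)]
    norm_num
    field_simp
  have hPD : P ≤ D := by nlinarith [le_self_pow₀ hP1 (n := 6) (by norm_num)]
  have hPi : (A / D) ^ (1 / 6 : ℝ) = P⁻¹ := by
    rw [hP, ← Real.inv_rpow (by positivity), inv_div]
  obtain ⟨x, hx⟩ : ∃ x : ℝ, x = D ^ (ε / 3) := ⟨_, rfl⟩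
  have hx1 : 1 ≤ x := by rw [hx]; exact Real.one_le_rpow hD hδ.le
  have hx3 : D ^ ε = x ^ 3 := by
    rw [hx, ← Real.rpow_natCast, ← Real.rpow_mul hD0.le]
    congr 1
    push_cast
    ring
  have h64 : (64 * D) ^ (ε / 3) = E * x := by rw [hE, hx, Real.mul_rpow (by norm_num) hD0.le]
  obtain ⟨t, ht⟩ : ∃ t : ℝ, t = (1 + |τ|) ^ J := ⟨_, rfl⟩
  have ht0 : 0 < t := by rw [ht]; positivity
  have hxx : x ≤ x ^ 3 := le_self_pow₀ hx1 (by norm_num)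
  rw [hPi, hx3, ← ht]
  rcases lt_or_ge P P₀ with h4 | h4
  · have h5 := h1 D D τ ν hD hD0 le_rfl
    rw [← hx, ← ht] at h5
    have h6 : 1 ≤ |P₀| * P⁻¹ := by
      rw [← div_eq_mul_inv, one_le_div (by linarith)]
      exact h4.le.trans (le_abs_self _)
    calc _ ≤ ∑ a ∈ rows D, ‖Mob ν a D (τ * Complex.I)‖ ^ 2 :=
          Finset.sum_le_sum_of_subset_of_nonneg (fun a ha => (mem_rows hD0.le).2
            (((mem_rows (by linarith)).1 ha).imp_right (·.trans hAD))) fun _ _ _ => sq_nonneg _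
      _ ≤ C₁ * x * t * (D * D) * 1 := by rwa [mul_one]
      _ ≤ C₁ * x ^ 3 * t * (D * D) * (|P₀| * P⁻¹) := by gcongr
      _ = C₁ * |P₀| * x ^ 3 * t * (D ^ 2 * P⁻¹) := by ring
      _ ≤ _ := by
          gcongr
          rw [add_assoc]
          exact le_add_of_nonneg_right (by positivity)
  · have hmem := fun p (hp : p ∈ primesIn M P) => (mem_primesIn (by linarith)).1 hp
    have hN : ∀ p ∈ primesIn M P, A * nr p ^ 6 ≤ 64 * D := fun p hp => by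
      calc A * nr p ^ 6 ≤ A * (2 * P) ^ 6 := by
            gcongr
            exact (hmem p hp).2.2.2.2
        _ = 64 * (A * P ^ 6) := by ring
        _ = _ := by rw [hP6]
    have a1 : ∑ p ∈ primesIn M P, ∑ a ∈ rows A, ‖Mob ν (a * p ^ 6) D (τ * Complex.I)‖ ^ 2 ≤
        C₂ * (E * x) * (C₁ * (E * x) * t * (64 * D * D)) := by
      refine (Finset.sum_le_sum fun p hp => sum_mul_le (by linarith) (by positivity) (hmem p hp).1
        (hmem p hp).2.1 (hN p hp) (f := fun b => ‖Mob ν b D (τ * Complex.I)‖ ^ 2)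
        fun _ => sq_nonneg _).trans ((sum_filter_le _ _ (fun _ => sq_nonneg _)
          (K := C₂ * (E * x)) fun b hb => ?_).trans ?_)
      · obtain ⟨b1, b2⟩ := (mem_rows (by positivity)).1 hb
        calc ((pf b).card : ℝ) ≤ 2 ^ (pf b).card := by exact_mod_cast Nat.lt_two_pow_self.le
          _ ≤ C₂ * nr b ^ (ε / 3) := h2 b b1
          _ ≤ C₂ * (64 * D) ^ (ε / 3) := by gcongr
          _ = _ := by rw [h64]
      · have h5 := h1 (64 * D) D τ ν (by linarith) hD0 (by linarith)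
        rw [h64, ← ht] at h5
        exact mul_le_mul_of_nonneg_left h5 (by positivity)
    have a2 : ∀ p ∈ primesIn M P, ∑ a ∈ rows A, ‖Mob ν (a * p ^ 6) (D / nr p) (τ * Complex.I)‖ ^ 2 ≤
        C₁ * (E * x) * t * (64 * D * (D * P⁻¹)) := fun p hp => by
      have b1 := (hmem p hp).2.2.2.1
      have b2 : D / nr p ≤ D * P⁻¹ := by
        rw [← div_eq_mul_inv]
        gcongr
      have h5 := h1 (64 * D) (D / nr p) τ ν (by linarith) (div_pos hD0 (by linarith))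
        ((div_le_self hD0.le (by linarith)).trans (by linarith))
      rw [h64, ← ht] at h5
      refine (sum_mul_le (by linarith) (by positivity) (hmem p hp).1 (hmem p hp).2.1 (hN p hp)
        (f := fun b => ‖Mob ν b (D / nr p) (τ * Complex.I)‖ ^ 2) fun _ => sq_nonneg _).trans
        ((Finset.sum_le_sum_of_subset_of_nonneg (Finset.filter_subset _ _)
          fun _ _ _ => sq_nonneg _).trans (h5.trans (by gcongr)))
    have a3 : ∑ _p ∈ primesIn M P, ∑ a ∈ rows A, ‖Mob ν a D (τ * Complex.I)‖ ^ 2 ≤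
        ∑ p ∈ primesIn M P, (2 * ∑ a ∈ rows A, ‖Mob ν (a * p ^ 6) D (τ * Complex.I)‖ ^ 2 +
          2 * (C₁ * (E * x) * t * (64 * D * (D * P⁻¹)))) :=
      Finset.sum_le_sum fun p hp => by
        refine (Finset.sum_le_sum fun a _ =>
          sq_Mob_le hM ν a (hmem p hp).1 (hmem p hp).2.1 hD0 _).trans ?_
        rw [Finset.sum_add_distrib, ← Finset.mul_sum, ← Finset.mul_sum]
        linarith [a2 p hp]
    rw [Finset.sum_add_distrib, ← Finset.mul_sum, Finset.sum_const, Finset.sum_const, nsmul_eq_mul,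
      nsmul_eq_mul] at a3
    have a4 : 1 ≤ ((primesIn M P).card : ℝ) * (x * P⁻¹) := by
      have b1 := h3 P h4
      have b2 : P ^ (ε / 3) ≤ x := by
        rw [hx]
        gcongr
      rw [Real.rpow_sub (by linarith), Real.rpow_one, div_le_iff₀ (by positivity)] at b1
      rw [← mul_assoc, ← div_eq_mul_inv, one_le_div (by linarith)]
      exact b1.trans (by gcongr)
    have a5 : (0 : ℝ) < (primesIn M P).card := by
      by_contra h5
      nlinarith [mul_pos (by linarith : 0 < x) (inv_pos.2 (by linarith : 0 < P))]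
    generalize ((primesIn M P).card : ℝ) = N at *
    refine le_of_mul_le_mul_left (a3.trans ?_) a5
    calc _ ≤ 2 * (C₂ * (E * x) * (C₁ * (E * x) * t * (64 * D * D))) * 1 +
          N * (2 * (C₁ * (E * x) * t * (64 * D * (D * P⁻¹)))) := by linarith
      _ ≤ 2 * (C₂ * (E * x) * (C₁ * (E * x) * t * (64 * D * D))) * (N * (x * P⁻¹)) +
          N * (2 * (C₁ * (E * x ^ 3) * t * (64 * D * (D * P⁻¹)))) := by gcongr
      _ = N * (C₁ * (128 * C₂ * E ^ 2 + 128 * E) * x ^ 3 * t * (D ^ 2 * P⁻¹)) := by ring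
      _ ≤ _ := by
          gcongr
          exact le_add_of_nonneg_left (abs_nonneg _)

end Crest.Agent.R17.InvL
end
end

-- ▼ part PVc/R17/T2CubeAuxB
section

/-!
# Row 17, module T2: the coefficients `betaG` (auxiliary lemmas)
-/

set_option autoImplicit false

noncomputable section

namespace Crest.Agent.R17.T2CB

open scoped ComplexConjugate

theorem norm_lamY (Y : ℝ) (d : O) : ‖lamY Y d‖ ≤ (pdiv d).card := by
  classical
  unfold lamY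
  refine (norm_sum_le _ _).trans ?_
  refine (Finset.sum_le_card_nsmul _ _ 1 fun x _ => norm_mu_le x).trans ?_
  simp only [nsmul_eq_mul, mul_one]
  exact_mod_cast Finset.card_filter_le _ _

theorem norm_pre_le {M : O} (hM : Adm M) (ν : Chr M) (Y : ℝ) (a b : O) {d : O} (hd : Primary d) :
    ‖lamY Y d * conj (arg d) ^ 3 * Gf (d ^ 3) * ev ν (d ^ 3) * sym a b‖ ≤ (pdiv d).card := by
  by_cases hc : IsCoprime (d ^ 3) M
  · have h1 := norm_lamY Y d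
    have h2 : ‖arg d‖ = 1 := norm_arg hd.ne_zero
    have h3 : ‖Gf (d ^ 3)‖ = 1 := norm_Gf (PO.of_adm hM (hd.pow 3) hc)
    have h4 := norm_ev hM.1 ν hc
    have h5 := norm_sym_le a b
    rw [norm_mul, norm_mul, norm_mul, norm_mul, norm_pow, Complex.norm_conj, h2, h3, h4]
    simp only [one_pow, mul_one]
    exact (mul_le_mul h1 h5 (norm_nonneg _) (Nat.cast_nonneg _)).trans (mul_one _).le
  · rw [ev_eq_zero ν hc]
    simp

open Classical in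
theorem norm_sum_le_card {M : O} (hM : Adm M) (ν : Chr M) {Zm : ℝ} {Z : Finset O} {c : O → ℂ}
    {s : ℂ} (hZ : Marks M Z Zm) (hc : ∀ z, ‖c z‖ ≤ 1) (hs : |s.re| ≤ 3) {n : O} (hn : n ≠ 0)
    (Q : O → Prop) (y : O → ℝ) :
    ‖∑ z ∈ Z, if z ∣ n ∧ Q z then mu z * conj (ev ν z) * c z * Wc (y z) s else 0‖ ≤
      (pdiv n).card * Real.exp (9 / 4) := by
  rw [← Finset.sum_filter]
  refine (norm_sum_le _ _).trans ?_
  have hW : ∀ x, ‖Wc x s‖ ≤ Real.exp (9 / 4) := fun x => (norm_Wc_le x s).trans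
    (Real.exp_le_exp.2 (by have := sq_abs s.re; have := abs_nonneg s.re; nlinarith))
  refine (Finset.sum_le_card_nsmul _ _ (Real.exp (9 / 4)) fun z _ => ?_).trans ?_
  · rw [norm_mul, norm_mul, norm_mul, Complex.norm_conj]
    have h1 := norm_mu_le z
    have h2 := norm_ev_le hM.1 ν z
    have h3 : ‖mu z‖ * ‖ev ν z‖ * ‖c z‖ ≤ 1 :=
      mul_le_one₀ (mul_le_one₀ h1 (norm_nonneg _) h2) (norm_nonneg _) (hc z)
    exact (mul_le_mul h3 (hW _) (norm_nonneg _) zero_le_one).trans (one_mul _).le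
  · rw [nsmul_eq_mul]
    refine mul_le_mul_of_nonneg_right ?_ (Real.exp_pos _).le
    refine Nat.cast_le.2 (Finset.card_le_card fun z hz => ?_)
    rw [Finset.mem_filter] at hz
    exact (mem_pdiv hn).2 ⟨(hZ z hz.1).1.1, hz.2.1⟩

theorem norm_betaG_le {M : O} (hM : Adm M) {ε : ℝ} (hε : 0 < ε) : ∃ C : ℝ, 0 < C ∧
    ∀ (R D Λ Zm Y : ℝ) (ν : Chr M) (s : ℂ) (Z : Finset O) (c : O → ℂ) (r d₁ d₀ m : O),
      Marks M Z Zm → (∀ z, ‖c z‖ ≤ 1) → |s.re| ≤ 3 → Primary d₁ → Primary d₀ → Primary m →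
      nr (m * (d₀ * d₁ ^ 2) ^ 3) ≤ R → ‖betaG ν D Λ s Z c r Y d₁ d₀ m‖ ≤ C * R ^ ε := by
  classical
  obtain ⟨C, hC, h⟩ := En.card_pdiv_le' (half_pos hε)
  refine ⟨C * (8 * (C * Real.exp (9 / 4))), by positivity,
    fun R D Λ Zm Y ν s Z c r d₁ d₀ m hZ hc hs h1 h0 hm hR => ?_⟩
  have hd : Primary (d₀ * d₁ ^ 2) := h0.mul (h1.pow 2)
  have hn : Primary (m * (d₀ * d₁ ^ 2) ^ 3) := hm.mul (hd.pow 3)
  have hR1 : 1 ≤ R := (one_le_nr hn.ne_zero).trans hR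
  have hR0 : 0 < R := by linarith
  have hdR : nr (d₀ * d₁ ^ 2) ≤ R :=
    (En.nr_le_of_dvd (Dvd.intro_left (m * (d₀ * d₁ ^ 2) ^ 2) (by ring)) hn.ne_zero).trans hR
  unfold betaG
  split_ifs with hY
  · rw [norm_mul]
    have a1 := (norm_pre_le hM ν Y (d₀ ^ 3) (r ^ 5) hd).trans (h R _ hd.ne_zero hdR)
    have a2 := norm_sum_le_card hM ν hZ hc hs hn.ne_zero
      (fun z => nr (m * (d₀ * d₁ ^ 2) ^ 3) ≤ D * Λ * nr z)
      (fun z => nr (m * (d₀ * d₁ ^ 2) ^ 3) / (D * nr z))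
    have a3 := h R _ hn.ne_zero hR
    have a4 : ‖Rs m d₀ * ev ν m * mu m * conj (sym m r)‖ ≤ 8 := by
      rw [norm_mul, norm_mul, norm_mul, Complex.norm_conj]
      have b1 := ReflA.norm_Rs_le m d₀
      have b2 := norm_ev_le hM.1 ν m
      have b3 := norm_mu_le m
      have b4 := norm_sym_le m r
      have b5 : ‖ev ν m‖ * ‖mu m‖ * ‖sym m r‖ ≤ 1 :=
        mul_le_one₀ (mul_le_one₀ b2 (norm_nonneg _) b3) (norm_nonneg _) b4
      calc _ = ‖Rs m d₀‖ * (‖ev ν m‖ * ‖mu m‖ * ‖sym m r‖) := by ring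
        _ ≤ 8 * 1 := mul_le_mul b1 b5 (by positivity) (by norm_num)
        _ = 8 := by norm_num
    have a5 := a2.trans (mul_le_mul_of_nonneg_right a3 (Real.exp_pos _).le)
    have hRe : R ^ ε = R ^ (ε / 2) * R ^ (ε / 2) := by rw [← Real.rpow_add hR0]; ring_nf
    have hp : 0 < R ^ (ε / 2) := Real.rpow_pos_of_pos hR0 _
    calc _ ≤ (C * R ^ (ε / 2)) * (8 * (C * R ^ (ε / 2) * Real.exp (9 / 4))) := by
          refine mul_le_mul a1 ?_ (norm_nonneg _) (by positivity)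
          rw [norm_mul]
          refine mul_le_mul a4 ?_ (norm_nonneg _) (by norm_num)
          convert a5 using 4
      _ = _ := by rw [hRe]; ring
  · rw [norm_zero]
    positivity

theorem mem_sp' {M : O} {X : ℝ} {n : O} : n ∈ sp M X ↔ SP M n ∧ nr n ≤ X := by
  rcases le_or_gt 0 X with hX | hX
  · exact mem_sp hX
  · rw [sp_eq_empty M (by linarith : X < 1)]
    refine ⟨fun h => absurd h (Finset.notMem_empty _), fun h => ?_⟩
    have := one_le_nr h.1.1.ne_zero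
    linarith [h.2]

open Classical in
/-- The term of one mark `t z`. -/
theorem term_eq {M : O} (hM : Adm M) (ν ν₁ : Chr M) {D : ℝ} (hD : 0 < D) (Λ : ℝ) (s : ℂ)
    (c : O → ℂ) {d m t z : O} (hd : Primary d) (hm : SP M m) (ht : Primary t) (hz : SP M z)
    (htd : t ∣ d) (hzd : IsCoprime z d) :
    ev ν₁ m * ev ν m * mu m *
      (if t * z ∣ m * d ^ 3 ∧ nr (m * d ^ 3) ≤ D * Λ * nr (t * z) then
        mu (t * z) * conj (ev ν (t * z)) * cm c (t * z) * Wc (nr (m * d ^ 3) / (D * nr (t * z))) s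
      else 0) =
    mu t * conj (ev ν t) * cm c t * ∑ m₁ ∈ sp M (D * nr t / nr d ^ 3 * Λ),
      if m₁ * z = m then (cm c z * ev ν₁ z) *
        (mu m₁ * ev (ν * ν₁) m₁ * Wc (nr m₁ / (D * nr t / nr d ^ 3)) s) else 0 := by
  have hz0 := hz.1.ne_zero
  have ht0 := ht.ne_zero
  have htz : IsCoprime t z := (hzd.of_isCoprime_of_dvd_right htd).symm
  by_cases hzm : z ∣ m
  · obtain ⟨m₁, rfl⟩ := hzm
    have hm₁ : Primary m₁ := hz.1.of_mul hm.1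
    have hsp : SP M m₁ := En.SP.of_dvd hm hm₁ (Dvd.intro_left z rfl)
    have hcop : IsCoprime z m₁ := (IsRelPrime.of_squarefree_mul hm.2.1).isCoprime
    have hiff : ∀ x : O, (x * z = z * m₁) = (x = m₁) := fun x => by
      rw [mul_comm z m₁, mul_left_inj' hz0]
    simp only [hiff, Finset.sum_ite_eq', mem_sp']
    have pz := nr_pos hz0
    have pt := nr_pos ht0
    have pd := nr_pos hd.ne_zero
    have hdvd : t * z ∣ z * m₁ * d ^ 3 := by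
      obtain ⟨e, rfl⟩ := htd
      exact ⟨m₁ * t ^ 2 * e ^ 3, by ring⟩
    have hle : nr (z * m₁ * d ^ 3) ≤ D * Λ * nr (t * z) ↔ nr m₁ ≤ D * nr t / nr d ^ 3 * Λ := by
      rw [nr_mul, nr_mul, nr_mul, nr_pow, div_mul_eq_mul_div, le_div_iff₀ (by positivity),
        show nr z * nr m₁ * nr d ^ 3 = nr m₁ * nr d ^ 3 * nr z by ring,
        show D * Λ * (nr t * nr z) = D * nr t * Λ * nr z by ring, mul_le_mul_iff_left₀ pz]
    have harg : nr (z * m₁ * d ^ 3) / (D * nr (t * z)) = nr m₁ / (D * nr t / nr d ^ 3) := by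
      rw [nr_mul, nr_mul, nr_mul, nr_pow]
      field_simp
    by_cases hl : nr m₁ ≤ D * nr t / nr d ^ 3 * Λ
    · rw [if_pos ⟨hdvd, hle.2 hl⟩, if_pos ⟨hsp, hl⟩, harg, ev_mul, ev_mul, ev_mul,
        mu_mul hz.1 hm₁ hcop, mu_mul ht hz.1 htz, cm_mul c ht0 hz0 htz, ev_mul_chr, map_mul]
      have e1 := mu_sq hz.2.1
      have e2 := Gauss_conj_mul (norm_ev hM.1 ν hz.2.2)
      calc _ = (mu z * mu z) * (conj (ev ν z) * ev ν z) * (mu t * conj (ev ν t) * cm c t *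
            (cm c z * ev ν₁ z * (mu m₁ * (ev ν m₁ * ev ν₁ m₁) *
              Wc (nr m₁ / (D * nr t / nr d ^ 3)) s))) := by ring
        _ = _ := by rw [e1, e2, one_mul, one_mul]
    · rw [if_neg (fun h => hl (hle.1 h.2)), if_neg (fun h => hl h.2), mul_zero, mul_zero]
  · rw [if_neg, Finset.sum_eq_zero, mul_zero, mul_zero]
    · intro x _
      exact if_neg fun h => hzm ⟨x, by rw [← h, mul_comm]⟩
    · intro h
      exact hzm ((hzd.pow_right (n := 3)).dvd_of_dvd_mul_right ((Dvd.intro_left t rfl).trans h.1))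

open Classical in
theorem betaG_eq {M : O} (hM : Adm M) {Ps : ℕ → Finset O} {P : ℕ → ℝ} {I : Finset ℕ}
    (h : Slots M Ps P I) (ν : Chr M) {D : ℝ} (hD : 0 < D) (Λ Y : ℝ) (s : ℂ) {c : O → ℂ}
    (hc : ∀ p, ‖c p‖ ≤ 1) (r : O) {d₁ d₀ : O} (h1 : Primary d₁)
    (h0 : SP M d₀) : ∃ (ν₁ : Chr M) (ω : O → Finset ℕ → ℂ),
      (∀ t I', ‖ω t I'‖ ≤ (pdiv (d₀ * d₁ ^ 2)).card) ∧
      (∀ t I', ω t I' ≠ 0 → t ∈ Zs Ps (I \ I') ∧ Y < nr (d₀ * d₁ ^ 2)) ∧ ∀ m, SP M m →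
        betaG ν D Λ s (Zs Ps I) (cm c) r Y d₁ d₀ m =
          ∑ t ∈ pdiv (d₀ * d₁), ∑ I' ∈ I.powerset, ω t I' *
            (al (ν * ν₁) (D * nr t / nr (d₀ * d₁ ^ 2) ^ 3) Λ s (Zs Ps I')
              (cm fun p => if p ∣ d₀ * d₁ then 0 else c p * ev ν₁ p) m * conj (sym m r)) := by
  obtain ⟨ν₁, hν₁⟩ := exists_chr_Rs hM (PO.of_adm hM h0.1 h0.2.2).2
  have hd : Primary (d₀ * d₁ ^ 2) := h0.1.mul (h1.pow 2)
  have hu : d₀ * d₁ ≠ 0 := (h0.1.mul h1).ne_zero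
  refine ⟨ν₁, fun t I' => if t ∈ Zs Ps (I \ I') ∧ Y < nr (d₀ * d₁ ^ 2) then
    lamY Y (d₀ * d₁ ^ 2) * conj (arg (d₀ * d₁ ^ 2)) ^ 3 * Gf ((d₀ * d₁ ^ 2) ^ 3) *
      ev ν ((d₀ * d₁ ^ 2) ^ 3) * sym (d₀ ^ 3) (r ^ 5) * (mu t * conj (ev ν t) * cm c t) else 0,
    fun t I' => ?_, fun t I' hω => ?_, fun m hm => ?_⟩
  · dsimp only
    split_ifs
    · rw [norm_mul]
      have a1 := norm_pre_le hM ν Y (d₀ ^ 3) (r ^ 5) hd
      have a2 : ‖mu t * conj (ev ν t) * cm c t‖ ≤ 1 := by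
        rw [norm_mul, norm_mul, Complex.norm_conj]
        exact mul_le_one₀ (mul_le_one₀ (norm_mu_le t) (norm_nonneg _) (norm_ev_le hM.1 ν t))
          (norm_nonneg _) (norm_cm_le hc t)
      exact (mul_le_mul a1 a2 (norm_nonneg _) (Nat.cast_nonneg _)).trans (mul_one _).le
    · rw [norm_zero]
      exact Nat.cast_nonneg _
  · by_contra hn
    exact hω (if_neg hn)
  · unfold betaG
    by_cases hY : Y < nr (d₀ * d₁ ^ 2)
    swap
    · simp [hY]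
    simp only [hY, and_true, if_true]
    rw [h.sum_gcd hu, Finset.sum_comm (s := pdiv (d₀ * d₁)), Finset.mul_sum, Finset.mul_sum]
    refine Finset.sum_congr rfl fun I' hI' => ?_
    have hI : I' ⊆ I := Finset.mem_powerset.1 hI'
    have m1 := (h.mono (Finset.sdiff_subset (t := I'))).marks
    have m2 := (h.mono hI).marks
    have hset : (Zs Ps (I \ I')).filter (· ∣ d₀ * d₁) =
        (pdiv (d₀ * d₁)).filter (· ∈ Zs Ps (I \ I')) := by
      ext t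
      rw [Finset.mem_filter, Finset.mem_filter, mem_pdiv hu]
      exact ⟨fun a => ⟨⟨(m1 t a.1).1.1, a.2⟩, a.1⟩, fun a => ⟨a.2, a.1.2⟩⟩
    rw [hset, Finset.sum_filter, Finset.mul_sum, Finset.mul_sum]
    refine Finset.sum_congr rfl fun t ht => ?_
    rw [mem_pdiv hu] at ht
    split_ifs with htZ
    swap
    · simp
    have key : ev ν₁ m * ev ν m * mu m * ∑ z' ∈ (Zs Ps I').filter (fun z' => IsCoprime z' (d₀ * d₁)),
        (if t * z' ∣ m * (d₀ * d₁ ^ 2) ^ 3 ∧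
            nr (m * (d₀ * d₁ ^ 2) ^ 3) ≤ D * Λ * nr (t * z') then
          mu (t * z') * conj (ev ν (t * z')) * cm c (t * z') *
            Wc (nr (m * (d₀ * d₁ ^ 2) ^ 3) / (D * nr (t * z'))) s else 0) =
        mu t * conj (ev ν t) * cm c t * al (ν * ν₁) (D * nr t / nr (d₀ * d₁ ^ 2) ^ 3) Λ s (Zs Ps I')
          (cm fun p => if p ∣ d₀ * d₁ then 0 else c p * ev ν₁ p) m := by
      rw [al, Finset.sum_filter, Finset.mul_sum, Finset.mul_sum]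
      refine Finset.sum_congr rfl fun z hz => ?_
      have hz' := (m2 z hz).1
      rw [cm_ite (fun p => c p * ev ν₁ p) hz'.1, cm_mul_fun, cm_ev ν₁ hz']
      by_cases hcz : IsCoprime z (d₀ * d₁)
      · have hzd : IsCoprime z (d₀ * d₁ ^ 2) :=
          (hcz.pow_right (n := 2)).of_isCoprime_of_dvd_right ⟨d₀, by ring⟩
        rw [if_pos hcz, if_pos hcz]
        exact term_eq hM ν ν₁ hD Λ s c hd hm ht.1 hz' (ht.2.trans ⟨d₁, by ring⟩) hzd
      · rw [if_neg hcz, if_neg hcz]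
        simp
    rw [Rs_comm, ← hν₁ m hm.2.2]
    linear_combination (lamY Y (d₀ * d₁ ^ 2) * conj (arg (d₀ * d₁ ^ 2)) ^ 3 *
      Gf ((d₀ * d₁ ^ 2) ^ 3) * ev ν ((d₀ * d₁ ^ 2) ^ 3) * sym (d₀ ^ 3) (r ^ 5) *
      conj (sym m r)) * key

end Crest.Agent.R17.T2CB
end
end

-- ▼ part PVc/R17/T2Cube
section

/-!
# Row 17, module T2: completion of the cubes; the small cubes (`energy`)
-/

set_option autoImplicit false

noncomputable section

namespace Crest.Agent.R17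

open scoped ComplexConjugate

/-- `th (m d³) = √(N d) conj α(d)³ th m` (`sq1_cu`). -/
theorem th_mul_cube {m d : O} (hm : Primary m) (hd : Primary d) :
    th (m * d ^ 3) = (Real.sqrt (nr d) : ℂ) * conj (arg d) ^ 3 * th m :=
  T2CA.th_mul_cube hm hd

theorem norm_th_le (n : O) : ‖th n‖ ≤ nr n ^ (1 / 2 : ℝ) :=
  T2CA.norm_th_le n



/-- **Completion of the cubes.**  `mu_gam_five` turns `Sd` into
`∑_z μ(z) conj ν(z) c(z) ∑_{n squarefree, z ∣ n, N n ≤ D Λ N z} th n Gf n ν n χ_n(k r⁵) Wc(N n/(D N z))`;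
on the support of `th`, `n` is squarefree iff `cu n = 1`; insert `lamY_eq` for `d = cu n`; for squarefree
`d'`, `d' ∣ cu n ↔ d'³ ∣ n`: the first part is `Small`.  In the second part write uniquely
`n = m (d₀ d₁²)³` (`m = sq1 n`, `d₀` squarefree), `th_mul_cube`, `Gf_mul`, `Rs m (d₀ y²) = Rs m d₀`;
it equals `∑_{d₁} N d₁ · χ_{d₁}(k r⁵)⁶ · Sg`.  Cauchy–Schwarz with the weights `1 / N d₁`. -/
theorem cube_le {M : O} (hM : Adm M) {ε : ℝ} (hε : 0 < ε) : ∃ C : ℝ, 0 < C ∧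
    ∀ (R D Λ L' Zm Y : ℝ) (ν : Chr M) (s : ℂ) (Z : Finset O) (c : O → ℂ) (r k : O), 1 ≤ R →
      L' ≤ R → 1 ≤ Y → 0 < D → 0 < Λ → Marks M Z Zm → D * Λ * Zm ≤ L' →
      ‖Sd M L' (fun n => al ν D Λ s Z c n * conj (sym n r)) k‖ ^ 2 ≤
        2 * ‖Small ν D Λ s Z c r Y k‖ ^ 2 + C * R ^ ε * ∑ d₁ ∈ pr M L', nr d₁ ^ 3 *
          ‖Sg M (L' / nr d₁ ^ 6) (betaG ν D Λ s Z c r Y d₁) k‖ ^ 2 :=
  T2CA.cube_le hM hε

theorem norm_betaG_le {M : O} (hM : Adm M) {ε : ℝ} (hε : 0 < ε) : ∃ C : ℝ, 0 < C ∧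
    ∀ (R D Λ Zm Y : ℝ) (ν : Chr M) (s : ℂ) (Z : Finset O) (c : O → ℂ) (r d₁ d₀ m : O),
      Marks M Z Zm → (∀ z, ‖c z‖ ≤ 1) → |s.re| ≤ 3 → Primary d₁ → Primary d₀ → Primary m →
      nr (m * (d₀ * d₁ ^ 2) ^ 3) ≤ R → ‖betaG ν D Λ s Z c r Y d₁ d₀ m‖ ≤ C * R ^ ε :=
  T2CB.norm_betaG_le hM hε

open Classical in
/-- For product marks `betaG` is a short sum of coefficients `al` (`Slots.sum_gcd` with
`u = d₀ d₁`, `exists_chr_Rs`, `cm_ite`, `cm_ev`). -/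
theorem betaG_eq {M : O} (hM : Adm M) {Ps : ℕ → Finset O} {P : ℕ → ℝ} {I : Finset ℕ}
    (h : Slots M Ps P I) (ν : Chr M) {D : ℝ} (hD : 0 < D) (Λ Y : ℝ) (s : ℂ) {c : O → ℂ}
    (hc : ∀ p, ‖c p‖ ≤ 1) (r : O) {d₁ d₀ : O} (h1 : Primary d₁) (h1' : IsCoprime d₁ M)
    (h0 : SP M d₀) : ∃ (ν₁ : Chr M) (ω : O → Finset ℕ → ℂ),
      (∀ t I', ‖ω t I'‖ ≤ (pdiv (d₀ * d₁ ^ 2)).card) ∧
      (∀ t I', ω t I' ≠ 0 → t ∈ Zs Ps (I \ I') ∧ Y < nr (d₀ * d₁ ^ 2)) ∧ ∀ m, SP M m →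
        betaG ν D Λ s (Zs Ps I) (cm c) r Y d₁ d₀ m =
          ∑ t ∈ pdiv (d₀ * d₁), ∑ I' ∈ I.powerset, ω t I' *
            (al (ν * ν₁) (D * nr t / nr (d₀ * d₁ ^ 2) ^ 3) Λ s (Zs Ps I')
              (cm fun p => if p ∣ d₀ * d₁ then 0 else c p * ev ν₁ p) m * conj (sym m r)) :=
  T2CB.betaG_eq hM h ν hD Λ Y s hc r h1 h0

/-- **Small cubes.**  Put `n = d³ n'` (`th_mul_cube`); with `t = pgcd z d`, `z = t z₁` one has
`z ∣ d³ n' ↔ z₁ ∣ n'` and `N n / (D N z) = N n' / (D'' N z₁)`, `D'' = D N t / N d³ ∈ [D/Y³, D]`;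
`φ n' = if Primary n' then Gf (d³ n') ν(d³ n') else 0` is `PerB M`; remove the truncation
(`tsum_norm_Sm_tail_le` or `MBa_trunc`-like with `norm_th_le`); cut the marks `z₁` into dyadic blocks
`Z'' ≤ N z₁ ≤ 2 Z''` (`Z'' = 2^i ≤ Zm`); the rows `k r⁵` are distinct rows of norm `≤ K N r⁵`;
`energy` with `h₀ = 1` (choose the second, resp. first, entry of the minima). -/
theorem small_le {M : O} (hM : Adm M) {ε : ℝ} (hε : 0 < ε) (B : ℝ) : ∃ (C : ℝ) (J₀ : ℕ), 0 < C ∧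
    ∀ (R K K' D Λ Zm Y : ℝ) (ν : Chr M) (s : ℂ) (Z : Finset O) (c : O → ℂ) (r : O), 1 ≤ Λ → 1 ≤ Y →
      Y ≤ R → 1 ≤ Zm → Zm ≤ R → 0 < D → D ≤ R → Y ^ 3 ≤ R * D → r ≠ 0 → 0 ≤ K →
      K * nr r ^ 5 ≤ K' → K' ≤ R → Marks M Z Zm → (∀ z, ‖c z‖ ≤ 1) → |s.re| ≤ 3 →
      ∑ k ∈ rows K, ‖Small ν D Λ s Z c r Y k‖ ^ 2 ≤
        C * R ^ ε * (1 + |s.im|) ^ J₀ * Y ^ 3 *
          (D * Zm * K' + Zm ^ 2 * K' ^ 2 + Real.sqrt D * Zm ^ 3 * K' + D * Zm ^ 2 * K') +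
        C * R ^ 12 * Λ ^ (-B) :=
  T2CubeC.small_le_of hM th_mul_cube norm_th_le hε B

end Crest.Agent.R17
end
end

-- ▼ part PVc/R17/T2GpAuxB
section

/-!
# Row 17, module T2: auxiliary lemmas for `child_le`
-/

set_option autoImplicit false

noncomputable section

namespace Crest.Agent.R17.T2GB

open scoped ComplexConjugate

theorem sq_norm_sum_le {ι : Type*} (s : Finset ι) (ω x : ι → ℂ) {w B : ℝ} (hw : ∀ i, ‖ω i‖ ≤ w)
    (hB0 : 0 ≤ B) (hB : ∀ i ∈ s, ω i ≠ 0 → ‖x i‖ ^ 2 ≤ B) :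
    ‖∑ i ∈ s, ω i * x i‖ ^ 2 ≤ (s.card * w) ^ 2 * B := by
  have h1 : ‖∑ i ∈ s, ω i * x i‖ ≤ s.card * (w * Real.sqrt B) := by
    rw [← nsmul_eq_mul]
    refine (norm_sum_le _ _).trans (Finset.sum_le_card_nsmul _ _ _ fun i hi => ?_)
    have h2 : 0 ≤ w := (norm_nonneg _).trans (hw i)
    by_cases h : ω i = 0
    · rw [h, zero_mul, norm_zero]
      positivity
    · rw [norm_mul]
      exact mul_le_mul (hw i) (Real.le_sqrt_of_sq_le (hB i hi h)) (norm_nonneg _) h2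
  refine (pow_le_pow_left₀ (norm_nonneg _) h1 2).trans_eq ?_
  rw [← mul_assoc, mul_pow, Real.sq_sqrt hB0]

/-- `Sr ∘ ext` is linear. -/
theorem Sr_ext_sum {M u : O} (hu : SP M u) {ι : Type*} (s : Finset ι) (ω : ι → ℂ) (β : O → ℂ)
    (γ : ι → O → ℂ) (h : ∀ m, SP M m → β m = ∑ i ∈ s, ω i * γ i m) (ν : Chr M) (L f Ls : ℝ)
    (s' : ℂ) (a : O) :
    Sr M L (ext β u ν f Ls s') a = ∑ i ∈ s, ω i * Sr M L (ext (γ i) u ν f Ls s') a := by
  simp only [Sr, Finset.mul_sum]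
  rw [Finset.sum_comm]
  refine Finset.sum_congr rfl fun n hn => ?_
  unfold ext
  split_ifs with hc
  · rw [h _ (DP3_sp hu (MBa_sp hn) hc.symm), Finset.sum_mul, Finset.sum_mul, Finset.sum_mul]
    exact Finset.sum_congr rfl fun i _ => by ring
  · simp

theorem mem_pr {M n : O} {X : ℝ} (hX : 0 ≤ X) (h : n ∈ pr M X) :
    Primary n ∧ IsCoprime n M ∧ nr n ≤ X := by
  classical
  rw [pr, Finset.mem_filter, mem_ball, Nat.le_floor_iff hX] at h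
  exact ⟨h.2.1, h.2.2, h.1⟩

/-- The two divisor sums. -/
theorem card_le {ε : ℝ} (hε : 0 < ε) (J : ℕ) : ∃ C : ℝ, 0 < C ∧ ∀ (R : ℝ) (d₀ d₁ : O)
    (I : Finset ℕ), d₀ ≠ 0 → d₁ ≠ 0 → nr d₀ ≤ R → nr d₁ ≤ R → I.card ≤ J →
      (((pdiv (d₀ * d₁) ×ˢ I.powerset).card : ℝ) * (pdiv (d₀ * d₁ ^ 2)).card) ^ 2 ≤ C * R ^ ε := by
  obtain ⟨C, hC, h⟩ := card_pdiv_le (ε := ε / 12) (by positivity)
  refine ⟨(C * 2 ^ J * C) ^ 2, by positivity, fun R d₀ d₁ I h0 h1 hd0 hd1 hI => ?_⟩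
  have h2 := one_le_nr h0
  have h3 := one_le_nr h1
  have hR : 1 ≤ R := h2.trans hd0
  have h4 : nr (d₀ * d₁ ^ 2) ≤ R ^ 3 := by
    rw [nr_mul, nr_pow, pow_succ' R 2]
    gcongr
  have h5 : nr (d₀ * d₁) ≤ R ^ 3 := by
    refine le_trans ?_ h4
    rw [nr_mul, nr_mul, nr_pow]
    exact mul_le_mul_of_nonneg_left (by nlinarith) (by positivity)
  have h6 : ∀ n : O, n ≠ 0 → nr n ≤ R ^ 3 → ((pdiv n).card : ℝ) ≤ C * R ^ (ε / 4) := fun n hn h7 => by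
    refine (h n hn).trans (mul_le_mul_of_nonneg_left ?_ hC.le)
    refine (Real.rpow_le_rpow (by positivity) h7 (by positivity)).trans_eq ?_
    rw [← Real.rpow_natCast, ← Real.rpow_mul (by positivity)]
    congr 1
    push_cast
    ring
  have h7 := h6 _ (mul_ne_zero h0 h1) h5
  have h8 := h6 _ (mul_ne_zero h0 (pow_ne_zero 2 h1)) h4
  have h9 : (2 : ℝ) ^ I.card ≤ 2 ^ J := pow_le_pow_right₀ one_le_two hI
  have h10 : R ^ ε = (R ^ (ε / 4)) ^ 4 := by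
    rw [← Real.rpow_natCast, ← Real.rpow_mul (by positivity)]
    congr 1
    push_cast
    ring
  rw [Finset.card_product, Finset.card_powerset, h10]
  push_cast
  calc _ ≤ (C * R ^ (ε / 4) * 2 ^ J * (C * R ^ (ε / 4))) ^ 2 := by gcongr
    _ = _ := by ring

theorem prime_iff {p a k b e e' t t' g d₀ d₁ : O} (hp : Prime p) (hb : a = k ^ 6 * b) (he : e' ∣ a)
    (hd : d₀ ∣ a) : p ∣ e' * t' * (d₀ * d₁) * (k * g * t) * (b * e * t ^ 2) ↔
      p ∣ g * t' * d₁ * k * (b * e * t ^ 2) := by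
  have h1 : p ∣ a → p ∣ k ∨ p ∣ b := fun h =>
    (hp.dvd_or_dvd (hb ▸ h)).imp_left hp.dvd_of_dvd_pow
  have h2 : p ∣ e' → p ∣ k ∨ p ∣ b := fun h => h1 (h.trans he)
  have h3 : p ∣ d₀ → p ∣ k ∨ p ∣ b := fun h => h1 (h.trans hd)
  simp only [hp.dvd_mul, sq]
  tauto

end Crest.Agent.R17.T2GB
end
end

-- ▼ part PVc/R17/T2GpAuxE1
section

/-!
# Row 17, module T2: auxiliary lemmas for `E1_le`
-/

set_option autoImplicit false

noncomputable section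

namespace Crest.Agent.R17.E1

open scoped ComplexConjugate

theorem cs2 {α β : Type} (S : Finset α) (T : Finset β) (ω f : α → β → ℂ) {b : ℝ}
    (p : α → β → Prop) [∀ a c, Decidable (p a c)] (hω : ∀ a c, ‖ω a c‖ ≤ b)
    (hp : ∀ a c, ω a c ≠ 0 → p a c) :
    ‖∑ a ∈ S, ∑ c ∈ T, ω a c * f a c‖ ^ 2 ≤
      S.card * T.card * b ^ 2 * ∑ a ∈ S, ∑ c ∈ T, if p a c then ‖f a c‖ ^ 2 else 0 := by
  rw [← Finset.sum_product', ← Finset.sum_product']
  calc ‖∑ x ∈ S ×ˢ T, ω x.1 x.2 * f x.1 x.2‖ ^ 2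
      ≤ (∑ x ∈ S ×ˢ T, ‖ω x.1 x.2 * f x.1 x.2‖) ^ 2 :=
        pow_le_pow_left₀ (norm_nonneg _) (norm_sum_le _ _) 2
    _ ≤ (S ×ˢ T).card * ∑ x ∈ S ×ˢ T, ‖ω x.1 x.2 * f x.1 x.2‖ ^ 2 := sq_sum_le_card_mul_sum_sq
    _ ≤ (S ×ˢ T).card * ∑ x ∈ S ×ˢ T, b ^ 2 * (if p x.1 x.2 then ‖f x.1 x.2‖ ^ 2 else 0) := by
        refine mul_le_mul_of_nonneg_left (Finset.sum_le_sum fun x _ => ?_) (Nat.cast_nonneg _)
        split_ifs with h
        · rw [norm_mul, mul_pow]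
          exact mul_le_mul_of_nonneg_right (pow_le_pow_left₀ (norm_nonneg _) (hω _ _) 2)
            (by positivity)
        · have : ω x.1 x.2 = 0 := by_contra fun h0 => h (hp _ _ h0)
          simp [this]
    _ = _ := by rw [← Finset.mul_sum, Finset.card_product, Nat.cast_mul]; ring

open Classical in
theorem Sd_ext {M : O} (hM : Adm M) {β : Type} (S : Finset O) (T : Finset β) {L' : ℝ}
    (hL : 0 ≤ L') {E : O → ℂ} {ω : O → β → ℂ} {a : O → β → O → ℂ} {u : O}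
    (h : ∀ n, SP M n → E n =
      ∑ u₀ ∈ S, ∑ c ∈ T, ω u₀ c * (if IsCoprime n u then a u₀ c n else 0)) (x k : O) :
    Sd M L' (fun m => E m * conj (sym m x)) k = ∑ u₀ ∈ S, ∑ c ∈ T,
      ω u₀ c * Sd M L' (fun n => a u₀ c n * conj (sym n (x * u ^ 6))) k := by
  simp only [Sd, Finset.mul_sum]
  rw [Finset.sum_congr rfl fun u₀ _ => Finset.sum_comm, Finset.sum_comm]
  refine Finset.sum_congr rfl fun n hn => ?_
  have hn' := ((mem_sp hL).1 hn).1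
  have hpo : PO n := ⟨hn'.1, hn'.2.2.of_isCoprime_of_dvd_right
    ((Dvd.intro 36 (by norm_num) : (2 : O) ∣ 72).trans hM.2)⟩
  rw [h n hn']
  simp only [Finset.sum_mul]
  refine Finset.sum_congr rfl fun u₀ _ => Finset.sum_congr rfl fun c _ => ?_
  rw [sym_mul_right hpo, sym_pow_right hpo]
  split_ifs with hc
  · rw [sym_pow_six hn'.1 hc, mul_one]; ring
  · rw [(sym_eq_zero_iff hn'.1).2 hc]; simp

open Classical in
theorem card_pdiv_le8 {g : O} (hg : g ≠ 0) : ((pdiv g).card : ℝ) ≤ 8 * nr g := by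
  have h1 : (pdiv g).card ≤ 7 * nm g + 1 :=
    (Finset.card_filter_le _ _).trans (card_ball_le _)
  have h2 : ((pdiv g).card : ℝ) ≤ 7 * nr g + 1 := by exact_mod_cast h1
  have := one_le_nr hg
  linarith

open Classical in
theorem one_term {M : O} (hM : Adm M) (J : ℕ) {η : ℝ} (hη : 0 < η) : ∃ C : ℝ, 0 < C ∧
    ∀ (R D Λ Y L : ℝ) (Ps : ℕ → Finset O) (P : ℕ → ℝ) (I : Finset ℕ) (s : ℂ) (c : O → ℂ)
      (ν' : Chr M), Slots M Ps P I → Dy Ps P I → I.card ≤ J → -1 ≤ s.re → s.re ≤ 0 → 1 ≤ Λ →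
      0 < D → 1 ≤ Y → L = D * Λ * ZI P I → 1 ≤ R → L ≤ R → (∀ p, ‖c p‖ ≤ 1) →
      ∃ c' : O → ℂ, (∀ p, ‖c' p‖ ≤ 1) ∧ ∀ (ν : Chr M) (s₀ : ℂ) (u x : O) (f : ℝ), SP M u →
        f = nr u → nr u ≤ R → ∀ k,
        ‖Sd M (L / f) (fun m => ext (al ν D Λ s₀ (Zs Ps I) (cm c)) u ν' f L s m *
            conj (sym m x)) k‖ ^ 2 ≤
          C * R ^ η * Λ ^ 2 * ∑ u₀ ∈ pdiv u, ∑ I' ∈ I.powerset,
            (‖Small (ν * ν') (D / nr u₀) Λ (s₀ + s) (Zs Ps I') (cm c') (x * u ^ 6) Y k‖ ^ 2 +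
              ∑ d₁ ∈ pr M L, if u / u₀ ∈ Zs Ps (I \ I') then nr d₁ ^ 3 *
                ‖Sg M (L / f / nr d₁ ^ 6) (betaG (ν * ν') (D / nr u₀) Λ (s₀ + s) (Zs Ps I')
                  (cm c') (x * u ^ 6) Y d₁) k‖ ^ 2 else 0) := by
  obtain ⟨C1, hC1, h1⟩ := En.card_pdiv_le' (half_pos hη)
  obtain ⟨C2, hC2, h2⟩ := cube_le hM (half_pos hη)
  refine ⟨C1 * 2 ^ J * (2 ^ J) ^ 2 * (2 + C2), by positivity, ?_⟩
  intro R D Λ Y L Ps P I s c ν' hS hD hJ hs1 hs0 hΛ hD0 hY hL hR hLR hc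
  obtain ⟨κ, hκ, hx⟩ := ext_al hM hS hD hs1 hs0
  have hZ := hS.one_le_ZI
  have hL0 : 0 < L := by rw [hL]; positivity
  refine ⟨fun p => c p * κ p * ev ν' p, fun p => ?_, ?_⟩
  · rw [norm_mul, norm_mul]
    exact mul_le_one₀ (mul_le_one₀ (hc p) (norm_nonneg _) (hκ p)) (norm_nonneg _)
      (norm_ev_le hM.1 ν' p)
  intro ν s₀ u x f hu hf huR k
  have hu0 := hu.1.ne_zero
  have hf1 : 1 ≤ f := hf ▸ one_le_nr hu0
  have hf0 : 0 < f := by linarith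
  obtain ⟨ω, hω, hω', he⟩ := hx I le_rfl ν ν' D Λ f L Λ s₀ c u hD0 hf0 hL0 hΛ hu hc
    (by rw [hL, hf]; exact le_of_eq (by ring))
  have hL' : 0 ≤ L / f := by positivity
  have hLf : L / f ≤ L := div_le_self hL0.le hf1
  rw [Sd_ext hM _ _ hL' he]
  refine (cs2 _ _ _ _ (fun u₀ I' => u / u₀ ∈ Zs Ps (I \ I')) hω hω').trans ?_
  have hQ : 1 ≤ R ^ (η / 2) := Real.one_le_rpow hR (half_pos hη).le
  have hQQ : R ^ η = R ^ (η / 2) * R ^ (η / 2) := by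
    rw [← Real.rpow_add (by linarith), add_halves]
  have hI : (2 : ℝ) ^ I.card ≤ 2 ^ J := pow_le_pow_right₀ one_le_two hJ
  have k1 : ((pdiv u).card : ℝ) * (I.powerset.card : ℝ) * (2 ^ I.card * Λ) ^ 2 ≤
      C1 * R ^ (η / 2) * 2 ^ J * (2 ^ J * Λ) ^ 2 := by
    rw [Finset.card_powerset]
    push_cast
    gcongr
    exact h1 R u hu0 huR
  rw [hQQ, show C1 * 2 ^ J * (2 ^ J) ^ 2 * (2 + C2) * (R ^ (η / 2) * R ^ (η / 2)) * Λ ^ 2 =
    C1 * R ^ (η / 2) * 2 ^ J * (2 ^ J * Λ) ^ 2 * ((2 + C2) * R ^ (η / 2)) by ring, mul_assoc _ (_ * _)]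
  refine mul_le_mul k1 ?_ (Finset.sum_nonneg fun _ _ => Finset.sum_nonneg fun _ _ => by
    split_ifs <;> positivity) (by positivity)
  rw [Finset.mul_sum]
  refine Finset.sum_le_sum fun u₀ hu₀ => ?_
  rw [Finset.mul_sum]
  refine Finset.sum_le_sum fun I' hI' => ?_
  have hI'' := Finset.mem_powerset.1 hI'
  by_cases hz : u / u₀ ∈ Zs Ps (I \ I')
  · simp only [if_pos hz]
    obtain ⟨hp0, hd0⟩ := (mem_pdiv hu0).1 hu₀
    have hn0 := nr_pos hp0.ne_zero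
    have hm := ((hS.mono Finset.sdiff_subset).marks _ hz).2
    have hZ' := (hS.mono hI'').one_le_ZI
    have e1 : nr u = nr u₀ * nr (u / u₀) := by
      rw [← nr_mul, EuclideanDomain.mul_div_cancel' hp0.ne_zero hd0]
    have e2 : D / nr u₀ * Λ * ZI P I' ≤ L / f := by
      rw [le_div_iff₀ hf0, hf, e1, hL, ← ZI_sdiff P hI'']
      calc D / nr u₀ * Λ * ZI P I' * (nr u₀ * nr (u / u₀))
          = D * Λ * (nr (u / u₀) * ZI P I') := by field_simp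
        _ ≤ _ := by gcongr
    refine (h2 R (D / nr u₀) Λ (L / f) (ZI P I') Y _ _ _ _ _ k hR (hLf.trans hLR) hY
      (by positivity) (by linarith) (hS.mono hI'').marks e2).trans ?_
    have e3 : ∑ d₁ ∈ pr M (L / f), nr d₁ ^ 3 *
        ‖Sg M (L / f / nr d₁ ^ 6) (betaG (ν * ν') (D / nr u₀) Λ (s₀ + s) (Zs Ps I')
          (cm fun p => c p * κ p * ev ν' p) (x * u ^ 6) Y d₁) k‖ ^ 2 ≤
        ∑ d₁ ∈ pr M L, nr d₁ ^ 3 *
        ‖Sg M (L / f / nr d₁ ^ 6) (betaG (ν * ν') (D / nr u₀) Λ (s₀ + s) (Zs Ps I')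
          (cm fun p => c p * κ p * ev ν' p) (x * u ^ 6) Y d₁) k‖ ^ 2 := by
      refine Finset.sum_le_sum_of_subset_of_nonneg (fun d hd => ?_) fun _ _ _ => by positivity
      obtain ⟨a1, a2, a3⟩ := (MBa_mem_pr hL').1 hd
      exact (MBa_mem_pr hL0.le).2 ⟨a1, a2, a3.trans hLf⟩
    rw [mul_add]
    refine add_le_add (mul_le_mul_of_nonneg_right (by nlinarith) (by positivity))
      (mul_le_mul (by nlinarith) e3 (Finset.sum_nonneg fun _ _ => by positivity) (by positivity))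
  · simp only [if_neg hz, Finset.sum_const_zero]
    positivity

theorem small_one {M : O} (hM : Adm M) {η ε : ℝ} (hη : 0 < η) (hε : 0 < ε) :
    ∃ (C : ℝ) (J' : ℕ), 0 < C ∧ ∀ (R A D Y Z Zm D' K w : ℝ) (ν : Chr M) (s : ℂ) (S : Finset O)
      (c : O → ℂ) (r : O), 1 ≤ A → A ≤ R → 1 ≤ D → 1 ≤ Zm → Zm ≤ Z →
      (D * R ^ ε * Z) ^ 2 * R ^ ε ≤ R → 1 ≤ Y → Y ≤ R → D * Z ^ 2 ≤ A → D * Z ^ 6 ≤ A ^ 2 →
      0 < D' → D' ≤ D → 1 ≤ Y * D' → r ≠ 0 → nr r ≤ Y ^ 8 → 0 ≤ K →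
      K ≤ (D * R ^ ε * Z) ^ 2 * R ^ ε / A → 0 ≤ w → w ≤ A * Y / (D * Z) → Marks M S Zm →
      (∀ z, ‖c z‖ ≤ 1) → |s.re| ≤ 3 →
      w * ∑ k ∈ rows K, ‖Small ν D' (R ^ ε) s S c r Y k‖ ^ 2 ≤
        C * R ^ η * (R ^ ε) ^ 6 * (1 + |s.im|) ^ J' * Y ^ 84 * (A * D * Z) := by
  obtain ⟨C, J', hC, h⟩ := small_le hM (show 0 < η / 41 by positivity) (492 / ε)
  refine ⟨5 * C, J', by positivity, ?_⟩
  intro R A D Y Z Zm D' K w ν s S c r hA hAR hD hZm hZ hL hY hYR h2 h6 hD' hDD hYD hr hrY hK hKL hw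
    hw' hS hc hs
  have hR : 1 ≤ R := hA.trans hAR
  have hR0 : 0 < R := by linarith
  have hA0 : 0 < A := by linarith
  have hZ1 : 1 ≤ Z := hZm.trans hZ
  set Λ := R ^ ε with hΛdef
  have hΛ : 1 ≤ Λ := Real.one_le_rpow hR hε.le
  have hR41 : R ≤ R ^ 41 := le_self_pow₀ hR (by norm_num)
  have hDZ2 : D * Z ^ 2 ≤ R := h2.trans hAR
  have hZR : Z ≤ R := by nlinarith
  have hDR : D ≤ R := (le_mul_of_one_le_right (by linarith) (one_le_pow₀ hZ1)).trans hDZ2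
  set K' := (D * Λ * Z) ^ 2 * Λ / A * Y ^ 40 with hK'
  have hK'0 : 0 ≤ K' := by positivity
  have e1 := h (R ^ 41) K K' D' Λ Zm Y ν s S c r hΛ hY (hYR.trans hR41) hZm
    ((hZ.trans hZR).trans hR41) hD' ((hDD.trans hDR).trans hR41)
    (by
      calc Y ^ 3 ≤ Y ^ 3 * (Y * D') := le_mul_of_one_le_right (by positivity) hYD
        _ = Y ^ 4 * D' := by ring
        _ ≤ R ^ 41 * D' := mul_le_mul_of_nonneg_right
            ((pow_le_pow_left₀ (by linarith) hYR 4).trans (pow_le_pow_right₀ hR (by norm_num))) hD'.le)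
    hr hK
    (by
      refine mul_le_mul hKL ?_ (by positivity) (by positivity)
      calc nr r ^ 5 ≤ (Y ^ 8) ^ 5 := pow_le_pow_left₀ (by positivity) hrY 5
        _ = Y ^ 40 := by ring)
    (by
      calc K' ≤ R * R ^ 40 := mul_le_mul ((div_le_self (by positivity) hA).trans hL)
            (pow_le_pow_left₀ (by linarith) hYR 40) (by positivity) hR0.le
        _ = R ^ 41 := by ring)
    hS hc hs
  have e2 : (R ^ 41) ^ (η / 41) = R ^ η := by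
    rw [← Real.rpow_natCast, ← Real.rpow_mul hR0.le]
    congr 1
    push_cast
    ring
  have e3 : (R ^ 41) ^ 12 * Λ ^ (-(492 / ε)) = 1 := by
    rw [hΛdef, ← Real.rpow_mul hR0.le, ← pow_mul, ← Real.rpow_natCast, ← Real.rpow_add hR0]
    rw [show ((41 * 12 : ℕ) : ℝ) + ε * -(492 / ε) = 0 by push_cast; field_simp; norm_num,
      Real.rpow_zero]
  rw [e2, mul_assoc C ((R ^ 41) ^ 12), e3, mul_one] at e1
  have hAK : A * K' = D ^ 2 * Z ^ 2 * (Λ ^ 3 * Y ^ 40) := by rw [hK']; field_simp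
  set V := Λ ^ 3 * Y ^ 40 with hV
  have hV1 : 1 ≤ V := one_le_mul_of_one_le_of_one_le (one_le_pow₀ hΛ) (one_le_pow₀ hY)
  have hK1 : K' ≤ D * V := by
    refine le_of_mul_le_mul_left ?_ hA0
    rw [hAK]
    calc D ^ 2 * Z ^ 2 * V = D * Z ^ 2 * (D * V) := by ring
      _ ≤ A * (D * V) := mul_le_mul_of_nonneg_right h2 (by positivity)
  have hVV : D ^ 2 * Z ^ 2 * V ≤ D ^ 2 * Z ^ 2 * V ^ 2 :=
    mul_le_mul_of_nonneg_left (le_self_pow₀ hV1 (by norm_num)) (by positivity)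
  have t4 : D' * Zm ^ 2 * K' ≤ D ^ 2 * Z ^ 2 * V ^ 2 := by
    calc D' * Zm ^ 2 * K' ≤ D * Z ^ 2 * (D * V) := by gcongr
      _ = D ^ 2 * Z ^ 2 * V := by ring
      _ ≤ _ := hVV
  have t1 : D' * Zm * K' ≤ D ^ 2 * Z ^ 2 * V ^ 2 := by
    refine le_trans ?_ t4
    gcongr
    exact le_self_pow₀ hZm (by norm_num)
  have t2 : Zm ^ 2 * K' ^ 2 ≤ D ^ 2 * Z ^ 2 * V ^ 2 := by
    calc Zm ^ 2 * K' ^ 2 ≤ Z ^ 2 * (D * V) ^ 2 := by gcongr
      _ = _ := by ring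
  have t3 : Real.sqrt D' * Zm ^ 3 * K' ≤ D ^ 2 * Z ^ 2 * V ^ 2 := by
    have : Real.sqrt D * Z ^ 3 ≤ A := by
      refine (pow_le_pow_iff_left₀ (by positivity) hA0.le two_ne_zero).1 ?_
      rw [mul_pow, Real.sq_sqrt (by linarith), ← pow_mul]
      exact h6
    calc Real.sqrt D' * Zm ^ 3 * K' ≤ Real.sqrt D * Z ^ 3 * K' := by gcongr
      _ ≤ A * K' := mul_le_mul_of_nonneg_right this hK'0
      _ ≤ _ := hAK ▸ hVV
  set G := R ^ η * (1 + |s.im|) ^ J' with hG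
  have hG1 : 1 ≤ G := one_le_mul_of_one_le_of_one_le (Real.one_le_rpow hR hη.le)
    (one_le_pow₀ (by linarith [abs_nonneg s.im]))
  have hW : 1 ≤ G * Y ^ 3 * (D ^ 2 * Z ^ 2 * V ^ 2) :=
    one_le_mul_of_one_le_of_one_le (one_le_mul_of_one_le_of_one_le hG1 (one_le_pow₀ hY))
      (one_le_mul_of_one_le_of_one_le (one_le_mul_of_one_le_of_one_le (one_le_pow₀ hD)
        (one_le_pow₀ hZ1)) (one_le_pow₀ hV1))
  have e4 : ∑ k ∈ rows K, ‖Small ν D' Λ s S c r Y k‖ ^ 2 ≤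
      5 * C * (G * Y ^ 3 * (D ^ 2 * Z ^ 2 * V ^ 2)) := by
    refine e1.trans ?_
    have a1 : C * R ^ η * (1 + |s.im|) ^ J' * Y ^ 3 *
        (D' * Zm * K' + Zm ^ 2 * K' ^ 2 + Real.sqrt D' * Zm ^ 3 * K' + D' * Zm ^ 2 * K') ≤
        C * R ^ η * (1 + |s.im|) ^ J' * Y ^ 3 * (4 * (D ^ 2 * Z ^ 2 * V ^ 2)) :=
      mul_le_mul_of_nonneg_left (by linarith) (by positivity)
    have a2 : C ≤ C * (G * Y ^ 3 * (D ^ 2 * Z ^ 2 * V ^ 2)) := le_mul_of_one_le_right hC.le hW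
    have a3 : C * R ^ η * (1 + |s.im|) ^ J' * Y ^ 3 * (4 * (D ^ 2 * Z ^ 2 * V ^ 2)) =
        4 * (C * (G * Y ^ 3 * (D ^ 2 * Z ^ 2 * V ^ 2))) := by rw [hG]; ring
    linarith
  refine (mul_le_mul hw' e4 (Finset.sum_nonneg fun _ _ => by positivity) (by positivity)).trans
    (le_of_eq ?_)
  rw [hG, hV]
  field_simp

theorem sum_le_card {α : Type} {S : Finset α} {f : α → ℝ} {b N : ℝ} (hb : 0 ≤ b)
    (hf : ∀ x ∈ S, f x ≤ b) (hc : (S.card : ℝ) ≤ N) : ∑ x ∈ S, f x ≤ N * b := by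
  refine (Finset.sum_le_card_nsmul S f b hf).trans ?_
  rw [nsmul_eq_mul]
  exact mul_le_mul_of_nonneg_right hc hb

theorem sum_le_sub {α : Type} {S T : Finset α} {f g : α → ℝ} (h : S ⊆ T)
    (hf : ∀ x ∈ S, f x ≤ g x) (hg : ∀ x ∈ T, 0 ≤ g x) : ∑ x ∈ S, f x ≤ ∑ x ∈ T, g x :=
  (Finset.sum_le_sum hf).trans (Finset.sum_le_sum_of_subset_of_nonneg h fun x hx _ => hg x hx)

theorem final {C1 C2 C3 N Q Λ Y F T0 T1 Ta Tb W : ℝ} (h1 : 0 ≤ C1) (h2 : 0 ≤ C2) (h3 : 0 ≤ C3)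
    (hN : 0 ≤ N) (hQ : 1 ≤ Q) (hΛ : 0 ≤ Λ) (hΛQ : Λ ≤ Q) (hY : 1 ≤ Y) (hF : 0 ≤ F) (hT0 : 0 ≤ T0)
    (hT1 : 0 ≤ T1) (t0 : T0 ≤ Ta * Tb) (t1 : T1 ≤ Ta * Tb) (hW : 0 ≤ W) :
    C1 * Q * Λ ^ 2 * (7 * Y * (8 * Y * (7 * Y * (8 * Y *
        (N * (C3 * Q * Λ ^ 6 * T1 * Y ^ 84 * W))))) + C2 * Q * F * T0 * W) ≤
      C1 * (3136 * N * C3 + C2) * Q ^ 10 * (Y ^ 100 + F) * Ta * W * Tb := by
  have hT : 0 ≤ Ta * Tb := hT0.trans t0
  have hY0 : 0 ≤ Y := by linarith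
  have a1 : Q ^ 2 * Λ ^ 8 * Y ^ 88 * T1 ≤ Q ^ 10 * (Y ^ 100 + F) * (Ta * Tb) := by
    calc Q ^ 2 * Λ ^ 8 * Y ^ 88 * T1 ≤ Q ^ 2 * Q ^ 8 * (Y ^ 100 + F) * (Ta * Tb) := by
          gcongr
          exact (pow_le_pow_right₀ hY (by norm_num)).trans (le_add_of_nonneg_right hF)
      _ = _ := by ring
  have a2 : Q ^ 2 * Λ ^ 2 * F * T0 ≤ Q ^ 10 * (Y ^ 100 + F) * (Ta * Tb) := by
    calc Q ^ 2 * Λ ^ 2 * F * T0 ≤ Q ^ 2 * Q ^ 8 * (Y ^ 100 + F) * (Ta * Tb) := by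
          gcongr
          · exact (pow_le_pow_left₀ hΛ hΛQ 2).trans (pow_le_pow_right₀ hQ (by norm_num))
          · exact le_add_of_nonneg_left (by positivity)
      _ = _ := by ring
  calc _ = C1 * W * (3136 * N * C3 * (Q ^ 2 * Λ ^ 8 * Y ^ 88 * T1) +
        C2 * (Q ^ 2 * Λ ^ 2 * F * T0)) := by ring
    _ ≤ C1 * W * (3136 * N * C3 * (Q ^ 10 * (Y ^ 100 + F) * (Ta * Tb)) +
        C2 * (Q ^ 10 * (Y ^ 100 + F) * (Ta * Tb))) := by gcongr
    _ = _ := by ring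

end Crest.Agent.R17.E1
end
end

-- ▼ part PVc/R17/T2GpAuxA
section

/-!
# Row 17, module T2: counting lemma for the diagonal of the large cubes
-/

set_option autoImplicit false

noncomputable section

namespace Crest.Agent.R17.T2GpA

open Finset

open Classical in
theorem sum_ite_mem (S T : Finset O) {x D : ℝ} (hx : 0 ≤ x) (hD : (T.card : ℝ) ≤ D) :
    ∑ e ∈ S, (if e ∈ T then x else 0) ≤ D * x := by
  rw [← sum_filter, sum_const, nsmul_eq_mul]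
  refine mul_le_mul_of_nonneg_right (le_trans ?_ hD) hx
  exact_mod_cast card_le_card fun e he => (mem_filter.1 he).2

open Classical in
theorem sum_fam {S T : Finset O} {W : Finset (Finset ℕ)} {H Dv : ℝ} (hDv : 0 ≤ Dv)
    (hS : ∑ n ∈ S, (nr n)⁻¹ ≤ H) (hT : ∑ n ∈ T, (nr n)⁻¹ ≤ H)
    (h1 : ∀ g ∈ S, ((pdiv g).card : ℝ) ≤ Dv)
    (h2 : ∀ g ∈ S, ∀ t ∈ S, ((pdiv (g * t)).card : ℝ) ≤ Dv) :
    ∑ i ∈ S ×ˢ S ×ˢ S ×ˢ S ×ˢ W ×ˢ T, (if i.2.1 ∈ pdiv i.1 then (nr i.1)⁻¹ else 0) *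
      ((if i.2.2.2.1 ∈ pdiv (i.1 * i.2.2.1) then (nr i.2.2.1)⁻¹ else 0) * (nr i.2.2.2.2.2)⁻¹) ≤
      Dv * H * (Dv * H * (W.card * H)) := by
  have hH : 0 ≤ H := le_trans (sum_nonneg fun _ _ => by positivity) hS
  have e : ∀ (a : O → O → ℝ) (b : O → O → O → ℝ) (c : O → ℝ),
      ∑ i ∈ S ×ˢ S ×ˢ S ×ˢ S ×ˢ W ×ˢ T, a i.1 i.2.1 * (b i.1 i.2.2.1 i.2.2.2.1 * c i.2.2.2.2.2) =
        ∑ g ∈ S, (∑ e ∈ S, a g e) * ((∑ t ∈ S, ∑ u ∈ S, b g t u) * (W.card * ∑ d ∈ T, c d)) := by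
    intro a b c
    simp only [sum_product, ← mul_sum, sum_const, nsmul_eq_mul, ← sum_mul]
  refine (e (fun g e => if e ∈ pdiv g then (nr g)⁻¹ else 0)
    (fun g t u => if u ∈ pdiv (g * t) then (nr t)⁻¹ else 0) fun d => (nr d)⁻¹).trans_le ?_
  have a1 : ∀ g ∈ S, ∑ t ∈ S, ∑ u ∈ S, (if u ∈ pdiv (g * t) then (nr t)⁻¹ else 0) ≤ Dv * H :=
    fun g hg => (sum_le_sum fun t ht => sum_ite_mem S _ (by positivity) (h2 g hg t ht)).trans (by
      rw [← mul_sum]; gcongr)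
  have a2 : ∑ g ∈ S, ∑ e ∈ S, (if e ∈ pdiv g then (nr g)⁻¹ else 0) ≤ Dv * H :=
    (sum_le_sum fun g hg => sum_ite_mem S _ (by positivity) (h1 g hg)).trans (by
      rw [← mul_sum]; gcongr)
  refine le_trans (sum_le_sum fun g hg => ?_) ((sum_mul _ _ _).symm.trans_le
    (mul_le_mul_of_nonneg_right a2 (by positivity)))
  refine mul_le_mul_of_nonneg_left ?_ (sum_nonneg fun _ _ => by positivity)
  exact mul_le_mul (a1 g hg) (by gcongr) (mul_nonneg (by positivity)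
    (sum_nonneg fun _ _ => by positivity)) (by positivity)

end Crest.Agent.R17.T2GpA
end
end

-- ▼ part PVc/R17/T2GpAuxC
section

/-!
# Row 17, module T2: bookkeeping for `large_off`
-/

set_option autoImplicit false

noncomputable section

namespace Crest.Agent.R17.GpC

open Finset

/-- index `(g, e, t, u₀, I', d₁)` -/
abbrev Ix : Type := O × O × O × O × Finset ℕ × O

/-- The properties of an index which are used. -/
def Good (L : ℝ) (I : Finset ℕ) (i : Ix) : Prop :=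
  Primary i.1 ∧ nr i.1 ≤ L ∧ Primary i.2.1 ∧ i.2.1 ∣ i.1 ∧ Primary i.2.2.1 ∧ Primary i.2.2.2.1 ∧
    i.2.2.2.1 ∣ i.1 * i.2.2.1 ∧ i.2.2.2.2.1 ⊆ I ∧ Primary i.2.2.2.2.2

theorem of_mem_rows {A : ℝ} {a : O} (h : a ∈ rows A) : a ≠ 0 ∧ nr a ≤ A := by
  rcases lt_or_ge A 1 with hA | hA
  · simp [rows_eq_empty hA] at h
  · exact (mem_rows (by linarith)).1 h

theorem prod_pow_dvd {s : Finset O} (hs : ∀ p ∈ s, Prime p ∧ Primary p) {a : O}
    (h : ∀ p ∈ s, p ^ 6 ∣ a) : (∏ p ∈ s, p) ^ 6 ∣ a := by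
  rw [← Finset.prod_pow]
  refine Finset.prod_dvd_of_coprime (fun p hp q hq hne => ?_) h
  refine IsCoprime.pow ?_
  refine ((hs p hp).1.irreducible.coprime_iff_not_dvd).2 fun hd => hne ?_
  exact BasicB.eq_of_dvd (hs p hp).1 (hs q hq).1 (hs p hp).2 (hs q hq).2 hd

theorem nr_prod (s : Finset O) : nr (∏ p ∈ s, p) = ∏ p ∈ s, nr p := by
  simp only [nr, nm_prod]; push_cast; rfl

/-- The multiplicity step. -/
theorem mult {M : O} {R A L Λ Dm err : ℝ} {I : Finset ℕ} (hA : 1 ≤ A) (hAR : A ≤ R) (hL : 1 ≤ L)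
    (hLR : L ≤ R) (hΛ : 0 ≤ Λ) (herr : 0 ≤ err)
    (hD : ∀ n : O, n ≠ 0 → nr n ≤ R ^ 2 → ((pdiv n).card : ℝ) ≤ Dm)
    (S : Finset Ix) (hS : ∀ i ∈ S, Good L I i)
    (cc : O → O → O) (hcc : ∀ d a, Primary (cc d a) ∧ cc d a ^ 6 ∣ a)
    (W Lf Af : Ix → ℝ)
    (hW : ∀ i ∈ S, W i = Λ * nr i.2.2.1 * nr i.2.2.2.2.2 ^ 9)
    (hLf : ∀ i ∈ S, Lf i = L / (nr i.1 * nr i.2.2.1) / nr i.2.2.2.2.2 ^ 6)
    (hAf : ∀ i ∈ S, Af i = A / (nr i.2.1 * nr i.2.2.1 ^ 2 * nr i.2.2.2.2.2 ^ 12))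
    (f : Ix → O → O → O → O → ℝ) (G : O → O → O → O → O → ℝ)
    (hG : ∀ g d t c a, 0 ≤ G g d t c a)
    (hf : ∀ i ∈ S, ∀ a ∈ rows A, ∀ d ∈ sp M (Lf i), d ∣ a → ∀ e ∈ sp M (Lf i), e ∣ a →
      ∀ t ∈ sp (M * d * e) (Lf i), nr (a * i.2.1 * i.2.2.1 ^ 2) ≤ A →
      f i a d e t ≤ Lf i / nr t *
        G i.1 i.2.2.2.2.2 t (cc d a) (a / cc d a ^ 6 * i.2.1 * i.2.2.1 ^ 2) + err) :
    ∑ i ∈ S, W i * ∑ a ∈ rows (Af i), ∑ d ∈ (sp M (Lf i)).filter (· ∈ pdiv a),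
      ∑ e ∈ (sp M (Lf i)).filter (· ∈ pdiv a), ∑ t ∈ sp (M * d * e) (Lf i),
        nr (cc d a) * f i a d e t ≤
      Dm ^ 5 * 2 ^ I.card * ∑ q ∈ rows R ×ˢ rows R ×ˢ rows R ×ˢ rows R,
        ∑ a₀ ∈ rows (A / (nr q.2.2.2 * nr q.2.1 ^ 2) ^ 6),
          (L * Λ * (nr q.2.2.2 * nr q.2.1 ^ 3 / (nr q.1 * nr q.2.2.1)) *
            G q.1 q.2.1 q.2.2.1 q.2.2.2 a₀ + Λ * A * err) := by
  classical
  have hR : 1 ≤ R := hA.trans hAR
  have hR2 : R ≤ R ^ 2 := by nlinarith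
  have hDm : 0 ≤ Dm := le_trans (Nat.cast_nonneg _) (hD 1 one_ne_zero (by
    rw [nr, nm_one, Nat.cast_one]; linarith))
  simp only [Finset.mul_sum, Finset.sum_sigma']
  rw [← Finset.mul_sum]
  refine DP3_mult _ _ _ _
    (fun x => ⟨(x.1.1, x.1.2.2.2.2.2, x.2.2.2.2, cc x.2.2.1 x.2.1),
      x.2.1 / cc x.2.2.1 x.2.1 ^ 6 * x.1.2.1 * x.1.2.2.1 ^ 2⟩)
    (fun x => (x.1.2.1, x.1.2.2.1, x.1.2.2.2.1, x.1.2.2.2.2.1, x.2.2.1, x.2.2.2.1))
    (fun j => pdiv j.1.1 ×ˢ pdiv j.2 ×ˢ pdiv (j.1.1 * j.2) ×ˢ I.powerset ×ˢ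
      pdiv (j.1.2.2.2 ^ 6 * j.2) ×ˢ pdiv (j.1.2.2.2 ^ 6 * j.2)) (fun j _ => ?_) ?_ ?_ ?_
  · have := hG j.1.1 j.1.2.1 j.1.2.2.1 j.1.2.2.2 j.2
    positivity
  · rintro ⟨⟨g, d₁, t', c⟩, a₀⟩ hj
    simp only [Finset.mem_sigma, Finset.mem_product] at hj
    obtain ⟨⟨hg, hd, -, hc⟩, ha⟩ := hj
    obtain ⟨hg0, hgR⟩ := of_mem_rows hg
    obtain ⟨hd0, -⟩ := of_mem_rows hd
    obtain ⟨hc0, -⟩ := of_mem_rows hc
    obtain ⟨ha0, haA⟩ := of_mem_rows ha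
    have h1 := one_le_nr hd0
    have h2 := one_le_nr hc0
    have h3 := one_le_nr ha0
    rw [le_div_iff₀ (by positivity)] at haA
    have h4 : nr (c ^ 6 * a₀) ≤ A := by
      refine le_trans ?_ haA
      rw [nr_mul, nr_pow, mul_comm, mul_pow]
      have : 1 ≤ (nr d₁ ^ 2) ^ 6 := one_le_pow₀ (one_le_pow₀ h1)
      gcongr
      exact le_mul_of_one_le_right (by positivity) this
    have h5 : nr a₀ ≤ A := by
      refine le_trans ?_ h4
      rw [nr_mul, nr_pow]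
      exact le_mul_of_one_le_left (by positivity) (one_le_pow₀ h2)
    have e1 := hD g hg0 (hgR.trans hR2)
    have e2 := hD a₀ ha0 (h5.trans (hAR.trans hR2))
    have e3 := hD (g * a₀) (mul_ne_zero hg0 ha0) (by
      rw [nr_mul, sq]; exact mul_le_mul hgR (h5.trans hAR) (by positivity) (by linarith))
    have e4 := hD (c ^ 6 * a₀) (mul_ne_zero (pow_ne_zero _ hc0) ha0) (h4.trans (hAR.trans hR2))
    simp only [Finset.card_product, Finset.card_powerset]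
    push_cast
    calc _ ≤ Dm * (Dm * (Dm * (2 ^ I.card * (Dm * Dm)))) := by gcongr
      _ = _ := by ring
  · rintro ⟨⟨g, e, t, u₀, I', d₁⟩, a, d, e', t'⟩ hx
    simp only [Finset.mem_sigma, Finset.mem_filter] at hx
    obtain ⟨hi, ha, ⟨hd, hda⟩, ⟨he', hea⟩, ht'⟩ := hx
    obtain ⟨hg, hgL, he, heg, ht, hu, hugt, hI, hd₁⟩ := hS _ hi
    have hW' := hW _ hi
    have hLf' := hLf _ hi
    have hAf' := hAf _ hi
    have hf' := hf _ hi
    dsimp only at hg hgL he heg ht hu hugt hI hd₁ hW' hLf' hAf' hf' ha hd hda he' hea ht' ⊢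
    obtain ⟨ha0, haA⟩ := of_mem_rows ha
    obtain ⟨hc, a', ha'⟩ := hcc d a
    set c := cc d a with hcdef
    have hc0 := hc.ne_zero
    have hq : a / c ^ 6 = a' := by
      rw [ha']; exact mul_div_cancel_left₀ _ (pow_ne_zero _ hc0)
    have ha'0 : a' ≠ 0 := by rintro rfl; simp at ha'; exact ha0 ha'
    have n1 := one_le_nr hg.ne_zero
    have n2 := one_le_nr he.ne_zero
    have n3 := one_le_nr ht.ne_zero
    have n4 := one_le_nr hd₁.ne_zero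
    have n5 := one_le_nr hc0
    have n6 := one_le_nr ha'0
    have n7 := one_le_nr (DP3_mem ht').1.1.ne_zero
    have hna : nr a = nr c ^ 6 * nr a' := by rw [ha', nr_mul, nr_pow]
    rw [hAf', le_div_iff₀ (by positivity), hna] at haA
    have k1 : 1 ≤ nr d₁ ^ 12 := one_le_pow₀ n4
    have k2 : 1 ≤ nr t ^ 2 := one_le_pow₀ n3
    have k3 : 1 ≤ nr c ^ 6 := one_le_pow₀ n5
    have hb : nr (a * e * t ^ 2) ≤ A := by
      refine le_trans ?_ haA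
      rw [nr_mul, nr_mul, nr_pow, hna, mul_assoc (nr c ^ 6 * nr a')]
      exact mul_le_mul_of_nonneg_left (le_mul_of_one_le_right (by positivity) k1) (by positivity)
    have hb' : nr a ≤ A := by
      refine le_trans ?_ hb
      rw [nr_mul, nr_mul, nr_pow, mul_assoc]
      exact le_mul_of_one_le_right (by positivity) (one_le_mul_of_one_le_of_one_le n2 k2)
    have hLfL : Lf (g, e, t, u₀, I', d₁) ≤ L := by
      rw [hLf']
      refine (div_le_self (by positivity) (one_le_pow₀ n4)).trans ?_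
      exact div_le_self (by linarith) (one_le_mul_of_one_le_of_one_le n1 n3)
    have hdd := (mem_pdiv ha0).1 hda
    have hee := (mem_pdiv ha0).1 hea
    have hkey := hf' a ((mem_rows (by linarith)).2 ⟨ha0, hb'⟩) d hd hdd.2 e' he' hee.2 t' ht' hb
    rw [← hcdef, hq] at hkey
    rw [hq]
    have ha₀ : a' * e * t ^ 2 ≠ 0 :=
      mul_ne_zero (mul_ne_zero ha'0 he.ne_zero) (pow_ne_zero _ ht.ne_zero)
    have hw : nr t * nr d₁ ^ 9 * nr c ≤ A := by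
      refine le_trans ?_ haA
      calc nr t * nr d₁ ^ 9 * nr c ≤ nr t ^ 2 * nr d₁ ^ 12 * nr c ^ 6 := by
            gcongr
            · exact le_self_pow₀ n3 two_ne_zero
            · norm_num
            · exact le_self_pow₀ n5 (by norm_num)
        _ = nr c ^ 6 * 1 * (1 * nr t ^ 2 * nr d₁ ^ 12) := by ring
        _ ≤ _ := by gcongr
    have hdR : nr d₁ ≤ R := by
      refine le_trans ?_ (hw.trans hAR)
      calc nr d₁ = 1 * nr d₁ ^ 1 * 1 := by ring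
        _ ≤ _ := by gcongr; norm_num
    have hcR : nr c ≤ R := by
      refine le_trans ?_ (hw.trans hAR)
      exact le_mul_of_one_le_left (by positivity) (one_le_mul_of_one_le_of_one_le n3 (one_le_pow₀ n4))
    refine Or.inr ⟨?_, ?_, ?_⟩
    · simp only [Finset.mem_sigma, Finset.mem_product]
      refine ⟨⟨(mem_rows (by linarith)).2 ⟨hg.ne_zero, hgL.trans hLR⟩,
        (mem_rows (by linarith)).2 ⟨hd₁.ne_zero, hdR⟩,
        (mem_rows (by linarith)).2 ⟨(DP3_mem ht').1.1.ne_zero, (DP3_mem ht').2.trans (hLfL.trans hLR)⟩,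
        (mem_rows (by linarith)).2 ⟨hc0, hcR⟩⟩, (mem_rows (by positivity)).2 ⟨ha₀, ?_⟩⟩
      rw [le_div_iff₀ (by positivity), nr_mul, nr_mul, nr_pow]
      refine le_trans (le_of_eq ?_) haA
      ring
    · have hca : c ^ 6 * (a' * e * t ^ 2) = a * (e * t ^ 2) := by rw [ha']; ring
      simp only [Finset.mem_product, Finset.mem_powerset, hca]
      have hae : a * (e * t ^ 2) ≠ 0 := hca ▸ mul_ne_zero (pow_ne_zero _ hc0) ha₀
      have htd : t ∣ a' * e * t ^ 2 := Dvd.intro_left (a' * e * t) (by ring)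
      exact ⟨(mem_pdiv hg.ne_zero).2 ⟨he, heg⟩, (mem_pdiv ha₀).2 ⟨ht, htd⟩,
        (mem_pdiv (mul_ne_zero hg.ne_zero ha₀)).2 ⟨hu, hugt.trans (mul_dvd_mul_left _ htd)⟩, hI,
        (mem_pdiv hae).2 ⟨hdd.1, hdd.2.mul_right _⟩, (mem_pdiv hae).2 ⟨hee.1, hee.2.mul_right _⟩⟩
    · rw [hW']
      have hG' := hG g d₁ t' c (a' * e * t ^ 2)
      set G' := G g d₁ t' c (a' * e * t ^ 2)
      calc _ ≤ Λ * nr t * nr d₁ ^ 9 * (nr c * (Lf (g, e, t, u₀, I', d₁) / nr t' * G' + err)) := by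
            gcongr
        _ = L * Λ * (nr c * nr d₁ ^ 3 / (nr g * nr t')) * G' + Λ * (nr t * nr d₁ ^ 9 * nr c) * err := by
            rw [hLf']; field_simp
        _ ≤ _ := by gcongr
  · rintro ⟨⟨g, e, t, u₀, I', d₁⟩, a, d, e', t'⟩ hx ⟨⟨g2, e2, t2, u2, I2, d2⟩, a2, d2', e2', t2'⟩ hx2
      h1 h2
    simp only [Finset.mem_sigma, Finset.mem_filter] at hx hx2
    obtain ⟨hg, hgL, he, heg, ht, -⟩ := hS _ hx.1
    simp only [Sigma.mk.injEq, Prod.mk.injEq, heq_eq_eq] at h1 h2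
    obtain ⟨⟨rfl, rfl, rfl, hc⟩, ha⟩ := h1
    obtain ⟨rfl, rfl, rfl, rfl, rfl, rfl⟩ := h2
    dsimp only at he ht
    have h3 : a / cc d a ^ 6 = a2 / cc d a2 ^ 6 :=
      mul_right_cancel₀ he.ne_zero (mul_right_cancel₀ (pow_ne_zero 2 ht.ne_zero) ha)
    have h4 : a = a2 := by
      rw [← EuclideanDomain.mul_div_cancel' (pow_ne_zero 6 (hcc d a).1.ne_zero) (hcc d a).2,
        ← EuclideanDomain.mul_div_cancel' (pow_ne_zero 6 (hcc d a2).1.ne_zero) (hcc d a2).2, h3, hc]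
    subst h4
    rfl

variable {M : O} [Fintype (Chr M)] {J J₀ : ℕ} {ε R A D Y Xm F : ℝ} {Ps : ℕ → Finset O} {P : ℕ → ℝ}
  {I : Finset ℕ}

/-- The rows of one group. -/
theorem row_sum (h : Ctx M J J₀ ε R A D Y Xm F Ps P I) {x : ℝ} (hx : 1 ≤ x) {c : O → ℂ}
    (hc : ∀ p, ‖c p‖ ≤ 1) {s : ℂ} (h1 : -2 ≤ s.re) (h0 : s.re ≤ 0) :
    ∑ a ∈ rows (A / x ^ 6), Psi M Ps P I c s (D * ZI P I / max Y x ^ 3) a ≤
      F * (1 + |s.im|) ^ J₀ * (4 * A / x ^ 2) := by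
  have hA := h.hA
  have hF := h.hF
  have hD := h.hD
  have hY := h.hY
  have hZ := h.slots.one_le_ZI
  have hx0 : 0 < x := by linarith
  rcases lt_or_ge (A / x ^ 6) 1 with hlt | hge
  · rw [rows_eq_empty hlt, Finset.sum_empty]; positivity
  rw [le_div_iff₀ (by positivity), one_mul] at hge
  set m := max Y x with hm
  have m8 : 8 ≤ m := hY.trans (le_max_left _ _)
  have mx : x ≤ m := le_max_right _ _
  have mY : Y ≤ m := le_max_left _ _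
  have m0 : 0 < m := by linarith
  have x2 : 1 ≤ x ^ 2 := one_le_pow₀ hx
  have x26 : x ^ 2 ≤ x ^ 6 := pow_le_pow_right₀ hx (by norm_num)
  have hm3 : 8 * x ^ 2 ≤ m ^ 3 := by
    calc 8 * x ^ 2 ≤ m * m ^ 2 := by gcongr
      _ = m ^ 3 := by ring
  have hXm : 0 ≤ Xm := by
    by_contra hneg
    have : Xm * Y < 0 := mul_neg_of_neg_of_pos (not_le.1 hneg) (by linarith)
    have h2 : 0 < 8 * (D * ZI P I) := by positivity
    linarith [h.hX]
  have e1 : A / x ^ 6 ≤ min A (4 * A / x ^ 2) := by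
    refine le_min (div_le_self (by linarith) (x2.trans x26)) ?_
    gcongr
    linarith
  have e2 : 8 * (D * ZI P I / m ^ 3) * ZI P I ≤ A / x ^ 2 := by
    calc _ = 8 * (D * ZI P I ^ 2) / m ^ 3 := by ring
      _ ≤ 8 * A / (8 * x ^ 2) := by gcongr; exact h.h2
      _ = _ := by field_simp
  have e3 : (8 * (D * ZI P I / m ^ 3)) ^ 2 * ZI P I ^ 7 ≤ 64 * A ^ 3 / m ^ 6 := by
    calc _ = 64 * (D ^ 2 * ZI P I ^ 9) / m ^ 6 := by ring
      _ ≤ _ := by gcongr; exact h.h9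
  have hp := h.pb (min A (4 * A / x ^ 2)) (D * ZI P I / m ^ 3) c s hc
    (le_min hA (by rw [le_div_iff₀ (by positivity)]; linarith)) (min_le_left _ _) h1 h0
    (by positivity)
    (by
      have : m ≤ m ^ 3 := le_self_pow₀ (by linarith) (by norm_num)
      calc 8 * (D * ZI P I / m ^ 3) = 8 * (D * ZI P I) / m ^ 3 := by ring
        _ ≤ Xm * m ^ 3 / m ^ 3 := div_le_div_of_nonneg_right
          (h.hX.trans (mul_le_mul_of_nonneg_left (mY.trans this) hXm)) (by positivity)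
        _ = Xm := by field_simp)
    (le_min (e2.trans (div_le_self (by linarith) x2)) (e2.trans (by gcongr; linarith)))
    (by
      rcases min_cases A (4 * A / x ^ 2) with ⟨e, -⟩ | ⟨e, -⟩ <;> rw [e] <;> refine e3.trans ?_
      · rw [div_le_iff₀ (by positivity), mul_comm]
        gcongr
        calc (64 : ℝ) ≤ 8 ^ 6 := by norm_num
          _ ≤ _ := by gcongr
      · calc _ ≤ 64 * A ^ 3 / x ^ 6 := by gcongr
          _ = _ := by field_simp; norm_num)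
  refine (Finset.sum_le_sum_of_subset_of_nonneg (rows_mono e1) fun a _ _ =>
    Psi_nonneg M h.slots _ _ _ _).trans (hp.trans ?_)
  gcongr
  exact min_le_right _ _

theorem sum_inv_rows {η : ℝ} (hη : 0 < η) : ∃ C : ℝ, 0 < C ∧ ∀ Q : ℝ, 1 ≤ Q →
    ∑ n ∈ rows Q, (nr n)⁻¹ ≤ C * Q ^ η := by
  obtain ⟨C, hC, h⟩ := En.sum_inv_le hη
  exact ⟨C, hC, fun Q hQ => h Q _ hQ fun n hn => of_mem_rows hn⟩

/-- The sum over the groups. -/
theorem total (h : Ctx M J J₀ ε R A D Y Xm F Ps P I) {L Λ C₁ err H : ℝ} (hL : 0 ≤ L) (hΛ : 0 ≤ Λ)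
    (hC₁ : 0 ≤ C₁) (herr : 0 ≤ err) (hH : ∑ n ∈ rows R, (nr n)⁻¹ ≤ H) (c' : O → O → O → O → O → ℂ)
    (hc' : ∀ g d t c p, ‖c' g d t c p‖ ≤ 1) {s : ℂ} (h1 : -2 ≤ s.re) (h0 : s.re ≤ 0) :
    ∑ q ∈ rows R ×ˢ rows R ×ˢ rows R ×ˢ rows R,
        ∑ a₀ ∈ rows (A / (nr q.2.2.2 * nr q.2.1 ^ 2) ^ 6),
          (L * Λ * (nr q.2.2.2 * nr q.2.1 ^ 3 / (nr q.1 * nr q.2.2.1)) *
            (C₁ * Psi M Ps P I (c' q.1 q.2.1 q.2.2.1 q.2.2.2) s
              (D * ZI P I / max Y (nr q.2.2.2 * nr q.2.1 ^ 2) ^ 3) a₀) + Λ * A * err) ≤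
      L * Λ * C₁ * (F * (1 + |s.im|) ^ J₀ * (4 * A)) * H ^ 4 + (7 * R) ^ 5 * (Λ * A * err) := by
  have hA := h.hA
  have hAR := h.hAR
  have hF := h.hF
  set K := L * Λ * C₁ * (F * (1 + |s.im|) ^ J₀ * (4 * A)) with hK
  have hK0 : 0 ≤ K := by positivity
  have hcard := card_rows_le (A := R) (by linarith)
  calc _ ≤ ∑ q ∈ rows R ×ˢ rows R ×ˢ rows R ×ˢ rows R,
        (K * ((nr q.1)⁻¹ * ((nr q.2.1)⁻¹ * ((nr q.2.2.1)⁻¹ * (nr q.2.2.2)⁻¹))) +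
          7 * R * (Λ * A * err)) := by
        refine Finset.sum_le_sum ?_
        rintro ⟨g, d, t, c⟩ hq
        simp only [Finset.mem_product] at hq
        have n1 := one_le_nr (of_mem_rows hq.1).1
        have n2 := one_le_nr (of_mem_rows hq.2.1).1
        have n3 := one_le_nr (of_mem_rows hq.2.2.1).1
        have n4 := one_le_nr (of_mem_rows hq.2.2.2).1
        dsimp only
        have hx : 1 ≤ nr c * nr d ^ 2 := one_le_mul_of_one_le_of_one_le n4 (one_le_pow₀ n2)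
        have hr := row_sum h hx (hc' g d t c) h1 h0
        rw [Finset.sum_add_distrib, ← Finset.mul_sum, ← Finset.mul_sum, Finset.sum_const, nsmul_eq_mul]
        refine add_le_add ?_ ?_
        · calc _ ≤ L * Λ * (nr c * nr d ^ 3 / (nr g * nr t)) *
                (C₁ * (F * (1 + |s.im|) ^ J₀ * (4 * A / (nr c * nr d ^ 2) ^ 2))) := by gcongr
            _ = _ := by rw [hK]; field_simp
        · gcongr
          refine (card_rows_le (by positivity)).trans ?_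
          gcongr
          exact (div_le_self (by linarith) (one_le_pow₀ hx)).trans hAR
    _ = K * (∑ n ∈ rows R, (nr n)⁻¹) ^ 4 + ((rows R).card : ℝ) ^ 4 * (7 * R * (Λ * A * err)) := by
        rw [Finset.sum_add_distrib, ← Finset.mul_sum, Finset.sum_const, nsmul_eq_mul]
        simp only [Finset.sum_product, ← Finset.mul_sum, ← Finset.sum_mul, Finset.card_product]
        push_cast
        ring
    _ ≤ K * H ^ 4 + (7 * R) ^ 4 * (7 * R * (Λ * A * err)) := by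
        have : 0 ≤ R := by linarith
        gcongr
    _ = _ := by ring

omit [Fintype (Chr M)] in
/-- The final arithmetic. -/
theorem arith {ε' L Z C₁ C₂ C₃ : ℝ} {s s' : ℂ} {k : ℕ} (hε' : 0 < ε') (_hε : 0 < ε) (hε₀ : ε ≤ ε' / 6)
    (hR : 1 ≤ R) (hA : 1 ≤ A) (hAR : A ≤ R) (hD : 1 ≤ D) (hZ : 1 ≤ Z) (hF : 1 ≤ F)
    (hL : L = D * R ^ ε * Z) (hΛR : R ^ ε ≤ R) (hC₁ : 0 < C₁) (hC₂ : 0 < C₂) (hC₃ : 0 < C₃)
    (hk : k ≤ J) :
    (C₂ * (R ^ 2) ^ (ε' / 42)) ^ 5 * 2 ^ k *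
      (L * R ^ ε * (C₁ * R ^ (ε' / 3)) * (F * (1 + |(s + s').im|) ^ J₀ * (4 * A)) *
        (C₃ * R ^ (ε' / 42)) ^ 4 + (7 * R) ^ 5 * (R ^ ε * A * (C₁ * R ^ (-30 : ℝ)))) ≤
    C₂ ^ 5 * 2 ^ J * (4 * C₁ * C₃ ^ 4 + 7 ^ 5 * C₁) * R ^ ε' * F * (1 + |s.im|) ^ J₀ * (A * D * Z) *
      (1 + |s'.im|) ^ J₀ := by
  have hR0 : 0 < R := by linarith
  set u := R ^ (ε' / 42) with hu
  have hu1 : 1 ≤ u := Real.one_le_rpow hR (by positivity)
  have pw : ∀ n : ℕ, R ^ (ε' / 42 * n) = u ^ n := fun n => Real.rpow_mul_natCast hR0.le _ _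
  have e1 : (R ^ 2) ^ (ε' / 42) = u ^ 2 := by
    rw [← pw, ← Real.rpow_natCast_mul hR0.le, mul_comm]
  have e2 : R ^ (ε' / 3) = u ^ 14 := by rw [← pw]; congr 1; push_cast; ring
  have e3 : R ^ ε' = u ^ 42 := by rw [← pw]; congr 1; push_cast; ring
  have e4 : R ^ ε ≤ u ^ 7 := by
    rw [← pw]; exact Real.rpow_le_rpow_of_exponent_le hR (by push_cast; linarith)
  have e5 : R ^ 7 * R ^ (-30 : ℝ) ≤ 1 := by
    rw [← Real.rpow_natCast, ← Real.rpow_add hR0]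
    exact Real.rpow_le_one_of_one_le_of_nonpos hR (by norm_num)
  have e6 : (1 + |(s + s').im|) ^ J₀ ≤ (1 + |s.im|) ^ J₀ * (1 + |s'.im|) ^ J₀ := by
    rw [← mul_pow]
    gcongr
    have := abs_add_le s.im s'.im
    have h2 := mul_nonneg (abs_nonneg s.im) (abs_nonneg s'.im)
    rw [Complex.add_im]
    linarith
  have e7 : (2 : ℝ) ^ k ≤ 2 ^ J := pow_le_pow_right₀ one_le_two hk
  set T := F * (1 + |s.im|) ^ J₀ * (A * D * Z) * (1 + |s'.im|) ^ J₀ with hT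
  have hT1 : 1 ≤ T := by
    have a1 : 1 ≤ (1 + |s.im|) ^ J₀ := one_le_pow₀ (by linarith [abs_nonneg s.im])
    have a2 : 1 ≤ (1 + |s'.im|) ^ J₀ := one_le_pow₀ (by linarith [abs_nonneg s'.im])
    calc (1 : ℝ) = 1 * 1 * (1 * 1 * 1) * 1 := by ring
      _ ≤ _ := by rw [hT]; gcongr
  have hΛ0 : 0 < R ^ ε := by positivity
  have b1 : L * R ^ ε * (C₁ * R ^ (ε' / 3)) * (F * (1 + |(s + s').im|) ^ J₀ * (4 * A)) *
      (C₃ * u) ^ 4 ≤ 4 * C₁ * C₃ ^ 4 * (u ^ 32 * T) := by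
    rw [hL, e2]
    calc _ ≤ D * u ^ 7 * Z * u ^ 7 * (C₁ * u ^ 14) *
          (F * ((1 + |s.im|) ^ J₀ * (1 + |s'.im|) ^ J₀) * (4 * A)) * (C₃ * u) ^ 4 := by gcongr
      _ = _ := by rw [hT]; ring
  have b2 : (7 * R) ^ 5 * (R ^ ε * A * (C₁ * R ^ (-30 : ℝ))) ≤ 7 ^ 5 * C₁ * (u ^ 32 * T) := by
    calc _ ≤ (7 * R) ^ 5 * (R * R * (C₁ * R ^ (-30 : ℝ))) := by gcongr
      _ = 7 ^ 5 * C₁ * (R ^ 7 * R ^ (-30 : ℝ)) := by ring
      _ ≤ _ := mul_le_mul_of_nonneg_left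
        (e5.trans (one_le_mul_of_one_le_of_one_le (one_le_pow₀ hu1) hT1)) (by positivity)
  rw [e1, e3]
  calc _ ≤ (C₂ * u ^ 2) ^ 5 * 2 ^ J *
        (4 * C₁ * C₃ ^ 4 * (u ^ 32 * T) + 7 ^ 5 * C₁ * (u ^ 32 * T)) := by
        have hL0 : 0 ≤ L := by rw [hL]; positivity
        exact mul_le_mul (by gcongr) (add_le_add b1 b2) (by positivity) (by positivity)
    _ = _ := by rw [hT]; ring

end Crest.Agent.R17.GpC
end
end

-- ▼ part PVc/R17/T2Gp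
section

/-!
# Row 17, module T2: the large cubes (`gp`) and the terms `N (g t) ≤ Y` of `dp`
-/

set_option autoImplicit false

noncomputable section

namespace Crest.Agent.R17

open scoped ComplexConjugate

open Classical in
/-- The family of the large cubes: index `(g, e, t, u₀, I', d₁)`. -/
def Fam (M : O) (L Y : ℝ) (Ps : ℕ → Finset O) (I : Finset ℕ) :
    Finset (O × O × O × O × Finset ℕ × O) :=
  (sp M L ×ˢ sp M L ×ˢ sp M L ×ˢ sp M L ×ˢ I.powerset ×ˢ pr M L).filter fun i =>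
    i.2.1 ∣ i.1 ∧ IsCoprime i.2.2.1 i.1 ∧ nr i.1 * nr i.2.2.1 ≤ Y ∧ nr i.1 * nr i.2.2.1 ≤ L ∧
      i.2.2.2.1 ∣ i.1 * i.2.2.1 ∧ i.1 * i.2.2.1 / i.2.2.2.1 ∈ Zs Ps (I \ i.2.2.2.2.1)

/-- weight, row length, column length and coefficient of a member of the family -/
def famW (A L : ℝ) (i : O × O × O × O × Finset ℕ × O) : ℝ :=
  A * nr i.1 / (nr i.2.1 * L) * nr i.2.2.2.2.2 ^ 3
def famK (A L Λ : ℝ) (i : O × O × O × O × Finset ℕ × O) : ℝ :=
  nr i.2.1 * (L / nr i.1) ^ 2 * Λ / A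
def famL (L : ℝ) (i : O × O × O × O × Finset ℕ × O) : ℝ :=
  L / (nr i.1 * nr i.2.2.1) / nr i.2.2.2.2.2 ^ 6
def famB {M : O} (ν : Chr M) (D Λ : ℝ) (s : ℂ) (Ps : ℕ → Finset O) (c : O → ℂ) (Y : ℝ)
    (i : O × O × O × O × Finset ℕ × O) : O → O → ℂ :=
  betaG ν (D / nr i.2.2.2.1) Λ s (Zs Ps i.2.2.2.2.1) (cm c)
    (i.2.1 * i.2.2.1 ^ 2 * (i.1 * i.2.2.1) ^ 6) Y i.2.2.2.2.2

theorem T2GpA.ctx_L {M : O} [Fintype (Chr M)] {J J₀ : ℕ} {ε R A D Y Xm F : ℝ} {Ps : ℕ → Finset O}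
    {P : ℕ → ℝ} {I : Finset ℕ} (h : Ctx M J J₀ ε R A D Y Xm F Ps P I) (hε : 0 < ε) {L : ℝ}
    (hL : L = D * R ^ ε * ZI P I) :
    1 ≤ R ∧ 1 ≤ R ^ ε ∧ 1 ≤ L ∧ L ^ 2 * R ^ ε ≤ R ∧ L ^ 2 ≤ R ∧ L ≤ R := by
  have hR : 1 ≤ R := h.hA.trans h.hAR
  have hΛ : 1 ≤ R ^ ε := Real.one_le_rpow hR hε.le
  have h1 : 1 ≤ L := hL ▸ one_le_mul_of_one_le_of_one_le
    (one_le_mul_of_one_le_of_one_le h.hD hΛ) h.slots.one_le_ZI
  have h2 : L ^ 2 * R ^ ε ≤ R := hL ▸ h.hL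
  have h3 : L ^ 2 ≤ R := le_trans (le_mul_of_one_le_right (by positivity) hΛ) h2
  exact ⟨hR, hΛ, h1, h2, h3, le_trans (by nlinarith) h3⟩

theorem T2GpA.mem_Fam {M : O} {L Y : ℝ} (hL : 0 ≤ L) {Ps : ℕ → Finset O} {I : Finset ℕ}
    {g e t u d₁ : O} {I' : Finset ℕ} (h : (g, e, t, u, I', d₁) ∈ Fam M L Y Ps I) :
    (SP M g ∧ nr g ≤ L) ∧ (SP M e ∧ nr e ≤ L) ∧ (SP M t ∧ nr t ≤ L) ∧ (SP M u ∧ nr u ≤ L) ∧
      I' ⊆ I ∧ (Primary d₁ ∧ IsCoprime d₁ M ∧ nr d₁ ≤ L) ∧ e ∣ g ∧ IsCoprime t g ∧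
      nr g * nr t ≤ Y ∧ nr g * nr t ≤ L ∧ u ∣ g * t ∧ g * t / u ∈ Zs Ps (I \ I') := by
  classical
  simp only [Fam, Finset.mem_filter, Finset.mem_product, mem_sp hL, MBa_mem_pr hL,
    Finset.mem_powerset] at h
  exact ⟨h.1.1, h.1.2.1, h.1.2.2.1, h.1.2.2.2.1, h.1.2.2.2.2.1, h.1.2.2.2.2.2, h.2⟩

/-- The diagonal of `gp` (`norm_betaG_le`, `nsq_le`):
`w K L_i = L² Λ / (N g² N t N d₁³)`, `L² = D² Λ² Z² ≤ A D Z Λ²`. -/
theorem large_diag {M : O} (hM : Adm M) [Fintype (Chr M)] (J J₀ : ℕ) {ε' : ℝ} (hε' : 0 < ε') :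
    ∃ ε₀ : ℝ, 0 < ε₀ ∧ ∀ ε, 0 < ε → ε ≤ ε₀ → ∃ C : ℝ, 0 < C ∧
    ∀ (R A D Y Xm F : ℝ) (Ps : ℕ → Finset O) (P : ℕ → ℝ) (I : Finset ℕ) (c : O → ℂ),
      Ctx M J J₀ ε R A D Y Xm F Ps P I → (∀ p, ‖c p‖ ≤ 1) →
      ∀ (L : ℝ), L = D * R ^ ε * ZI P I → ∀ (ν : Chr M) (s : ℂ), |s.re| ≤ 1 →
        ∑ i ∈ Fam M L Y Ps I, famW A L i * famK A L (R ^ ε) i *
          ∑ d ∈ sp M (famL L i), nr d *
            nsq M (famL L i / nr d ^ 3) (famB ν D (R ^ ε) s Ps c Y i d) ≤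
          C * R ^ ε' * (A * D * ZI P I) := by
  classical
  have hδ : 0 < ε' / 16 := by positivity
  obtain ⟨Cb, hCb, Hb⟩ := norm_betaG_le hM hδ
  obtain ⟨Cd, hCd, Hd⟩ := card_pdiv_le hδ
  obtain ⟨Ch, hCh, Hh⟩ := En.sum_inv_le hδ
  refine ⟨ε' / 6, by positivity, fun ε hε hε0 => ⟨7 * Cb ^ 2 * Cd ^ 2 * Ch ^ 4 * 2 ^ J,
    by positivity, fun R A D Y Xm F Ps P I c h hc L hL ν s hs => ?_⟩⟩
  obtain ⟨hR, hΛ, hL1, -, hL2, hLR⟩ := T2GpA.ctx_L h hε hL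
  have hL0 : 0 < L := by linarith
  have hA0 : 0 < A := by linarith [h.hA]
  have hD0 : 0 < D := by linarith [h.hD]
  have hZ := h.slots.one_le_ZI
  obtain ⟨x, hx⟩ : ∃ x, x = R ^ (ε' / 16) := ⟨_, rfl⟩
  have hx1 : 1 ≤ x := hx ▸ Real.one_le_rpow hR hδ.le
  obtain ⟨Λ, hΛe⟩ : ∃ Λ, Λ = R ^ ε := ⟨_, rfl⟩
  have hxΛ : x ^ 8 * Λ ^ 3 ≤ R ^ ε' := by
    rw [hx, hΛe, ← Real.rpow_mul_natCast (by linarith), ← Real.rpow_mul_natCast (by linarith),
      ← Real.rpow_add (by linarith)]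
    exact Real.rpow_le_rpow_of_exponent_le hR (by push_cast; linarith)
  rw [← hΛe] at hΛ hL ⊢
  have hH : ∀ S : Finset O, (∀ n ∈ S, n ≠ 0 ∧ nr n ≤ R) → ∑ n ∈ S, (nr n)⁻¹ ≤ Ch * x :=
    fun S hS => hx ▸ Hh R S hR hS
  have hDv : ∀ n : O, n ≠ 0 → nr n ≤ R → ((pdiv n).card : ℝ) ≤ Cd * x := fun n hn hnR =>
    (Hd n hn).trans (by rw [hx]; gcongr)
  have hsp : ∀ {X : ℝ}, 0 ≤ X → X ≤ R → ∀ n ∈ sp M X, n ≠ 0 ∧ nr n ≤ R := fun hX hXR n hn =>
    ⟨((mem_sp hX).1 hn).1.1.ne_zero, ((mem_sp hX).1 hn).2.trans hXR⟩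
  have key : ∀ i ∈ Fam M L Y Ps I, famW A L i * famK A L Λ i *
      ∑ d ∈ sp M (famL L i), nr d * nsq M (famL L i / nr d ^ 3) (famB ν D Λ s Ps c Y i d) ≤
      (7 * (Cb * x) ^ 2 * (Ch * x) * (L ^ 2 * Λ)) *
        ((if i.2.1 ∈ pdiv i.1 then (nr i.1)⁻¹ else 0) *
        ((if i.2.2.2.1 ∈ pdiv (i.1 * i.2.2.1) then (nr i.2.2.1)⁻¹ else 0) *
          (nr i.2.2.2.2.2)⁻¹)) := by
    rintro ⟨g, e, t, u, I', d₁⟩ hi
    obtain ⟨hg, he, ht, hu, hI, hd₁, heg, -, -, -, hug, -⟩ := T2GpA.mem_Fam hL0.le hi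
    have g1 := one_le_nr hg.1.1.ne_zero
    have e1 := one_le_nr he.1.1.ne_zero
    have t1 := one_le_nr ht.1.1.ne_zero
    have d1 := one_le_nr hd₁.1.ne_zero
    obtain ⟨l, hl⟩ : ∃ l, l = famL L (g, e, t, u, I', d₁) := ⟨_, rfl⟩
    have hl' : l = L / (nr g * nr t) / nr d₁ ^ 6 := hl
    have hl0 : 0 < l := by rw [hl']; positivity
    have hl6 : l * nr d₁ ^ 6 ≤ R := by
      rw [hl', div_mul_cancel₀ _ (by positivity)]
      exact (div_le_self hL0.le (one_le_mul_of_one_le_of_one_le g1 t1)).trans hLR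
    have hlR : l ≤ R := (le_mul_of_one_le_right hl0.le (one_le_pow₀ d1)).trans hl6
    have hin : ∑ d ∈ sp M l, nr d * nsq M (l / nr d ^ 3) (famB ν D Λ s Ps c Y (g, e, t, u, I', d₁) d)
        ≤ 7 * (Cb * x) ^ 2 * l * (Ch * x) := by
      refine le_trans (Finset.sum_le_sum fun d hd => ?_) ((Finset.mul_sum _ _ _).symm.trans_le
        (mul_le_mul_of_nonneg_left (hH _ (hsp hl0.le hlR)) (by positivity)))
      have hd' := (mem_sp hl0.le).1 hd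
      have d0 := one_le_nr hd'.1.1.ne_zero
      have hq : 0 ≤ l / nr d ^ 3 := by positivity
      have h1 : nsq M (l / nr d ^ 3) (famB ν D Λ s Ps c Y (g, e, t, u, I', d₁) d) ≤
          7 * (l / nr d ^ 3) * (Cb * x) ^ 2 := by
        refine nsq_le hq (fun m hm => ?_) fun m hm _ => ((mem_sp hq).1 hm).2
        have hm' := (mem_sp hq).1 hm
        rw [hx]
        refine Hb R _ Λ _ Y ν s _ _ _ d₁ d m (h.slots.mono hI).marks (norm_cm_le hc)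
          (by linarith) hd₁.1 hd'.1.1 hm'.1.1 (le_trans ?_ hl6)
        have h2 := (le_div_iff₀ (by positivity)).1 hm'.2
        rw [nr_mul, nr_pow, nr_mul, nr_pow]
        calc nr m * (nr d * nr d₁ ^ 2) ^ 3 = nr m * nr d ^ 3 * nr d₁ ^ 6 := by ring
          _ ≤ _ := by gcongr
      calc _ ≤ nr d * (7 * (l / nr d ^ 3) * (Cb * x) ^ 2) := by gcongr
        _ = 7 * (Cb * x) ^ 2 * l * (nr d ^ 2)⁻¹ := by field_simp
        _ ≤ _ := by gcongr; nlinarith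
    have hw : famW A L (g, e, t, u, I', d₁) * famK A L Λ (g, e, t, u, I', d₁) =
        L * Λ * nr d₁ ^ 3 / nr g := by
      simp only [famW, famK]
      field_simp
    rw [← hl, hw]
    dsimp only
    rw [if_pos ((mem_pdiv hg.1.1.ne_zero).2 ⟨he.1.1, heg⟩),
      if_pos ((mem_pdiv (mul_ne_zero hg.1.1.ne_zero ht.1.1.ne_zero)).2 ⟨hu.1.1, hug⟩)]
    calc _ ≤ L * Λ * nr d₁ ^ 3 / nr g * (7 * (Cb * x) ^ 2 * l * (Ch * x)) := by gcongr
      _ = (7 * (Cb * x) ^ 2 * (Ch * x) * (L ^ 2 * Λ)) *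
          ((nr g ^ 2)⁻¹ * ((nr t)⁻¹ * (nr d₁ ^ 3)⁻¹)) := by rw [hl']; field_simp
      _ ≤ _ := by
        gcongr
        · nlinarith
        · exact le_self_pow₀ d1 (by norm_num)
  have hfam := T2GpA.sum_fam (S := sp M L) (T := pr M L) (W := I.powerset) (H := Ch * x)
    (Dv := Cd * x) (by positivity) (hH _ (hsp hL0.le hLR))
    (hH _ fun n hn => ⟨((MBa_mem_pr hL0.le).1 hn).1.ne_zero,
      ((MBa_mem_pr hL0.le).1 hn).2.2.trans hLR⟩)
    (fun g hg => hDv g (hsp hL0.le hLR g hg).1 (hsp hL0.le hLR g hg).2)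
    (fun g hg t ht => hDv _ (mul_ne_zero (hsp hL0.le hLR g hg).1 (hsp hL0.le hLR t ht).1) (by
      rw [nr_mul]
      refine le_trans ?_ hL2
      rw [sq]
      exact mul_le_mul ((mem_sp hL0.le).1 hg).2 ((mem_sp hL0.le).1 ht).2 (by positivity) hL0.le))
  have hcard : ((I.powerset).card : ℝ) ≤ 2 ^ J := by
    rw [Finset.card_powerset]
    exact_mod_cast Nat.pow_le_pow_right (by norm_num) h.card
  have hL3 : L ^ 2 * Λ ≤ Λ ^ 3 * (A * D * ZI P I) := by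
    calc L ^ 2 * Λ = Λ ^ 3 * (D * ZI P I ^ 2 * D * 1) := by rw [hL]; ring
      _ ≤ _ := by gcongr; exact h.h2
  have hite : ∀ (p : Prop) [Decidable p] (z : O), 0 ≤ if p then (nr z)⁻¹ else 0 := fun p _ z =>
    ite_nonneg (inv_nonneg.2 (Nat.cast_nonneg _)) le_rfl
  refine (Finset.sum_le_sum key).trans ?_
  rw [← Finset.mul_sum]
  calc _ ≤ (7 * (Cb * x) ^ 2 * (Ch * x) * (Λ ^ 3 * (A * D * ZI P I))) *
        (Cd * x * (Ch * x) * (Cd * x * (Ch * x) * (2 ^ J * (Ch * x)))) := by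
        refine mul_le_mul (by gcongr) (le_trans (le_trans ?_ hfam) (by gcongr))
          (Finset.sum_nonneg fun _ _ => mul_nonneg (hite _ _) (mul_nonneg
            (hite _ _) (inv_nonneg.2 (Nat.cast_nonneg _)))) (by positivity)
        exact Finset.sum_le_sum_of_subset_of_nonneg (Finset.filter_subset _ _)
          fun _ _ _ => mul_nonneg (hite _ _) (mul_nonneg
            (hite _ _) (inv_nonneg.2 (Nat.cast_nonneg _)))
    _ = 7 * Cb ^ 2 * Cd ^ 2 * Ch ^ 4 * 2 ^ J * (x ^ 8 * Λ ^ 3) * (A * D * ZI P I) := by ring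
    _ ≤ _ := by gcongr

open Classical in
/-- The product of the primes `p ∣ d` with `p⁶ ∣ a`; its norm is `w6 d a`. -/
def c6 (d a : O) : O := ∏ p ∈ (pf d).filter (fun p => p ^ 6 ∣ a), p

theorem primary_c6 (d a : O) : Primary (c6 d a) := by
  classical
  exact Primary.prod fun p hp => (BasicB.pf_sub (Finset.mem_filter.1 hp).1).2

theorem c6_dvd (d a : O) : c6 d a ∣ d := by
  classical
  exact (Finset.prod_dvd_prod_of_subset _ _ _ (Finset.filter_subset _ _)).trans (rad_dvd d)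

theorem c6_pow_dvd (d a : O) : c6 d a ^ 6 ∣ a := by
  classical
  rw [c6, ← Finset.prod_pow]
  refine Finset.prod_dvd_of_coprime (fun p hp q hq hpq => ?_) fun p hp => (Finset.mem_filter.1 hp).2
  have h1 := BasicB.pf_sub (Finset.mem_filter.1 (Finset.mem_coe.1 hp)).1
  have h2 := BasicB.pf_sub (Finset.mem_filter.1 (Finset.mem_coe.1 hq)).1
  exact (h1.1.coprime_iff_not_dvd.2 fun h =>
    hpq (BasicB.eq_of_dvd h1.1 h2.1 h1.2 h2.2 h)).pow


/-- One child of `gp`.  `betaG_eq` (`ext` and `Sr` are linear), `dom` with `I₁ = I''`,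
`D''' = D / N u₀ · N t₁ / N d³` (`d = d₀ d₁²`), `T = g t' d₁ c`, `T' = d₀ d₁`, `u = e' t'`,
`r = e t² (g t)⁶`, `c = c6 d₀ a`, `a₀ = a / c⁶ · e t²`, `S = c g t`, `ρ = 2^J R^ε`;
`D''' ZI I'' ≤ D Z / (N(g t) N d³)`.  The function `c'` depends only on `(g, t', d₁, c)`. -/
theorem child_le {M : O} (hM : Adm M) [Fintype (Chr M)] (J J₀ : ℕ) {ε' : ℝ} (hε' : 0 < ε') :
    ∃ ε₀ : ℝ, 0 < ε₀ ∧ ∀ ε, 0 < ε → ε ≤ ε₀ → ∃ C : ℝ, 0 < C ∧
    ∀ (R A D Y Xm F : ℝ) (Ps : ℕ → Finset O) (P : ℕ → ℝ) (I : Finset ℕ) (c : O → ℂ),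
      Ctx M J J₀ ε R A D Y Xm F Ps P I → (∀ p, ‖c p‖ ≤ 1) →
      ∀ (L : ℝ), L = D * R ^ ε * ZI P I → ∀ (s' : ℂ), -(1 / 2) ≤ s'.re → s'.re ≤ 0 →
      ∃ c' : O → O → ℂ, (∀ T p, ‖c' T p‖ ≤ 1) ∧ ∀ (ν ν' : Chr M) (s : ℂ), |s.re| ≤ 1 →
        ∀ i ∈ Fam M L Y Ps I, ∀ a ∈ rows A, ∀ d₀ ∈ sp M (famL L i), d₀ ∣ a →
        ∀ e' ∈ sp M (famL L i), e' ∣ a → ∀ t' ∈ sp (M * d₀ * e') (famL L i),
        nr (a * i.2.1 * i.2.2.1 ^ 2) ≤ A →
        nr e' * nr d₀ ^ 3 * ‖Sr M (famL L i / (nr e' * nr d₀ ^ 3 * nr t'))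
            (ext (famB ν D (R ^ ε) s Ps c Y i d₀) (e' * t') ν' (nr e' * nr d₀ ^ 3 * nr t')
              (famL L i) s') a‖ ^ 2 ≤
          C * R ^ ε' * (famL L i / nr t') *
            Psi M Ps P I (c' (i.1 * t' * i.2.2.2.2.2 * c6 d₀ a)) (s + s')
              (D * ZI P I / max Y (nr (c6 d₀ a) * nr i.2.2.2.2.2 ^ 2) ^ 3)
              (a / c6 d₀ a ^ 6 * i.2.1 * i.2.2.1 ^ 2) + C * R ^ (-30 : ℝ) := by
  classical
  refine ⟨ε' / 8, by positivity, fun ε hε hεε => ?_⟩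
  obtain ⟨C₁, hC₁, hdom⟩ := dom hM J (ε := ε' / 20) (by positivity) ((54 + ε') / ε)
  obtain ⟨C₂, hC₂, hcard⟩ := T2GB.card_le (ε := ε' / 2) (by positivity) J
  refine ⟨C₂ * C₁ * 16 ^ J, by positivity, fun R A D Y Xm F Ps P I c hx hc L hL s' hs1 hs0 => ?_⟩
  choose c' hc' hd using fun T => hdom Ps P I c s' T hx.slots hx.dy hx.card hc (by linarith) hs0
  refine ⟨c', hc', fun ν ν' s hs i hi a ha d₀ hd₀ hd₀a e' he' he'a t' ht' haA => ?_⟩
  clear hdom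
  obtain ⟨g, e, t, u₀, I', d₁⟩ := i
  have hR : 1 ≤ R := hx.hA.trans hx.hAR
  have hR0 : 0 < R := by linarith
  have hΛ : 1 ≤ R ^ ε := Real.one_le_rpow hR hε.le
  have hZ := hx.slots.one_le_ZI
  have hD := hx.hD
  have hY := hx.hY
  have hL1 : 1 ≤ L := by
    rw [hL]
    exact one_le_mul_of_one_le_of_one_le (one_le_mul_of_one_le_of_one_le hD hΛ) hZ
  have hLR : L ≤ R := by
    have h1 := hx.hL
    rw [← hL] at h1
    nlinarith
  simp only [Fam, Finset.mem_filter, Finset.mem_product, Finset.mem_powerset] at hi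
  obtain ⟨⟨hg, he, ht, hu₀, hI', hd₁⟩, -, -, -, -, hug, hz⟩ := hi
  obtain ⟨hg, hgL⟩ := DP3_mem hg
  obtain ⟨he, -⟩ := DP3_mem he
  obtain ⟨ht, -⟩ := DP3_mem ht
  obtain ⟨hu₀, -⟩ := DP3_mem hu₀
  obtain ⟨hd₁, hd₁M, hd₁L⟩ := T2GB.mem_pr (by linarith) hd₁
  obtain ⟨hd₀, hd₀L⟩ := DP3_mem hd₀
  obtain ⟨he', he'L⟩ := DP3_mem he'
  obtain ⟨ht', ht'L⟩ := DP3_mem ht'
  have ha0 : a ≠ 0 := ((mem_rows (by linarith [hx.hA])).1 ha).1
  dsimp only [famB] at haA hug hz ⊢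
  obtain ⟨b, hb⟩ := c6_pow_dvd d₀ a
  have hk := primary_c6 d₀ a
  have hkd : nr (c6 d₀ a) ≤ nr d₀ := Nat.cast_le.2 (nm_le_of_dvd (c6_dvd d₀ a) hd₀.1.ne_zero)
  generalize c6 d₀ a = k at hb hk hkd ⊢
  have hab : a / k ^ 6 = b := by rw [hb, mul_div_cancel_left₀ _ (pow_ne_zero 6 hk.ne_zero)]
  have hb0 : b ≠ 0 := right_ne_zero_of_mul (hb ▸ ha0)
  rw [hab]
  have n1 := one_le_nr hg.1.ne_zero
  have n2 := one_le_nr he.1.ne_zero
  have n3 := one_le_nr ht.1.ne_zero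
  have n4 := one_le_nr hu₀.1.ne_zero
  have n5 := one_le_nr hd₁.ne_zero
  have n6 := one_le_nr hd₀.1.ne_zero
  have n7 := one_le_nr he'.1.ne_zero
  have n8 := one_le_nr ht'.1.ne_zero
  have n9 := one_le_nr hk.ne_zero
  have hLi : famL L (g, e, t, u₀, I', d₁) = L / (nr g * nr t) / nr d₁ ^ 6 := rfl
  generalize famL L (g, e, t, u₀, I', d₁) = Li at hd₀L he'L ht'L hLi ⊢
  have hLi0 : 0 < Li := by linarith
  have hLiR : Li ≤ R := by
    rw [hLi]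
    exact ((div_le_self (by positivity) (one_le_pow₀ n5)).trans
      (div_le_self (by positivity) (one_le_mul_of_one_le_of_one_le n1 n3))).trans hLR
  have hu : SP M (e' * t') := DP3_sp he' ⟨ht'.1, ht'.2.1, ht'.2.2.of_mul_right_left.of_mul_right_left⟩
    ht'.2.2.of_mul_right_right.symm
  have hI'J : I'.card ≤ J := (Finset.card_le_card hI').trans hx.card
  obtain ⟨ν₁, ω, hω1, hω2, hβ⟩ := betaG_eq hM (hx.slots.mono hI') ν (D := D / nr u₀)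
    (by positivity) (R ^ ε) Y s hc (e * t ^ 2 * (g * t) ^ 6) hd₁ hd₁M hd₀
  have hdd : nr (d₀ * d₁ ^ 2) = nr d₀ * nr d₁ ^ 2 := by rw [nr_mul, nr_pow]
  -- the maximal length of the returning sums
  obtain ⟨W, hW⟩ : ∃ W, W = D * ZI P I / (nr g * nr t * (nr d₀ * nr d₁ ^ 2) ^ 3) := ⟨_, rfl⟩
  have hW0 : 0 < W := by rw [hW]; positivity
  have hLW : Li = R ^ ε * W * nr d₀ ^ 3 := by
    rw [hLi, hW, hL]
    field_simp
  have hq : nr g * nr t = nr u₀ * nr (g * t / u₀) := by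
    rw [← nr_mul, ← nr_mul, EuclideanDomain.mul_div_cancel' hu₀.1.ne_zero hug]
  have hsI := hx.slots.mono (Finset.sdiff_subset (s := I) (t := I'))
  have hq1 := (hsI.marks _ hz).2
  have hq2 := hsI.ZI_le (hx.dy.mono Finset.sdiff_subset) hz
  have hq0 := one_le_nr (hsI.marks _ hz).1.1.ne_zero
  obtain ⟨Ψ, hΨ⟩ : ∃ Ψ, Ψ = Psi M Ps P I (c' (g * t' * d₁ * k)) (s + s')
    (D * ZI P I / max Y (nr k * nr d₁ ^ 2) ^ 3) (b * e * t ^ 2) := ⟨_, rfl⟩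
  have hP0 : 0 ≤ Ψ := hΨ ▸ Psi_nonneg M hx.slots _ _ _ _
  have hue := one_le_nr hu.1.ne_zero
  obtain ⟨Bd, hBd⟩ : ∃ Bd, Bd = C₁ * (R ^ 5) ^ (ε' / 20) * (4 ^ J * R ^ ε) ^ 2 * (W / nr (e' * t')) *
    Ψ + C₁ * (4 ^ J * R ^ ε) ^ 2 * (R ^ 5) ^ 4 * (R ^ ε) ^ (-((54 + ε') / ε)) := ⟨_, rfl⟩
  have hBd0 : 0 ≤ Bd := by rw [hBd]; positivity
  have hed : 0 ≤ nr e' * nr d₀ ^ 3 := by positivity
  rw [← hΨ]
  obtain ⟨γ, hγ⟩ : ∃ γ : O × Finset ℕ → O → ℂ, γ = fun x m =>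
    al (ν * ν₁) (D / nr u₀ * nr x.1 / nr (d₀ * d₁ ^ 2) ^ 3) (R ^ ε) s (Zs Ps x.2)
      (cm fun p => if p ∣ d₀ * d₁ then 0 else c p * ev ν₁ p) m *
        conj (sym m (e * t ^ 2 * (g * t) ^ 6)) := ⟨_, rfl⟩
  rw [T2GB.Sr_ext_sum hu (pdiv (d₀ * d₁) ×ˢ I'.powerset) (fun x => ω x.1 x.2) _ γ
    fun m hm => by rw [hβ m hm, Finset.sum_product, hγ]]
  have hsum := mul_le_mul_of_nonneg_right
    (hcard R d₀ d₁ I' hd₀.1.ne_zero hd₁.ne_zero (hd₀L.trans hLiR) (hd₁L.trans hLR) hI'J) hBd0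
  refine le_trans (mul_le_mul_of_nonneg_left (le_trans (T2GB.sq_norm_sum_le
    (pdiv (d₀ * d₁) ×ˢ I'.powerset) (fun x => ω x.1 x.2)
    (fun x => Sr M (Li / (nr e' * nr d₀ ^ 3 * nr t'))
      (ext (γ x) (e' * t') ν' (nr e' * nr d₀ ^ 3 * nr t') Li s') a)
    (fun x => hω1 x.1 x.2) hBd0 fun x hx' hω => ?_) hsum) hed) ?_
  · obtain ⟨t₁, I''⟩ := x
    rw [hγ]
    have hI'' : I'' ⊆ I' := Finset.mem_powerset.1 (Finset.mem_product.1 hx').2
    obtain ⟨ht₁, hYd⟩ := hω2 t₁ I'' hω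
    have hsI' := hx.slots.mono ((Finset.sdiff_subset (s := I') (t := I'')).trans hI')
    have hr1 := (hsI'.marks _ ht₁).2
    have hr2 := hsI'.ZI_le (hx.dy.mono (Finset.sdiff_subset.trans hI')) ht₁
    have hr0 := one_le_nr (hsI'.marks _ ht₁).1.1.ne_zero
    have hz0 := (hx.slots.mono (hI''.trans hI')).one_le_ZI
    have hZZ : ZI P I = ZI P (I \ I') * ZI P (I' \ I'') * ZI P I'' := by
      rw [mul_assoc, ZI_sdiff P hI'', ZI_sdiff P hI']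
    have hz1 := zero_le_one.trans hsI.one_le_ZI
    have hz2 := zero_le_one.trans hsI'.one_le_ZI
    obtain ⟨V, hV⟩ : ∃ V, V = D / nr u₀ * nr t₁ / nr (d₀ * d₁ ^ 2) ^ 3 * ZI P I'' := ⟨_, rfl⟩
    have hV' : V = D * (nr (g * t / u₀) * nr t₁ * ZI P I'') /
        (nr g * nr t * (nr d₀ * nr d₁ ^ 2) ^ 3) := by
      rw [hV, hq, hdd]
      field_simp
    have hVW : V ≤ W := by
      rw [hV', hW, hZZ]
      gcongr
    have hWV : W ≤ 4 ^ J * V := by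
      have h1 : (2 : ℝ) ^ (I \ I').card ≤ 2 ^ J := pow_le_pow_right₀ one_le_two
        ((Finset.card_le_card Finset.sdiff_subset).trans hx.card)
      have h2 : (2 : ℝ) ^ (I' \ I'').card ≤ 2 ^ J := pow_le_pow_right₀ one_le_two
        ((Finset.card_le_card Finset.sdiff_subset).trans hI'J)
      have h3 : ZI P I ≤ 2 ^ J * nr (g * t / u₀) * (2 ^ J * nr t₁) * ZI P I'' := by
        rw [hZZ]
        gcongr
        · exact hq2.trans (mul_le_mul_of_nonneg_right h1 (by positivity))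
        · exact hr2.trans (mul_le_mul_of_nonneg_right h2 (by positivity))
      rw [hV', hW, ← mul_div_assoc]
      refine div_le_div_of_nonneg_right ((mul_le_mul_of_nonneg_left h3 (by positivity)).trans_eq ?_)
        (by positivity)
      rw [show (4 : ℝ) = 2 * 2 by norm_num, mul_pow]
      ring
    have hWX : W ≤ D * ZI P I / max Y (nr k * nr d₁ ^ 2) ^ 3 := by
      have h1 : max Y (nr k * nr d₁ ^ 2) ≤ nr d₀ * nr d₁ ^ 2 :=
        max_le (hdd ▸ hYd.le) (mul_le_mul_of_nonneg_right hkd (by positivity))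
      have h2 : 0 < max Y (nr k * nr d₁ ^ 2) := lt_max_of_lt_left (by linarith)
      rw [hW]
      refine div_le_div_of_nonneg_left (by positivity) (by positivity)
        ((pow_le_pow_left₀ h2.le h1 3).trans (le_mul_of_one_le_left (by positivity)
          (one_le_mul_of_one_le_of_one_le n1 n3)))
    have hWR : W ≤ R := by
      refine le_trans ?_ hLiR
      rw [hLW, mul_right_comm]
      exact le_mul_of_one_le_left hW0.le (one_le_mul_of_one_le_of_one_le hΛ (one_le_pow₀ n6))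
    have hR5 : R ≤ R ^ 5 := le_self_pow₀ hR (by norm_num)
    have ha₀ : nr (b * e * t ^ 2) ≤ R := by
      refine le_trans (Nat.cast_le.2 (nm_le_of_dvd ⟨k ^ 6, ?_⟩ (mul_ne_zero (mul_ne_zero ha0
        he.1.ne_zero) (pow_ne_zero 2 ht.1.ne_zero)))) (haA.trans hx.hAR)
      rw [hb]
      ring
    have key := hd (g * t' * d₁ * k) I'' (hI''.trans hI') (R ^ 5) (R ^ ε)
      (D * ZI P I / max Y (nr k * nr d₁ ^ 2) ^ 3) (D / nr u₀ * nr t₁ / nr (d₀ * d₁ ^ 2) ^ 3)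
      (Li / (nr e' * nr d₀ ^ 3 * nr t')) Li (nr e' * nr d₀ ^ 3 * nr t') (4 ^ J * R ^ ε) (ν * ν₁) ν₁ ν'
      s (d₀ * d₁) (e' * t') (e * t ^ 2 * (g * t) ^ 6) a (b * e * t ^ 2) (k * g * t)
      (hR.trans hR5) hΛ (by rw [hdd]; positivity) (by positivity) hLi0
      (one_le_mul_of_one_le_of_one_le (one_le_pow₀ (by norm_num)) hΛ) hs hu ((hk.mul hg.1).mul ht.1)
      (mul_ne_zero (((hg.1.mul ht'.1).mul hd₁).mul hk).ne_zero (mul_ne_zero (mul_ne_zero hb0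
        he.1.ne_zero) (pow_ne_zero 2 ht.1.ne_zero)))
      (by
        rw [nr_mul, nr_mul, nr_mul, nr_mul, show R ^ 5 = R * R * R * R * R by ring]
        gcongr
        · exact hgL.trans hLR
        · exact ht'L.trans hLiR
        · exact hd₁L.trans hLR
        · exact (hkd.trans hd₀L).trans hLiR)
      (by rw [hb]; ring)
      (fun p hp _ => T2GB.prime_iff hp hb he'a hd₀a)
      (hV ▸ (hVW.trans hWR).trans hR5)
      (by
        rw [mul_right_comm, ← hV, hLW, nr_mul]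
        refine (mul_le_mul_of_nonneg_right hVW (by positivity)).trans_eq ?_
        field_simp)
      (hV ▸ (hVW.trans hWX).trans (le_mul_of_one_le_right (hW0.le.trans hWX) hue))
      (by
        rw [← hV, hLW, nr_mul]
        calc _ = R ^ ε * (nr e' * nr d₀ ^ 3 * nr t') * W := by ring
          _ ≤ R ^ ε * (nr e' * nr d₀ ^ 3 * nr t') * (4 ^ J * V) := by gcongr
          _ = _ := by ring)
    rw [← hV, ← hΨ] at key
    refine key.trans ?_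
    rw [hBd]
    gcongr
  · have e1 : (R ^ 5) ^ (ε' / 20) = R ^ (ε' / 4) := by
      rw [← Real.rpow_natCast, ← Real.rpow_mul hR0.le]
      congr 1
      push_cast
      ring
    have e2 : (R ^ ε) ^ (-((54 + ε') / ε)) = R ^ (-(54 + ε')) := by
      rw [← Real.rpow_mul hR0.le]
      congr 1
      field_simp
    have e3 : (4 ^ J * R ^ ε) ^ 2 ≤ 16 ^ J * R ^ (ε' / 4) := by
      rw [mul_pow, ← pow_mul, mul_comm J 2, pow_mul, ← Real.rpow_natCast (R ^ ε),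
        ← Real.rpow_mul hR0.le]
      refine mul_le_mul (by norm_num) (Real.rpow_le_rpow_of_exponent_le hR ?_) (by positivity)
        (by positivity)
      push_cast
      linarith
    have e4 : R ^ ε' = R ^ (ε' / 2) * R ^ (ε' / 4) * R ^ (ε' / 4) := by
      rw [← Real.rpow_add hR0, ← Real.rpow_add hR0]
      congr 1
      ring
    have e5 : nr e' * nr d₀ ^ 3 * (W / nr (e' * t')) ≤ Li / nr t' := by
      rw [hLW, nr_mul]
      calc _ = 1 * W * nr d₀ ^ 3 / nr t' := by field_simp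
        _ ≤ _ := by gcongr
    have e6 : nr e' * nr d₀ ^ 3 ≤ R ^ 4 := by
      rw [pow_succ' R 3]
      gcongr
      · exact he'L.trans hLiR
      · exact hd₀L.trans hLiR
    have e7 : R ^ 4 * R ^ (ε' / 2) * R ^ (ε' / 4) * (R ^ 5) ^ 4 * R ^ (-(54 + ε')) ≤
        R ^ (-30 : ℝ) := by
      rw [← pow_mul, ← Real.rpow_natCast, ← Real.rpow_natCast, ← Real.rpow_add hR0,
        ← Real.rpow_add hR0, ← Real.rpow_add hR0, ← Real.rpow_add hR0]
      refine Real.rpow_le_rpow_of_exponent_le hR ?_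
      push_cast
      linarith
    rw [hBd, e1, e2, mul_add, mul_add]
    refine add_le_add ?_ ?_
    · calc _ = C₂ * C₁ * (4 ^ J * R ^ ε) ^ 2 * (R ^ (ε' / 2) * R ^ (ε' / 4)) *
            (nr e' * nr d₀ ^ 3 * (W / nr (e' * t'))) * Ψ := by ring
        _ ≤ C₂ * C₁ * (16 ^ J * R ^ (ε' / 4)) * (R ^ (ε' / 2) * R ^ (ε' / 4)) * (Li / nr t') * Ψ := by
          gcongr
        _ = _ := by rw [e4]; ring
    · calc _ = C₂ * C₁ * (nr e' * nr d₀ ^ 3) * R ^ (ε' / 2) * (4 ^ J * R ^ ε) ^ 2 * (R ^ 5) ^ 4 *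
            R ^ (-(54 + ε')) := by ring
        _ ≤ C₂ * C₁ * R ^ 4 * R ^ (ε' / 2) * (16 ^ J * R ^ (ε' / 4)) * (R ^ 5) ^ 4 *
            R ^ (-(54 + ε')) := by gcongr
        _ = C₂ * C₁ * 16 ^ J * (R ^ 4 * R ^ (ε' / 2) * R ^ (ε' / 4) * (R ^ 5) ^ 4 *
            R ^ (-(54 + ε'))) := by ring
        _ ≤ _ := by gcongr

/-- The off-diagonal terms of `gp`.  The rows are `N a ≤ A / (N e N t² N d₁¹²)`; `child_le`;
`w K / L_i · L_i / N t' = L Λ N d₁³ / (N g N t')`.  For fixed `(g, d₁, t', c)` the map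
`(e, t, u₀, I', a, d₀, e') ↦ a₀ = a / c⁶ · e t²` has multiplicity `≪ R^ε` (all data are divisors of
`g c⁶ a₀`), and `N a₀ ≤ A / x⁶ ≤ A'' := min A (4 A / x²)`, `x = N c N d₁²` (no rows if `A < x⁶`);
`PB` with `A''` and `X = D Z / (max Y x)³`; finally
`∑_{g, d₁, t', c} N d₁³ N c / (N g N t' x²) ≪ log⁴`. -/
theorem large_off {M : O} (hM : Adm M) [Fintype (Chr M)] (J J₀ : ℕ) {ε' : ℝ} (hε' : 0 < ε') :
    ∃ ε₀ : ℝ, 0 < ε₀ ∧ ∀ ε, 0 < ε → ε ≤ ε₀ → ∃ C : ℝ, 0 < C ∧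
    ∀ (R A D Y Xm F : ℝ) (Ps : ℕ → Finset O) (P : ℕ → ℝ) (I : Finset ℕ) (c : O → ℂ),
      Ctx M J J₀ ε R A D Y Xm F Ps P I → (∀ p, ‖c p‖ ≤ 1) →
      ∀ (L : ℝ), L = D * R ^ ε * ZI P I → ∀ (ν : Chr M) (s : ℂ), -(1 / 2) ≤ s.re → s.re ≤ 0 →
      ∀ (ν' : Chr M) (s' : ℂ), -(1 / 2) ≤ s'.re → s'.re ≤ 0 →
        ∑ i ∈ Fam M L Y Ps I, famW A L i * (famK A L (R ^ ε) i / famL L i) *
          ∑ a ∈ rows (famL L i ^ 2 * R ^ ε / famK A L (R ^ ε) i),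
            ∑ d ∈ (sp M (famL L i)).filter (· ∈ pdiv a), ∑ e ∈ (sp M (famL L i)).filter (· ∈ pdiv a),
              ∑ t ∈ sp (M * d * e) (famL L i), w6 d a * (nr e * nr d ^ 3) *
                ‖Sr M (famL L i / (nr e * nr d ^ 3 * nr t))
                  (ext (famB ν D (R ^ ε) s Ps c Y i d) (e * t) ν' (nr e * nr d ^ 3 * nr t)
                    (famL L i) s') a‖ ^ 2 ≤
          C * R ^ ε' * F * (1 + |s.im|) ^ J₀ * (A * D * ZI P I) * (1 + |s'.im|) ^ J₀ := by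
  classical
  obtain ⟨ε₁, hε₁, H⟩ := child_le hM J J₀ (ε' := ε' / 3) (by positivity)
  obtain ⟨C₂, hC₂, hdiv⟩ := En.card_pdiv_le' (ε := ε' / 42) (by positivity)
  obtain ⟨C₃, hC₃, hinv⟩ := GpC.sum_inv_rows (η := ε' / 42) (by positivity)
  refine ⟨min ε₁ (ε' / 6), by positivity, fun ε hε hε₀ => ?_⟩
  obtain ⟨C₁, hC₁, H⟩ := H ε hε (hε₀.trans (min_le_left _ _))
  refine ⟨C₂ ^ 5 * 2 ^ J * (4 * C₁ * C₃ ^ 4 + 7 ^ 5 * C₁), by positivity, ?_⟩
  intro R A D Y Xm F Ps P I c h hc L hL ν s hs1 hs0 ν' s' hs1' hs0'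
  obtain ⟨c', hc', H⟩ := H R A D Y Xm F Ps P I c h hc L hL s' hs1' hs0'
  have hA := h.hA
  have hF := h.hF
  have hD := h.hD
  have hR : 1 ≤ R := hA.trans h.hAR
  have hR0 : 0 < R := by linarith
  have hZ := h.slots.one_le_ZI
  have hΛ : 1 ≤ R ^ ε := Real.one_le_rpow hR hε.le
  have hL1 : 1 ≤ L := hL ▸ one_le_mul_of_one_le_of_one_le (one_le_mul_of_one_le_of_one_le hD hΛ) hZ
  have hLL := h.hL
  rw [← hL] at hLL
  have hL2 : 1 ≤ L ^ 2 := one_le_pow₀ hL1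
  have hLR : L ≤ R := by nlinarith
  have hΛR : R ^ ε ≤ R := by nlinarith
  have hfam : ∀ i ∈ Fam M L Y Ps I, GpC.Good L I i := by
    rintro ⟨g, e, t, u₀, I', d₁⟩ hi
    simp only [Fam, Finset.mem_filter, Finset.mem_product, Finset.mem_powerset, pr] at hi
    obtain ⟨⟨hg, he, ht, hu, hI, hd⟩, heg, -, -, -, hu', -⟩ := hi
    exact ⟨(DP3_mem hg).1.1, (DP3_mem hg).2, (DP3_mem he).1.1, heg, (DP3_mem ht).1.1,
      (DP3_mem hu).1.1, hu', hI, hd.2.1⟩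
  have hpos : ∀ i ∈ Fam M L Y Ps I, 0 < nr i.1 ∧ 0 < nr i.2.1 ∧ 0 < nr i.2.2.1 ∧
      0 < nr i.2.2.2.2.2 := fun i hi =>
    ⟨nr_pos (hfam i hi).1.ne_zero, nr_pos (hfam i hi).2.2.1.ne_zero,
      nr_pos (hfam i hi).2.2.2.2.1.ne_zero, nr_pos (hfam i hi).2.2.2.2.2.2.2.2.ne_zero⟩
  have hcc : ∀ d a : O, Primary (c6 d a) ∧ c6 d a ^ 6 ∣ a := fun d a =>
    ⟨Primary.prod fun p hp => (BasicB.pf_sub (Finset.mem_filter.1 hp).1).2,
      GpC.prod_pow_dvd (fun p hp => BasicB.pf_sub (Finset.mem_filter.1 hp).1)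
        fun p hp => (Finset.mem_filter.1 hp).2⟩
  have hw6 : ∀ d a : O, w6 d a = nr (c6 d a) := fun d a => (GpC.nr_prod _).symm
  have key := GpC.mult (M := M) (Λ := R ^ ε) (Dm := C₂ * (R ^ 2) ^ (ε' / 42))
    (err := C₁ * R ^ (-30 : ℝ)) (I := I) hA h.hAR hL1 hLR (by positivity) (by positivity)
    (fun n hn hn' => hdiv _ n hn hn') (Fam M L Y Ps I) hfam c6 hcc
    (fun i => famW A L i * (famK A L (R ^ ε) i / famL L i)) (famL L)
    (fun i => famL L i ^ 2 * R ^ ε / famK A L (R ^ ε) i)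
    (fun i hi => by
      obtain ⟨h1, h2, h3, h4⟩ := hpos i hi
      simp only [famW, famK, famL]; field_simp)
    (fun i _ => rfl)
    (fun i hi => by
      obtain ⟨h1, h2, h3, h4⟩ := hpos i hi
      simp only [famK, famL]; field_simp)
    (fun i a d e t => nr e * nr d ^ 3 * ‖Sr M (famL L i / (nr e * nr d ^ 3 * nr t))
      (ext (famB ν D (R ^ ε) s Ps c Y i d) (e * t) ν' (nr e * nr d ^ 3 * nr t) (famL L i) s') a‖ ^ 2)
    (fun g d t c₀ a => C₁ * R ^ (ε' / 3) * Psi M Ps P I (c' (g * t * d * c₀)) (s + s')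
      (D * ZI P I / max Y (nr c₀ * nr d ^ 2) ^ 3) a)
    (fun g d t c₀ a => mul_nonneg (by positivity) (Psi_nonneg M h.slots _ _ _ _))
    (fun i hi a ha d hd hda e he hea t ht hb =>
      (H ν ν' s (abs_le.2 ⟨by linarith, by linarith⟩) i hi a ha d hd hda e he hea t ht hb).trans_eq
        (by ring))
  have tot := GpC.total h (L := L) (Λ := R ^ ε) (C₁ := C₁ * R ^ (ε' / 3))
    (err := C₁ * R ^ (-30 : ℝ)) (by linarith) (by positivity) (by positivity) (by positivity)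
    (hinv R hR) (fun g d t c₀ => c' (g * t * d * c₀)) (fun _ _ _ _ p => hc' _ p) (s := s + s')
    (by rw [Complex.add_re]; linarith) (by rw [Complex.add_re]; linarith)
  simp only [hw6, mul_assoc (nr (c6 _ _))]
  refine key.trans ((mul_le_mul_of_nonneg_left tot (by positivity)).trans ?_)
  exact GpC.arith hε' hε (hε₀.trans (min_le_right _ _)) hR hA h.hAR hD hZ hF hL hΛR hC₁ hC₂ hC₃ h.card

/-- **Large cubes** (`gp`, `large_diag`, `large_off`). -/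
theorem large_le {M : O} (hM : Adm M) [Fintype (Chr M)] (J J₀ : ℕ) {ε' : ℝ} (hε' : 0 < ε') :
    ∃ ε₀ : ℝ, 0 < ε₀ ∧ ∀ ε, 0 < ε → ε ≤ ε₀ → ∃ C : ℝ, 0 < C ∧
    ∀ (R A D Y Xm F : ℝ) (Ps : ℕ → Finset O) (P : ℕ → ℝ) (I : Finset ℕ) (c : O → ℂ),
      Ctx M J J₀ ε R A D Y Xm F Ps P I → (∀ p, ‖c p‖ ≤ 1) →
      ∀ (L : ℝ), L = D * R ^ ε * ZI P I → ∀ (ν : Chr M) (s : ℂ), -(1 / 2) ≤ s.re → s.re ≤ 0 →
        ∑ i ∈ Fam M L Y Ps I, famW A L i * ∑ k ∈ rows (famK A L (R ^ ε) i),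
          ‖Sg M (famL L i) (famB ν D (R ^ ε) s Ps c Y i) k‖ ^ 2 ≤
          C * R ^ ε' * F * (1 + |s.im|) ^ J₀ * (A * D * ZI P I) := by
  have hδ : 0 < ε' / 2 := by positivity
  obtain ⟨ε₁, hε₁, H1⟩ := large_diag hM J J₀ hε'
  obtain ⟨ε₂, hε₂, H2⟩ := large_off hM J J₀ hδ
  refine ⟨min (min ε₁ ε₂) (ε' / 2), by positivity, fun ε hε hε0 => ?_⟩
  obtain ⟨C₁, hC₁, H1⟩ := H1 ε hε (hε0.trans ((min_le_left _ _).trans (min_le_left _ _)))
  obtain ⟨C₂, hC₂, H2⟩ := H2 ε hε (hε0.trans ((min_le_left _ _).trans (min_le_right _ _)))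
  obtain ⟨C, hC, H⟩ := gp hM hε J₀
  refine ⟨C * (C₁ + C₂), by positivity, fun R A D Y Xm F Ps P I c h hc L hL ν s hs hs0 => ?_⟩
  obtain ⟨hR, hΛ, hL1, hL3, -, hLR⟩ := T2GpA.ctx_L h hε hL
  have hL0 : 0 < L := by linarith
  have hA := h.hA
  have hA0 : 0 < A := by linarith
  have hD0 : 0 < D := by linarith [h.hD]
  have hZ := h.slots.one_le_ZI
  have hF := h.hF
  have h1 := H1 R A D Y Xm F Ps P I c h hc L hL ν s (abs_le.2 ⟨by linarith, by linarith⟩)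
  refine (H (Fam M L Y Ps I) (famW A L) (famK A L (R ^ ε)) (famL L) (famB ν D (R ^ ε) s Ps c Y) R
    (C₂ * R ^ (ε' / 2) * F * (1 + |s.im|) ^ J₀ * (A * D * ZI P I)) hR ?_
    (H2 R A D Y Xm F Ps P I c h hc L hL ν s hs hs0)).trans ?_
  · rintro ⟨g, e, t, u, I', d₁⟩ hi
    obtain ⟨hg, he, ht, -, -, hd₁, heg, -⟩ := T2GpA.mem_Fam hL0.le hi
    have g1 := one_le_nr hg.1.1.ne_zero
    have e1 := one_le_nr he.1.1.ne_zero
    have t1 := one_le_nr ht.1.1.ne_zero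
    have d1 := one_le_nr hd₁.1.ne_zero
    have eg : nr e ≤ nr g := Nat.cast_le.2 (nm_le_of_dvd heg hg.1.1.ne_zero)
    simp only [famW, famK, famL]
    refine ⟨by positivity, by positivity, ?_, by positivity, ?_⟩
    · calc nr e * (L / nr g) ^ 2 * R ^ ε / A ≤ nr g ^ 2 * (L / nr g) ^ 2 * R ^ ε / 1 := by
            gcongr
            nlinarith
        _ = L ^ 2 * R ^ ε := by field_simp
        _ ≤ R := hL3
    · exact (div_le_self (by positivity) (one_le_pow₀ d1)).trans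
        ((div_le_self hL0.le (one_le_mul_of_one_le_of_one_le g1 t1)).trans hLR)
  · have h2 : R ^ ε * R ^ (ε' / 2) ≤ R ^ ε' := by
      rw [← Real.rpow_add (by linarith)]
      exact Real.rpow_le_rpow_of_exponent_le hR (by linarith [hε0.trans (min_le_right _ _)])
    have h3 : 1 ≤ F * (1 + |s.im|) ^ J₀ :=
      one_le_mul_of_one_le_of_one_le hF (one_le_pow₀ (by linarith [abs_nonneg s.im]))
    have hR' : 0 ≤ R ^ ε' := by positivity
    calc _ ≤ C * (C₁ * R ^ ε' * (A * D * ZI P I) * (F * (1 + |s.im|) ^ J₀) +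
          C₂ * R ^ ε' * (F * (1 + |s.im|) ^ J₀ * (A * D * ZI P I))) := by
          refine mul_le_mul_of_nonneg_left (add_le_add (h1.trans
            (le_mul_of_one_le_right (by positivity) h3)) ?_) hC.le
          calc _ = C₂ * (R ^ ε * R ^ (ε' / 2)) * (F * (1 + |s.im|) ^ J₀ * (A * D * ZI P I)) := by
                ring
            _ ≤ _ := by gcongr
      _ = _ := by ring

/-- **The terms `N(g t) ≤ Y` of `dp`.**  `ext_al` with `u = g t`, `ρ = R^ε` (the factor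
`1_{(n,u)=1} conj χ_n(e t²)` is `conj χ_n(r)`, `r = e t² u⁶`, `N r ≤ Y⁸`), Cauchy–Schwarz over
`(u₀, I')`, `cube_le`, `small_le` (with `R^41`, `K' = D² Z² Λ³ Y⁴⁰ / A ≤ D Λ³ Y⁴⁰`, `√D Z³ ≤ A`)
and `large_le` (`pr M L' ⊆ pr M L`). -/
theorem E1_le {M : O} (hM : Adm M) [Fintype (Chr M)] (J J₀ : ℕ) {ε' : ℝ} (hε' : 0 < ε') :
    ∃ ε₀ : ℝ, 0 < ε₀ ∧ ∀ ε, 0 < ε → ε ≤ ε₀ → ∃ (C : ℝ) (J₁ : ℕ), 0 < C ∧
    ∀ (R A D Y Xm F τ : ℝ) (ν : Chr M) (Ps : ℕ → Finset O) (P : ℕ → ℝ) (I : Finset ℕ) (c : O → ℂ),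
      Ctx M J J₀ ε R A D Y Xm F Ps P I → (∀ p, ‖c p‖ ≤ 1) →
      ∀ (L : ℝ), L = D * R ^ ε * ZI P I → ∀ (ν' : Chr M) (s : ℂ), -(1 / 2) ≤ s.re → s.re ≤ 0 →
        ∑ g ∈ sp M L, ∑ e ∈ pdiv g,
          ∑ t ∈ (sp (M * g) (L / nr g)).filter (fun t => nr g * nr t ≤ Y), A * nr g / (nr e * L) *
          ∑ k ∈ rows (nr e * (L / nr g) ^ 2 * R ^ ε / A),
            ‖Sd M (L / (nr g * nr t))
              (fun m => ext (al ν D (R ^ ε) (τ * Complex.I) (Zs Ps I) (cm c)) (g * t) ν'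
                (nr g * nr t) L s m * conj (sym m (e * t ^ 2))) k‖ ^ 2 ≤
          C * R ^ ε' * (Y ^ 100 + F) * (1 + |τ|) ^ J₁ * (A * D * ZI P I) * (1 + |s.im|) ^ J₁ := by
  classical
  have hη : 0 < ε' / 10 := by positivity
  obtain ⟨ε₁, hε₁, hlarge⟩ := large_le hM J J₀ hη
  obtain ⟨C1, hC1, h1⟩ := E1.one_term hM J hη
  refine ⟨min ε₁ (ε' / 10), lt_min hε₁ hη, fun ε hε hε0 => ?_⟩
  obtain ⟨C2, hC2, h2⟩ := hlarge ε hε (hε0.trans (min_le_left _ _))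
  obtain ⟨C3, J', hC3, h3⟩ := E1.small_one hM hη hε
  refine ⟨C1 * (3136 * 2 ^ J * C3 + C2), max J₀ J', by positivity, ?_⟩
  intro R A D Y Xm F τ ν Ps P I c H hc L hL ν' s hs1 hs0
  have hA := H.hA
  have hD := H.hD
  have hF := H.hF
  have hR : 1 ≤ R := hA.trans H.hAR
  have hY : 1 ≤ Y := by linarith [H.hY]
  have hZ := H.slots.one_le_ZI
  have hΛ : 1 ≤ R ^ ε := Real.one_le_rpow hR hε.le
  have hL1 : 1 ≤ L := hL ▸ one_le_mul_of_one_le_of_one_le (one_le_mul_of_one_le_of_one_le hD hΛ) hZ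
  have hL0 : 0 ≤ L := by linarith
  have hLR : L ≤ R := by
    have := H.hL
    rw [← hL] at this
    exact ((le_self_pow₀ hL1 two_ne_zero).trans (le_mul_of_one_le_right (by positivity) hΛ)).trans this
  obtain ⟨c', hc', h1'⟩ := h1 R D (R ^ ε) Y L Ps P I s c ν' H.slots H.dy H.card (by linarith) hs0 hΛ
    (by linarith) hY hL hR hLR hc
  have hre : ((τ : ℂ) * Complex.I + s).re = s.re := by simp
  have him : ((τ : ℂ) * Complex.I + s).im = τ + s.im := by simp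
  have hlg := h2 R A D Y Xm F Ps P I c' H hc' L hL (ν * ν') (τ * Complex.I + s)
    (by rw [hre]; exact hs1) (by rw [hre]; exact hs0)
  set s₁ : ℂ := τ * Complex.I + s with hs₁
  set G : O × O × O × O × Finset ℕ × O → ℝ := fun i => famW A L i *
    ∑ k ∈ rows (famK A L (R ^ ε) i),
      ‖Sg M (famL L i) (famB (ν * ν') D (R ^ ε) s₁ Ps c' Y i) k‖ ^ 2 with hG
  have hG0 : ∀ i, 0 ≤ G i := fun i => mul_nonneg (by unfold famW; positivity)
    (Finset.sum_nonneg fun _ _ => by positivity)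
  set B : ℝ := C3 * R ^ (ε' / 10) * (R ^ ε) ^ 6 * (1 + |s₁.im|) ^ J' * Y ^ 84 * (A * D * ZI P I)
    with hB
  have hB0 : 0 ≤ B := by positivity
  have hgt : ∀ g ∈ sp M L, ∀ t ∈ (sp (M * g) (L / nr g)).filter (fun t => nr g * nr t ≤ Y),
      SP M t ∧ IsCoprime t g ∧ nr g * nr t ≤ L ∧ nr g * nr t ≤ Y ∧ SP M (g * t) ∧ nr g ≤ Y ∧
        nr t ≤ Y ∧ nr t ≤ L := by
    intro g hg t ht
    obtain ⟨hg1, -⟩ := (mem_sp hL0).1 hg
    obtain ⟨ht1, ht2⟩ := Finset.mem_filter.1 ht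
    have g1 := one_le_nr hg1.1.ne_zero
    obtain ⟨ht3, ht4⟩ := (mem_sp (by positivity)).1 ht1
    have t1 := one_le_nr ht3.1.ne_zero
    have c1 : IsCoprime t M := ht3.2.2.of_mul_right_left
    have c2 : IsCoprime t g := ht3.2.2.of_mul_right_right
    rw [le_div_iff₀ (by linarith), mul_comm] at ht4
    have a1 : nr g ≤ nr g * nr t := le_mul_of_one_le_right (by linarith) t1
    have a2 : nr t ≤ nr g * nr t := le_mul_of_one_le_left (by linarith) g1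
    exact ⟨⟨ht3.1, ht3.2.1, c1⟩, c2, ht4, ht2, ⟨hg1.1.mul ht3.1,
      squarefree_mul_iff.2 ⟨c2.symm.isRelPrime, hg1.2.1, ht3.2.1⟩, hg1.2.2.mul_left c1⟩,
      a1.trans ht2, a2.trans ht2, a2.trans ht4⟩
  have step1 : ∀ g ∈ sp M L, ∀ e ∈ pdiv g,
      ∀ t ∈ (sp (M * g) (L / nr g)).filter (fun t => nr g * nr t ≤ Y), A * nr g / (nr e * L) *
          ∑ k ∈ rows (nr e * (L / nr g) ^ 2 * R ^ ε / A),
            ‖Sd M (L / (nr g * nr t))
              (fun m => ext (al ν D (R ^ ε) (τ * Complex.I) (Zs Ps I) (cm c)) (g * t) ν'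
                (nr g * nr t) L s m * conj (sym m (e * t ^ 2))) k‖ ^ 2 ≤
        C1 * R ^ (ε' / 10) * (R ^ ε) ^ 2 * (8 * Y * (2 ^ J * B) +
          ∑ u₀ ∈ pdiv (g * t), ∑ I' ∈ I.powerset, ∑ d₁ ∈ pr M L,
            if g * t / u₀ ∈ Zs Ps (I \ I') then G (g, e, t, u₀, I', d₁) else 0) := by
    intro g hg e he t ht
    obtain ⟨a1, a2, a3, a4, a5, a6, a7, a8⟩ := hgt g hg t ht
    obtain ⟨hg1, -⟩ := (mem_sp hL0).1 hg
    obtain ⟨he1, he2⟩ := (mem_pdiv hg1.1.ne_zero).1 he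
    have g1 := one_le_nr hg1.1.ne_zero
    have e1 := one_le_nr he1.ne_zero
    have t1 := one_le_nr a1.1.ne_zero
    have eg := En.nr_le_of_dvd he2 hg1.1.ne_zero
    have hu := nr_mul g t
    have hw : 0 ≤ A * nr g / (nr e * L) := by positivity
    refine (mul_le_mul_of_nonneg_left (Finset.sum_le_sum fun k _ => h1' ν (τ * Complex.I) (g * t)
      (e * t ^ 2) (nr g * nr t) a5 hu.symm (by rw [hu]; exact a3.trans hLR) k) hw).trans ?_
    rw [← Finset.mul_sum, mul_left_comm]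
    refine mul_le_mul_of_nonneg_left ?_ (by positivity)
    simp only [Finset.sum_add_distrib]
    rw [mul_add]
    refine add_le_add ?_ (le_of_eq ?_)
    · rw [Finset.sum_comm, Finset.mul_sum]
      refine E1.sum_le_card (by positivity) (fun u₀ hu₀ => ?_)
        ((E1.card_pdiv_le8 a5.1.ne_zero).trans (by rw [hu]; linarith))
      rw [Finset.sum_comm, Finset.mul_sum]
      refine E1.sum_le_card hB0 (fun I' hI' => ?_) (by
        rw [Finset.card_powerset]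
        exact_mod_cast Nat.pow_le_pow_right two_pos H.card)
      have hI'' := Finset.mem_powerset.1 hI'
      obtain ⟨hp0, hd0⟩ := (mem_pdiv a5.1.ne_zero).1 hu₀
      have u1 := one_le_nr hp0.ne_zero
      have u2 : nr u₀ ≤ Y := (En.nr_le_of_dvd hd0 a5.1.ne_zero).trans (by rw [hu]; exact a4)
      refine h3 R A D Y (ZI P I) (ZI P I') (D / nr u₀) _ _ (ν * ν') s₁ (Zs Ps I') (cm c') _ hA H.hAR hD
        (H.slots.mono hI'').one_le_ZI (H.slots.ZI_mono hI'') H.hL hY H.hYR H.h2 H.h6 (by positivity)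
        (div_le_self (by linarith) u1) ?_
        (mul_ne_zero (mul_ne_zero he1.ne_zero (pow_ne_zero _ a1.1.ne_zero))
          (pow_ne_zero _ a5.1.ne_zero)) ?_ (by positivity) ?_ hw ?_ (H.slots.mono hI'').marks
        (norm_cm_le hc') (by rw [hre, abs_le]; constructor <;> linarith)
      · rw [← mul_div_assoc, le_div_iff₀ (by linarith), one_mul]
        exact u2.trans (le_mul_of_one_le_right (by linarith) hD)
      · rw [nr_mul, nr_mul, nr_pow, nr_pow, hu]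
        calc nr e * nr t ^ 2 * (nr g * nr t) ^ 6 = nr e * nr t * nr t * (nr g * nr t) ^ 6 := by ring
          _ ≤ Y * Y * Y ^ 6 := by
              gcongr
              exact (mul_le_mul_of_nonneg_right eg (by linarith)).trans a4
          _ = Y ^ 8 := by ring
      · rw [← hL]
        gcongr
        calc nr e * (L / nr g) ^ 2 ≤ nr g ^ 2 * (L / nr g) ^ 2 := by
              gcongr
              exact eg.trans (le_self_pow₀ g1 two_ne_zero)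
          _ = L ^ 2 := by field_simp
      · refine div_le_div₀ (by positivity) (mul_le_mul_of_nonneg_left a6 (by linarith))
          (by positivity) ?_
        calc D * ZI P I ≤ D * R ^ ε * ZI P I := by
              gcongr
              exact le_mul_of_one_le_right (by linarith) hΛ
          _ = L := hL.symm
          _ ≤ nr e * L := le_mul_of_one_le_left hL0 e1
    · rw [Finset.sum_comm, Finset.mul_sum]
      refine Finset.sum_congr rfl fun u₀ _ => ?_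
      rw [Finset.sum_comm, Finset.mul_sum]
      refine Finset.sum_congr rfl fun I' _ => ?_
      rw [Finset.sum_comm, Finset.mul_sum]
      refine Finset.sum_congr rfl fun d₁ _ => ?_
      split_ifs
      · rw [← Finset.mul_sum, ← mul_assoc]
        rfl
      · simp
  have step2 : ∑ g ∈ sp M L, ∑ e ∈ pdiv g,
      ∑ t ∈ (sp (M * g) (L / nr g)).filter (fun t => nr g * nr t ≤ Y), 8 * Y * (2 ^ J * B) ≤
      7 * Y * (8 * Y * (7 * Y * (8 * Y * (2 ^ J * B)))) := by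
    rw [← Finset.sum_filter_of_ne (p := fun g => nr g ≤ Y) (fun g hg hne => by
      obtain ⟨e, -, hne⟩ := Finset.exists_ne_zero_of_sum_ne_zero hne
      obtain ⟨t, ht, -⟩ := Finset.exists_ne_zero_of_sum_ne_zero hne
      exact (hgt g hg t ht).2.2.2.2.2.1)]
    refine E1.sum_le_card (by positivity) (fun g hg => ?_) (En.card_le (by linarith) fun g hg =>
      ⟨((mem_sp hL0).1 (Finset.mem_filter.1 hg).1).1.1.ne_zero, (Finset.mem_filter.1 hg).2⟩)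
    obtain ⟨hg1, hg2⟩ := Finset.mem_filter.1 hg
    refine E1.sum_le_card (by positivity) (fun e _ => ?_)
      ((E1.card_pdiv_le8 ((mem_sp hL0).1 hg1).1.1.ne_zero).trans (by linarith))
    exact E1.sum_le_card (by positivity) (fun t _ => le_rfl) (En.card_le (by linarith) fun t ht =>
      ⟨(hgt g hg1 t ht).1.1.ne_zero, (hgt g hg1 t ht).2.2.2.2.2.2.1⟩)
  have step3 : ∑ g ∈ sp M L, ∑ e ∈ pdiv g,
      ∑ t ∈ (sp (M * g) (L / nr g)).filter (fun t => nr g * nr t ≤ Y),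
        (∑ u₀ ∈ pdiv (g * t), ∑ I' ∈ I.powerset, ∑ d₁ ∈ pr M L,
          if g * t / u₀ ∈ Zs Ps (I \ I') then G (g, e, t, u₀, I', d₁) else 0) ≤
      ∑ i ∈ Fam M L Y Ps I, G i := by
    rw [Fam, Finset.sum_filter]
    simp only [Finset.sum_product]
    have hn : ∀ (p : Prop) [Decidable p] (i), 0 ≤ if p then G i else 0 := fun p _ i => by
      split_ifs
      exacts [hG0 i, le_rfl]
    refine Finset.sum_le_sum fun g hg => ?_
    obtain ⟨hg1, hg2⟩ := (mem_sp hL0).1 hg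
    refine E1.sum_le_sub (fun e he => ?_) (fun e he => ?_) fun _ _ => Finset.sum_nonneg fun _ _ =>
      Finset.sum_nonneg fun _ _ => Finset.sum_nonneg fun _ _ => Finset.sum_nonneg fun _ _ => hn _ _
    · obtain ⟨he1, he2⟩ := (mem_pdiv hg1.1.ne_zero).1 he
      exact (mem_sp hL0).2 ⟨En.SP.of_dvd hg1 he1 he2,
        (En.nr_le_of_dvd he2 hg1.1.ne_zero).trans hg2⟩
    obtain ⟨he1, he2⟩ := (mem_pdiv hg1.1.ne_zero).1 he
    refine E1.sum_le_sub (fun t ht => ?_) (fun t ht => ?_) fun _ _ => Finset.sum_nonneg fun _ _ =>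
      Finset.sum_nonneg fun _ _ => Finset.sum_nonneg fun _ _ => hn _ _
    · exact (mem_sp hL0).2 ⟨(hgt g hg t ht).1, (hgt g hg t ht).2.2.2.2.2.2.2⟩
    obtain ⟨a1, a2, a3, a4, a5, a6, a7, a8⟩ := hgt g hg t ht
    refine E1.sum_le_sub (fun u₀ hu₀ => ?_) (fun u₀ hu₀ => ?_) fun _ _ =>
      Finset.sum_nonneg fun _ _ => Finset.sum_nonneg fun _ _ => hn _ _
    · obtain ⟨hp0, hd0⟩ := (mem_pdiv a5.1.ne_zero).1 hu₀
      exact (mem_sp hL0).2 ⟨En.SP.of_dvd a5 hp0 hd0,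
        (En.nr_le_of_dvd hd0 a5.1.ne_zero).trans (by rw [nr_mul]; exact a3)⟩
    obtain ⟨hp0, hd0⟩ := (mem_pdiv a5.1.ne_zero).1 hu₀
    refine Finset.sum_le_sum fun I' _ => Finset.sum_le_sum fun d₁ _ => ?_
    by_cases hz : g * t / u₀ ∈ Zs Ps (I \ I')
    · rw [if_pos hz, if_pos ⟨he2, a2, a4, a3, hd0, hz⟩]
    · rw [if_neg hz]
      exact hn _ _
  refine (Finset.sum_le_sum fun g hg => Finset.sum_le_sum fun e he =>
    Finset.sum_le_sum fun t ht => step1 g hg e he t ht).trans ?_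
  simp only [← Finset.mul_sum, Finset.sum_add_distrib]
  refine (mul_le_mul_of_nonneg_left (add_le_add (by
    simpa only [← Finset.mul_sum] using step2) (step3.trans hlg)) (by positivity)).trans ?_
  have hQ : 1 ≤ R ^ (ε' / 10) := Real.one_le_rpow hR hη.le
  have hΛQ : R ^ ε ≤ R ^ (ε' / 10) :=
    Real.rpow_le_rpow_of_exponent_le hR (hε0.trans (min_le_right _ _))
  have hQ10 : R ^ ε' = (R ^ (ε' / 10)) ^ 10 := by
    rw [← Real.rpow_natCast, ← Real.rpow_mul (by linarith)]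
    congr 1
    push_cast
    ring
  have hT : ∀ n ≤ max J₀ J', (1 + |s₁.im|) ^ n ≤
      (1 + |τ|) ^ max J₀ J' * (1 + |s.im|) ^ max J₀ J' := by
    intro n hn
    rw [← mul_pow]
    refine (pow_le_pow_right₀ (by linarith [abs_nonneg s₁.im]) hn).trans
      (pow_le_pow_left₀ (by positivity) ?_ _)
    rw [him]
    nlinarith [abs_add_le τ s.im, mul_nonneg (abs_nonneg τ) (abs_nonneg s.im)]
  rw [hQ10, hB]
  have t0 := hT J₀ (le_max_left _ _)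
  have t1 := hT J' (le_max_right _ _)
  have hW : 0 ≤ A * D * ZI P I := by positivity
  exact E1.final hC1.le hC2.le hC3.le (by positivity) hQ (by linarith) hΛQ hY (by linarith)
    (by positivity) (by positivity) t0 t1 hW

end Crest.Agent.R17
end
end

-- ▼ part PVc/R17/T2StepAuxC
section

/-!
# Row 17, module T2: auxiliary lemmas for the passage to general slots
-/

set_option autoImplicit false

noncomputable section

namespace Crest.Agent.R17.T2C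

open scoped ComplexConjugate

theorem norm_Mob_le {M : O} (hM : Adm M) : ∃ C : ℝ, 0 < C ∧ ∀ (ν : Chr M) (a : O) (D τ : ℝ),
    0 < D → ‖Mob ν a D (τ * Complex.I)‖ ≤ C * D := by
  obtain ⟨C, hC, h⟩ := tsum_norm_Sm_le 0 0 0 le_rfl
  refine ⟨C, hC, fun ν a D τ hD => ?_⟩
  have hb : PolyB (fun n => mu n * rc ν a n) 1 0 := by
    refine ⟨by simp [mu], fun n => ?_⟩
    rw [Real.rpow_zero, mul_one, norm_mul]
    refine mul_le_one₀ (norm_mu_le n) (norm_nonneg _) ?_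
    unfold rc
    split_ifs
    · rw [norm_mul, Complex.norm_conj]
      exact mul_le_one₀ (norm_ev_le hM.1 ν n) (norm_nonneg _) (norm_sym_le n a)
    · simp
  have h1 := h _ 1 D (τ * Complex.I) hb hD (by simp)
  refine (norm_tsum_le_tsum_norm (summable_Sm hb hD _)).trans (h1.trans (le_of_eq ?_))
  simp

theorem norm_slot_le {Ps : Finset O} {P : ℝ} (hP : 0 ≤ P) (h : ∀ p ∈ Ps, Prime p ∧ nr p ≤ P)
    {c : O → ℂ} (hc : ∀ p, ‖c p‖ ≤ 1) (a : O) : ‖slot Ps c a‖ ≤ 7 * P := by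
  have h1 : ‖slot Ps c a‖ ≤ ∑ _p ∈ Ps, (1 : ℝ) := by
    refine (norm_sum_le _ _).trans (Finset.sum_le_sum fun p _ => ?_)
    rw [norm_mul, Complex.norm_conj]
    exact mul_le_one₀ (hc p) (norm_nonneg _) (norm_sym_le _ _)
  have h2 : Ps.card ≤ (rows P).card :=
    Finset.card_le_card fun p hp => (mem_rows hP).2 ⟨(h p hp).1.ne_zero, (h p hp).2⟩
  have h3 : (Ps.card : ℝ) ≤ (rows P).card := by exact_mod_cast h2
  simp only [Finset.sum_const, nsmul_eq_mul, mul_one] at h1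
  exact h1.trans (h3.trans (card_rows_le hP))

theorem prod_sum_bound {α : Type*} (S : Finset α) (I : Finset ℕ) (L : ℕ) (w : α → ℝ)
    (x : ℕ → ℕ → α → ℝ) {B : ℝ} (h : ∀ g : ℕ → ℕ, ∑ a ∈ S, w a * ∏ j ∈ I, x j (g j) a ≤ B) :
    ∑ a ∈ S, w a * ∏ j ∈ I, ∑ i ∈ Finset.range L, x j i a ≤ (L : ℝ) ^ I.card * B := by
  classical
  simp only [Finset.prod_sum, Finset.mul_sum]
  rw [Finset.sum_comm]
  refine (Finset.sum_le_card_nsmul _ _ B fun f _ => ?_).trans (le_of_eq ?_)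
  · refine le_trans (le_of_eq ?_) (h fun j => if hj : j ∈ I then f j hj else 0)
    refine Finset.sum_congr rfl fun a _ => ?_
    rw [← Finset.prod_attach I]
    congr 1
    exact Finset.prod_congr rfl fun j _ => by rw [dif_pos j.2]
  · simp [Finset.card_pi]

theorem log_pow_le (J : ℕ) {ε : ℝ} (hε : 0 < ε) : ∃ C : ℝ, 0 < C ∧ ∀ R : ℝ, 1 ≤ R → ∀ k : ℕ, k ≤ J →
    ((Nat.log 2 ⌊R⌋₊ + 1 : ℕ) : ℝ) ^ k ≤ C * R ^ ε := by
  set δ : ℝ := ε / (J + 1) with hδ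
  have hδ0 : 0 < δ := by positivity
  refine ⟨(1 + 2 / δ) ^ J, by positivity, fun R hR k hk => ?_⟩
  have hR0 : 0 < R := by linarith
  have h1 : (2 : ℝ) ^ Nat.log 2 ⌊R⌋₊ ≤ R := by
    have h2 : 2 ^ Nat.log 2 ⌊R⌋₊ ≤ ⌊R⌋₊ := Nat.pow_log_le_self 2 (Nat.floor_pos.2 hR).ne'
    have h3 : ((2 ^ Nat.log 2 ⌊R⌋₊ : ℕ) : ℝ) ≤ ⌊R⌋₊ := by exact_mod_cast h2
    push_cast at h3
    exact h3.trans (Nat.floor_le hR0.le)
  have h2 : (Nat.log 2 ⌊R⌋₊ : ℝ) * Real.log 2 ≤ Real.log R := by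
    rw [← Real.log_pow]
    exact Real.log_le_log (by positivity) h1
  have h3 := Real.log_le_rpow_div hR0.le hδ0
  have h4 : 1 ≤ R ^ δ := Real.one_le_rpow hR hδ0.le
  have h5 : ((Nat.log 2 ⌊R⌋₊ + 1 : ℕ) : ℝ) ≤ (1 + 2 / δ) * R ^ δ := by
    have h6 : (Nat.log 2 ⌊R⌋₊ : ℝ) * (1 / 2) ≤ (Nat.log 2 ⌊R⌋₊ : ℝ) * Real.log 2 :=
      mul_le_mul_of_nonneg_left (by linarith [Real.log_two_gt_d9]) (Nat.cast_nonneg _)
    have h7 : (1 + 2 / δ) * R ^ δ = R ^ δ + 2 * (R ^ δ / δ) := by ring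
    push_cast
    linarith
  have h8 : (1 : ℝ) ≤ ((Nat.log 2 ⌊R⌋₊ + 1 : ℕ) : ℝ) := by exact_mod_cast Nat.le_add_left 1 _
  refine (pow_le_pow_right₀ h8 hk).trans ((pow_le_pow_left₀ (by positivity) h5 J).trans ?_)
  rw [mul_pow, ← Real.rpow_natCast (R ^ δ), ← Real.rpow_mul hR0.le]
  refine mul_le_mul_of_nonneg_left (Real.rpow_le_rpow_of_exponent_le hR ?_) (by positivity)
  rw [hδ, div_mul_eq_mul_div, div_le_iff₀ (by positivity)]
  nlinarith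

theorem sq_slot_le {Ps : Finset O} {R : ℝ} (h : ∀ p ∈ Ps, nr p ≤ R) (c : O → ℂ) (a : O) :
    ‖slot Ps c a‖ ^ 2 ≤ ∑ i ∈ Finset.range (Nat.log 2 ⌊R⌋₊ + 1),
      ((Nat.log 2 ⌊R⌋₊ + 1 : ℕ) : ℝ) * ‖slot (Ps.filter fun p => Nat.log 2 (nm p) = i) c a‖ ^ 2 := by
  have h1 : slot Ps c a = ∑ i ∈ Finset.range (Nat.log 2 ⌊R⌋₊ + 1),
      slot (Ps.filter fun p => Nat.log 2 (nm p) = i) c a := by
    refine (Finset.sum_fiberwise_of_maps_to (fun p hp => ?_) _).symm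
    rw [Finset.mem_range, Nat.lt_succ_iff]
    exact Nat.log_mono_right (Nat.le_floor (h p hp))
  rw [h1, ← Finset.mul_sum]
  refine (pow_le_pow_left₀ (norm_nonneg _) (norm_sum_le _ _) 2).trans ?_
  simpa using sq_sum_le_card_mul_sum_sq (s := Finset.range (Nat.log 2 ⌊R⌋₊ + 1))
    (f := fun i => ‖slot (Ps.filter fun p => Nat.log 2 (nm p) = i) c a‖)

end Crest.Agent.R17.T2C
end
end

-- ▼ part PVc/R17/T2StepAuxB
section

/-!
# Row 17, module T2: from marked sums to products of dyadic slots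
-/

set_option autoImplicit false

noncomputable section

namespace Crest.Agent.R17.T2B

open scoped ComplexConjugate

variable {M : O}

theorem po_of_coprime (hM : Adm M) {z : O} (hz : Primary z) (h : IsCoprime z M) : PO z :=
  ⟨hz, h.of_isCoprime_of_dvd_right ((show (2 : O) ∣ 72 from ⟨36, by norm_num⟩).trans hM.2)⟩

theorem sym_six {z t : O} (hz : PO z) (h : IsCoprime z t) : sym z (t ^ 6) = 1 := by
  rw [sym_pow_right hz, sym_pow_six hz.1 h]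

theorem Mob_powerset (hM : Adm M) (ν : Chr M) (a : O) (s : ℂ) (S : Finset O)
    (hS : ∀ p ∈ S, Prime p ∧ Primary p ∧ IsCoprime p M) {D : ℝ} (hD : 0 < D) :
    Mob ν a D s = ∑ T ∈ S.powerset, (-1) ^ T.card * rc ν a (∏ q ∈ T, q) *
      Mob ν (a * (∏ q ∈ S, q) ^ 6) (D / nr (∏ q ∈ T, q)) s := by
  classical
  induction S using Finset.induction_on with
  | empty => simp [rc_one, nr, nm_one]
  | insert p S hp ih =>
    have hS' : ∀ q ∈ S, Prime q ∧ Primary q ∧ IsCoprime q M :=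
      fun q hq => hS q (Finset.mem_insert_of_mem hq)
    obtain ⟨p1, p2, p3⟩ := hS p (Finset.mem_insert_self _ _)
    rw [ih hS', Finset.sum_powerset_insert hp, ← Finset.sum_add_distrib]
    refine Finset.sum_congr rfl fun T hT => ?_
    have hTS := Finset.mem_powerset.1 hT
    have hpT : p ∉ T := fun h => hp (hTS h)
    have hT1 : Primary (∏ q ∈ T, q) := Primary.prod fun q hq => (hS' q (hTS hq)).2.1
    have hc : IsCoprime p (∏ q ∈ S, q) := by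
      refine IsCoprime.prod_right fun q hq => ?_
      refine p1.irreducible.coprime_iff_not_dvd.2 fun h => hp ?_
      rwa [BasicB.eq_of_dvd p1 (hS' q hq).1 p2 (hS' q hq).2.1 h]
    rw [Mob_punct hM ν _ p1 p2 (div_pos hD (nr_pos hT1.ne_zero)) s, rc_mul_row hM,
      sym_six (po_of_coprime hM p2 p3) hc, Finset.prod_insert hp, Finset.prod_insert hpT,
      Finset.card_insert_of_notMem hpT, rc_mul ν a p2 hT1, nr_mul, div_div,
      mul_comm (nr (∏ q ∈ T, q)) (nr p),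
      show a * (∏ q ∈ S, q) ^ 6 * p ^ 6 = a * (p * ∏ q ∈ S, q) ^ 6 by ring]
    simp only [map_one]
    ring

theorem sum_pdiv_sqfree {z : O} (hz : Primary z) (hs : Squarefree z) (F : O → ℂ) :
    ∑ t ∈ pdiv z, F t = ∑ T ∈ (pf z).powerset, F (∏ q ∈ T, q) := by
  have hn := hz.ne_zero
  refine Finset.sum_nbij' pf (fun s => ∏ q ∈ s, q) (fun d hd => ?_) (fun s hs => ?_)
    (fun d hd => ?_) (fun s hs => ?_) fun d hd => ?_
  · refine Finset.mem_powerset.2 fun p hp => ?_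
    obtain ⟨h3, h4, h5⟩ := BasicB.of_mem_pf hp
    exact (mem_pf hn).2 ⟨h3, h4, h5.trans ((mem_pdiv hn).1 hd).2⟩
  · have hs' := Finset.mem_powerset.1 hs
    have h2 := squarefree_prod_primes (s := s) fun q hq => BasicB.pf_sub (hs' hq)
    exact (mem_pdiv hn).2 ⟨h2.2.1, BasicB.prod_dvd_of_subset hn hs'⟩
  · obtain ⟨h2, h3⟩ := (mem_pdiv hn).1 hd
    exact h2.eq_rad (hs.squarefree_of_dvd h3)
  · exact (squarefree_prod_primes fun q hq => BasicB.pf_sub (Finset.mem_powerset.1 hs hq)).2.2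
  · obtain ⟨h2, h3⟩ := (mem_pdiv hn).1 hd
    have : ∏ q ∈ pf d, q = d := h2.eq_rad (hs.squarefree_of_dvd h3)
    rw [this]

theorem Mob_pdiv (hM : Adm M) (ν : Chr M) (a : O) (s : ℂ) {z : O} (hz : SP M z) {D : ℝ}
    (hD : 0 < D) :
    Mob ν a D s = ∑ t ∈ pdiv z, mu t * rc ν a t * Mob ν (a * z ^ 6) (D / nr t) s := by
  have e : ∏ q ∈ pf z, q = z := hz.1.eq_rad hz.2.1
  rw [sum_pdiv_sqfree hz.1 hz.2.1, Mob_powerset hM ν a s (pf z) (fun p hp => by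
    obtain ⟨h3, h4, h5⟩ := BasicB.of_mem_pf hp
    exact ⟨h3, h4, hz.2.2.of_isCoprime_of_dvd_left h5⟩) hD, e]
  refine Finset.sum_congr rfl fun T hT => ?_
  have h2 := squarefree_prod_primes (s := T)
    fun q hq => BasicB.pf_sub (Finset.mem_powerset.1 hT hq)
  rw [BasicB.mu_of_squarefree h2.1, h2.2.2]

theorem ev_one_chr {z : O} (h : IsCoprime z M) : ev (1 : Chr M) z = 1 :=
  MulChar.one_apply (isUnit_mk_iff.2 h)

/-- the coefficient of the term `t` -/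
def om (ν : Chr M) (a : O) (c : O → ℂ) (t : O) : ℂ :=
  cm c t * conj (sym t a) * (mu t * rc ν a t)

theorem norm_om_le (hM : Adm M) (ν : Chr M) (a : O) {c : O → ℂ} (hc : ∀ p, ‖c p‖ ≤ 1) (t : O) :
    ‖om ν a c t‖ ≤ 1 := by
  unfold om
  rw [norm_mul, norm_mul, norm_mul, Complex.norm_conj]
  exact mul_le_one₀ (mul_le_one₀ (norm_cm_le hc t) (norm_nonneg _) (norm_sym_le t a))
    (by positivity) (mul_le_one₀ (norm_mu_le t) (norm_nonneg _) (norm_rc_le hM ν a t))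

theorem Mob_mul_slots (hM : Adm M) {Ps : ℕ → Finset O} {P : ℕ → ℝ} {I : Finset ℕ}
    (h : Slots M Ps P I) (ν : Chr M) (a : O) (s : ℂ) (c : O → ℂ) {D : ℝ} (hD : 0 < D) :
    Mob ν a D s * ∏ j ∈ I, slot (Ps j) c a =
      ∑ I' ∈ I.powerset, ∑ t ∈ Zs Ps (I \ I'), om ν a c t *
        MQ ν (a * t ^ 6) (D / nr t) s (Zs Ps I') (cm fun p => c p * ev (1 : Chr M) p) := by
  have e1 := h.sum_pdiv (fun t z' => cm c (t * z') * conj (sym (t * z') a) *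
    (mu t * rc ν a t * Mob ν (a * (t * z') ^ 6) (D / nr t) s))
  rw [← h.slot_Zs hM, slot, Finset.mul_sum]
  calc _ = ∑ z ∈ Zs Ps I, ∑ t ∈ pdiv z, cm c (t * (z / t)) * conj (sym (t * (z / t)) a) *
        (mu t * rc ν a t * Mob ν (a * (t * (z / t)) ^ 6) (D / nr t) s) := by
        refine Finset.sum_congr rfl fun z hz => ?_
        have hz' := (h.marks z hz).1
        rw [Mob_pdiv hM ν a s hz' hD, Finset.sum_mul]
        refine Finset.sum_congr rfl fun t ht => ?_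
        obtain ⟨t1, t2⟩ := (mem_pdiv hz'.1.ne_zero).1 ht
        rw [EuclideanDomain.mul_div_cancel' t1.ne_zero t2]
        ring
    _ = _ := e1
    _ = _ := by
        refine Finset.sum_congr rfl fun I' hI' => Finset.sum_congr rfl fun t ht => ?_
        have hI := Finset.mem_powerset.1 hI'
        rw [MQ, Finset.mul_sum]
        refine Finset.sum_congr rfl fun z hz => ?_
        have ht' := ((h.mono Finset.sdiff_subset).marks t ht).1
        have hz' := ((h.mono hI).marks z hz).1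
        have hc : IsCoprime t z := h.coprime Finset.sdiff_subset hI Finset.sdiff_disjoint ht hz
        have hpo := po_of_coprime hM hz'.1 hz'.2.2
        rw [cm_mul c ht'.1.ne_zero hz'.1.ne_zero hc, sym_mul_left ht'.1.ne_zero hz'.1.ne_zero,
          cm_mul_fun, cm_ev _ hz', ev_one_chr hz'.2.2, sym_mul_right hpo, sym_six hpo hc.symm,
          show a * (t * z) ^ 6 = a * t ^ 6 * z ^ 6 by ring, om, map_mul]
        ring_nf

theorem pointwise (hM : Adm M) [Fintype (Chr M)] (J : ℕ) {ε : ℝ} (hε : 0 < ε) : ∃ C : ℝ, 0 < C ∧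
    ∀ (R D : ℝ) (s : ℂ) (ν : Chr M) (Ps : ℕ → Finset O) (P : ℕ → ℝ) (I : Finset ℕ) (c : O → ℂ)
      (a : O), Slots M Ps P I → I.card ≤ J → (∀ p, ‖c p‖ ≤ 1) → ZI P I ≤ R → 0 < D →
      ‖Mob ν a D s‖ ^ 2 * ∏ j ∈ I, ‖slot (Ps j) c a‖ ^ 2 ≤
        C * R ^ ε * (D * ZI P I) * Psi M Ps P I c s (D * ZI P I) a := by
  obtain ⟨C₁, hC₁, H₁⟩ := pow_card_pf_le hε 4
  obtain ⟨C₂, hC₂, H₂⟩ := Marks.sum_rpow_le (σ := 1 / 2) (by norm_num)
  refine ⟨(2 ^ J * C₂) ^ 2 * C₁, by positivity, fun R D s ν Ps P I c a h hJ hc hR hD => ?_⟩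
  have hZ := h.one_le_ZI
  have hR0 : 0 < R := by linarith
  have hΨ := Psi_nonneg M h c s (D * ZI P I) a
  set Ψ := Psi M Ps P I c s (D * ZI P I) a with hΨd
  have hc' : ∀ z, ‖cm (fun p => c p * ev (1 : Chr M) p) z‖ ≤ 1 := norm_cm_le fun p => by
    rw [norm_mul]
    exact mul_le_one₀ (hc p) (norm_nonneg _) (norm_ev_le hM.1 _ p)
  set K : ℝ := C₁ * R ^ ε * (D * ZI P I) * Ψ with hK
  have hK0 : 0 ≤ K := by positivity
  have key : ∀ I' ∈ I.powerset, ∑ t ∈ Zs Ps (I \ I'), ‖om ν a c t *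
      MQ ν (a * t ^ 6) (D / nr t) s (Zs Ps I') (cm fun p => c p * ev (1 : Chr M) p)‖ ≤
        C₂ * Real.sqrt K := by
    intro I' hI'
    have hI := Finset.mem_powerset.1 hI'
    have h1 := h.mono hI
    have h2 : Slots M Ps P (I \ I') := h.mono Finset.sdiff_subset
    have z1 := h1.one_le_ZI
    have z2 := h2.one_le_ZI
    have z3 := ZI_sdiff P hI
    have hterm : ∀ t ∈ Zs Ps (I \ I'), ‖om ν a c t *
        MQ ν (a * t ^ 6) (D / nr t) s (Zs Ps I') (cm fun p => c p * ev (1 : Chr M) p)‖ ≤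
          Real.sqrt (K / ZI P (I \ I')) * nr t ^ (-(1 / 2 : ℝ)) := by
      intro t ht
      obtain ⟨ht', ht2⟩ := h2.marks t ht
      have t0 := ht'.1.ne_zero
      have t1 := one_le_nr t0
      have t2 := nr_pos t0
      have hDm : D / nr t ≤ D * ZI P I / ZI P I' := by
        rw [← z3, ← mul_assoc, mul_div_cancel_right₀ _ (by linarith)]
        calc D / nr t ≤ D := div_le_self hD.le t1
          _ ≤ D * ZI P (I \ I') := le_mul_of_one_le_right hD.le z2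
      have h3 := MQ_punct hM ν a ht'.1 s h1.marks hc' (fun z hz _ p hp _ hpz => by
        obtain ⟨p1, -, p3⟩ := BasicB.of_mem_pf hp
        exact p1.not_isUnit ((h.coprime Finset.sdiff_subset hI Finset.sdiff_disjoint ht
          hz).isUnit_of_dvd' p3 hpz)) (div_pos hD t2) hDm
      have h4 := msup_le_Psi h hI ν 1 c s (D * ZI P I) a
      have h5 : (4 : ℝ) ^ (pf t).card ≤ C₁ * R ^ ε :=
        (H₁ t t0).trans (mul_le_mul_of_nonneg_left (Real.rpow_le_rpow t2.le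
          (ht2.trans ((h.ZI_mono Finset.sdiff_subset).trans hR)) hε.le) hC₁.le)
      have h6 : ‖MQ ν (a * t ^ 6) (D / nr t) s (Zs Ps I') (cm fun p => c p * ev (1 : Chr M) p)‖ ^ 2
          ≤ K / ZI P (I \ I') / nr t := by
        refine h3.trans ?_
        calc _ ≤ C₁ * R ^ ε * (ZI P I' * Ψ) * (D / nr t) := by
              refine mul_le_mul_of_nonneg_right ?_ (div_pos hD t2).le
              exact mul_le_mul h5 h4 (msup_nonneg _ _ _ _ _ _) (by positivity)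
          _ = _ := by
              rw [hK, ← z3]
              field_simp
      rw [norm_mul]
      refine (mul_le_of_le_one_left (norm_nonneg _) (norm_om_le hM ν a hc t)).trans ?_
      refine (Real.le_sqrt (norm_nonneg _) (by positivity)).2 h6 |>.trans (le_of_eq ?_)
      rw [Real.sqrt_div' _ t2.le, Real.rpow_neg t2.le, ← Real.sqrt_eq_rpow, div_eq_mul_inv]
    refine (Finset.sum_le_sum hterm).trans ?_
    rw [← Finset.mul_sum]
    refine (mul_le_mul_of_nonneg_left (H₂ M _ _ h2.marks z2) (Real.sqrt_nonneg _)).trans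
      (le_of_eq ?_)
    rw [show (1 : ℝ) - 1 / 2 = 1 / 2 by norm_num, ← Real.sqrt_eq_rpow,
      Real.sqrt_div' _ (by linarith)]
    have : 0 < Real.sqrt (ZI P (I \ I')) := Real.sqrt_pos.2 (by linarith)
    field_simp
  have main : ‖Mob ν a D s * ∏ j ∈ I, slot (Ps j) c a‖ ≤ 2 ^ J * C₂ * Real.sqrt K := by
    rw [Mob_mul_slots hM h ν a s c hD]
    refine (norm_sum_le _ _).trans ((Finset.sum_le_sum fun I' hI' =>
      (norm_sum_le _ _).trans (key I' hI')).trans ?_)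
    rw [Finset.sum_const, Finset.card_powerset, nsmul_eq_mul, mul_assoc]
    refine mul_le_mul_of_nonneg_right ?_ (by positivity)
    push_cast
    exact pow_le_pow_right₀ one_le_two hJ
  calc _ = ‖Mob ν a D s * ∏ j ∈ I, slot (Ps j) c a‖ ^ 2 := by
        rw [norm_mul, norm_prod, mul_pow, Finset.prod_pow]
    _ ≤ (2 ^ J * C₂ * Real.sqrt K) ^ 2 := pow_le_pow_left₀ (norm_nonneg _) main 2
    _ = _ := by
        rw [mul_pow, Real.sq_sqrt hK0, hK]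
        ring

theorem mob2_dy (hM : Adm M) (J : ℕ) {ε : ℝ} (hε : 0 < ε) (hIM : IM M J 1 (ε / 3)) :
    ∃ (C : ℝ) (J₀ : ℕ), 0 < C ∧
    ∀ (R A D τ : ℝ) (ν : Chr M) (Ps : ℕ → Finset O) (P : ℕ → ℝ) (I : Finset ℕ) (c : O → ℂ),
      Slots M Ps P I → Dy Ps P I → I.card ≤ J → (∀ p, ‖c p‖ ≤ 1) → 1 ≤ A → A ≤ R → ZI P I ≤ R →
      0 < D → D * ZI P I ^ 2 ≤ A → D ^ 2 * ZI P I ^ 9 ≤ A ^ 3 →
      ∑ a ∈ rows A, ‖Mob ν a D (τ * Complex.I)‖ ^ 2 * ∏ j ∈ I, ‖slot (Ps j) c a‖ ^ 2 ≤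
        C * R ^ ε * (1 + |τ|) ^ J₀ * (A * D * ZI P I) := by
  have := finite_chr hM.1
  have : Fintype (Chr M) := Fintype.ofFinite _
  have hε3 : 0 < ε / 3 := by positivity
  obtain ⟨C₁, hC₁, H₁⟩ := pointwise hM J hε3
  obtain ⟨C₂, J₀, hC₂, H₂⟩ := IM.pb hM hIM hε3.le hε3
  refine ⟨C₁ * C₂ * 8 ^ (ε / 3 + ε / 3) * 8, J₀, by positivity,
    fun R A D τ ν Ps P I c h hd hJ hc hA hAR hZR hD h1 h2 => ?_⟩
  have hZ := h.one_le_ZI
  have hR0 : 0 < R := by linarith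
  have hDZ : D * ZI P I ≤ A := le_trans (by nlinarith [mul_pos hD (show 0 < ZI P I by linarith)]) h1
  have H₃ := H₂ (8 * R) (8 * A) (8 * (D * ZI P I)) Ps P I h hd hJ (by linarith) (by linarith)
    (by rw [Real.rpow_one]; linarith) (8 * A) (D * ZI P I) c (τ * Complex.I) hc (by linarith) le_rfl
    (by simp) (by simp) (by positivity) le_rfl (by nlinarith) (by nlinarith [pow_pos (show 0 < A by linarith) 3])
  have e : ((τ : ℂ) * Complex.I).im = τ := by simp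
  rw [e] at H₃
  have H₄ : ∑ a ∈ rows A, Psi M Ps P I c (τ * Complex.I) (D * ZI P I) a ≤
      ∑ a ∈ rows (8 * A), Psi M Ps P I c (τ * Complex.I) (D * ZI P I) a :=
    Finset.sum_le_sum_of_subset_of_nonneg (rows_mono (by linarith))
      fun a _ _ => Psi_nonneg M h c _ _ a
  refine (Finset.sum_le_sum fun a _ => H₁ R D _ ν Ps P I c a h hJ hc hZR hD).trans ?_
  rw [← Finset.mul_sum]
  refine (mul_le_mul_of_nonneg_left (H₄.trans H₃) (by positivity)).trans (le_of_eq ?_)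
  have e2 : R ^ ε = R ^ (ε / 3) * R ^ (ε / 3 + ε / 3) := by
    rw [← Real.rpow_add hR0]; congr 1; ring
  rw [Real.mul_rpow (by norm_num) hR0.le, e2]
  ring

end Crest.Agent.R17.T2B
end
end

-- ▼ part PVc/R17/T2Step

/-!
# Row 17, module T2: the induction, and the passage to products of slots
-/

set_option autoImplicit false

noncomputable section

namespace Crest.Agent.R17

open scoped ComplexConjugate

theorem IM.mono {M : O} {J : ℕ} {l l' θ θ' : ℝ} (h : IM M J l θ) (hl : l' ≤ l) (hθ : θ ≤ θ') :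
    IM M J l' θ' := by
  obtain ⟨C, J₀, hC, h⟩ := h
  refine ⟨C, J₀, hC, fun R A D τ ν Ps P I c hs hd hJ hc hA hAR hZR hD h1 h2 h9 => ?_⟩
  have hR := hA.trans hAR
  have hZ := hs.one_le_ZI
  refine (h R A D τ ν Ps P I c hs hd hJ hc hA hAR hZR hD
    (h1.trans (Real.rpow_le_rpow_of_exponent_le hR hl)) h2 h9).trans ?_
  have := Real.rpow_le_rpow_of_exponent_le hR hθ
  gcongr

/-- (`im_leaf`) -/
theorem IM_zero {M : O} (hM : Adm M) (J : ℕ) {ε : ℝ} (hε : 0 < ε) : IM M J 0 ε := by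
  obtain ⟨C, hC, h⟩ := im_leaf hM hε
  refine ⟨C, 0, hC, fun R A D τ ν Ps P I c hs _ _ hc hA hAR _ hD h1 _ _ => ?_⟩
  have hZ := hs.one_le_ZI
  rw [Real.rpow_zero] at h1
  rw [pow_zero, mul_one]
  exact h R A D _ τ ν _ _ hs.marks (norm_cm_le hc) hA hAR hD hZ
    ((pow_le_one₀ (by positivity) h1).trans hA)

/-- the final numerical bound of the induction step -/
theorem T2SA.final {S n₀ n₁ E₁ E₂ x q W T N Cd c₀ c₁ c₂ c₃ c₄ : ℝ} (hx1 : 1 ≤ x) (hxq : x ≤ q)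
    (hW : 1 ≤ W) (hT : 1 ≤ T) (hN : 0 ≤ N) (hCd : 0 ≤ Cd) (hc₀ : 0 ≤ c₀) (hc₁ : 0 ≤ c₁)
    (hc₂ : 0 ≤ c₂) (hc₃ : 0 ≤ c₃) (hc₄ : 0 ≤ c₄)
    (hS : S ≤ 2 * (Cd * x ^ 3 * (n₀ + n₁ + E₁ + E₂)) + c₄ * N)
    (h0 : n₀ ≤ c₀ * x ^ 3 * N) (h1 : n₁ ≤ c₁ * x ^ 5 * N) (h2 : E₁ ≤ c₂ * q ^ 2 * W * T * N)
    (h3 : E₂ ≤ c₃ * q ^ 2 * W * T * N) :
    S ≤ (2 * Cd * (c₀ + c₁ + c₂ + c₃) + c₄) * (q ^ 8 * W * T * N) := by
  have hq : 1 ≤ q := hx1.trans hxq
  have hWT : 1 ≤ W * T := one_le_mul_of_one_le_of_one_le hW hT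
  have a3 : x ^ 3 ≤ q ^ 3 := by gcongr
  have a5 : x ^ 5 ≤ q ^ 5 := by gcongr
  have b3 : q ^ 3 ≤ q ^ 5 := pow_le_pow_right₀ hq (by norm_num)
  have b2 : q ^ 2 ≤ q ^ 5 := pow_le_pow_right₀ hq (by norm_num)
  have b8 : 1 ≤ q ^ 8 := one_le_pow₀ hq
  have hN' : N ≤ W * T * N := le_mul_of_one_le_left hN hWT
  have e0 : n₀ ≤ c₀ * (q ^ 5 * (W * T * N)) := by
    refine h0.trans ?_
    rw [mul_assoc]
    gcongr
    exact a3.trans b3
  have e1 : n₁ ≤ c₁ * (q ^ 5 * (W * T * N)) := by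
    refine h1.trans ?_
    rw [mul_assoc]
    gcongr
  have e2 : E₁ ≤ c₂ * (q ^ 5 * (W * T * N)) := by
    refine h2.trans ?_
    rw [show c₂ * q ^ 2 * W * T * N = c₂ * (q ^ 2 * (W * T * N)) by ring]
    gcongr
  have e3 : E₂ ≤ c₃ * (q ^ 5 * (W * T * N)) := by
    refine h3.trans ?_
    rw [show c₃ * q ^ 2 * W * T * N = c₃ * (q ^ 2 * (W * T * N)) by ring]
    gcongr
  have e4 : N ≤ q ^ 8 * (W * T * N) := hN'.trans (le_mul_of_one_le_left (by positivity) b8)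
  have e5 : n₀ + n₁ + E₁ + E₂ ≤ (c₀ + c₁ + c₂ + c₃) * (q ^ 5 * (W * T * N)) := by linarith
  calc S ≤ 2 * (Cd * x ^ 3 * ((c₀ + c₁ + c₂ + c₃) * (q ^ 5 * (W * T * N)))) + c₄ * N := by
        refine hS.trans ?_
        gcongr
    _ ≤ 2 * (Cd * q ^ 3 * ((c₀ + c₁ + c₂ + c₃) * (q ^ 5 * (W * T * N)))) +
        c₄ * (q ^ 8 * (W * T * N)) := by gcongr
    _ = _ := by ring

theorem T2SA.big {A D Z : ℝ} (hA : 1 ≤ A) (hD : 0 < D) (hZ : 1 ≤ Z) (h2 : D * Z ^ 2 ≤ A)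
    (h9 : D ^ 2 * Z ^ 9 ≤ A ^ 3) (hbig : A < (D * Z) ^ 2) :
    1 ≤ D ∧ D * Z ^ 6 ≤ A ^ 2 ∧ D * Z ≤ A := by
  have hZ0 : 0 < Z := one_pos.trans_le hZ
  have hD1 : 1 ≤ D := by
    by_contra hcon
    have h3 : D * (D * Z ^ 2) ≤ 1 * (D * Z ^ 2) := by gcongr; exact (not_le.1 hcon).le
    nlinarith
  have hA0 : 0 < A := one_pos.trans_le hA
  have hZ3 : Z ^ 3 ≤ A := by
    have h3 : A * Z ^ 7 ≤ A * A ^ 2 := by
      calc A * Z ^ 7 ≤ (D * Z) ^ 2 * Z ^ 7 := by gcongr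
        _ = D ^ 2 * Z ^ 9 := by ring
        _ ≤ A ^ 3 := h9
        _ = A * A ^ 2 := by ring
    have h4 : (Z ^ 3) ^ 2 ≤ A ^ 2 := by
      rw [← pow_mul]
      exact (pow_le_pow_right₀ hZ (by norm_num)).trans (le_of_mul_le_mul_left h3 hA0)
    exact (pow_le_pow_iff_left₀ (by positivity) hA0.le two_ne_zero).1 h4
  refine ⟨hD1, (pow_le_pow_iff_left₀ (by positivity) (by positivity) two_ne_zero).1 ?_,
    le_trans (by gcongr; exact le_self_pow₀ hZ two_ne_zero) h2⟩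
  calc (D * Z ^ 6) ^ 2 = D ^ 2 * Z ^ 9 * Z ^ 3 := by ring
    _ ≤ A ^ 3 * A := by gcongr
    _ = (A ^ 2) ^ 2 := by ring

theorem T2SA.params {R u δ ε : ℝ} (hR : 1 ≤ R) (hδ : 0 < δ) (hδu : δ ≤ u) (hu1 : u ≤ 1 / 9)
    (huε : 24 * u ≤ ε) : ∃ R' : ℝ, 8 * R ≤ R' ∧ R ^ 2 * (R' ^ δ) ^ 3 ≤ R' ∧
      (R' ^ u) ^ 8 ≤ 512 * R ^ ε := by
  have hR0 : 0 < R := one_pos.trans_le hR
  obtain ⟨R', hR'⟩ : ∃ R' : ℝ, R' = (8 * R) ^ 3 := ⟨_, rfl⟩
  have h8R : 8 * R ≤ R' := hR' ▸ le_self_pow₀ (by linarith) three_ne_zero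
  have hR'1 : 1 ≤ R' := by linarith
  have hR'0 : 0 < R' := one_pos.trans_le hR'1
  have hx8 : (R' ^ δ) ^ 3 ≤ 8 * R := by
    rw [← Real.rpow_natCast, ← Real.rpow_mul hR'0.le]
    calc R' ^ (δ * (3 : ℕ)) ≤ R' ^ ((3 : ℕ) : ℝ)⁻¹ :=
          Real.rpow_le_rpow_of_exponent_le hR'1 (by push_cast; linarith)
      _ = 8 * R := by rw [hR', Real.pow_rpow_inv_natCast (by positivity) three_ne_zero]
  refine ⟨R', h8R, ?_, ?_⟩
  · calc R ^ 2 * (R' ^ δ) ^ 3 ≤ R ^ 2 * (8 * R) := by gcongr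
      _ = 8 * R ^ 3 := by ring
      _ ≤ 512 * R ^ 3 := by gcongr; norm_num
      _ = R' := by rw [hR']; ring
  · have e : (R' ^ u) ^ 8 = 512 ^ (8 * u) * R ^ (24 * u) := by
      rw [← Real.rpow_natCast, ← Real.rpow_mul hR'0.le, hR', mul_pow,
        Real.mul_rpow (by norm_num) (by positivity), ← Real.rpow_natCast R, ← Real.rpow_mul hR0.le]
      congr 2 <;> push_cast <;> ring
    rw [e]
    gcongr
    · exact Real.rpow_le_self_of_one_le (by norm_num) (by linarith)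

theorem T2SA.sum_sq_le {A N c : ℝ} (hA : 0 ≤ A) (hAN : A ≤ N) {f g : O → ℂ}
    (h : ∀ a, ‖g a - f a‖ ≤ c) :
    ∑ a ∈ rows A, ‖f a‖ ^ 2 ≤ 2 * (∑ a ∈ rows A, ‖g a‖ ^ 2) + 14 * c ^ 2 * N := by
  have h3 : ∀ a ∈ rows A, ‖f a‖ ^ 2 ≤ 2 * ‖g a‖ ^ 2 + 2 * c ^ 2 := by
    intro a _
    have h4 : ‖f a‖ ≤ ‖g a‖ + c := by
      have := norm_sub_norm_le (f a) (g a)
      rw [norm_sub_rev] at this
      linarith [h a]
    refine (pow_le_pow_left₀ (norm_nonneg _) h4 2).trans ?_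
    nlinarith [sq_nonneg (‖g a‖ - c)]
  refine (Finset.sum_le_sum h3).trans ?_
  rw [Finset.sum_add_distrib, ← Finset.mul_sum, Finset.sum_const, nsmul_eq_mul]
  have h5 := (card_rows_le hA).trans (mul_le_mul_of_nonneg_left hAN (by norm_num))
  nlinarith [mul_le_mul_of_nonneg_right h5 (sq_nonneg c)]

theorem T2SA.FY {R q θ η u C : ℝ} (hR : 1 ≤ R) (hq : R ^ u ≤ q) (hq1 : 1 ≤ q) (hC : 0 ≤ C) :
    C * R ^ (θ + u) ≤ C * (q * R ^ max θ (100 * η)) ∧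
      (8 * R ^ η) ^ 100 ≤ 8 ^ 100 * (q * R ^ max θ (100 * η)) := by
  have hR0 : 0 < R := one_pos.trans_le hR
  constructor
  · rw [Real.rpow_add hR0, mul_comm (R ^ θ)]
    gcongr
    exact le_max_left _ _
  · rw [mul_pow, ← Real.rpow_natCast (R ^ η), ← Real.rpow_mul hR0.le]
    gcongr
    refine le_trans ?_ (le_mul_of_one_le_left (by positivity) hq1)
    exact Real.rpow_le_rpow_of_exponent_le hR (by push_cast; linarith [le_max_right θ (100 * η)])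

/-- **Induction step.**  `(D Z)² ≤ A`: `im_leaf`.  Otherwise `D > 1` and `D Z⁶ ≤ A²`
(`A Z⁷ ≤ D² Z⁹ ≤ A³`, so `Z³ ≤ A`); `Ctx` holds with `R' = (8 R)³`, `Y = 8 R^η`, `Xm = R^{l-η}`,
`F = C R^{θ+ε'}` (`IM.pb`); `dp` with `R'`, `lam' = 1`, `α = al …`, `E1_le`, `E2_le`, `nsq_le`,
`nsq1_le`, `al_trunc`. -/
theorem IM.step {M : O} (hM : Adm M) {J : ℕ} {l θ η ε : ℝ} (h : IM M J (l - η) θ) (hθ : 0 ≤ θ)
    (hη : 0 < η) (hη1 : η ≤ 1) (hε : 0 < ε) : IM M J l (max θ (100 * η) + ε) := by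
  have := finite_chr hM.1
  have := Fintype.ofFinite (Chr M)
  obtain ⟨u, hu, hu1, huε⟩ : ∃ u : ℝ, 0 < u ∧ u ≤ 1 / 9 ∧ 24 * u ≤ ε :=
    ⟨min (1 / 9) (ε / 24), by positivity, min_le_left _ _,
      by linarith [min_le_right (1 / 9) (ε / 24)]⟩
  obtain ⟨Cl, hCl, Hl⟩ := im_leaf hM hε
  obtain ⟨Cp, J₀, hCp, Hp⟩ := h.pb hM hθ hu
  obtain ⟨ε₁, hε₁, H1⟩ := E1_le hM J J₀ hu
  obtain ⟨ε₂, hε₂, H2⟩ := E2_le hM J J₀ hu
  obtain ⟨δ, hδ, hδu, hδ1, hδ2⟩ : ∃ δ : ℝ, 0 < δ ∧ δ ≤ u ∧ δ ≤ ε₁ ∧ δ ≤ ε₂ :=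
    ⟨min u (min ε₁ ε₂), by positivity, min_le_left _ _,
      (min_le_right _ _).trans (min_le_left _ _), (min_le_right _ _).trans (min_le_right _ _)⟩
  obtain ⟨C₁, J₁, hC₁, H1⟩ := H1 δ hδ hδ1
  obtain ⟨C₂, hC₂, H2⟩ := H2 δ hδ hδ2
  obtain ⟨Cd, hCd, Hd⟩ := dp hM hδ (J₀ + J₁)
  obtain ⟨Ca, hCa, Ha⟩ := norm_al_le hM hδ
  obtain ⟨Cn, hCn, Hn⟩ := nsq1_le hδ
  obtain ⟨Ct, hCt, Ht⟩ := al_trunc hM (1 / δ)
  refine ⟨Cl + 512 * (2 * Cd * (7 * Ca ^ 2 + Cn * Ca ^ 2 + C₁ * (8 ^ 100 + Cp) + C₂ * Cp) +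
    14 * Ct ^ 2), J₀ + J₁, by positivity,
    fun R A D τ ν Ps P I c hs hd hJ hc hA hAR hZR hD h1 h2 h9 => ?_⟩
  have hR := hA.trans hAR
  have hR0 : 0 < R := one_pos.trans_le hR
  have hZ := hs.one_le_ZI
  have hτ : 1 ≤ 1 + |τ| := le_add_of_nonneg_right (abs_nonneg τ)
  have hT : 1 ≤ (1 + |τ|) ^ (J₀ + J₁) := one_le_pow₀ hτ
  have hm : 0 ≤ max θ (100 * η) := le_max_of_le_left hθ
  have hW : 1 ≤ R ^ max θ (100 * η) := Real.one_le_rpow hR hm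
  set Z := ZI P I with hZdef
  have hN : 0 ≤ A * D * Z := by positivity
  rw [Real.rpow_add hR0]
  set W := R ^ max θ (100 * η) with hWdef
  set T := (1 + |τ|) ^ (J₀ + J₁) with hTdef
  set K := 2 * Cd * (7 * Ca ^ 2 + Cn * Ca ^ 2 + C₁ * (8 ^ 100 + Cp) + C₂ * Cp) + 14 * Ct ^ 2
    with hK
  have hK0 : 0 ≤ K := by positivity
  rcases le_or_gt ((D * Z) ^ 2) A with hleaf | hbig
  · refine (Hl R A D Z τ ν _ _ hs.marks (norm_cm_le hc) hA hAR hD hZ hleaf).trans ?_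
    calc Cl * R ^ ε * (A * D * Z) = Cl * (1 * R ^ ε) * 1 * (A * D * Z) := by ring
      _ ≤ _ := by gcongr; linarith
  -- the main case
  have hZ0 : 0 < Z := one_pos.trans_le hZ
  have hA0 : 0 < A := one_pos.trans_le hA
  obtain ⟨hD1, h6, hDZA⟩ := T2SA.big hA hD hZ h2 h9 hbig
  have hDZ : D * Z ≤ R := hDZA.trans hAR
  have hDZ1 : 1 ≤ D * Z := one_le_mul_of_one_le_of_one_le hD1 hZ
  obtain ⟨R', h8R, hx8, hq8⟩ := T2SA.params hR hδ hδu hu1 huε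
  have hRR' : R ≤ R' := (le_mul_of_one_le_left hR0.le (by norm_num)).trans h8R
  have hR'1 : 1 ≤ R' := hR.trans hRR'
  have hR'0 : 0 < R' := one_pos.trans_le hR'1
  have hx1 : 1 ≤ R' ^ δ := Real.one_le_rpow hR'1 hδ.le
  have hxq : R' ^ δ ≤ R' ^ u := Real.rpow_le_rpow_of_exponent_le hR'1 hδu
  have hq1 : 1 ≤ R' ^ u := hx1.trans hxq
  have hx3 : R' ^ (3 * δ) = (R' ^ δ) ^ 3 := by
    rw [mul_comm, Real.rpow_mul hR'0.le, Real.rpow_ofNat]
  obtain ⟨L, hL⟩ : ∃ L : ℝ, L = D * R' ^ δ * Z := ⟨_, rfl⟩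
  have hLc : (D * R' ^ δ * Z) ^ 2 * R' ^ δ ≤ R' := by
    calc (D * R' ^ δ * Z) ^ 2 * R' ^ δ = (D * Z) ^ 2 * (R' ^ δ) ^ 3 := by ring
      _ ≤ R ^ 2 * (R' ^ δ) ^ 3 := by gcongr
      _ ≤ R' := hx8
  have hL1 : 1 ≤ L := by
    rw [hL, mul_right_comm]; exact one_le_mul_of_one_le_of_one_le hDZ1 hx1
  have hL0 : 0 ≤ L := zero_le_one.trans hL1
  have hLR : L ≤ R' := by
    rw [← hL] at hLc
    exact ((le_self_pow₀ hL1 two_ne_zero).trans (le_mul_of_one_le_right (by positivity) hx1)).trans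
      hLc
  have hRη : 1 ≤ R ^ η := Real.one_le_rpow hR hη.le
  have hRη' : R ^ η ≤ R := Real.rpow_le_self_of_one_le hR hη1
  have hF1 : 1 ≤ Cp * R ^ (θ + u) :=
    one_le_mul_of_one_le_of_one_le hCp (Real.one_le_rpow hR (by positivity))
  have hX : 8 * (D * Z) ≤ R ^ (l - η) * (8 * R ^ η) := by
    rw [mul_left_comm (R ^ (l - η)), ← Real.rpow_add hR0, sub_add_cancel]
    exact mul_le_mul_of_nonneg_left h1 (by norm_num)
  have ctx : Ctx M J J₀ δ R' A D (8 * R ^ η) (R ^ (l - η)) (Cp * R ^ (θ + u)) Ps P I :=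
    ⟨hs, hd, hJ, hA, hAR.trans hRR', hD1, hLc, le_mul_of_one_le_right (by norm_num) hRη,
      (mul_le_mul_of_nonneg_left hRη' (by norm_num)).trans h8R, h2, h9, h6, hX, hF1,
      Hp R A _ Ps P I hs hd hJ hAR hZR le_rfl⟩
  have hCp0 : 0 ≤ Cp := zero_le_one.trans hCp
  obtain ⟨hFle, hYle⟩ := T2SA.FY (θ := θ) (η := η) hR (Real.rpow_le_rpow hR0.le hRR' hu.le) hq1 hCp0
  set α := al ν D (R' ^ δ) (τ * Complex.I) (Zs Ps I) (cm c) with hα
  have hsre : |((τ : ℂ) * Complex.I).re| ≤ 3 := by simp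
  have hpow : ∀ (y : ℝ) (j : ℕ), j ≤ J₀ + J₁ → (1 + |y|) ^ j ≤ (1 + |y|) ^ (J₀ + J₁) :=
    fun y j hj => pow_le_pow_right₀ (le_add_of_nonneg_right (abs_nonneg y)) hj
  have key := Hd R' A L 1 (8 * R ^ η)
    (C₁ * R' ^ u * ((8 * R ^ η) ^ 100 + Cp * R ^ (θ + u)) * T * (A * D * Z))
    (C₂ * R' ^ u * (Cp * R ^ (θ + u)) * T * (A * D * Z)) α hA (hAR.trans hRR') hL1 hLR le_rfl hR'1
    (hδu.trans (hu1.trans (by norm_num)))
    (fun ν' s a1 a2 => (H1 R' A D _ _ _ τ ν Ps P I c ctx hc L hL ν' s a1 a2).trans (by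
      have := hpow τ J₁ (Nat.le_add_left _ _)
      have := hpow s.im J₁ (Nat.le_add_left _ _)
      gcongr))
    (fun ν' s a1 a2 => (H2 R' A D _ _ _ τ ν Ps P I c ctx hc L hL ν' s a1 a2).trans (by
      have := hpow τ J₀ (Nat.le_add_right _ _)
      have := hpow s.im J₀ (Nat.le_add_right _ _)
      gcongr))
  rw [hx3, one_mul, one_mul] at key
  have hb : ∀ n ∈ sp M L, ‖α n‖ ≤ Ca * R' ^ δ := by
    intro n hn
    rw [mem_sp hL0] at hn
    exact (Ha ν D _ Z _ _ _ n hs.marks (norm_cm_le hc) hsre hn.1.1.ne_zero).trans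
      (mul_le_mul_of_nonneg_left (Real.rpow_le_rpow (Nat.cast_nonneg _) (hn.2.trans hLR) hδ.le)
        hCa.le)
  have n0 : A * nsq M L α ≤ 7 * Ca ^ 2 * (R' ^ δ) ^ 3 * (A * D * Z) := by
    have := nsq_le hL0 hb fun n hn _ => ((mem_sp hL0).1 hn).2
    refine (mul_le_mul_of_nonneg_left this hA0.le).trans_eq ?_
    rw [hL]; ring
  have n1 : L * nsq1 M L α ≤ Cn * Ca ^ 2 * (R' ^ δ) ^ 5 * (A * D * Z) := by
    have h3 := Hn M L _ α hL1 hb
    have h4 : D * Z ^ 2 * D ≤ A * D * Z :=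
      (mul_le_mul_of_nonneg_right h2 hD.le).trans (le_mul_of_one_le_right (by positivity) hZ)
    have h5 : L ^ δ ≤ R' ^ δ := Real.rpow_le_rpow hL0 hLR hδ.le
    calc L * nsq1 M L α ≤ L * (Cn * L ^ δ * L * (Ca * R' ^ δ) ^ 2) :=
          mul_le_mul_of_nonneg_left h3 hL0
      _ ≤ L * (Cn * R' ^ δ * L * (Ca * R' ^ δ) ^ 2) := by gcongr
      _ = Cn * Ca ^ 2 * (R' ^ δ) ^ 5 * (D * Z ^ 2 * D) := by rw [hL]; ring
      _ ≤ _ := mul_le_mul_of_nonneg_left h4 (by positivity)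
  have htr : ∀ a, ‖Sr M L α a - MQ ν a D (τ * Complex.I) (Zs Ps I) (cm c)‖ ≤ Ct := by
    intro a
    refine (Ht ν a D _ L Z _ _ _ hs.marks (norm_cm_le hc) hD hx1 hZ0.le hsre hL.ge).trans ?_
    rw [← Real.rpow_mul hR'0.le, mul_neg, mul_one_div_cancel hδ.ne', Real.rpow_neg_one,
      mul_assoc Ct, mul_assoc Ct, ← div_eq_mul_inv]
    refine mul_le_of_le_one_right hCt.le ((div_le_one hR'0).2 ?_)
    rw [mul_comm]; exact hDZ.trans hRR'
  have hS := T2SA.sum_sq_le hA0.le (show A ≤ A * D * Z by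
    rw [mul_assoc]; exact le_mul_of_one_le_right hA0.le hDZ1) htr
  have n2 : C₁ * R' ^ u * ((8 * R ^ η) ^ 100 + Cp * R ^ (θ + u)) * T * (A * D * Z) ≤
      C₁ * (8 ^ 100 + Cp) * (R' ^ u) ^ 2 * W * T * (A * D * Z) := by
    calc _ ≤ C₁ * R' ^ u * (8 ^ 100 * (R' ^ u * W) + Cp * (R' ^ u * W)) * T * (A * D * Z) := by
          gcongr
      _ = _ := by ring
  have n3 : C₂ * R' ^ u * (Cp * R ^ (θ + u)) * T * (A * D * Z) ≤
      C₂ * Cp * (R' ^ u) ^ 2 * W * T * (A * D * Z) := by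
    calc _ ≤ C₂ * R' ^ u * (Cp * (R' ^ u * W)) * T * (A * D * Z) := by gcongr
      _ = _ := by ring
  refine (T2SA.final hx1 hxq hW hT hN hCd.le
    (by positivity) (by positivity) (by positivity) (by positivity) (by positivity)
    (hS.trans (add_le_add_left (mul_le_mul_of_nonneg_left key two_pos.le) _)) n0 n1 n2 n3).trans ?_
  calc K * ((R' ^ u) ^ 8 * W * T * (A * D * Z)) ≤ K * (512 * R ^ ε * W * T * (A * D * Z)) := by
        gcongr
    _ = (0 + 512 * K) * (W * R ^ ε) * T * (A * D * Z) := by ring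
    _ ≤ _ := by gcongr

theorem IM_one {M : O} (hM : Adm M) (J : ℕ) {ε : ℝ} (hε : 0 < ε) : IM M J 1 ε := by
  obtain ⟨n, hn⟩ := exists_nat_ge (max 1 (200 / ε))
  rw [max_le_iff] at hn
  have hn0 : (0 : ℝ) < n := one_pos.trans_le hn.1
  have hη : (0 : ℝ) < 1 / n := by positivity
  have hε₁ : 0 < ε / (2 * (n + 1)) := by positivity
  have key : ∀ k : ℕ, IM M J (k * (1 / n)) (100 * (1 / n) + (k + 1) * (ε / (2 * (n + 1)))) := by
    intro k
    induction k with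
    | zero => exact (IM_zero hM J hε₁).mono (by simp) (by push_cast; linarith)
    | succ k ih =>
      have h1 : IM M J (((k + 1 : ℕ) : ℝ) * (1 / n) - 1 / n)
          (100 * (1 / n) + (k + 1) * (ε / (2 * (n + 1)))) :=
        ih.mono (le_of_eq (by push_cast; ring)) le_rfl
      refine (h1.step hM (by positivity) hη ((div_le_one hn0).2 hn.1) hε₁).mono le_rfl ?_
      rw [max_eq_left (le_add_of_nonneg_right (by positivity))]
      exact le_of_eq (by push_cast; ring)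
  refine (key n).mono (le_of_eq (by field_simp)) ?_
  have h1 : ((n : ℝ) + 1) * (ε / (2 * (n + 1))) = ε / 2 := by field_simp
  have h2 : 100 * (1 / (n : ℝ)) ≤ ε / 2 := by
    have := (div_le_iff₀ hε).1 hn.2
    rw [mul_one_div, div_le_iff₀ hn0]
    linarith
  linarith

/-- Dyadic slots.  For a mark `z`, `Mob ν a D = ∑_{t ∣ z} μ(t) rc(t) Mob ν (a z⁶) (D/N t)`
(iterate `Mob_punct`); `Slots.slot_Zs`, `Slots.sum_pdiv` give
`Mob · ∏ slot = ∑_{I'} ∑_{t ∈ Zs (I ∖ I')} (…) MQ ν (a t⁶) (D/N t) (Zs I')`; `MQ_punct`,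
`Marks.sum_rpow_le` (`σ = 1/2`), `msup_le_Psi` (`ν' = 1`, `X = D Z`) and `IM.pb` for `IM_one` with
`8 A` rows and `R' = 8 R`. -/
theorem mob2_dy {M : O} (hM : Adm M) (J : ℕ) {ε : ℝ} (hε : 0 < ε) : ∃ (C : ℝ) (J₀ : ℕ), 0 < C ∧
    ∀ (R A D τ : ℝ) (ν : Chr M) (Ps : ℕ → Finset O) (P : ℕ → ℝ) (I : Finset ℕ) (c : O → ℂ),
      Slots M Ps P I → Dy Ps P I → I.card ≤ J → (∀ p, ‖c p‖ ≤ 1) → 1 ≤ A → A ≤ R → ZI P I ≤ R →
      0 < D → D * ZI P I ^ 2 ≤ A → D ^ 2 * ZI P I ^ 9 ≤ A ^ 3 →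
      ∑ a ∈ rows A, ‖Mob ν a D (τ * Complex.I)‖ ^ 2 * ∏ j ∈ I, ‖slot (Ps j) c a‖ ^ 2 ≤
        C * R ^ ε * (1 + |τ|) ^ J₀ * (A * D * ZI P I) :=   T2B.mob2_dy hM J hε (IM_one hM J (by positivity))

/-- General slots: cut slot `j` into the dyadic pieces `P j / 2^{i+1} < N p ≤ P j / 2^i`
(`≪ log R` non-empty pieces; Cauchy–Schwarz, `Finset.prod_sum`/`Finset.pi`, or induction on the
number of non-dyadic slots).  If `ZI P I > R` then `D Z < 1` and everything is trivial. -/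
theorem mob2 {M : O} (hM : Adm M) (J : ℕ) {ε : ℝ} (hε : 0 < ε) : ∃ (C : ℝ) (J₀ : ℕ), 0 < C ∧
    ∀ (R A D τ : ℝ) (ν : Chr M) (Ps : ℕ → Finset O) (P : ℕ → ℝ) (I : Finset ℕ) (c : O → ℂ),
      Slots M Ps P I → I.card ≤ J → (∀ p, ‖c p‖ ≤ 1) → 1 ≤ R → A ≤ R →
      0 < D → D * ZI P I ^ 2 ≤ A → D ^ 2 * ZI P I ^ 9 ≤ A ^ 3 →
      ∑ a ∈ rows A, ‖Mob ν a D (τ * Complex.I)‖ ^ 2 * ∏ j ∈ I, ‖slot (Ps j) c a‖ ^ 2 ≤
        C * R ^ ε * (1 + |τ|) ^ J₀ * (A * D * ZI P I) := by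
  obtain ⟨C₁, hC₁, h₁⟩ := T2C.norm_Mob_le hM
  obtain ⟨C₂, J₀, hC₂, h₂⟩ := mob2_dy hM J (half_pos hε)
  obtain ⟨C₃, hC₃, h₃⟩ := T2C.log_pow_le (2 * J) (half_pos hε)
  refine ⟨7 * C₁ ^ 2 * 49 ^ J + C₃ * C₂, J₀, by positivity, ?_⟩
  intro R A D τ ν Ps P I c hS hI hc hR hAR hD h1 h2
  have hZ : 1 ≤ ZI P I := Finset.one_le_prod fun j hj => hS.one_le j hj
  have hA : 0 < A := lt_of_lt_of_le (by positivity) h1
  have hR0 : 0 < R := by linarith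
  have hτ : 1 ≤ (1 + |τ|) ^ J₀ := one_le_pow₀ (by linarith [abs_nonneg τ])
  have hRε : 1 ≤ R ^ ε := Real.one_le_rpow hR hε.le
  have hADZ : 0 < A * D * ZI P I := by positivity
  rcases le_or_gt (D * ZI P I) 1 with hDZ | hDZ
  · have h3 : ∀ a ∈ rows A, ‖Mob ν a D (τ * Complex.I)‖ ^ 2 * ∏ j ∈ I, ‖slot (Ps j) c a‖ ^ 2 ≤
        C₁ ^ 2 * 49 ^ J * (D * ZI P I) := by
      intro a _
      have h4 : ∏ j ∈ I, ‖slot (Ps j) c a‖ ^ 2 ≤ ∏ j ∈ I, (49 * P j ^ 2) := by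
        refine Finset.prod_le_prod (fun _ _ => by positivity) fun j hj => ?_
        have := T2C.norm_slot_le (zero_le_one.trans (hS.one_le j hj))
          (fun p hp => ⟨(hS.prime j hj p hp).1, (hS.prime j hj p hp).2.2.2⟩) hc a
        refine (pow_le_pow_left₀ (norm_nonneg _) this 2).trans (le_of_eq (by ring))
      rw [Finset.prod_mul_distrib, Finset.prod_const, Finset.prod_pow I 2 P] at h4
      have h5 : (49 : ℝ) ^ I.card * ZI P I ^ 2 ≤ 49 ^ J * ZI P I ^ 2 :=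
        mul_le_mul_of_nonneg_right (pow_le_pow_right₀ (by norm_num) hI) (by positivity)
      have h6 := mul_le_mul (pow_le_pow_left₀ (norm_nonneg _) (h₁ ν a D τ hD) 2) (h4.trans h5)
        (Finset.prod_nonneg fun _ _ => by positivity) (by positivity)
      refine h6.trans ?_
      have h7 : (C₁ * D) ^ 2 * (49 ^ J * ZI P I ^ 2) =
          C₁ ^ 2 * 49 ^ J * (D * ZI P I) * (D * ZI P I) := by ring
      rw [h7]
      exact mul_le_of_le_one_right (by positivity) hDZ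
    refine (Finset.sum_le_card_nsmul _ _ _ h3).trans ?_
    rw [nsmul_eq_mul]
    refine (mul_le_mul_of_nonneg_right (card_rows_le hA.le) (by positivity)).trans ?_
    calc 7 * A * (C₁ ^ 2 * 49 ^ J * (D * ZI P I))
        = 7 * C₁ ^ 2 * 49 ^ J * 1 * 1 * (A * D * ZI P I) := by ring
      _ ≤ _ := by gcongr; exact le_add_of_nonneg_right (by positivity)
  · have hZA : ZI P I ≤ A := by nlinarith
    have hZR : ZI P I ≤ R := hZA.trans hAR
    have hPZ : ∀ j ∈ I, P j ≤ ZI P I := by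
      intro j hj
      rw [ZI, ← Finset.mul_prod_erase I P hj]
      exact le_mul_of_one_le_right (zero_le_one.trans (hS.one_le j hj))
        (Finset.one_le_prod fun i hi => hS.one_le i (Finset.mem_of_mem_erase hi))
    set L : ℕ := Nat.log 2 ⌊R⌋₊ + 1 with hL
    have key : ∀ g : ℕ → ℕ, ∑ a ∈ rows A, ‖Mob ν a D (τ * Complex.I)‖ ^ 2 *
        ∏ j ∈ I, (L : ℝ) * ‖slot ((Ps j).filter fun p => Nat.log 2 (nm p) = g j) c a‖ ^ 2 ≤
        (L : ℝ) ^ I.card * (C₂ * R ^ (ε / 2) * (1 + |τ|) ^ J₀ * (A * D * ZI P I)) := by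
      intro g
      set P' : ℕ → ℝ := fun j => min (P j) (2 ^ (g j + 1)) with hP'
      have hP1 : ∀ j ∈ I, 1 ≤ P' j := fun j hj =>
        le_min (hS.one_le j hj) (one_le_pow₀ one_le_two)
      have hZ1 : 1 ≤ ZI P' I := Finset.one_le_prod hP1
      have hZZ : ZI P' I ≤ ZI P I :=
        Finset.prod_le_prod (fun j hj => zero_le_one.trans (hP1 j hj)) fun j _ => min_le_left _ _
      have h3 := h₂ R A D τ ν (fun j => (Ps j).filter fun p => Nat.log 2 (nm p) = g j) P' I c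
        ⟨fun j hj p hp => by
          obtain ⟨hp1, hp2⟩ := Finset.mem_filter.1 hp
          obtain ⟨a1, a2, a3, a4⟩ := hS.prime j hj p hp1
          refine ⟨a1, a2, a3, le_min a4 ?_⟩
          have := Nat.lt_pow_succ_log_self one_lt_two (nm p)
          rw [hp2] at this
          exact_mod_cast this.le, hP1, fun i hi j hj hij =>
          Finset.disjoint_filter_filter (hS.disj i hi j hj hij)⟩
        (fun j hj p hp => by
          obtain ⟨hp1, hp2⟩ := Finset.mem_filter.1 hp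
          have := Nat.pow_log_le_self 2
            (show nm p ≠ 0 from fun h => (hS.prime j hj p hp1).1.ne_zero (nm_eq_zero.1 h))
          rw [hp2] at this
          have h4 : (2 : ℝ) ^ g j ≤ nr p := by exact_mod_cast this
          refine (min_le_right _ _).trans ?_
          rw [pow_succ]
          linarith) hI hc (hZ.trans hZA) hAR (hZZ.trans hZR) hD
        (le_trans (by gcongr) h1) (le_trans (by gcongr) h2)
      simp only [Finset.prod_mul_distrib, Finset.prod_const, mul_left_comm _ ((L : ℝ) ^ I.card),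
        ← Finset.mul_sum]
      refine mul_le_mul_of_nonneg_left (h3.trans ?_) (by positivity)
      gcongr
    have h4 := T2C.prod_sum_bound (rows A) I L (fun a => ‖Mob ν a D (τ * Complex.I)‖ ^ 2)
      (fun j i a => (L : ℝ) * ‖slot ((Ps j).filter fun p => Nat.log 2 (nm p) = i) c a‖ ^ 2) key
    refine le_trans (Finset.sum_le_sum fun a _ => mul_le_mul_of_nonneg_left
      (Finset.prod_le_prod (fun _ _ => by positivity) fun j hj => T2C.sq_slot_le (R := R)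
        (fun p hp => (hS.prime j hj p hp).2.2.2.trans ((hPZ j hj).trans hZR)) c a)
      (by positivity)) (h4.trans ?_)
    have h5 := h₃ R hR (I.card + I.card) (by omega)
    rw [← mul_assoc, ← pow_add]
    have h6 : R ^ ε = R ^ (ε / 2) * R ^ (ε / 2) := by rw [← Real.rpow_add hR0, add_halves]
    calc (L : ℝ) ^ (I.card + I.card) * (C₂ * R ^ (ε / 2) * (1 + |τ|) ^ J₀ * (A * D * ZI P I))
        ≤ C₃ * R ^ (ε / 2) * (C₂ * R ^ (ε / 2) * (1 + |τ|) ^ J₀ * (A * D * ZI P I)) :=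
          mul_le_mul_of_nonneg_right h5 (by positivity)
      _ = C₃ * C₂ * R ^ ε * (1 + |τ|) ^ J₀ * (A * D * ZI P I) := by rw [h6]; ring
      _ ≤ _ := by gcongr; exact le_add_of_nonneg_left (by positivity)

end Crest.Agent.R17
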