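import Crest.Agent.PVc.R17.DP
import Crest.Agent.PVc.R17.Energy
import Crest.Agent.PVc.R17.LBasic
import Crest.Agent.PVc.R17.T2Step_Mg
import Crest.Agent.PVc.R17.M4Sup
import Crest.Agent.PVc.R17.Mom4AuxA
import Mathlib
import Crest.Agent.PVc.R17.PDefs

-- ▼ part PVc/R17/Inv
section

/-!
# Row 17, module M12: the marked inverse moment

`∑_{N a ≤ A} |Mob(a; D)|² ∏_i |slot_i(a)|² ≪ A D Z` for `D Z² ≤ A`, `D² Z⁹ ≤ A³`.

## Proof

*Reductions.*  Cut every slot into dyadic pieces (`(log R)^{K₀}` pieces, Cauchy), so `Ps i ⊆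
primesIn M (Z i)`.  `D ≤ 1` or `(D Z)² ≤ A`: `trivial_sieve`.  Let
`SQ(a; D, I, c, s) = ∑_{z = ∏ p_i} c(z) conj χ_z(a) ∑_{(b, z) = 1} μ(b) rc(b) Wc(N b/D, s)`
(the index `n = b z` is squarefree).  `Mob · slots` is a sum of `SQ`'s with the slots `p_i ∣ b`
frozen (`∑_{f} ‖SQ(D/N f, I ∖ I_f)‖ ≤ Z_f √(A D Z)/Z_f`); a puncture `(b z, u) = 1` is removed by
setting `c_i(p) = 0` for `p ∣ u` and by `SQ^{(u)}(D) = ∑_{j ∣ u^∞} rc(j) SQ(D/N j)` (Minkowski,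
`sum_smooth_le` with `σ = 1/2`); real parts of twists go into the scale (`Sm_shift`) and into `c_i`
(factor `≤ 2` per slot); row dependent scales: `sup_moment`.

*Induction* on `n` with `D Z ≤ Y^{n/2}`, `Y = R^{η'}`, `η' < η` small: statement `P(n)`:
`∀ ε ∃ C J, …` bound `C R^ε (1+|τ|)^J A D Z` for `SQ`.  (Order of choices: the final `ε`, then `J`
of `energy`, then `η' ≤ ε/(100 J)`, then the depth `n ≤ 2/η'`, then the loss per level.  Formally: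
prove by induction on `n`: `∀ ε' > 0, ∃ C J, bound C R^{ε₀ + ε'}` where `ε₀ = ε/2` is the loss at
the leaves.)  Truncate at `N n ≤ L = 2^{K₀} D Z R^{ε'}` (`SQ = Sr M L α + negligible`) and apply
`dp` with `lam' = 1`.

* `E₂` (children `h e`, `N(h e) > Y`, `e ∣ a`): `ext α (h e)` is a divisor-bounded sum of `SQ`'s with
  scale `D N(z_f)/N(h e)`, slots `I ∖ I_f` (`z_f ∣ h e` the frozen primes), puncture `h` (the
  puncture `e` is automatic as `e ∣ a`).  For a fixed row there are `≤ d(a)` choices of `e`; group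
  by the dyadic size of `N e`, `sup_moment`, induction hypothesis with `A` replaced by `c A`:
  `∑_h N e · A D Z/(N h N e) ≪ A D Z log`.
* `E₁` (`N(g t) ≤ Y`, so no slot prime divides `g t`): `mu_gam_five` turns `Sd` into
  `T^{sf}(k) = ∑_z c'(z) ∑_{m sqfree, z ∣ m} th(m) ν'(m) χ_m(k h₀) Wc(N m/(D' N z), s)`,
  `D' = D/N(g t)`, `h₀ = (e t²)⁵ (g t)⁶`, `ν' = ` characters from `Gf · ν` (`PerB.expand`).
  For `μ = m d³` write `1_{d = 1} = ∑_{e₃ ∣ d, N e₃ ≤ Y} μ(e₃) + κ(d)`, `κ(d) = ∑_{e₃ ∣ d, N e₃ > Y}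
  μ(e₃)` (supported on `N d > Y`, `|κ| ≤ d(d)`), and `th(m d³) = √(N e₃) conj α(e₃)³ th(m (d/e₃)³)`.
  - Leaves: `e₃` small gives `Tc` at scale `D'/N e₃³`; `energy` (dyadic pieces of `N z`) with
    `K ≤ L² R^{ε'} Y/A`; up to `Y^{O(J)} R^{O(ε')}` the bracket is `≤ D Z`, because `D Z ≤ A`,
    `K ≤ D` (`D Z² ≤ A`), and `Z⁴ ≤ A` or `D Z⁶ ≤ A²` (if `Z⁴ > A` and `(D Z)² > A` then
    `D² Z⁹ ≤ A³` gives `Z⁷ < A²`, `D Z⁶ ≤ A^{3/2} Z^{3/2} ≤ A²`).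
  - Large cubes: `d = y d₀`, `y` powerful, `d₀` squarefree coprime to `y`
    (`exists_sqfree_powerful`).  Minkowski over `y` in `ℓ²((g,e,t), k)`; drop `χ_y(k h₀)³`; freeze
    the slot primes dividing `y`; apply `gp` to the family `(g, e, t)` with `L_i = L/(N(g t) N y³)`,
    `K_i = N e (L/N g)² R^{ε'}/A`, `w_i = A N g N y/(N e L)`, `β d₀ m = κ(y d₀) ⋯`.  Diagonal:
    `≪ A L · L/N y² · log`.  Children: `w_i K_i/L_i = N t N y⁴ R^{ε'}`, rows `N a ≤ A/(N y⁶ N(e t²))`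
    twisted by `e t²`; put `w = ∏_{p ∣ d₀, p⁶ ∣ a} p`, `a = w⁶ a₁`, new row `a₁ e t²` of norm
    `≤ A/N(y w)⁶ ≤ A'' := A/N(y w)²`, puncture `g y w t'`; `(t, e, d₀, e')` are divisors of
    `w ·` row.  The child has `D'' ≤ D N(z_f)/N(g t y³ e' d₀³ t')`, and `(A'', D'', Z/Z_f)` satisfies
    both hypotheses since `w ∣ d₀` (this is why the hypothesis is `D² Z⁹ ≤ A³`), and
    `D'' Z'' ≤ c D Z/Y³`.  Sum: `N t N y⁴ ∑_w N w · A/N(y w)² · L/N(g t y³ t') ≪ A L/(N g N y N t')`,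
    and `∑_{y powerful} N y^{-1/2} ≪ R^ε` (`sum_powerful_le`).
-/

set_option autoImplicit false

noncomputable section

namespace Crest.Agent.R17

open scoped ComplexConjugate

/-- **Marked inverse moment.** -/
theorem inv_moment {M : O} (hM : Adm M) (K₀ : ℕ) {η ε : ℝ} (hη : 0 < η) (hε : 0 < ε) :
    ∃ (C : ℝ) (J : ℕ), 0 < C ∧ ∀ {ι : Type} (I : Finset ι) (Z : ι → ℝ) (Ps : ι → Finset O)
      (c : ι → O → ℂ) (R A D τ : ℝ) (ν : Chr M), 1 ≤ R → A ≤ R → 0 < D → I.card ≤ K₀ →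
      (∀ i ∈ I, 1 ≤ Z i ∧
        ∀ p ∈ Ps i, Prime p ∧ Primary p ∧ ¬ p ∣ M ∧ R ^ η ≤ nr p ∧ nr p ≤ Z i) →
      (I : Set ι).PairwiseDisjoint Ps → (∀ i p, ‖c i p‖ ≤ 1) →
      D * (∏ i ∈ I, Z i) ^ 2 ≤ A → D ^ 2 * (∏ i ∈ I, Z i) ^ 9 ≤ A ^ 3 →
      ∑ a ∈ rows A, ‖Mob ν a D (τ * Complex.I)‖ ^ 2 * ∏ i ∈ I, ‖slot (Ps i) (c i) a‖ ^ 2 ≤
        C * R ^ ε * (1 + |τ|) ^ J * (A * D * ∏ i ∈ I, Z i) := by
  classical
  have _ := hη
  obtain ⟨C, J, hC, h⟩ := mob2 hM K₀ hε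
  refine ⟨C, J, hC, ?_⟩
  intro α I Z Ps c R A D τ ν hR hAR hD hI hP hdisj hc h1 h2
  let f : I → ℕ := fun i => I.equivFin i
  have hf : Function.Injective f := Fin.val_injective.comp I.equivFin.injective
  let Ps' : ℕ → Finset O := Function.extend f (fun i => Ps i) fun _ => ∅
  let P' : ℕ → ℝ := Function.extend f (fun i => Z i) fun _ => 1
  have hPs' : ∀ i, Ps' (f i) = Ps i := fun i => hf.extend_apply _ _ i
  have hP' : ∀ i, P' (f i) = Z i := fun i => hf.extend_apply _ _ i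
  let I' : Finset ℕ := Finset.univ.map ⟨f, hf⟩
  have hmem : ∀ j ∈ I', ∃ i, f i = j := fun j hj => by
    obtain ⟨i, -, hi⟩ := Finset.mem_map.1 hj
    exact ⟨i, hi⟩
  have hprod : ∀ (G : ℕ → ℝ) (F : α → ℝ), (∀ i : I, G (f i) = F i) →
      ∏ j ∈ I', G j = ∏ i ∈ I, F i := by
    intro G F hGF
    rw [Finset.prod_map, ← Finset.prod_coe_sort I]
    exact Finset.prod_congr rfl fun i _ => hGF i
  let c' : O → ℂ := fun p => if h : ∃ i ∈ I, p ∈ Ps i then c h.choose p else 0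
  have hc' : ∀ i ∈ I, ∀ p ∈ Ps i, c' p = c i p := by
    intro i hi p hp
    have hex : ∃ i ∈ I, p ∈ Ps i := ⟨i, hi, hp⟩
    simp only [c', dif_pos hex]
    by_contra hne
    have hne' : hex.choose ≠ i := fun h => hne (by rw [h])
    exact Finset.disjoint_left.1 (hdisj hex.choose_spec.1 hi hne') hex.choose_spec.2 hp
  have hZ : ZI P' I' = ∏ i ∈ I, Z i := hprod _ _ hP'
  have h3 := h R A D τ ν Ps' P' I' c' ⟨fun j hj p hp => by
      obtain ⟨i, rfl⟩ := hmem j hj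
      rw [hPs'] at hp
      obtain ⟨a1, a2, a3, -, a5⟩ := (hP i i.2).2 p hp
      exact ⟨a1, a2, a1.irreducible.coprime_iff_not_dvd.2 a3, by rw [hP']; exact a5⟩,
    fun j hj => by
      obtain ⟨i, rfl⟩ := hmem j hj
      rw [hP']
      exact (hP i i.2).1,
    fun j hj j' hj' hne => by
      obtain ⟨i, rfl⟩ := hmem j hj
      obtain ⟨i', rfl⟩ := hmem j' hj'
      rw [hPs', hPs']
      exact hdisj i.2 i'.2 fun h => hne (by rw [Subtype.ext h])⟩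
    (by simpa [I'] using hI)
    (fun p => by
      simp only [c']
      split_ifs
      · exact hc _ _
      · simp) hR hAR hD (by rw [hZ]; exact h1) (by rw [hZ]; exact h2)
  rw [hZ] at h3
  refine le_trans (le_of_eq (Finset.sum_congr rfl fun a _ => ?_)) h3
  rw [hprod (fun j => ‖slot (Ps' j) c' a‖ ^ 2) (fun i => ‖slot (Ps i) (c i) a‖ ^ 2) fun i => ?_]
  simp only [hPs', slot]
  rw [Finset.sum_congr rfl fun p hp => by rw [hc' i i.2 p hp]]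

/-- **Long inverse moment** (amplification): for a prime `p ∤ M`,
`Mob ν a D = Mob ν (a p⁶) D - rc ν a p · Mob ν (a p⁶) (D/N p)`; sum over `p ∈ primesIn M P`,
`P = (D/A)^{1/6}` (`card_primesIn_ge`), `(a, p) ↦ a p⁶` has divisor-bounded multiplicity,
`inv_moment` with `I = ∅` and rows `≤ 64 D`, `sup_moment` for the scale `D/N p`. -/
theorem inv_long {M : O} (hM : Adm M) {ε : ℝ} (hε : 0 < ε) : ∃ (C : ℝ) (J : ℕ), 0 < C ∧
    ∀ (A D τ : ℝ) (ν : Chr M), 1 ≤ A → A ≤ D →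
      ∑ a ∈ rows A, ‖Mob ν a D (τ * Complex.I)‖ ^ 2 ≤
        C * D ^ ε * (1 + |τ|) ^ J * (D ^ 2 * (A / D) ^ (1 / 6 : ℝ)) := by
  refine InvL.long_of_moment hM (fun δ hδ => ?_) hε
  obtain ⟨C, J, hC, h⟩ := inv_moment hM 0 one_pos hδ
  refine ⟨C, J, hC, fun A D τ ν hA hD hDA => ?_⟩
  have h1 := h (ι := Unit) ∅ (fun _ => 1) (fun _ => ∅) (fun _ _ => 0) A A D τ ν hA le_rfl hD le_rfl
    (by simp) (by simp) (by simp) (by simpa using hDA) (by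
      rw [Finset.prod_empty, one_pow, mul_one]
      exact (pow_le_pow_left₀ hD.le hDA 2).trans (pow_le_pow_right₀ hA (by norm_num)))
  simpa using h1

end Crest.Agent.R17
end
end

-- ▼ part PVc/R17/Mom4AuxB
section

/-!
# Row 17, module M4: from the centred estimate to the fourth moment
-/

set_option autoImplicit false

noncomputable section

namespace Crest.Agent.R17.M4B

open scoped ComplexConjugate

/-- The statement of `cen_bound` with given constants. -/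
def Cen (M : O) (θ ε C : ℝ) (J : ℕ) : Prop :=
  ∀ (R A N₁ N₂ N₃ N₄ L₁ L₂ l Y τ : ℝ) (ν : Chr M) (κ : ℂ)
      (c₁ c₂ : O → ℂ), 1 ≤ A → A ≤ R → R⁻¹ ≤ N₁ → R⁻¹ ≤ N₂ → R⁻¹ ≤ N₃ → R⁻¹ ≤ N₄ → N₁ ≤ R →
      N₂ ≤ R → N₃ ≤ R → N₄ ≤ R → N₁ * N₂ = N₃ * N₄ → 1 ≤ L₂ → L₂ ≤ L₁ → L₁ ≤ R → 1 ≤ l → l ≤ A →
      1 ≤ Y → (κ = 0 ∧ N₁ * N₂ ≤ Y ∨ κ = 1 ∧ N₁ ≤ Y ∧ N₂ ≤ Y ∧ N₃ ≤ Y ∧ N₄ ≤ Y) →
      Supp M L₁ c₁ → Supp M L₂ c₂ → (∀ n, ‖c₁ n‖ ≤ 1) → (∀ n, ‖c₂ n‖ ≤ 1) →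
      ∑ a ∈ ball ⌊A⌋₊, ‖cenP ν a N₁ N₂ N₃ N₄ κ (τ * Complex.I)‖ ^ 2 *
          (‖slot (sp M L₁) c₁ a‖ ^ 2 * ‖slot (sp M L₂) c₂ a‖ ^ 2) ≤
        C * R ^ ε * (1 + |τ|) ^ J * (A * (N₁ * N₂) * (L₁ * L₂)) *
          (1 + l * (N₁ * N₂) * L₁ ^ 5 * L₂ ^ 2 / A + (A / l) ^ θ +
            Y * l ^ (5 / 6 : ℝ) * L₁ ^ 5 / A ^ (5 / 6 : ℝ))

/-- The statement of `step_bound` with given constants. -/
def Step (M : O) (θ ε C : ℝ) (J : ℕ) : Prop :=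
  ∀ (A N H L₁ L₂ l τ : ℝ) (ν : Chr M) (c₁ c₂ : O → ℂ), 1 ≤ A → 0 < N →
      1 ≤ H → N ≤ H * Real.sqrt A → 1 ≤ L₂ → L₂ ≤ L₁ → 1 ≤ l →
      l ^ (5 / 6 : ℝ) * L₁ ^ 5 ≤ A ^ (1 / 6 : ℝ) →
      Supp M L₁ c₁ → Supp M L₂ c₂ → (∀ n, ‖c₁ n‖ ≤ 1) → (∀ n, ‖c₂ n‖ ≤ 1) →
      ∑ a ∈ nex M A, ‖Pln ν a N (τ * Complex.I)‖ ^ 4 *
          (‖slot (sp M L₁) c₁ a‖ ^ 2 * ‖slot (sp M L₂) c₂ a‖ ^ 2) ≤
        C * A ^ ε * (H * (1 + |τ|)) ^ J * (A * N ^ 2 * (L₁ * L₂)) *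
          (1 + l * N ^ 2 * L₁ ^ 5 * L₂ ^ 2 / A + (A / l) ^ θ)

/-- The weight of a row. -/
def wt (M : O) (L₁ L₂ : ℝ) (c₁ c₂ : O → ℂ) (a : O) : ℝ :=
  ‖slot (sp M L₁) c₁ a‖ ^ 2 * ‖slot (sp M L₂) c₂ a‖ ^ 2

theorem wt_nonneg (M : O) (L₁ L₂ : ℝ) (c₁ c₂ : O → ℂ) (a : O) : 0 ≤ wt M L₁ L₂ c₁ c₂ a := by
  unfold wt; positivity

theorem card_ball {A : ℝ} (hA : 1 ≤ A) : ((ball ⌊A⌋₊).card : ℝ) ≤ 8 * A := by
  have h1 : ((ball ⌊A⌋₊).card : ℝ) ≤ 7 * ⌊A⌋₊ + 1 := by exact_mod_cast card_ball_le ⌊A⌋₊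
  have h2 := Nat.floor_le (show 0 ≤ A by linarith)
  linarith

theorem nex_subset (M : O) (A : ℝ) : nex M A ⊆ ball ⌊A⌋₊ := by
  classical
  unfold nex
  convert Finset.filter_subset _ _

theorem mem_nex {M a : O} {A : ℝ} (hA : 1 ≤ A) (h : a ∈ nex M A) : ¬ Exc M a ∧ nr a ≤ A := by
  classical
  have h1 := nex_subset M A h
  rw [mem_ball, Nat.le_floor_iff (by linarith)] at h1
  unfold nex at h
  exact ⟨(Finset.mem_filter.1 h).2, h1⟩

theorem card_nex (M : O) {A : ℝ} (hA : 1 ≤ A) : ((nex M A).card : ℝ) ≤ 8 * A :=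
  le_trans (by exact_mod_cast Finset.card_le_card (nex_subset M A)) (card_ball hA)

theorem norm_slot_le (M a : O) {L : ℝ} (hL : 1 ≤ L) {c : O → ℂ} (hc : ∀ n, ‖c n‖ ≤ 1) :
    ‖slot (sp M L) c a‖ ≤ 8 * L := by
  classical
  refine (norm_sum_le _ _).trans ((Finset.sum_le_card_nsmul _ _ 1 fun p _ => ?_).trans ?_)
  · rw [norm_mul, Complex.norm_conj]
    exact mul_le_one₀ (hc p) (norm_nonneg _) (norm_sym_le p a)
  · rw [nsmul_eq_mul, mul_one]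
    refine le_trans ?_ (card_ball hL)
    have : sp M L ⊆ ball ⌊L⌋₊ := by
      unfold sp
      convert Finset.filter_subset _ _
    exact_mod_cast Finset.card_le_card this

theorem sum_wt_le (M : O) {A L₁ L₂ : ℝ} (hA : 1 ≤ A) (h1 : 1 ≤ L₁) (h2 : 1 ≤ L₂) {c₁ c₂ : O → ℂ}
    (hc₁ : ∀ n, ‖c₁ n‖ ≤ 1) (hc₂ : ∀ n, ‖c₂ n‖ ≤ 1) :
    ∑ a ∈ nex M A, wt M L₁ L₂ c₁ c₂ a ≤ 32768 * A * (L₁ * L₂) ^ 2 := by
  refine (Finset.sum_le_card_nsmul _ _ ((8 * L₁) ^ 2 * (8 * L₂) ^ 2) fun a _ => ?_).trans ?_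
  · have := norm_slot_le M a h1 hc₁
    have := norm_slot_le M a h2 hc₂
    unfold wt
    gcongr
  · rw [nsmul_eq_mul]
    calc _ ≤ 8 * A * ((8 * L₁) ^ 2 * (8 * L₂) ^ 2) := by
          gcongr; exact card_nex M hA
      _ = _ := by ring

theorem logpow {η : ℝ} (hη : 0 < η) (n : ℕ) : ∃ C : ℝ, 0 < C ∧ ∀ R : ℝ, 1 ≤ R →
    (5 + Real.log R) ^ n ≤ C * R ^ η := by
  set s : ℝ := η / (n + 1) with hs
  have s0 : 0 < s := by positivity
  refine ⟨(5 + 1 / s) ^ n, by positivity, fun R hR => ?_⟩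
  have R0 : 0 < R := by linarith
  have h1 : 1 ≤ R ^ s := Real.one_le_rpow hR s0.le
  have h2 := Real.log_le_rpow_div R0.le s0
  have h3 := Real.log_nonneg hR
  calc (5 + Real.log R) ^ n ≤ ((5 + 1 / s) * R ^ s) ^ n := by
        gcongr
        rw [add_mul, one_div, ← div_eq_inv_mul]
        linarith
    _ = (5 + 1 / s) ^ n * R ^ (s * n) := by rw [mul_pow, Real.rpow_mul R0.le, Real.rpow_natCast]
    _ ≤ _ := by
        refine mul_le_mul_of_nonneg_left (Real.rpow_le_rpow_of_exponent_le hR ?_) (by positivity)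
        rw [hs, div_mul_eq_mul_div, div_le_iff₀ (by positivity)]
        nlinarith

theorem height_le {R τ : ℝ} (hR : 1 ≤ R) :
    |τ| + Real.log R + 4 ≤ (1 + |τ|) * (5 + Real.log R) := by
  nlinarith [Real.log_nonneg hR, abs_nonneg τ]

/-- Reflection of all the rows and the maximal inequality. -/
theorem refl_sum {M : O} (hM : Adm M) {η : ℝ} (hη : 0 < η) : ∃ C : ℝ, 0 < C ∧
    ∀ (A R R₂ N τ Y E : ℝ) (ν : Chr M) (ϖ : O → ℝ), 1 ≤ A → A ≤ R → R ≤ R₂ → R⁻¹ ≤ N → N ≤ R →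
      |τ| ≤ R → A * R ^ η * (1 + |τ|) ^ 2 / N ≤ Y → Y ≤ R₂ → 0 ≤ E → (∀ a, 0 ≤ ϖ a) →
      (∀ (ν' : Chr M) (N' τ' : ℝ), R₂⁻¹ / 8 ≤ N' → N' ≤ 8 * Y → |τ'| ≤ |τ| + Real.log R + 3 →
        ∑ a ∈ nex M A, ϖ a * ‖Pln ν' a N' (τ' * Complex.I)‖ ^ 4 ≤ E * N' ^ 2) →
      ∑ a ∈ nex M A, ϖ a * ‖Pln ν a N (τ * Complex.I)‖ ^ 4 ≤
        C * ((R ^ η) ^ 4 * R₂ ^ η * ((1 + |τ|) * (5 + Real.log R)) ^ 9 * E * N ^ 2 +
          ∑ a ∈ nex M A, ϖ a) := by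
  obtain ⟨C₁, hC₁, h₁⟩ := Pln_reflect hM hη 0
  obtain ⟨C₂, hC₂, h₂⟩ := sup_four hM hη
  refine ⟨8 * C₁ ^ 4 * (C₂ + 1), by positivity,
    fun A R R₂ N τ Y E ν ϖ hA hR hR₂ hN hN' hτ hY hY' hE hϖ hyp => ?_⟩
  have R1 : 1 ≤ R := hA.trans hR
  have R0 : 0 < R := by linarith
  have N0 : 0 < N := lt_of_lt_of_le (inv_pos.2 R0) hN
  have lR := Real.log_nonneg R1
  have : Nonempty (Chr M) := ⟨ν⟩
  have key : ∀ a ∈ nex M A, ∃ (ν' : Chr M) (y t : ℝ), (R₂⁻¹ ≤ y ∧ y ≤ Y ∧ |t| ≤ |τ| + Real.log R) ∧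
      ‖Pln ν a N (τ * Complex.I)‖ ^ 4 ≤ 8 * C₁ ^ 4 * ((R ^ η) ^ 4 * N ^ 2 *
        (‖Pln ν' a y (t * Complex.I)‖ ^ 4 / y ^ 2) + 1) := by
    intro a ha
    obtain ⟨a1, a2⟩ := mem_nex hA ha
    obtain ⟨ν', e, y, t, he, hc, hy, hy', ht, hb⟩ := h₁ R N τ ν a R1 a1 (a2.trans hR) hN hN' hτ
    have y0 : 0 < y := lt_of_lt_of_le (inv_pos.2 R0) hy
    refine ⟨ν', y, t, ⟨(inv_anti₀ R0 hR₂).trans hy, hy'.trans (le_trans ?_ hY), ht⟩, ?_⟩
    · have := hc.trans a2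
      gcongr
    · rw [neg_zero, Real.rpow_zero, mul_one] at hb
      have e1 : Real.sqrt (N / (e * y)) ^ 4 ≤ N ^ 2 / y ^ 2 := by
        rw [show 4 = 2 * 2 from rfl, pow_mul, Real.sq_sqrt (by positivity), ← div_pow]
        gcongr
        exact le_mul_of_one_le_left y0.le he
      set x := C₁ * R ^ η * Real.sqrt (N / (e * y)) * ‖Pln ν' a y (t * Complex.I)‖ with hx
      have x0 : 0 ≤ x := by positivity
      calc _ ≤ (x + C₁) ^ 4 := by gcongr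
        _ ≤ 8 * (x ^ 4 + C₁ ^ 4) := by
            have := add_pow_le x0 hC₁.le 4
            norm_num at this
            exact this
        _ = 8 * C₁ ^ 4 * ((R ^ η) ^ 4 * Real.sqrt (N / (e * y)) ^ 4 *
              ‖Pln ν' a y (t * Complex.I)‖ ^ 4 + 1) := by rw [hx]; ring
        _ ≤ 8 * C₁ ^ 4 * ((R ^ η) ^ 4 * (N ^ 2 / y ^ 2) *
              ‖Pln ν' a y (t * Complex.I)‖ ^ 4 + 1) := by gcongr
        _ = _ := by ring
  choose! ψ y t h3 h4 using key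
  have h5 := h₂ (nex M A) ϖ ψ y t R₂ Y (|τ| + Real.log R) E (R1.trans hR₂) (by positivity) hϖ h3
    hY' hE hyp
  have h6 : 1 + (|τ| + Real.log R) ≤ (1 + |τ|) * (5 + Real.log R) := by
    linarith [height_le (τ := τ) R1]
  have R₂0 : 0 < R₂ := by linarith
  have S0 : 0 ≤ ∑ a ∈ nex M A, ϖ a := Finset.sum_nonneg fun a _ => hϖ a
  calc _ ≤ ∑ a ∈ nex M A, ϖ a * (8 * C₁ ^ 4 * ((R ^ η) ^ 4 * N ^ 2 *
        (‖Pln (ψ a) a (y a) (t a * Complex.I)‖ ^ 4 / y a ^ 2) + 1)) :=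
        Finset.sum_le_sum fun a ha => mul_le_mul_of_nonneg_left (h4 a ha) (hϖ a)
    _ = 8 * C₁ ^ 4 * ((R ^ η) ^ 4 * N ^ 2 * ∑ a ∈ nex M A, ϖ a *
        (‖Pln (ψ a) a (y a) (t a * Complex.I)‖ ^ 4 / y a ^ 2) + ∑ a ∈ nex M A, ϖ a) := by
        rw [Finset.mul_sum, ← Finset.sum_add_distrib, Finset.mul_sum]
        exact Finset.sum_congr rfl fun a _ => by ring
    _ ≤ 8 * C₁ ^ 4 * ((R ^ η) ^ 4 * N ^ 2 * ((C₂ + 1) * R₂ ^ η *
        ((1 + |τ|) * (5 + Real.log R)) ^ 9 * E) + (C₂ + 1) * ∑ a ∈ nex M A, ϖ a) := by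
        gcongr
        · refine h5.trans ?_
          gcongr
          linarith
        · exact le_mul_of_one_le_left S0 (by linarith)
    _ = _ := by ring

theorem marks {α L₁ L₂ l : ℝ} (hα : 1 ≤ α) (h2 : 1 ≤ L₂) (h1 : L₂ ≤ L₁) (hl : 1 ≤ l)
    (h : l ^ (5 / 6 : ℝ) * L₁ ^ 5 ≤ α) :
    l ≤ α ^ 6 ∧ L₁ ≤ α ∧ L₁ * L₂ ≤ α ∧ l * L₁ ^ 5 * L₂ ^ 2 ≤ α ^ 2 := by
  have l0 : 0 < l := by linarith
  have L1 : 1 ≤ L₁ := h2.trans h1
  have v1 : 1 ≤ l ^ (5 / 6 : ℝ) := Real.one_le_rpow hl (by norm_num)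
  have v2 : l ≤ (l ^ (5 / 6 : ℝ)) ^ 2 := by
    rw [← Real.rpow_natCast, ← Real.rpow_mul l0.le]
    conv_lhs => rw [← Real.rpow_one l]
    exact Real.rpow_le_rpow_of_exponent_le hl (by norm_num)
  set v := l ^ (5 / 6 : ℝ)
  have p5 : 1 ≤ L₁ ^ 5 := one_le_pow₀ L1
  have e1 : v ≤ α := (le_mul_of_one_le_right (by linarith) p5).trans h
  have e2 : L₁ ^ 5 ≤ α := (le_mul_of_one_le_left (by linarith) v1).trans h
  have e3 : L₁ ^ 2 ≤ L₁ ^ 5 := pow_le_pow_right₀ L1 (by norm_num)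
  refine ⟨v2.trans ((pow_le_pow_left₀ (by linarith) e1 2).trans
    (pow_le_pow_right₀ hα (by norm_num))), by nlinarith, by nlinarith, ?_⟩
  calc l * L₁ ^ 5 * L₂ ^ 2 ≤ v ^ 2 * L₁ ^ 5 * L₁ ^ 5 := by
        gcongr
        exact (pow_le_pow_left₀ (by linarith) h1 2).trans e3
    _ = (v * L₁ ^ 5) ^ 2 := by ring
    _ ≤ _ := by gcongr

theorem pow_six_rpow {α : ℝ} (hα : 1 ≤ α) (k : ℕ) : (α ^ 6) ^ ((k : ℝ) / 6) = α ^ k := by
  rw [← Real.rpow_natCast, ← Real.rpow_mul (by linarith), ← Real.rpow_natCast]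
  congr 1
  push_cast
  ring

/-- The centred estimate, in the form in which it is used. -/
theorem cen_use {M : O} {θ η C : ℝ} {J : ℕ} (hC : 0 < C) (h : Cen M θ η C J)
    {R α N₁ N₂ N₃ N₄ G L₁ L₂ l τ : ℝ} (ν : Chr M) (κ : ℂ) {c₁ c₂ : O → ℂ} (hα : 1 ≤ α)
    (hR : α ^ 6 ≤ R) (a1 : R⁻¹ ≤ N₁) (a2 : R⁻¹ ≤ N₂) (a3 : R⁻¹ ≤ N₃) (a4 : R⁻¹ ≤ N₄)
    (b1 : N₁ ≤ R) (b2 : N₂ ≤ R) (b3 : N₃ ≤ R) (b4 : N₄ ≤ R) (he : N₁ * N₂ = N₃ * N₄) (hG : 1 ≤ G)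
    (hκ : κ = 0 ∧ N₁ * N₂ ≤ G * α ^ 4 ∨
      κ = 1 ∧ N₁ ≤ G * α ^ 4 ∧ N₂ ≤ G * α ^ 4 ∧ N₃ ≤ G * α ^ 4 ∧ N₄ ≤ G * α ^ 4)
    (h2 : 1 ≤ L₂) (h1 : L₂ ≤ L₁) (hl : 1 ≤ l) (hm : l ^ (5 / 6 : ℝ) * L₁ ^ 5 ≤ α)
    (s1 : Supp M L₁ c₁) (s2 : Supp M L₂ c₂) (n1 : ∀ n, ‖c₁ n‖ ≤ 1) (n2 : ∀ n, ‖c₂ n‖ ≤ 1) :
    ∑ a ∈ nex M (α ^ 6), wt M L₁ L₂ c₁ c₂ a * ‖cenP ν a N₁ N₂ N₃ N₄ κ (τ * Complex.I)‖ ^ 2 ≤
      C * R ^ η * (1 + |τ|) ^ J * (α ^ 6 * (N₁ * N₂) * (L₁ * L₂)) *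
        (1 + l * (N₁ * N₂) * L₁ ^ 5 * L₂ ^ 2 / α ^ 6 + (α ^ 6 / l) ^ θ + G) := by
  obtain ⟨m1, m2, -, -⟩ := marks hα h2 h1 hl hm
  have A1 : 1 ≤ α ^ 6 := one_le_pow₀ hα
  have αA : α ≤ α ^ 6 := le_self_pow₀ hα (by norm_num)
  have R0 : 0 < R := by linarith
  have N1 := lt_of_lt_of_le (inv_pos.2 R0) a1
  have N2 := lt_of_lt_of_le (inv_pos.2 R0) a2
  have L1 : 0 < L₁ := by linarith
  have := h R (α ^ 6) N₁ N₂ N₃ N₄ L₁ L₂ l (G * α ^ 4) τ ν κ c₁ c₂ A1 hR a1 a2 a3 a4 b1 b2 b3 b4 he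
    h2 h1 (by linarith) hl m1 (one_le_mul_of_one_le_of_one_le hG (one_le_pow₀ hα)) hκ s1 s2 n1 n2
  refine le_trans ?_ (this.trans ?_)
  · refine le_trans (Finset.sum_le_sum fun a _ => (mul_comm _ _).le)
      (Finset.sum_le_sum_of_subset_of_nonneg (nex_subset _ _) fun a _ _ =>
        mul_nonneg (by positivity) (wt_nonneg ..))
  · have e := pow_six_rpow hα 5
    rw [Nat.cast_ofNat] at e
    rw [e]
    gcongr
    rw [div_le_iff₀ (by positivity)]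
    calc G * α ^ 4 * l ^ (5 / 6 : ℝ) * L₁ ^ 5 = G * α ^ 4 * (l ^ (5 / 6 : ℝ) * L₁ ^ 5) := by ring
      _ ≤ G * α ^ 4 * α := by gcongr
      _ = _ := by ring

/-- Short sums. -/
theorem small {M : O} {θ η C : ℝ} {J : ℕ} (hC : 0 < C) (h : Cen M θ η C J)
    {R α N G L₁ L₂ l τ : ℝ} (ν : Chr M) {c₁ c₂ : O → ℂ} (hα : 1 ≤ α)
    (hR : α ^ 6 ≤ R) (a1 : R⁻¹ ≤ N) (b1 : N ≤ R) (hG : 1 ≤ G) (hN : N ^ 2 ≤ G * α ^ 4)
    (h2 : 1 ≤ L₂) (h1 : L₂ ≤ L₁) (hl : 1 ≤ l) (hm : l ^ (5 / 6 : ℝ) * L₁ ^ 5 ≤ α)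
    (s1 : Supp M L₁ c₁) (s2 : Supp M L₂ c₂) (n1 : ∀ n, ‖c₁ n‖ ≤ 1) (n2 : ∀ n, ‖c₂ n‖ ≤ 1) :
    ∑ a ∈ nex M (α ^ 6), wt M L₁ L₂ c₁ c₂ a * ‖Pln ν a N (τ * Complex.I)‖ ^ 4 ≤
      3 * C * R ^ η * (1 + |τ|) ^ J * G * (α ^ 6 * (L₁ * L₂)) * (1 + (α ^ 6 / l) ^ θ) * N ^ 2 := by
  have := cen_use (τ := τ) hC h ν 0 hα hR a1 a1 a1 a1 b1 b1 b1 b1 rfl hG
    (Or.inl ⟨rfl, by rwa [← sq]⟩) h2 h1 hl hm s1 s2 n1 n2
  simp only [cenP, zero_mul, sub_zero, ← sq, norm_pow, ← pow_mul] at this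
  refine this.trans ?_
  obtain ⟨-, -, -, m4⟩ := marks hα h2 h1 hl hm
  have R0 : 0 < R := lt_of_lt_of_le (by positivity) hR
  have L1 : 0 < L₁ := by linarith
  have W0 : 0 ≤ (α ^ 6 / l) ^ θ := by positivity
  have e : l * N ^ 2 * L₁ ^ 5 * L₂ ^ 2 / α ^ 6 ≤ G := by
    rw [div_le_iff₀ (by positivity)]
    calc l * N ^ 2 * L₁ ^ 5 * L₂ ^ 2 = N ^ 2 * (l * L₁ ^ 5 * L₂ ^ 2) := by ring
      _ ≤ G * α ^ 4 * α ^ 2 := by gcongr
      _ = _ := by ring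
  calc _ ≤ C * R ^ η * (1 + |τ|) ^ J * (α ^ 6 * N ^ 2 * (L₁ * L₂)) *
        (3 * G * (1 + (α ^ 6 / l) ^ θ)) := by
        gcongr
        nlinarith
    _ = _ := by ring

theorem norm_Pln_triv {M : O} (hM : Adm M) : ∃ C : ℝ, 0 < C ∧ ∀ (ν : Chr M) (a : O) (N τ : ℝ),
    0 < N → ‖Pln ν a N (τ * Complex.I)‖ ≤ C * N ^ 2 := by
  obtain ⟨C, hC, h⟩ := tsum_norm_Sm_le 1 0 0 le_rfl
  refine ⟨C, hC, fun ν a N τ hN => ?_⟩
  refine (norm_tsum_le_tsum_norm (summable_Sm (polyB_rc hM ν a) hN _)).trans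
    ((h _ 1 N _ (polyB_rc hM ν a) hN (by simp)).trans ?_)
  rw [mul_one]
  refine mul_le_mul_of_nonneg_left ((min_le_right _ _).trans_eq ?_) hC.le
  norm_num

theorem split_le (P P₃ P₄ : ℂ) {s t : ℝ} (hs : 0 < s) (ht : 0 < t) :
    ‖P‖ ^ 4 ≤ 2 * ‖P * P - 1 * (P₃ * P₄)‖ ^ 2 + t / s * ‖P₃‖ ^ 4 + s / t * ‖P₄‖ ^ 4 := by
  have h1 : ‖P‖ ^ 2 ≤ ‖P * P - 1 * (P₃ * P₄)‖ + ‖P₃‖ * ‖P₄‖ := by
    rw [sq, ← norm_mul, ← norm_mul, one_mul]
    exact norm_le_norm_sub_add _ _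
  have h2 : 2 * (‖P₃‖ * ‖P₄‖) ^ 2 ≤ t / s * ‖P₃‖ ^ 4 + s / t * ‖P₄‖ ^ 4 := by
    rw [div_mul_eq_mul_div, div_mul_eq_mul_div, div_add_div _ _ hs.ne' ht.ne',
      le_div_iff₀ (by positivity)]
    nlinarith [sq_nonneg (t * ‖P₃‖ ^ 2 - s * ‖P₄‖ ^ 2)]
  calc ‖P‖ ^ 4 = (‖P‖ ^ 2) ^ 2 := by ring
    _ ≤ (‖P * P - 1 * (P₃ * P₄)‖ + ‖P₃‖ * ‖P₄‖) ^ 2 := by gcongr
    _ ≤ _ := by nlinarith [sq_nonneg (‖P * P - 1 * (P₃ * P₄)‖ - ‖P₃‖ * ‖P₄‖)]

theorem budget {m ε A P : ℝ} {n : ℕ} (hn : 0 < n) (h1 : m ≤ 1) (h2 : m ≤ ε)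
    (hA : 1 ≤ A) (hP : 1 ≤ P) : ((A * P) ^ (m / n)) ^ n ≤ A ^ ε * P := by
  rw [← Real.rpow_natCast, ← Real.rpow_mul (by positivity),
    div_mul_cancel₀ _ (by positivity), Real.mul_rpow (by positivity) (by positivity)]
  have e : P ^ m ≤ P := by
    conv_rhs => rw [← Real.rpow_one P]
    exact Real.rpow_le_rpow_of_exponent_le hP h1
  gcongr

theorem rpow_le_self {η Q : ℝ} (h1 : η ≤ 1) (hQ : 1 ≤ Q) : Q ^ η ≤ Q := by
  conv_rhs => rw [← Real.rpow_one Q]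
  exact Real.rpow_le_rpow_of_exponent_le hQ h1

/-- The long factor, by reflection. -/
theorem long_sum {M : O} (hM : Adm M) {θ η C : ℝ} {J : ℕ} (hC : 0 < C) (hη : 0 < η) (hη1 : η ≤ 1)
    (h : Cen M θ η C J) : ∃ K : ℝ, 0 < K ∧ ∀ (α Q L₁ L₂ l τ : ℝ) (ν : Chr M) (c₁ c₂ : O → ℂ),
      1 ≤ α → α ^ 6 * (1 + |τ|) ≤ Q → 1 ≤ L₂ → L₂ ≤ L₁ → 1 ≤ l → l ^ (5 / 6 : ℝ) * L₁ ^ 5 ≤ α →
      Supp M L₁ c₁ → Supp M L₂ c₂ → (∀ n, ‖c₁ n‖ ≤ 1) → (∀ n, ‖c₂ n‖ ≤ 1) →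
      ∑ a ∈ nex M (α ^ 6), wt M L₁ L₂ c₁ c₂ a * ‖Pln ν a (α ^ 4) (τ * Complex.I)‖ ^ 4 ≤
        K * ((Q ^ η) ^ 13 * (1 + |τ|) ^ (J + 13)) * (α ^ 6 * (L₁ * L₂)) * (1 + (α ^ 6 / l) ^ θ) *
          (α ^ 4) ^ 2 := by
  obtain ⟨C₁, hC₁, h₁⟩ := refl_sum hM hη
  obtain ⟨C₃, hC₃, h₃⟩ := logpow hη (J + 9)
  refine ⟨C₁ * (1536 * C * C₃ + 32768), by positivity,
    fun α Q L₁ L₂ l τ ν c₁ c₂ hα hQ h2 h1 hl hm s1 s2 n1 n2 => ?_⟩
  obtain ⟨-, -, m3, -⟩ := marks hα h2 h1 hl hm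
  set T := 1 + |τ| with hT
  have T1 : 1 ≤ T := le_add_of_nonneg_right (abs_nonneg τ)
  have A1 : 1 ≤ α ^ 6 := one_le_pow₀ hα
  have AQ : α ^ 6 ≤ Q := (le_mul_of_one_le_right (by positivity) T1).trans hQ
  have TQ : T ≤ Q := (le_mul_of_one_le_left (by positivity) A1).trans hQ
  have Q1 : 1 ≤ Q := A1.trans AQ
  have Q0 : 0 < Q := by linarith
  have Q3 : Q ≤ Q ^ 3 := le_self_pow₀ Q1 (by norm_num)
  have a4 : 1 ≤ α ^ 4 := one_le_pow₀ hα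
  have e3 : (Q ^ 3) ^ η = (Q ^ η) ^ 3 := (Real.rpow_pow_comm Q0.le η 3).symm
  have e8 : (8 * Q ^ 3) ^ η ≤ 8 * (Q ^ η) ^ 3 := by
    rw [Real.mul_rpow (by norm_num) (by positivity), e3]
    gcongr
    exact rpow_le_self hη1 (by norm_num)
  have DQ : Q ^ η ≤ Q := rpow_le_self hη1 Q1
  have D1 : 1 ≤ Q ^ η := Real.one_le_rpow Q1 hη.le
  have hΛ := h₃ Q Q1
  have Λ0 : 0 ≤ 5 + Real.log Q := by linarith [Real.log_nonneg Q1]
  have L1 : 1 ≤ L₁ := h2.trans h1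
  have hY : α ^ 2 * Q ^ η * T ^ 2 ≤ Q ^ 3 := by
    have : α * T ≤ Q := le_trans (by gcongr; exact le_self_pow₀ hα (by norm_num)) hQ
    calc α ^ 2 * Q ^ η * T ^ 2 = (α * T) ^ 2 * Q ^ η := by ring
      _ ≤ Q ^ 2 * Q := by gcongr
      _ = _ := by ring
  have W0 : 0 ≤ (α ^ 6 / l) ^ θ := by positivity
  have key := h₁ (α ^ 6) Q (Q ^ 3) (α ^ 4) τ (α ^ 2 * Q ^ η * T ^ 2)
    (3 * C * (8 * (Q ^ η) ^ 3) * (T * (5 + Real.log Q)) ^ J * (64 * (Q ^ η) ^ 2 * T ^ 4) *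
      (α ^ 6 * (L₁ * L₂)) * (1 + (α ^ 6 / l) ^ θ)) ν (wt M L₁ L₂ c₁ c₂) A1 AQ Q3
    ((inv_le_one_of_one_le₀ Q1).trans a4)
    ((pow_le_pow_right₀ hα (by norm_num)).trans AQ) (by linarith)
    (by rw [div_le_iff₀ (by positivity)]; exact le_of_eq (by ring)) hY (by positivity)
    (wt_nonneg M L₁ L₂ c₁ c₂) fun ν' N' τ' b1 b2 b3 => by
      have N0 : 0 < N' := lt_of_lt_of_le (by positivity) b1
      refine (small (R := 8 * Q ^ 3) (G := 64 * (Q ^ η) ^ 2 * T ^ 4) hC h ν' hα (by linarith)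
        (by rw [mul_inv, mul_comm]; exact b1) (by linarith)
        (one_le_mul_of_one_le_of_one_le (by nlinarith) (one_le_pow₀ T1))
        ((pow_le_pow_left₀ N0.le b2 2).trans_eq (by ring)) h2 h1 hl hm s1 s2 n1 n2).trans ?_
      gcongr
      linarith [height_le (τ := τ) Q1]
  refine key.trans ?_
  have hw := sum_wt_le M A1 L1 h2 n1 n2
  rw [e3, ← hT]
  set D := Q ^ η
  set Λ := 5 + Real.log Q
  set W := 1 + (α ^ 6 / l) ^ θ with hW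
  have W1 : 1 ≤ W := by linarith
  have U1 : 1 ≤ D ^ 13 * T ^ (J + 13) :=
    one_le_mul_of_one_le_of_one_le (one_le_pow₀ D1) (one_le_pow₀ T1)
  have LL : L₁ * L₂ ≤ (α ^ 4) ^ 2 :=
    m3.trans (by rw [← pow_mul]; exact le_self_pow₀ hα (by omega))
  calc _ = C₁ * (1536 * C * Λ ^ (J + 9) * (D ^ 12 * T ^ (J + 13)) * (α ^ 6 * (L₁ * L₂)) * W *
        (α ^ 4) ^ 2 + ∑ a ∈ nex M (α ^ 6), wt M L₁ L₂ c₁ c₂ a) := by
        clear_value D Λ W T; ring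
    _ ≤ C₁ * (1536 * C * (C₃ * D) * (D ^ 12 * T ^ (J + 13)) * (α ^ 6 * (L₁ * L₂)) * W *
        (α ^ 4) ^ 2 + 32768 * (D ^ 13 * T ^ (J + 13)) * (α ^ 6 * (L₁ * L₂)) * W * (α ^ 4) ^ 2) := by
        gcongr C₁ * (1536 * C * ?_ * _ * _ * _ * _ + ?_)
        refine hw.trans ?_
        calc 32768 * α ^ 6 * (L₁ * L₂) ^ 2 = 32768 * 1 * (α ^ 6 * (L₁ * L₂)) * 1 * (L₁ * L₂) := by
              ring
          _ ≤ _ := by gcongr
    _ = _ := by ring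

/-- The range `A^{1/3} ≤ N ≤ H √A`. -/
theorem step_big {M : O} (hM : Adm M) {θ η C : ℝ} {J : ℕ} (hC : 0 < C) (hη : 0 < η) (hη1 : η ≤ 1)
    (h : Cen M θ η C J) : ∃ K : ℝ, 0 < K ∧ ∀ (α N H L₁ L₂ l τ : ℝ) (ν : Chr M) (c₁ c₂ : O → ℂ),
      1 ≤ α → 1 ≤ H → α ^ 2 ≤ N → N ≤ H * α ^ 3 → 1 ≤ L₂ → L₂ ≤ L₁ → 1 ≤ l →
      l ^ (5 / 6 : ℝ) * L₁ ^ 5 ≤ α →
      Supp M L₁ c₁ → Supp M L₂ c₂ → (∀ n, ‖c₁ n‖ ≤ 1) → (∀ n, ‖c₂ n‖ ≤ 1) →
      ∑ a ∈ nex M (α ^ 6), wt M L₁ L₂ c₁ c₂ a * ‖Pln ν a N (τ * Complex.I)‖ ^ 4 ≤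
        K * (((α ^ 6 * (H * (1 + |τ|))) ^ η) ^ 13 * (H * (1 + |τ|)) ^ (J + 13)) *
          (α ^ 6 * N ^ 2 * (L₁ * L₂)) *
          (1 + l * N ^ 2 * L₁ ^ 5 * L₂ ^ 2 / α ^ 6 + (α ^ 6 / l) ^ θ) := by
  obtain ⟨K, hK, hl⟩ := long_sum hM hC hη hη1 h
  refine ⟨4 * C + K + 3 * C, by positivity,
    fun α N H L₁ L₂ l τ ν c₁ c₂ hα hH hN hN' h2 h1 l1 hm s1 s2 n1 n2 => ?_⟩
  set T := 1 + |τ| with hT
  set Q := α ^ 6 * (H * T) with hQ
  have T1 : 1 ≤ T := le_add_of_nonneg_right (abs_nonneg τ)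
  have A1 : 1 ≤ α ^ 6 := one_le_pow₀ hα
  have a4 : 1 ≤ α ^ 4 := one_le_pow₀ hα
  have TP : T ≤ H * T := le_mul_of_one_le_left (by linarith) hH
  have HP : H ≤ H * T := le_mul_of_one_le_right (by linarith) T1
  have P1 : 1 ≤ H * T := T1.trans TP
  have N1 : 1 ≤ N := (one_le_pow₀ hα).trans hN
  have AQ : α ^ 6 ≤ Q := le_mul_of_one_le_right (by positivity) P1
  have Q1 : 1 ≤ Q := A1.trans AQ
  have Q0 : 0 < Q := by linarith
  have Q2 : Q ≤ Q ^ 2 := le_self_pow₀ Q1 (by norm_num)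
  have Qi : (Q ^ 2)⁻¹ ≤ 1 := inv_le_one_of_one_le₀ (Q1.trans Q2)
  have NQ : N ≤ Q := hN'.trans (by
    rw [mul_comm, hQ]; gcongr; norm_num)
  set t := N ^ 2 / α ^ 4 with ht
  have st : α ^ 4 * t = N ^ 2 := by rw [ht]; field_simp
  have t1 : 1 ≤ t := by
    rw [ht, le_div_iff₀ (by positivity), one_mul]
    exact (by ring : α ^ 4 = (α ^ 2) ^ 2).trans_le (by gcongr)
  have t2 : t ≤ (H * α) ^ 2 := by
    rw [ht, div_le_iff₀ (by positivity)]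
    exact (pow_le_pow_left₀ (by linarith) hN' 2).trans_eq (by ring)
  have tQ : t ≤ Q ^ 2 := t2.trans (by
    rw [mul_comm, hQ]; gcongr; exact le_self_pow₀ hα (by omega))
  have H2 : H ≤ H ^ 2 := le_self_pow₀ hH (by norm_num)
  have k1 := cen_use (τ := τ) (G := H ^ 2) hC h ν 1 hα (AQ.trans Q2) (Qi.trans N1) (Qi.trans N1)
    (Qi.trans a4) (Qi.trans t1) (NQ.trans Q2) (NQ.trans Q2)
    (((pow_le_pow_right₀ hα (by norm_num)).trans AQ).trans Q2) tQ (by rw [st, sq]) (hH.trans H2)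
    (Or.inr ⟨rfl, hN'.trans (by gcongr; norm_num), hN'.trans (by gcongr; norm_num),
      le_mul_of_one_le_left (by positivity) (hH.trans H2),
      t2.trans (by rw [mul_pow]; gcongr; norm_num)⟩) h2 h1 l1 hm s1 s2 n1 n2
  have k4 := small (τ := τ) (G := H ^ 4) hC h ν hα (AQ.trans Q2) (Qi.trans t1) tQ (one_le_pow₀ hH)
    ((pow_le_pow_left₀ (by linarith) t2 2).trans_eq (by ring)) h2 h1 l1 hm s1 s2 n1 n2
  have k3 := hl α Q L₁ L₂ l τ ν c₁ c₂ hα (by rw [hQ]; gcongr) h2 h1 l1 hm s1 s2 n1 n2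
  rw [← Real.rpow_pow_comm Q0.le] at k1 k4
  rw [← sq] at k1
  have D1 : 1 ≤ Q ^ η := Real.one_le_rpow Q1 hη.le
  have L0 : 0 < L₁ := by linarith
  have W0 : 0 ≤ (α ^ 6 / l) ^ θ := by positivity
  have V0 : 0 ≤ l * N ^ 2 * L₁ ^ 5 * L₂ ^ 2 / α ^ 6 := by positivity
  set D := Q ^ η
  set W := (α ^ 6 / l) ^ θ
  set V := l * N ^ 2 * L₁ ^ 5 * L₂ ^ 2 / α ^ 6
  have u4 : D ^ 2 * (T ^ J * H ^ 4) ≤ D ^ 13 * (H * T) ^ (J + 13) := by
    rw [pow_add]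
    gcongr
    · norm_num
    · exact (pow_le_pow_left₀ (by linarith) HP 4).trans (pow_le_pow_right₀ P1 (by norm_num))
  have u2 : D ^ 2 * (T ^ J * H ^ 2) ≤ D ^ 13 * (H * T) ^ (J + 13) :=
    le_trans (by gcongr; norm_num) u4
  have u3 : D ^ 13 * T ^ (J + 13) ≤ D ^ 13 * (H * T) ^ (J + 13) := by gcongr
  set U := D ^ 13 * (H * T) ^ (J + 13)
  have U0 : 0 ≤ U := le_trans (by positivity) u3
  calc _ ≤ ∑ a ∈ nex M (α ^ 6), wt M L₁ L₂ c₁ c₂ a *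
        (2 * ‖cenP ν a N N (α ^ 4) t 1 (τ * Complex.I)‖ ^ 2 +
          t / α ^ 4 * ‖Pln ν a (α ^ 4) (τ * Complex.I)‖ ^ 4 +
          α ^ 4 / t * ‖Pln ν a t (τ * Complex.I)‖ ^ 4) :=
        Finset.sum_le_sum fun a _ => mul_le_mul_of_nonneg_left
          (split_le _ _ _ (by positivity) (by linarith)) (wt_nonneg ..)
    _ = 2 * ∑ a ∈ nex M (α ^ 6), wt M L₁ L₂ c₁ c₂ a *
          ‖cenP ν a N N (α ^ 4) t 1 (τ * Complex.I)‖ ^ 2 +
        t / α ^ 4 * ∑ a ∈ nex M (α ^ 6), wt M L₁ L₂ c₁ c₂ a *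
          ‖Pln ν a (α ^ 4) (τ * Complex.I)‖ ^ 4 +
        α ^ 4 / t * ∑ a ∈ nex M (α ^ 6), wt M L₁ L₂ c₁ c₂ a * ‖Pln ν a t (τ * Complex.I)‖ ^ 4 := by
        simp only [Finset.mul_sum, ← Finset.sum_add_distrib]
        exact Finset.sum_congr rfl fun a _ => by ring
    _ ≤ 2 * (C * D ^ 2 * T ^ J * (α ^ 6 * N ^ 2 * (L₁ * L₂)) * (2 * H ^ 2 * (1 + V + W))) +
        t / α ^ 4 * (K * U * (α ^ 6 * (L₁ * L₂)) * (1 + V + W) * (α ^ 4) ^ 2) +
        α ^ 4 / t * (3 * C * D ^ 2 * T ^ J * H ^ 4 * (α ^ 6 * (L₁ * L₂)) * (1 + V + W) * t ^ 2) := by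
        gcongr
        · refine k1.trans ?_
          gcongr
          nlinarith
        · refine k3.trans ?_
          gcongr
          linarith
        · refine k4.trans ?_
          gcongr
          linarith
    _ = (4 * C * (D ^ 2 * (T ^ J * H ^ 2)) + K * U + 3 * C * (D ^ 2 * (T ^ J * H ^ 4))) *
        (α ^ 6 * N ^ 2 * (L₁ * L₂)) * (1 + V + W) := by
        rw [← st]
        field_simp
        ring
    _ ≤ (4 * C * U + K * U + 3 * C * U) * (α ^ 6 * N ^ 2 * (L₁ * L₂)) * (1 + V + W) := by gcongr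
    _ = _ := by ring

theorem step_of {M : O} (hM : Adm M) {θ ε : ℝ} (hε : 0 < ε)
    (h : ∀ η, 0 < η → ∃ (C : ℝ) (J : ℕ), 0 < C ∧ Cen M θ η C J) :
    ∃ (C : ℝ) (J : ℕ), 0 < C ∧ Step M θ ε C J := by
  have m0 : 0 < min ε 1 := lt_min hε one_pos
  set η : ℝ := min ε 1 / (13 : ℕ) with hη
  have η0 : 0 < η := by positivity
  have η1 : η ≤ 1 := by
    rw [hη, div_le_one (by positivity)]
    exact (min_le_right _ _).trans (by norm_num)
  obtain ⟨C, J, hC, h⟩ := h η η0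
  obtain ⟨K, hK, hb⟩ := step_big hM hC η0 η1 h
  obtain ⟨C₀, hC₀, h₀⟩ := norm_Pln_triv hM
  refine ⟨K + 3 * C + 32768 * C₀ ^ 4, J + 14, by positivity,
    fun A N H L₁ L₂ l τ ν c₁ c₂ hA hN hH hN' h2 h1 l1 hm s1 s2 n1 n2 => ?_⟩
  obtain ⟨α, hα, rfl⟩ : ∃ α : ℝ, 1 ≤ α ∧ A = α ^ 6 :=
    ⟨A ^ ((6 : ℕ) : ℝ)⁻¹, Real.one_le_rpow hA (by positivity),
      (Real.rpow_inv_natCast_pow (by linarith) (by norm_num)).symm⟩
  have e1 := pow_six_rpow hα 1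
  rw [Nat.cast_one, pow_one] at e1
  rw [e1] at hm
  rw [show α ^ 6 = (α ^ 3) ^ 2 by ring, Real.sqrt_sq (by positivity)] at hN'
  have T1 : 1 ≤ 1 + |τ| := le_add_of_nonneg_right (abs_nonneg τ)
  have P1 : 1 ≤ H * (1 + |τ|) := one_le_mul_of_one_le_of_one_le hH T1
  have hbud := budget (n := 13) (by norm_num) (min_le_right ε 1) (min_le_left ε 1) hA P1
  rw [← hη] at hbud
  have L1 : 1 ≤ L₁ := h2.trans h1
  have W0 : 0 ≤ (α ^ 6 / l) ^ θ := by positivity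
  have V0 : 0 ≤ l * N ^ 2 * L₁ ^ 5 * L₂ ^ 2 / α ^ 6 := by positivity
  have E1 : 1 ≤ (α ^ 6) ^ ε := Real.one_le_rpow hA hε.le
  have PJ : 1 ≤ (H * (1 + |τ|)) ^ (J + 14) := one_le_pow₀ P1
  simp only [mul_comm (‖Pln ν _ N (τ * Complex.I)‖ ^ 4)]
  change ∑ a ∈ nex M (α ^ 6), wt M L₁ L₂ c₁ c₂ a * _ ≤ _
  rcases le_total (α ^ 2) N with c1 | c1
  · refine (hb α N H L₁ L₂ l τ ν c₁ c₂ hα hH c1 hN' h2 h1 l1 hm s1 s2 n1 n2).trans ?_
    gcongr ?_ * _ * _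
    calc _ ≤ K * ((α ^ 6) ^ ε * (H * (1 + |τ|)) * (H * (1 + |τ|)) ^ (J + 13)) := by gcongr
      _ = K * (α ^ 6) ^ ε * (H * (1 + |τ|)) ^ (J + 14) := by ring
      _ ≤ _ := by gcongr; linarith [show 0 ≤ C₀ ^ 4 by positivity]
  rcases le_total (α ^ 6)⁻¹ N with c2 | c2
  · refine (small (G := 1) hC h ν hα le_rfl c2 (c1.trans (pow_le_pow_right₀ hα (by norm_num))) le_rfl
      ((pow_le_pow_left₀ hN.le c1 2).trans_eq (by ring)) h2 h1 l1 hm s1 s2 n1 n2).trans ?_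
    calc _ = 3 * C * (α ^ 6) ^ η * (1 + |τ|) ^ J * (α ^ 6 * N ^ 2 * (L₁ * L₂)) *
          (1 + (α ^ 6 / l) ^ θ) := by ring
      _ ≤ _ := by
          gcongr ?_ * ?_ * ?_ * _ * ?_
          · linarith [show 0 ≤ C₀ ^ 4 by positivity]
          · refine Real.rpow_le_rpow_of_exponent_le hA ?_
            rw [hη, div_le_iff₀ (by positivity)]
            have := min_le_left ε 1
            push_cast
            linarith
          · exact (pow_le_pow_left₀ (by linarith)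
              (le_mul_of_one_le_left (by linarith) hH) J).trans (pow_le_pow_right₀ P1 (by omega))
          · linarith
  · obtain ⟨-, -, m3, -⟩ := marks hα h2 h1 l1 hm
    have N1 : N ≤ 1 := c2.trans (inv_le_one_of_one_le₀ hA)
    have NL : N * (L₁ * L₂) ≤ 1 := by
      calc N * (L₁ * L₂) ≤ (α ^ 6)⁻¹ * α ^ 6 := by
            gcongr; exact m3.trans (le_self_pow₀ hα (by norm_num))
        _ = 1 := inv_mul_cancel₀ (by positivity)
    calc _ ≤ ∑ a ∈ nex M (α ^ 6), wt M L₁ L₂ c₁ c₂ a * (C₀ * N ^ 2) ^ 4 :=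
          Finset.sum_le_sum fun a _ => mul_le_mul_of_nonneg_left
            (pow_le_pow_left₀ (norm_nonneg _) (h₀ ν a N τ hN) 4) (wt_nonneg ..)
      _ ≤ 32768 * α ^ 6 * (L₁ * L₂) ^ 2 * (C₀ * N ^ 2) ^ 4 := by
          rw [← Finset.sum_mul]
          gcongr
          exact sum_wt_le M hA L1 h2 n1 n2
      _ = 32768 * C₀ ^ 4 * (N * (L₁ * L₂)) * N ^ 5 * (α ^ 6 * N ^ 2 * (L₁ * L₂)) * 1 := by ring
      _ ≤ _ := by
          gcongr ?_ * ?_ * ?_ * _ * ?_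
          · linarith
          · linarith
          · exact (pow_le_one₀ hN.le N1).trans PJ
          · linarith

theorem slot_one (M a : O) : slot (sp M 1) (Pi.single 1 1) a = 1 := by
  classical
  have h : (1 : O) ∈ sp M 1 :=
    (LS2.mem_sp zero_le_one).2 ⟨⟨primary_one, squarefree_one, isCoprime_one_left⟩, by simp⟩
  rw [slot, Finset.sum_eq_single_of_mem 1 h fun b _ hb => by simp [hb]]
  simp [sym_one_left]

theorem supp_one (M : O) : Supp M 1 (Pi.single 1 1) := fun n hn => by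
  classical
  obtain rfl : n = 1 := by
    by_contra h
    exact hn (by simp [h])
  exact ⟨⟨primary_one, squarefree_one, isCoprime_one_left⟩, by simp⟩

theorem norm_single (n : O) : ‖(Pi.single 1 1 : O → ℂ) n‖ ≤ 1 := by
  classical
  by_cases h : n = 1 <;> simp [h]

/-- The fourth moment for `N ≤ H √A`. -/
def Half (M : O) (φ : ℝ) : Prop :=
  ∃ (C : ℝ) (J : ℕ), 0 < C ∧ ∀ (A N H τ : ℝ) (ν : Chr M), 1 ≤ A → 0 < N → 1 ≤ H →
    N ≤ H * Real.sqrt A → ∑ a ∈ nex M A, ‖Pln ν a N (τ * Complex.I)‖ ^ 4 ≤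
      C * (H * (1 + |τ|)) ^ J * A ^ (1 + φ) * N ^ 2

theorem half_of {M : O} {θ δ ε C : ℝ} {J : ℕ} (hδ : 0 < δ) (hδ1 : δ ≤ 1 / 5) (hC : 0 < C)
    (h : Step M θ ε C J) : Half M (max δ (θ * (1 - δ)) + ε) := by
  refine ⟨3 * C, J + 2, by positivity, fun A N H τ ν hA hN hH hN' => ?_⟩
  have A0 : 0 < A := by linarith
  have := h A N H 1 1 (A ^ δ) τ ν _ _ hA hN hH hN' le_rfl le_rfl (Real.one_le_rpow hA hδ.le)
    (by
      rw [one_pow, mul_one, ← Real.rpow_mul A0.le]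
      exact Real.rpow_le_rpow_of_exponent_le hA (by linarith))
    (supp_one M) (supp_one M) norm_single norm_single
  simp only [slot_one, norm_one, one_pow, mul_one] at this
  refine this.trans ?_
  set φ := max δ (θ * (1 - δ))
  have T1 : 1 ≤ 1 + |τ| := le_add_of_nonneg_right (abs_nonneg τ)
  have HP : H ≤ H * (1 + |τ|) := le_mul_of_one_le_right (by linarith) T1
  have P2 : 1 ≤ (H * (1 + |τ|)) ^ 2 := one_le_pow₀ (hH.trans HP)
  have b1 : 1 ≤ A ^ φ := Real.one_le_rpow hA (hδ.le.trans (le_max_left _ _))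
  have b2 : A ^ δ * N ^ 2 / A ≤ (H * (1 + |τ|)) ^ 2 * A ^ φ := by
    rw [div_le_iff₀ A0]
    calc A ^ δ * N ^ 2 ≤ A ^ φ * (H * (1 + |τ|) * Real.sqrt A) ^ 2 := by
          gcongr
          · exact le_max_left _ _
          · exact hN'.trans (by gcongr)
      _ = _ := by rw [mul_pow _ (Real.sqrt A), Real.sq_sqrt A0.le]; ring
  have b3 : (A / A ^ δ) ^ θ ≤ A ^ φ := by
    rw [show A / A ^ δ = A ^ (1 - δ) by rw [Real.rpow_sub A0, Real.rpow_one],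
      ← Real.rpow_mul A0.le, mul_comm]
    exact Real.rpow_le_rpow_of_exponent_le hA (le_max_right _ _)
  calc _ ≤ C * A ^ ε * (H * (1 + |τ|)) ^ J * (A * N ^ 2) * (3 * ((H * (1 + |τ|)) ^ 2 * A ^ φ)) := by
        gcongr
        nlinarith
    _ = _ := by rw [Real.rpow_add A0, Real.rpow_add A0, Real.rpow_one]; ring

/-- Reflection and decay remove the restriction on the length. -/
theorem T4_of_half {M : O} (hM : Adm M) {φ ε : ℝ} (hφ : 0 ≤ φ) (hε : 0 < ε) (h : Half M φ) :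
    T4 M (φ + ε) := by
  obtain ⟨C, J, hC, h⟩ := h
  have m0 : 0 < min ε 1 := lt_min hε one_pos
  set η : ℝ := min ε 1 / (2 * (J + 7) : ℕ) with hη
  have η0 : 0 < η := by positivity
  have η1 : η ≤ 1 := by
    rw [hη, div_le_one (by positivity)]
    exact (min_le_right _ _).trans (by exact_mod_cast (by omega))
  obtain ⟨C₁, hC₁, h₁⟩ := refl_sum hM η0
  obtain ⟨C₃, hC₃, h₃⟩ := logpow η0 (J + 9)
  obtain ⟨C₀, hC₀, h₀⟩ := Pln_decay hM one_half_pos 0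
  refine ⟨C + 8 * C₀ ^ 4 + C₁ * (C * 8 ^ J * C₃ + 8), 3 * J + 11, by positivity,
    fun A N τ ν hA hN => ?_⟩
  set T := 1 + |τ| with hT
  have T1 : 1 ≤ T := le_add_of_nonneg_right (abs_nonneg τ)
  have A0 : 0 < A := by linarith
  have x1 : 0 ≤ 8 * C₀ ^ 4 := by positivity
  have x2 : 0 ≤ C₁ * (C * 8 ^ J * C₃ + 8) := by positivity
  have AA : A ≤ A ^ (1 + φ) := by
    conv_lhs => rw [← Real.rpow_one A]
    exact Real.rpow_le_rpow_of_exponent_le hA (by linarith)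
  have AB : A ^ (1 + φ) ≤ A ^ (1 + (φ + ε)) := Real.rpow_le_rpow_of_exponent_le hA (by linarith)
  rcases le_total N (Real.sqrt A) with c1 | c1
  · refine (h A N 1 τ ν hA hN le_rfl (by rwa [one_mul])).trans ?_
    rw [one_mul, ← hT]
    gcongr ?_ * ?_ * ?_ * _
    · linarith
    · exact pow_le_pow_right₀ T1 (by omega)
  have N1 : 1 ≤ N := (Real.one_le_sqrt.2 hA).trans c1
  have N2 : 1 ≤ N ^ 2 := one_le_pow₀ N1
  set Q := A * T ^ 2 with hQ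
  have T2 : T ≤ T ^ 2 := le_self_pow₀ T1 (by norm_num)
  have AQ : A ≤ Q := le_mul_of_one_le_right A0.le (T1.trans T2)
  have TQ : T ≤ Q := T2.trans (le_mul_of_one_le_left (by positivity) hA)
  have Q1 : 1 ≤ Q := hA.trans AQ
  have Q0 : 0 < Q := by linarith
  have Q2 : Q ≤ Q ^ 2 := le_self_pow₀ Q1 (by norm_num)
  rcases le_total (Q ^ 2) N with c2 | c2
  · have b : ∀ a ∈ nex M A, ‖Pln ν a N (τ * Complex.I)‖ ^ 4 ≤ C₀ ^ 4 := fun a ha => by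
      obtain ⟨a1, a2⟩ := mem_nex hA ha
      have := h₀ N N (τ * Complex.I) ν a N1 a1 ?_ le_rfl (by simp) (by simp; linarith)
      · rw [neg_zero, Real.rpow_zero, mul_one] at this
        gcongr
      · simp only [Complex.mul_im, Complex.ofReal_re, Complex.I_im, mul_one, Complex.ofReal_im,
          Complex.I_re, mul_zero, add_zero]
        rw [← hT, ← Real.sqrt_eq_rpow]
        calc nr a * Real.sqrt N * T ^ 2 ≤ A * Real.sqrt N * T ^ 2 := by gcongr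
          _ = Q * Real.sqrt N := by ring
          _ ≤ Real.sqrt N * Real.sqrt N := by gcongr; exact Real.le_sqrt_of_sq_le c2
          _ = N := Real.mul_self_sqrt hN.le
    refine (Finset.sum_le_card_nsmul _ _ _ b).trans ?_
    rw [nsmul_eq_mul]
    calc _ ≤ 8 * A * C₀ ^ 4 := by gcongr; exact card_nex M hA
      _ = 8 * C₀ ^ 4 * 1 * A * 1 := by ring
      _ ≤ _ := by
          gcongr ?_ * ?_ * ?_ * ?_
          · linarith
          · exact one_le_pow₀ T1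
          · exact AA.trans AB
  have hbud := budget (n := 2 * (J + 7)) (by omega) (min_le_right ε 1) (min_le_left ε 1) hA
    (T1.trans T2)
  rw [← hη, ← hQ, pow_mul, Real.rpow_pow_comm Q0.le] at hbud
  set R := Q ^ 2 with hR
  have R1 : 1 ≤ R := Q1.trans Q2
  have R0 : 0 < R := by linarith
  have D1 : 1 ≤ R ^ η := Real.one_le_rpow R1 η0.le
  have DR : R ^ η ≤ R := rpow_le_self η1 R1
  have sA : Real.sqrt A ≤ A := Real.sqrt_le_self_iff.2 (Or.inr hA)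
  have Λ0 : 0 ≤ 5 + Real.log R := by linarith [Real.log_nonneg R1]
  have H1 : 1 ≤ 8 * R ^ η * T ^ 2 := one_le_mul_of_one_le_of_one_le (by linarith) (T1.trans T2)
  have key := h₁ A R (R ^ 2) N τ (Real.sqrt A * R ^ η * T ^ 2)
    (C * (8 * R ^ η * T ^ 2 * (T * (5 + Real.log R))) ^ J * A ^ (1 + φ)) ν (fun _ => 1) hA
    (AQ.trans Q2) (le_self_pow₀ R1 (by norm_num)) ((inv_le_one_of_one_le₀ R1).trans N1) c2
    (by linarith)
    (by
      rw [div_le_iff₀ hN, ← hT]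
      calc A * R ^ η * T ^ 2 = Real.sqrt A * R ^ η * T ^ 2 * Real.sqrt A := by
            conv_lhs => rw [← Real.mul_self_sqrt A0.le]
            ring
        _ ≤ _ := by gcongr)
    (by
      calc Real.sqrt A * R ^ η * T ^ 2 ≤ A * R * T ^ 2 := by gcongr
        _ = Q * R := by ring
        _ ≤ R * R := by gcongr
        _ = _ := by ring)
    (by positivity) (fun _ => zero_le_one) fun ν' N' τ' b1 b2 b3 => by
      have N0 : 0 < N' := lt_of_lt_of_le (by positivity) b1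
      simp only [one_mul]
      refine (h A N' _ τ' ν' hA N0 H1 (b2.trans_eq (by ring))).trans ?_
      gcongr
      linarith [height_le (τ := τ) R1]
  simp only [one_mul, Finset.sum_const, nsmul_eq_mul, mul_one] at key
  refine key.trans ?_
  rw [← Real.rpow_pow_comm R0.le, ← hT]
  have hΛ := h₃ R R1
  have hc := card_nex M hA
  set D := R ^ η
  set Λ := 5 + Real.log R
  have E1 : 1 ≤ A ^ ε := Real.one_le_rpow hA hε.le
  calc _ = C₁ * (C * 8 ^ J * Λ ^ (J + 9) * D ^ (J + 6) * T ^ (3 * J + 9) * A ^ (1 + φ) * N ^ 2 +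
        (nex M A).card) := by ring
    _ ≤ C₁ * (C * 8 ^ J * (C₃ * D) * D ^ (J + 6) * T ^ (3 * J + 9) * A ^ (1 + φ) * N ^ 2 +
        8 * (1 * 1 * A * 1)) := by gcongr; linarith
    _ = C₁ * (C * 8 ^ J * C₃ * D ^ (J + 7) * T ^ (3 * J + 9) * A ^ (1 + φ) * N ^ 2 +
        8 * (1 * 1 * A * 1)) := by ring
    _ ≤ C₁ * (C * 8 ^ J * C₃ * (A ^ ε * T ^ 2) * T ^ (3 * J + 9) * A ^ (1 + φ) * N ^ 2 +
        8 * (T ^ (3 * J + 11) * A ^ ε * A ^ (1 + φ) * N ^ 2)) := by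
        gcongr
        exact one_le_pow₀ T1
    _ = C₁ * (C * 8 ^ J * C₃ + 8) * T ^ (3 * J + 11) * A ^ (1 + (φ + ε)) * N ^ 2 := by
        rw [← add_assoc, Real.rpow_add A0 (1 + φ)]
        ring
    _ ≤ _ := by gcongr; linarith

theorem mom4_of {M : O} (hM : Adm M) {ε : ℝ} (hε : 0 < ε)
    (h : ∀ θ δ ε : ℝ, T4 M θ → 0 ≤ θ → 0 < δ → δ ≤ 1 / 5 → 0 < ε →
      T4 M (max δ (θ * (1 - δ)) + ε)) : T4 M ε := by
  set δ := min (ε / 2) (1 / 5)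
  have d0 : 0 < δ := lt_min (by positivity) (by norm_num)
  have d1 : δ ≤ 1 / 5 := min_le_right _ _
  have d2 : δ ≤ ε / 2 := min_le_left _ _
  have key : ∀ n : ℕ, T4 M (max (2 * δ) (4 - n * δ ^ 2)) := fun n => by
    induction n with
    | zero => exact (T4_four hM).mono (le_max_of_le_right (by simp))
    | succ n ih =>
      have b := le_max_left (2 * δ) (4 - n * δ ^ 2)
      refine (h _ δ (δ ^ 2) ih (by linarith) d0 d1 (by positivity)).mono ?_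
      rw [← le_sub_iff_add_le, max_le_iff, le_sub_iff_add_le, le_sub_iff_add_le]
      refine ⟨le_max_of_le_left (by nlinarith), ?_⟩
      rcases le_total (2 * δ) (4 - n * δ ^ 2) with c | c
      · rw [max_eq_right c]
        refine le_max_of_le_right ?_
        push_cast
        nlinarith
      · rw [max_eq_left c]
        exact le_max_of_le_left (by nlinarith)
  obtain ⟨n, hn⟩ := exists_nat_ge (4 / δ ^ 2)
  rw [div_le_iff₀ (by positivity)] at hn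
  exact (key n).mono (max_le (by linarith) (by linarith))

theorem slot_eq {M : O} {L : ℝ} (hL : 1 ≤ L) {Z : Finset O} (hZ : ∀ z ∈ Z, SP M z ∧ nr z ≤ L)
    {c : O → ℂ} (hc : ∀ n, ‖c n‖ ≤ 1) : ∃ c' : O → ℂ, Supp M L c' ∧ (∀ n, ‖c' n‖ ≤ 1) ∧
      ∀ a, slot Z c a = slot (sp M L) c' a := by
  classical
  refine ⟨fun n => if n ∈ Z then c n else 0, fun n hn => hZ n (by by_contra h; simp [h] at hn),
    fun n => by by_cases h : n ∈ Z <;> simp [h, hc], fun a => ?_⟩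
  have hs : Z ⊆ sp M L := fun z hz => (LS2.mem_sp (by linarith)).2 (hZ z hz)
  rw [slot, slot, ← Finset.sum_subset hs fun x _ hx => by simp [hx]]
  exact Finset.sum_congr rfl fun x hx => by simp [hx]

theorem fill_of {M : O} {ε : ℝ} (hε : 0 < ε)
    (h : ∃ (C : ℝ) (J : ℕ), 0 < C ∧ Step M (ε / 2) (ε / 2) C J) : ∃ (C : ℝ) (J : ℕ), 0 < C ∧
    ∀ (A N L₁ L₂ τ : ℝ) (ν : Chr M) (Z₁ Z₂ : Finset O) (c₁ c₂ : O → ℂ), 1 ≤ A → 0 < N → 1 ≤ L₂ →
      L₂ ≤ L₁ → L₁ ^ 30 ≤ A → N ^ 2 * L₁ ^ 5 * L₂ ^ 2 ≤ A → (∀ z ∈ Z₁, SP M z ∧ nr z ≤ L₁) →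
      (∀ z ∈ Z₂, SP M z ∧ nr z ≤ L₂) → (∀ n, ‖c₁ n‖ ≤ 1) → (∀ n, ‖c₂ n‖ ≤ 1) →
      ∑ a ∈ nex M A, ‖Pln ν a N (τ * Complex.I)‖ ^ 4 * (‖slot Z₁ c₁ a‖ ^ 2 * ‖slot Z₂ c₂ a‖ ^ 2) ≤
        C * A ^ ε * (1 + |τ|) ^ J * (A * N ^ 2 * (L₁ * L₂)) := by
  obtain ⟨C, J, hC, h⟩ := h
  refine ⟨3 * C, J, by positivity,
    fun A N L₁ L₂ τ ν Z₁ Z₂ c₁ c₂ hA hN h2 h1 h30 hq z1 z2 n1 n2 => ?_⟩
  have L1 : 1 ≤ L₁ := h2.trans h1
  have A0 : 0 < A := by linarith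
  obtain ⟨d₁, s1, m1, e1⟩ := slot_eq L1 z1 n1
  obtain ⟨d₂, s2, m2, e2⟩ := slot_eq h2 z2 n2
  simp only [e1, e2]
  have hN' : N ^ 2 ≤ A := le_trans (by
    rw [mul_assoc]
    exact le_mul_of_one_le_right (by positivity)
      (one_le_mul_of_one_le_of_one_le (one_le_pow₀ L1) (one_le_pow₀ h2))) hq
  refine (h A N 1 L₁ L₂ 1 τ ν d₁ d₂ hA hN le_rfl (by rw [one_mul]; exact Real.le_sqrt_of_sq_le hN')
    h2 h1 le_rfl ?_ s1 s2 m1 m2).trans ?_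
  · rw [Real.one_rpow, one_mul, one_div, Real.le_rpow_inv_iff_of_pos (by positivity) A0.le
      (by norm_num), show (6 : ℝ) = (6 : ℕ) by norm_num, Real.rpow_natCast, ← pow_mul]
    exact h30
  · have b1 : 1 ≤ A ^ (ε / 2) := Real.one_le_rpow hA (by positivity)
    have b2 : N ^ 2 * L₁ ^ 5 * L₂ ^ 2 / A ≤ 1 := (div_le_one A0).2 hq
    rw [one_mul, one_mul, div_one]
    calc _ ≤ C * A ^ (ε / 2) * (1 + |τ|) ^ J * (A * N ^ 2 * (L₁ * L₂)) * (3 * A ^ (ε / 2)) := by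
          gcongr; linarith
      _ = 3 * C * (A ^ (ε / 2) * A ^ (ε / 2)) * (1 + |τ|) ^ J * (A * N ^ 2 * (L₁ * L₂)) := by ring
      _ = _ := by rw [← Real.rpow_add A0, add_halves]

end Crest.Agent.R17.M4B
end
end

-- ▼ part PVc/R17/Mom4
section

/-!
# Row 17, module M4: the fourth moment of plain sums, without and with marks
-/

set_option autoImplicit false

noncomputable section

namespace Crest.Agent.R17

open scoped ComplexConjugate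

/-- The basic estimate for a (centred) product of two plain sums with two marks
(`trunc_cen`, `extract_powerful`, `gcore`, `back_sqB_le`, `T4.sum_psup_weight`, `sum_exc_min_le`). -/
theorem cen_bound {M : O} (hM : Adm M) {θ ε : ℝ} (h : T4 M θ) (hθ : 0 ≤ θ) (hε : 0 < ε) :
    ∃ (C : ℝ) (J : ℕ), 0 < C ∧ ∀ (R A N₁ N₂ N₃ N₄ L₁ L₂ l Y τ : ℝ) (ν : Chr M) (κ : ℂ)
      (c₁ c₂ : O → ℂ), 1 ≤ A → A ≤ R → R⁻¹ ≤ N₁ → R⁻¹ ≤ N₂ → R⁻¹ ≤ N₃ → R⁻¹ ≤ N₄ → N₁ ≤ R →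
      N₂ ≤ R → N₃ ≤ R → N₄ ≤ R → N₁ * N₂ = N₃ * N₄ → 1 ≤ L₂ → L₂ ≤ L₁ → L₁ ≤ R → 1 ≤ l → l ≤ A →
      1 ≤ Y → (κ = 0 ∧ N₁ * N₂ ≤ Y ∨ κ = 1 ∧ N₁ ≤ Y ∧ N₂ ≤ Y ∧ N₃ ≤ Y ∧ N₄ ≤ Y) →
      Supp M L₁ c₁ → Supp M L₂ c₂ → (∀ n, ‖c₁ n‖ ≤ 1) → (∀ n, ‖c₂ n‖ ≤ 1) →
      ∑ a ∈ ball ⌊A⌋₊, ‖cenP ν a N₁ N₂ N₃ N₄ κ (τ * Complex.I)‖ ^ 2 *
          (‖slot (sp M L₁) c₁ a‖ ^ 2 * ‖slot (sp M L₂) c₂ a‖ ^ 2) ≤
        C * R ^ ε * (1 + |τ|) ^ J * (A * (N₁ * N₂) * (L₁ * L₂)) *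
          (1 + l * (N₁ * N₂) * L₁ ^ 5 * L₂ ^ 2 / A + (A / l) ^ θ +
            Y * l ^ (5 / 6 : ℝ) * L₁ ^ 5 / A ^ (5 / 6 : ℝ)) :=
  Mom4A.cen_bound hM h hθ hε

/-- One step: centring at `μ N = A^{2/3}`, reflection, Cauchy–Schwarz. -/
theorem step_bound {M : O} (hM : Adm M) {θ ε : ℝ} (h : T4 M θ) (hθ : 0 ≤ θ) (hε : 0 < ε) :
    ∃ (C : ℝ) (J : ℕ), 0 < C ∧ ∀ (A N H L₁ L₂ l τ : ℝ) (ν : Chr M) (c₁ c₂ : O → ℂ), 1 ≤ A → 0 < N →
      1 ≤ H → N ≤ H * Real.sqrt A → 1 ≤ L₂ → L₂ ≤ L₁ → 1 ≤ l →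
      l ^ (5 / 6 : ℝ) * L₁ ^ 5 ≤ A ^ (1 / 6 : ℝ) →
      Supp M L₁ c₁ → Supp M L₂ c₂ → (∀ n, ‖c₁ n‖ ≤ 1) → (∀ n, ‖c₂ n‖ ≤ 1) →
      ∑ a ∈ nex M A, ‖Pln ν a N (τ * Complex.I)‖ ^ 4 *
          (‖slot (sp M L₁) c₁ a‖ ^ 2 * ‖slot (sp M L₂) c₂ a‖ ^ 2) ≤
        C * A ^ ε * (H * (1 + |τ|)) ^ J * (A * N ^ 2 * (L₁ * L₂)) *
          (1 + l * N ^ 2 * L₁ ^ 5 * L₂ ^ 2 / A + (A / l) ^ θ) :=
  M4B.step_of hM hε fun _ hη => cen_bound hM h hθ hη

theorem T4.step {M : O} (hM : Adm M) {θ δ ε : ℝ} (h : T4 M θ) (hθ : 0 ≤ θ) (hδ : 0 < δ)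
    (hδ1 : δ ≤ 1 / 5) (hε : 0 < ε) : T4 M (max δ (θ * (1 - δ)) + ε) := by
  obtain ⟨C, J, hC, hs⟩ := step_bound hM h hθ (half_pos hε)
  rw [← add_halves ε, ← add_assoc]
  exact M4B.T4_of_half hM (add_nonneg (hδ.le.trans (le_max_left _ _)) (half_pos hε).le) (half_pos hε)
    (M4B.half_of hδ hδ1 hC hs)

/-- **Fourth moment.** -/
theorem mom4 {M : O} (hM : Adm M) {ε : ℝ} (hε : 0 < ε) : T4 M ε :=
  M4B.mom4_of hM hε fun _ _ _ h => T4.step hM h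

/-- **Fourth moment with marks** (`2q + 7l/2 ≤ 1`, `l ≤ 1/15` when `L₁ = L₂`). -/
theorem mom4_fill {M : O} (hM : Adm M) {ε : ℝ} (hε : 0 < ε) : ∃ (C : ℝ) (J : ℕ), 0 < C ∧
    ∀ (A N L₁ L₂ τ : ℝ) (ν : Chr M) (Z₁ Z₂ : Finset O) (c₁ c₂ : O → ℂ), 1 ≤ A → 0 < N → 1 ≤ L₂ →
      L₂ ≤ L₁ → L₁ ^ 30 ≤ A → N ^ 2 * L₁ ^ 5 * L₂ ^ 2 ≤ A → (∀ z ∈ Z₁, SP M z ∧ nr z ≤ L₁) →
      (∀ z ∈ Z₂, SP M z ∧ nr z ≤ L₂) → (∀ n, ‖c₁ n‖ ≤ 1) → (∀ n, ‖c₂ n‖ ≤ 1) →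
      ∑ a ∈ nex M A, ‖Pln ν a N (τ * Complex.I)‖ ^ 4 * (‖slot Z₁ c₁ a‖ ^ 2 * ‖slot Z₂ c₂ a‖ ^ 2) ≤
        C * A ^ ε * (1 + |τ|) ^ J * (A * N ^ 2 * (L₁ * L₂)) :=
  M4B.fill_of hε (step_bound hM (mom4 hM (half_pos hε)) (half_pos hε).le (half_pos hε))

end Crest.Agent.R17
end
end

-- ▼ part PVc/R17/Numeric
section

/-!
# Row 17, module M14: the exponent inequality
-/

set_option autoImplicit false

namespace Crest.Agent.R17

/-- The allowed excess in the count of the rows of class `(δ, q)`. -/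
noncomputable def Eexc (δ q : ℝ) : ℝ :=
  16 / 13 * (max (7 / 8) ((1 + δ) / 2) - 25 / 36 - 23 / 144 + 7 / 48 * δ - q / 12 - 1 / 2000)

theorem numeric_cover {δ q E : ℝ} (h₁ : 1 ≤ 50 * δ) (h₂ : δ ≤ 1) (h₃ : 0 ≤ q) (h₄ : q ≤ δ)
    (hE : 976 + 7000 * δ - 4000 * q ≤ 39000 * E) : ∃ U V S : ℝ,
      (0 ≤ U ∧ U ≤ 5000 ∧ 0 ≤ V ∧ V ≤ 3800 ∧ 10000 - 2 * U - 2 * V ≤ S) ∧
      (5 - 6 * δ) * U ≤ 60000 * E ∧ (2 * δ - q) * V ≤ 20000 * E ∧
      (7 * δ - 2 * q) * S ≤ 70000 * E ∧ δ * S - 600 * q ≤ 10000 * E := by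
  rcases le_total (50 * δ) 27 with h | h
  swap
  · exact ⟨2260, 2030, 1420, by norm_num, by linarith, by linarith, by linarith, by linarith⟩
  rcases le_total (500 * δ - 250 * q) 173 with h | h
  swap
  · exact ⟨1787, 2258, 1910, by norm_num, by linarith, by linarith, by linarith, by linarith⟩
  rcases le_total (100 * q) 27 with h | h
  · rcases le_total (1000 * δ - 500 * q) 127 with h | h
    · exact ⟨325, 3505, 2340, by norm_num, by linarith, by linarith, by linarith, by linarith⟩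
    rcases le_total (125 * δ) 38 with h | h
    · rcases le_total (500 * δ - 250 * q) 77 with h | h
      · exact ⟨675, 3195, 2260, by norm_num, by linarith, by linarith, by linarith, by linarith⟩
      rcases le_total (125 * δ) 28 with h | h
      · exact ⟨770, 2910, 2640, by norm_num, by linarith, by linarith, by linarith, by linarith⟩
      rcases le_total (1000 * δ - 500 * q) 243 with h | h
      swap
      · exact ⟨1162, 2618, 2440, by norm_num, by linarith, by linarith, by linarith, by linarith⟩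
      rcases le_total (1000 * δ - 500 * q) 219 with h | h
      swap
      · exact ⟨1050, 2760, 2380, by norm_num, by linarith, by linarith, by linarith, by linarith⟩
      rcases le_total (500 * δ + 500 * q) 183 with h | h
      · exact ⟨834, 2880, 2572, by norm_num, by linarith, by linarith, by linarith, by linarith⟩
      rcases le_total (1000 * δ - 500 * q) 173 with h | h
      · exact ⟨835, 3045, 2240, by norm_num, by linarith, by linarith, by linarith, by linarith⟩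
      rcases le_total (200 * δ - 100 * q) 39 with h | h
      swap
      · exact ⟨1007, 2838, 2310, by norm_num, by linarith, by linarith, by linarith, by linarith⟩
      rcases le_total (500 * δ + 500 * q) 263 with h | h
      · exact ⟨913, 2934, 2306, by norm_num, by linarith, by linarith, by linarith, by linarith⟩
      exact ⟨960, 2940, 2200, by norm_num, by linarith, by linarith, by linarith, by linarith⟩
    rcases le_total (1000 * δ - 500 * q) 311 with h | h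
    swap
    · exact ⟨1547, 2418, 2070, by norm_num, by linarith, by linarith, by linarith, by linarith⟩
    rcases le_total (500 * δ - 250 * q) 147 with h | h
    swap
    · exact ⟨1464, 2488, 2096, by norm_num, by linarith, by linarith, by linarith, by linarith⟩
    rcases le_total (250 * δ - 500 * q) 17 with h | h
    swap
    · exact ⟨1274, 2580, 2292, by norm_num, by linarith, by linarith, by linarith, by linarith⟩
    rcases le_total (500 * δ - 250 * q) 133 with h | h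
    swap
    · exact ⟨1417, 2528, 2110, by norm_num, by linarith, by linarith, by linarith, by linarith⟩
    rcases le_total (500 * q) 97 with h | h
    · rcases le_total (500 * δ - 250 * q) 117 with h | h
      · exact ⟨1100, 2750, 2300, by norm_num, by linarith, by linarith, by linarith, by linarith⟩
      exact ⟨1232, 2642, 2252, by norm_num, by linarith, by linarith, by linarith, by linarith⟩
    rcases le_total (500 * δ - 250 * q) 121 with h | h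
    swap
    · exact ⟨1330, 2605, 2130, by norm_num, by linarith, by linarith, by linarith, by linarith⟩
    rcases le_total (1000 * δ - 500 * q) 227 with h | h
    swap
    · exact ⟨1240, 2685, 2150, by norm_num, by linarith, by linarith, by linarith, by linarith⟩
    rcases le_total (200 * δ - 100 * q) 43 with h | h
    swap
    · exact ⟨1172, 2744, 2168, by norm_num, by linarith, by linarith, by linarith, by linarith⟩
    rcases le_total (250 * δ - 125 * q) 51 with h | h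
    swap
    · exact ⟨1115, 2795, 2180, by norm_num, by linarith, by linarith, by linarith, by linarith⟩
    rcases le_total (250 * δ - 125 * q) 47 with h | h
    · exact ⟨980, 2940, 2160, by norm_num, by linarith, by linarith, by linarith, by linarith⟩
    exact ⟨1054, 2851, 2190, by norm_num, by linarith, by linarith, by linarith, by linarith⟩
  rcases le_total (250 * δ - 125 * q) 71 with h | h
  swap
  · exact ⟨1750, 2370, 1760, by norm_num, by linarith, by linarith, by linarith, by linarith⟩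
  rcases le_total (250 * δ) 101 with h | h
  swap
  · rcases le_total (125 * δ) 59 with h | h
    swap
    · exact ⟨1697, 2444, 1718, by norm_num, by linarith, by linarith, by linarith, by linarith⟩
    rcases le_total (200 * δ - 100 * q) 51 with h | h
    swap
    · exact ⟨1559, 2506, 1870, by norm_num, by linarith, by linarith, by linarith, by linarith⟩
    rcases le_total (125 * δ) 56 with h | h
    swap
    · exact ⟨1540, 2555, 1810, by norm_num, by linarith, by linarith, by linarith, by linarith⟩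
    rcases le_total (1000 * δ - 500 * q) 237 with h | h
    swap
    · exact ⟨1473, 2582, 1890, by norm_num, by linarith, by linarith, by linarith, by linarith⟩
    rcases le_total (100 * δ - 50 * q) 23 with h | h
    swap
    · exact ⟨1440, 2622, 1876, by norm_num, by linarith, by linarith, by linarith, by linarith⟩
    rcases le_total (100 * δ) 43 with h | h
    swap
    · exact ⟨1440, 2635, 1850, by norm_num, by linarith, by linarith, by linarith, by linarith⟩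
    rcases le_total (50 * δ - 25 * q) 11 with h | h
    swap
    · exact ⟨1392, 2659, 1898, by norm_num, by linarith, by linarith, by linarith, by linarith⟩
    rcases le_total (200 * δ - 100 * q) 43 with h | h
    swap
    · exact ⟨1368, 2687, 1890, by norm_num, by linarith, by linarith, by linarith, by linarith⟩
    rcases le_total (500 * δ - 1000 * q) (-197) with h | h
    swap
    · exact ⟨1318, 2716, 1932, by norm_num, by linarith, by linarith, by linarith, by linarith⟩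
    rcases le_total (1000 * δ - 500 * q) 209 with h | h
    swap
    · exact ⟨1355, 2700, 1890, by norm_num, by linarith, by linarith, by linarith, by linarith⟩
    rcases le_total (500 * δ + 500 * q) 417 with h | h
    · exact ⟨1306, 2736, 1916, by norm_num, by linarith, by linarith, by linarith, by linarith⟩
    exact ⟨1350, 2700, 1900, by norm_num, by linarith, by linarith, by linarith, by linarith⟩
  rcases le_total (125 * δ) 42 with h | h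
  · rcases le_total (1000 * δ - 500 * q) 159 with h | h
    · exact ⟨812, 3112, 2152, by norm_num, by linarith, by linarith, by linarith, by linarith⟩
    rcases le_total (100 * δ - 50 * q) 17 with h | h
    · exact ⟨928, 3016, 2112, by norm_num, by linarith, by linarith, by linarith, by linarith⟩
    rcases le_total (1000 * δ - 500 * q) 181 with h | h
    · exact ⟨985, 2957, 2116, by norm_num, by linarith, by linarith, by linarith, by linarith⟩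
    rcases le_total (1000 * δ - 500 * q) 197 with h | h
    · exact ⟨1044, 2884, 2144, by norm_num, by linarith, by linarith, by linarith, by linarith⟩
    exact ⟨1100, 2850, 2100, by norm_num, by linarith, by linarith, by linarith, by linarith⟩
  rcases le_total (125 * q) 42 with h | h
  · rcases le_total (250 * δ - 125 * q) 59 with h | h
    swap
    · exact ⟨1382, 2596, 2044, by norm_num, by linarith, by linarith, by linarith, by linarith⟩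
    rcases le_total (40 * δ - 20 * q) 9 with h | h
    swap
    · exact ⟨1308, 2672, 2040, by norm_num, by linarith, by linarith, by linarith, by linarith⟩
    rcases le_total (125 * q) 38 with h | h
    · rcases le_total (100 * δ - 50 * q) 21 with h | h
      swap
      · exact ⟨1213, 2733, 2108, by norm_num, by linarith, by linarith, by linarith, by linarith⟩
      rcases le_total (250 * δ - 125 * q) 49 with h | h
      · exact ⟨1080, 2860, 2120, by norm_num, by linarith, by linarith, by linarith, by linarith⟩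
      exact ⟨1138, 2800, 2124, by norm_num, by linarith, by linarith, by linarith, by linarith⟩
    rcases le_total (250 * δ - 125 * q) 53 with h | h
    swap
    · exact ⟨1260, 2715, 2050, by norm_num, by linarith, by linarith, by linarith, by linarith⟩
    rcases le_total (500 * δ - 250 * q) 101 with h | h
    swap
    · exact ⟨1197, 2772, 2062, by norm_num, by linarith, by linarith, by linarith, by linarith⟩
    rcases le_total (1000 * δ - 500 * q) 193 with h | h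
    swap
    · exact ⟨1142, 2820, 2076, by norm_num, by linarith, by linarith, by linarith, by linarith⟩
    rcases le_total (250 * δ - 125 * q) 46 with h | h
    swap
    · exact ⟨1088, 2868, 2088, by norm_num, by linarith, by linarith, by linarith, by linarith⟩
    rcases le_total (100 * δ - 50 * q) 17 with h | h
    · exact ⟨1000, 3000, 2000, by norm_num, by linarith, by linarith, by linarith, by linarith⟩
    exact ⟨1031, 2920, 2098, by norm_num, by linarith, by linarith, by linarith, by linarith⟩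
  rcases le_total (100 * δ) 37 with h | h
  · rcases le_total (1000 * δ - 500 * q) 191 with h | h
    swap
    · exact ⟨1159, 2820, 2042, by norm_num, by linarith, by linarith, by linarith, by linarith⟩
    rcases le_total (500 * δ - 250 * q) 93 with h | h
    swap
    · exact ⟨1128, 2864, 2016, by norm_num, by linarith, by linarith, by linarith, by linarith⟩
    rcases le_total (500 * δ - 250 * q) 91 with h | h
    swap
    · exact ⟨1104, 2886, 2020, by norm_num, by linarith, by linarith, by linarith, by linarith⟩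
    rcases le_total (250 * δ - 125 * q) 44 with h | h
    · exact ⟨1020, 2960, 2040, by norm_num, by linarith, by linarith, by linarith, by linarith⟩
    exact ⟨1068, 2913, 2038, by norm_num, by linarith, by linarith, by linarith, by linarith⟩
  rcases le_total (100 * q) 37 with h | h
  · rcases le_total (1000 * δ - 500 * q) 217 with h | h
    swap
    · exact ⟨1330, 2672, 1996, by norm_num, by linarith, by linarith, by linarith, by linarith⟩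
    rcases le_total (1000 * δ - 500 * q) 209 with h | h
    swap
    · exact ⟨1276, 2729, 1990, by norm_num, by linarith, by linarith, by linarith, by linarith⟩
    rcases le_total (1000 * δ - 500 * q) 203 with h | h
    swap
    · exact ⟨1235, 2765, 2000, by norm_num, by linarith, by linarith, by linarith, by linarith⟩
    rcases le_total (250 * δ - 125 * q) 49 with h | h
    swap
    · exact ⟨1203, 2793, 2008, by norm_num, by linarith, by linarith, by linarith, by linarith⟩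
    rcases le_total (150 * δ - 100 * q) 19 with h | h
    · exact ⟨1150, 2850, 2000, by norm_num, by linarith, by linarith, by linarith, by linarith⟩
    exact ⟨1165, 2829, 2012, by norm_num, by linarith, by linarith, by linarith, by linarith⟩
  rcases le_total (1000 * δ - 500 * q) 207 with h | h
  swap
  · exact ⟨1300, 2720, 1960, by norm_num, by linarith, by linarith, by linarith, by linarith⟩
  rcases le_total (1000 * δ - 500 * q) 203 with h | h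
  swap
  · exact ⟨1273, 2759, 1936, by norm_num, by linarith, by linarith, by linarith, by linarith⟩
  rcases le_total (500 * δ) 197 with h | h
  swap
  · exact ⟨1259, 2773, 1936, by norm_num, by linarith, by linarith, by linarith, by linarith⟩
  rcases le_total (1000 * δ - 500 * q) 197 with h | h
  swap
  · exact ⟨1232, 2786, 1964, by norm_num, by linarith, by linarith, by linarith, by linarith⟩
  rcases le_total (500 * δ - 250 * q) 97 with h | h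
  swap
  · exact ⟨1212, 2808, 1960, by norm_num, by linarith, by linarith, by linarith, by linarith⟩
  rcases le_total (100 * δ - 50 * q) 19 with h | h
  · exact ⟨1150, 2855, 1990, by norm_num, by linarith, by linarith, by linarith, by linarith⟩
  exact ⟨1186, 2828, 1972, by norm_num, by linarith, by linarith, by linarith, by linarith⟩

/-- (For fixed `u, v` all conditions are linear in `(δ, q)` once a branch of `max`/`min` is chosen: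
cover the triangle by finitely many polygons; the true margin is `≈ 9.4e-4` instead of `1/2000`,
the tight point is `q = δ ≈ 0.38`.  Optimal choice: `u = min(1/2, E/(5/6-δ))`,
`v = min(19/50, E/(δ-q/2))`.) -/
theorem numeric {δ q : ℝ} (h₁ : 1 / 50 ≤ δ) (h₂ : δ ≤ 1) (h₃ : 0 ≤ q) (h₄ : q ≤ δ) :
    0 ≤ Eexc δ q ∧ ∃ u v : ℝ, 0 ≤ u ∧ u ≤ 1 / 2 ∧ 0 ≤ v ∧ v ≤ 19 / 50 ∧
      (5 / 6 - δ) * u ≤ Eexc δ q ∧ (δ - q / 2) * v ≤ Eexc δ q ∧
      ∀ s : ℝ, 0 ≤ s → s ≤ 1 - 2 * u - 2 * v → δ * s - q * min (2 / 7 * s) (3 / 50) ≤ Eexc δ q := by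
  have hE : 976 + 7000 * δ - 4000 * q ≤ 39000 * Eexc δ q := by
    unfold Eexc
    linarith [le_max_left (7 / 8) ((1 + δ) / 2)]
  obtain ⟨U, V, S, ⟨a1, a2, a3, a4, a5⟩, b1, b2, b3, b4⟩ := numeric_cover (by linarith) h₂ h₃ h₄ hE
  refine ⟨by linarith, U / 10000, V / 10000, by linarith, by linarith, by linarith, by linarith,
    by linarith, by linarith, fun s _ hs => ?_⟩
  have hS : s ≤ S / 10000 := by linarith
  rcases min_choice (2 / 7 * s) (3 / 50) with e | e <;> rw [e]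
  · linarith [mul_le_mul_of_nonneg_left hS (show 0 ≤ δ - 2 / 7 * q by linarith)]
  · linarith [mul_le_mul_of_nonneg_left hS (h₃.trans h₄)]

/-- Greedy selection of the best slots: lengths `ℓ i ∈ (0, b]`, rates `r i ≥ 0` with weighted mean
`≥ q`, target length `z ≤ ∑ ℓ i`. -/
theorem greedy {ι : Type} (I : Finset ι) (ℓ r : ι → ℝ) {b q z : ℝ} (hb : 0 ≤ b)
    (hℓ : ∀ i ∈ I, 0 < ℓ i ∧ ℓ i ≤ b) (hq : 0 ≤ q)
    (hm : q * ∑ i ∈ I, ℓ i ≤ ∑ i ∈ I, r i * ℓ i) (hz : 0 ≤ z) (hz' : z ≤ ∑ i ∈ I, ℓ i) :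
    ∃ S ⊆ I, ∑ i ∈ S, ℓ i ≤ z ∧ z - b ≤ ∑ i ∈ S, ℓ i ∧
      q * ∑ i ∈ S, ℓ i ≤ ∑ i ∈ S, r i * ℓ i := by
  classical
  induction I using Finset.induction_on_min_value r with
  | empty => exact ⟨∅, subset_rfl, by simpa using hz, by simp at hz' ⊢; linarith, by simp⟩
  | insert a s ha hmin ih =>
    have hs : ∀ i ∈ s, 0 < ℓ i ∧ ℓ i ≤ b := fun i hi => hℓ i (Finset.mem_insert_of_mem hi)
    obtain ⟨a0, a1⟩ := hℓ a (Finset.mem_insert_self _ _)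
    rw [Finset.sum_insert ha] at hz'
    rw [Finset.sum_insert ha, Finset.sum_insert ha] at hm
    have hm' : q * ∑ i ∈ s, ℓ i ≤ ∑ i ∈ s, r i * ℓ i := by
      rcases le_total q (r a) with h | h
      · rw [Finset.mul_sum]
        exact Finset.sum_le_sum fun i hi =>
          mul_le_mul_of_nonneg_right (h.trans (hmin i hi)) (hs i hi).1.le
      · nlinarith
    rcases le_total z (∑ i ∈ s, ℓ i) with h | h
    · obtain ⟨S, h1, h2⟩ := ih hs hm' h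
      exact ⟨S, h1.trans (Finset.subset_insert _ _), h2⟩
    · exact ⟨s, Finset.subset_insert _ _, h, by linarith, hm'⟩

/-- Balanced splitting of a set of slots into two groups. -/
theorem balanced {ι : Type} [DecidableEq ι] (S : Finset ι) (ℓ : ι → ℝ) {b : ℝ} (hb : 0 ≤ b)
    (hℓ : ∀ i ∈ S, 0 ≤ ℓ i ∧ ℓ i ≤ b) :
    ∃ S₁ ⊆ S, ∑ i ∈ S \ S₁, ℓ i ≤ ∑ i ∈ S₁, ℓ i ∧ ∑ i ∈ S₁, ℓ i ≤ ∑ i ∈ S \ S₁, ℓ i + b := by
  induction S using Finset.induction_on with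
  | empty => exact ⟨∅, subset_rfl, by simp, by simpa using hb⟩
  | insert a s ha ih =>
    obtain ⟨S₁, h1, h2, h3⟩ := ih fun i hi => hℓ i (Finset.mem_insert_of_mem hi)
    obtain ⟨a0, a1⟩ := hℓ a (Finset.mem_insert_self _ _)
    have n1 : a ∉ S₁ := fun h => ha (h1 h)
    have n2 : a ∉ s \ S₁ := fun h => ha (Finset.mem_sdiff.1 h).1
    rcases le_total (ℓ a + ∑ i ∈ s \ S₁, ℓ i) (∑ i ∈ S₁, ℓ i) with h | h
    · refine ⟨S₁, h1.trans (Finset.subset_insert _ _), ?_⟩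
      rw [Finset.insert_sdiff_of_notMem _ n1, Finset.sum_insert n2]
      exact ⟨h, by linarith⟩
    · refine ⟨insert a (s \ S₁), Finset.insert_subset_insert _ Finset.sdiff_subset, ?_⟩
      have e : insert a s \ insert a (s \ S₁) = S₁ := by
        ext x
        simp only [Finset.mem_sdiff, Finset.mem_insert]
        constructor
        · tauto
        · exact fun hx => ⟨Or.inr (h1 hx), by rintro (rfl | h); exacts [n1 hx, h.2 hx]⟩
      rw [e, Finset.sum_insert n2]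
      exact ⟨h, by linarith⟩

end Crest.Agent.R17
end

-- ▼ part PVc/R17/CountsAuxS
section

/-!
# Row 17, module M13: the sum over the non-exceptional rows from the class count
-/

set_option autoImplicit false

noncomputable section

namespace Crest.Agent.R17.RSum

open Finset

theorem of_mem_RS {M r : O} {A : ℝ} (h : r ∈ RS M A) : r ∈ rows A ∧ ¬ Exc M r := by
  classical
  rw [RS, mem_filter] at h
  obtain ⟨h0, h1, h2, h3, h4⟩ := h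
  refine ⟨h0, fun hE => h3 ?_⟩
  have : pf r = ∅ := by
    refine eq_empty_of_forall_notMem fun p hp => ?_
    obtain ⟨a1, -, a3⟩ := BasicB.of_mem_pf hp
    have b1 := hE p hp fun hM => a1.not_isUnit (h2.isUnit_of_dvd' a3 hM)
    have b2 := h4 p hp
    have b3 : vp p r ≠ 0 := fun h => (vp_eq_zero_iff a1 h1.ne_zero).1 h a3
    omega
  rw [h1.eq_prod, this, prod_empty]

theorem exists_j {B y e η : ℝ} (hB : 1 < B) (hy : 1 ≤ y) (hye : y ≤ B ^ e) (hη : 0 < η) :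
    ∃ j : ℕ, j * η ≤ e + η ∧ y ≤ B ^ (j * η) ∧ B ^ (j * η - η) ≤ y := by
  have hy0 : 0 < y := one_pos.trans_le hy
  have h0 : 0 ≤ Real.logb B y := Real.logb_nonneg hB hy
  have h1 : Real.logb B y ≤ e := (Real.logb_le_iff_le_rpow hB hy0).2 hye
  have h2 := Nat.le_ceil (Real.logb B y / η)
  have h3 := (Nat.ceil_lt_add_one (div_nonneg h0 hη.le)).le
  rw [div_le_iff₀ hη] at h2
  rw [div_add_one hη.ne', le_div_iff₀ hη] at h3
  refine ⟨⌈Real.logb B y / η⌉₊, by linarith, (Real.logb_le_iff_le_rpow hB hy0).1 h2, ?_⟩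
  exact (Real.le_logb_iff_rpow_le hB hy0).1 (by linarith)

theorem exists_k (P y μ : ℝ) (K : ℕ) : ∃ k : ℕ, k ≤ K ∧ (k = 0 ∨ P ^ ((1 + k * μ) / 2) ≤ y) ∧
    (k = K ∨ y ≤ P ^ ((1 + (k + 1) * μ) / 2)) := by
  classical
  obtain ⟨h1, h2, h3⟩ := (Nat.findGreatest_eq_iff
    (P := fun k : ℕ => P ^ ((1 + k * μ) / 2) ≤ y) (k := K)).1 rfl
  refine ⟨_, h1, ?_, ?_⟩
  · exact (eq_or_ne _ 0).imp_right h2
  · rcases h1.eq_or_lt with h | h
    · exact Or.inl h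
    · have := h3 (Nat.lt_succ_self _) h
      push_cast at this
      exact Or.inr (not_le.1 this).le

theorem prod_le {K₀ : ℕ} {B C ε : ℝ} (hB : 0 < B) (f e : Fin K₀ → ℝ) (hf : ∀ i, 0 ≤ f i)
    (h : ∀ i, f i ≤ C * B ^ ε * Pw K₀ B i ^ e i) :
    ∏ i, f i ≤ C ^ K₀ * B ^ (K₀ * ε + ∑ i : Fin K₀, ell K₀ i * e i) := by
  refine (prod_le_prod (fun i _ => hf i) fun i _ => h i).trans (le_of_eq ?_)
  rw [prod_mul_distrib, prod_const, card_univ, Fintype.card_fin, mul_pow, Real.rpow_add hB,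
    Real.rpow_sum_of_pos hB, mul_comm (K₀ : ℝ) ε, Real.rpow_mul_natCast hB.le, mul_assoc]
  congr 2
  refine prod_congr rfl fun i _ => ?_
  rw [Pw, ← Real.rpow_mul hB.le]

theorem NrmB_eq {B : ℝ} (hB : 0 < B) : NrmB B = B ^ (25 / 32 : ℝ) := by
  rw [NrmB, Apar, Xpar, ← Real.rpow_mul hB.le, ← Real.rpow_add hB, ← Real.rpow_add hB]
  norm_num

theorem fiber {B ρ η σ s c C₁ C₂ m β : ℝ} (S : Finset O) (g : O → ℝ) (hB : 1 ≤ B) (hσ : 1 / 2 ≤ σ)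
    (hC₁ : 0 ≤ C₁) (hC₂ : 0 ≤ C₂)
    (hS : ∀ r ∈ S, B ^ (ρ - η) ≤ nr r ∧ nr r ≤ B ^ ρ ∧ 0 ≤ g r ∧ g r ≤ C₁ * B ^ s)
    (hc : (S.card : ℝ) ≤ C₂ * B ^ c)
    (hexp : (13 / 16 + m - ρ + η) / 3 + σ + 23 / 48 * (1 - σ) + ρ * (σ - 1 / 2) + s + c ≤
      25 / 32 + (β - m)) :
    ∑ r ∈ S, (Apar B * B ^ m / nr r) ^ (1 / 3 : ℝ) *
      (B ^ σ * Xpar B ^ (1 - σ) * nr r ^ (σ - 1 / 2) * g r) ≤ C₁ * C₂ * (NrmB B * B ^ (β - m)) := by
  have hB0 : 0 < B := one_pos.trans_le hB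
  have key : ∀ r ∈ S, (Apar B * B ^ m / nr r) ^ (1 / 3 : ℝ) *
      (B ^ σ * Xpar B ^ (1 - σ) * nr r ^ (σ - 1 / 2) * g r) ≤
      C₁ * B ^ ((13 / 16 + m - ρ + η) / 3 + σ + 23 / 48 * (1 - σ) + ρ * (σ - 1 / 2) + s) := by
    intro r hr
    obtain ⟨h1, h2, h3, h4⟩ := hS r hr
    have h0 : 0 < nr r := (Real.rpow_pos_of_pos hB0 _).trans_le h1
    have a1 : (Apar B * B ^ m / nr r) ^ (1 / 3 : ℝ) ≤ B ^ ((13 / 16 + m - ρ + η) / 3) := by
      rw [show (13 / 16 + m - ρ + η) / 3 = (13 / 16 + m - (ρ - η)) * (1 / 3) by ring,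
        Real.rpow_mul hB0.le, Real.rpow_sub hB0, Real.rpow_add hB0, Apar]
      gcongr
    have a2 : nr r ^ (σ - 1 / 2) ≤ B ^ (ρ * (σ - 1 / 2)) := by
      rw [Real.rpow_mul hB0.le]
      exact Real.rpow_le_rpow h0.le h2 (by linarith)
    rw [Xpar, ← Real.rpow_mul hB0.le, Real.rpow_add hB0, Real.rpow_add hB0, Real.rpow_add hB0,
      Real.rpow_add hB0]
    calc _ ≤ B ^ ((13 / 16 + m - ρ + η) / 3) *
          (B ^ σ * B ^ (23 / 48 * (1 - σ)) * B ^ (ρ * (σ - 1 / 2)) * (C₁ * B ^ s)) := by gcongr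
      _ = _ := by ring
  refine (sum_le_card_nsmul _ _ _ key).trans ?_
  rw [nsmul_eq_mul, NrmB_eq hB0, ← Real.rpow_add hB0]
  refine le_trans ?_ (mul_le_mul_of_nonneg_left (Real.rpow_le_rpow_of_exponent_le hB hexp)
    (mul_nonneg hC₁ hC₂))
  rw [Real.rpow_add hB0 _ c]
  calc _ ≤ C₂ * B ^ c * (C₁ * B ^ ((13 / 16 + m - ρ + η) / 3 + σ + 23 / 48 * (1 - σ) +
        ρ * (σ - 1 / 2) + s)) := by gcongr
    _ = _ := by ring

theorem sum_le_fibers {α κ : Type} [DecidableEq κ] (s : Finset α) (T : Finset κ) (g : α → κ)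
    (f : α → ℝ) (hg : ∀ a ∈ s, g a ∈ T) {Y : ℝ}
    (h : ∀ t ∈ T, ∑ a ∈ s.filter (fun a => g a = t), f a ≤ Y) : ∑ a ∈ s, f a ≤ T.card * Y := by
  rw [← sum_fiberwise_of_maps_to hg, ← nsmul_eq_mul]
  exact sum_le_card_nsmul _ _ _ h

theorem exp_class {δ q ρ β : ℝ} (h₁ : 1 / 50 ≤ δ) (h₂ : (1 + δ) / 2 ≤ β) (hβ : 7 / 8 ≤ β)
    (hβ1 : β ≤ 1) (h₃ : 0 ≤ q) (h₄ : q ≤ δ) (hρ : ρ ≤ 13 / 16 + 1 / 10000 + 1 / 20000) :
    (13 / 16 + 1 / 10000 - ρ + 1 / 20000) / 3 + (1 + δ) / 2 + 23 / 48 * (1 - (1 + δ) / 2) +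
      ρ * ((1 + δ) / 2 - 1 / 2) + (1 / 20000 + (1 / 12 + q / 12 + 1 / 120000)) +
      (1 / 20000 + ρ * (1 - δ + Eexc δ q)) ≤ 25 / 32 + (β - 1 / 10000) := by
  have hE := (numeric h₁ (by linarith) h₃ h₄).1
  have hm : max (7 / 8) ((1 + δ) / 2) ≤ β := max_le hβ h₂
  have hE' : Eexc δ q ≤ 16 / 13 * (β - 25 / 36 - 23 / 144 + 7 / 48 * δ - q / 12 - 1 / 2000) := by
    unfold Eexc; linarith
  have h5 : ρ * (2 / 3 - δ / 2 + Eexc δ q) ≤
      (13 / 16 + 1 / 10000 + 1 / 20000) * (2 / 3 - δ / 2 + Eexc δ q) :=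
    mul_le_mul_of_nonneg_right hρ (by linarith)
  nlinarith

theorem main (Cl : O → O → ℝ → ℝ → ℝ → Prop)
    (hcl : ∀ {β ε₁ : ℝ}, 51 / 100 ≤ β → β ≤ 1 → ZeroFree β → 0 < ε₁ → ∀ {M : O}, Adm M →
      ∃ (G : Finset ℝ) (B₀ : ℝ), (∀ σ ∈ G, 51 / 100 ≤ σ ∧ σ ≤ β) ∧
      ∀ B ≥ B₀, ∀ r : O, ¬ Exc M r → ∃ σ ∈ G, ZF M r σ (Real.log B ^ 2) ∧
        (σ = 51 / 100 ∨ Cl M r B σ ε₁))
    (hcc : ∃ K₁ : ℕ, ∀ K₀ ≥ K₁,
      ∀ {M : O}, Adm M → ∃ ε₁ C B₀ : ℝ, 0 < ε₁ ∧ ∀ B ≥ B₀,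
        ∀ (R₀ δ q : ℝ) (qs : ℕ → ℝ) (S : Finset O),
        B ^ (6 / 25 : ℝ) ≤ R₀ → R₀ ≤ B ^ (33 / 40 : ℝ) → 1 / 50 ≤ δ → δ ≤ 1 → 0 ≤ q → q ≤ δ →
        (∀ i, 0 ≤ qs i) → q / 6 ≤ ∑ i : Fin K₀, qs i * ell K₀ i →
        (∀ r ∈ S, ¬ Exc M r ∧ nr r ≤ R₀ ∧ Cl M r B ((1 + δ) / 2) ε₁ ∧
          ∀ i < K₀, qs i = 0 ∨ Pw K₀ B i ^ ((1 + qs i) / 2) ≤ ‖slt M K₀ B i r‖) →
        (S.card : ℝ) ≤ C * B ^ (1 / 20000 : ℝ) * R₀ ^ (1 - δ + Eexc δ q)) :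
    ∃ (m : ℝ) (K₀ : ℕ), 0 < m ∧ m ≤ 1 / 100 ∧ 1 ≤ K₀ ∧ ∀ β : ℝ, 7 / 8 ≤ β → β ≤ 1 →
    ZeroFree β → ∀ {M : O}, Adm M → ∃ C B₀ : ℝ, ∀ B ≥ B₀, ∃ σ : O → ℝ,
      (∀ r ∈ RS M (Apar B * B ^ m), 1 / 2 ≤ σ r ∧ σ r ≤ 1 ∧ ZF M r (σ r) (Real.log B ^ 2)) ∧
      ∑ r ∈ RS M (Apar B * B ^ m), (Apar B * B ^ m / nr r) ^ (1 / 3 : ℝ) *
          (B ^ σ r * Xpar B ^ (1 - σ r) * nr r ^ (σ r - 1 / 2) *
            ∏ i : Fin K₀, (‖slt M K₀ B i r‖ + Real.sqrt (Pw K₀ B i))) ≤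
        C * NrmB B * B ^ (β - m) := by
  classical
  obtain ⟨K₁, hcc⟩ := hcc
  obtain ⟨K₀, hK1, hK⟩ : ∃ K₀ : ℕ, K₁ ≤ K₀ ∧ 1 ≤ K₀ := ⟨max K₁ 1, le_max_left _ _, le_max_right _ _⟩
  have hK' : (0 : ℝ) < K₀ := by exact_mod_cast hK
  refine ⟨1 / 10000, K₀, by norm_num, by norm_num, hK, fun β hβ hβ1 hZ M hM => ?_⟩
  obtain ⟨ε₁, C, B₀, hε₁, hcc⟩ := hcc K₀ hK1 hM
  obtain ⟨G, B₁, hG, hcl⟩ := hcl (by linarith) hβ1 hZ hε₁ hM
  obtain ⟨C₀, hC₀, hs⟩ := slt_class hM (K₀ := K₀) (ε := 1 / (20000 * K₀)) (by positivity)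
  set T : Finset (ℝ × ℕ × (Fin K₀ → ℕ)) :=
    insert β G ×ˢ range 20001 ×ˢ Fintype.piFinset fun _ => range 10001 with hT
  refine ⟨T.card * ((C₀ + 2) ^ K₀ * max C 7), max (Real.exp 3) (max B₀ B₁), fun B hB => ?_⟩
  simp only [ge_iff_le, max_le_iff] at hB
  obtain ⟨hB3, hB0', hB1'⟩ := hB
  have hB1 : 1 < B := (Real.one_lt_exp_iff.2 (by norm_num)).trans_le hB3
  have hB0 : 0 < B := one_pos.trans hB1
  have hlog : 3 ≤ Real.log B := (Real.le_log_iff_exp_le hB0).2 hB3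
  have hA : Apar B * B ^ (1 / 10000 : ℝ) = B ^ (13 / 16 + 1 / 10000 : ℝ) := by
    rw [Apar, ← Real.rpow_add hB0]
  set s := RS M (Apar B * B ^ (1 / 10000 : ℝ)) with hs_def
  have hmem : ∀ r ∈ s, ¬ Exc M r ∧ r ≠ 0 ∧ nr r ≤ B ^ (13 / 16 + 1 / 10000 : ℝ) := by
    intro r hr
    obtain ⟨h1, h2⟩ := of_mem_RS hr
    rw [hA, mem_rows (by positivity)] at h1
    exact ⟨h2, h1⟩
  have hj : ∀ r : O, ∃ j : ℕ, r ∈ s → (j : ℝ) * (1 / 20000) ≤ 13 / 16 + 1 / 10000 + 1 / 20000 ∧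
      nr r ≤ B ^ ((j : ℝ) * (1 / 20000)) ∧ B ^ ((j : ℝ) * (1 / 20000) - 1 / 20000) ≤ nr r := by
    intro r
    by_cases hr : r ∈ s
    · obtain ⟨-, h1, h2⟩ := hmem r hr
      obtain ⟨j, h⟩ := exists_j hB1 (one_le_nr h1) h2 (show (0 : ℝ) < 1 / 20000 by norm_num)
      exact ⟨j, fun _ => h⟩
    · exact ⟨0, fun h => absurd h hr⟩
  choose j hj using hj
  have hσ : ∀ r : O, ∃ σ : ℝ, r ∈ s → σ ∈ insert β G ∧ ZF M r σ (Real.log B ^ 2) ∧
      (j r ≤ 4800 ∧ σ = β ∨ σ = 51 / 100 ∨ 4800 < j r ∧ Cl M r B σ ε₁) := by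
    intro r
    by_cases hr : r ∈ s
    · rcases le_or_gt (j r) 4800 with h | h
      · exact ⟨β, fun _ => ⟨mem_insert_self _ _, hZ.zf hM (hmem r hr).1 _, Or.inl ⟨h, rfl⟩⟩⟩
      · obtain ⟨σ, h1, h2, h3⟩ := hcl B hB1' r (hmem r hr).1
        exact ⟨σ, fun _ => ⟨mem_insert_of_mem h1, h2, Or.inr (h3.imp_right fun h' => ⟨h, h'⟩)⟩⟩
    · exact ⟨0, fun h => absurd h hr⟩
  choose σ hσ using hσ
  choose k hk using fun (r : O) (i : Fin K₀) =>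
    exists_k (Pw K₀ B i) ‖slt M K₀ B i r‖ (1 / 10000) 10000
  have hG' : ∀ x ∈ insert β G, 51 / 100 ≤ x ∧ x ≤ β := by
    intro x hx
    rcases mem_insert.1 hx with rfl | hx
    · exact ⟨by linarith, le_rfl⟩
    · exact hG x hx
  refine ⟨σ, fun r hr => ?_, ?_⟩
  · obtain ⟨h1, h2, -⟩ := hσ r hr
    exact ⟨by linarith [(hG' _ h1).1], (hG' _ h1).2.trans hβ1, h2⟩
  have hε : 1 ≤ B ^ (1 / (20000 * K₀) : ℝ) := Real.one_le_rpow hB1.le (by positivity)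
  have hKε : (K₀ : ℝ) * (1 / (20000 * K₀)) = 1 / 20000 := by field_simp
  -- bounds for the slots
  have hsl : ∀ r ∈ s, ∀ i : Fin K₀,
      ‖slt M K₀ B i r‖ ≤ C₀ * B ^ (1 / (20000 * K₀) : ℝ) * Pw K₀ B i ^ σ r := by
    intro r hr i
    obtain ⟨h1, h2, -⟩ := hσ r hr
    obtain ⟨h3, -, h4⟩ := hmem r hr
    refine hs B (σ r) _ i r hB1.le i.2 h3 (h4.trans ?_) (by linarith [(hG' _ h1).1])
      ((hG' _ h1).2.trans hβ1) h2 (by nlinarith)
    exact Real.rpow_le_self_of_one_le hB1.le (by norm_num)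
  have hadd : ∀ (i : Fin K₀) (y e : ℝ), 1 / 2 ≤ e →
      y ≤ (C₀ + 1) * B ^ (1 / (20000 * K₀) : ℝ) * Pw K₀ B i ^ e →
      y + Real.sqrt (Pw K₀ B i) ≤ (C₀ + 2) * B ^ (1 / (20000 * K₀) : ℝ) * Pw K₀ B i ^ e := by
    intro i y e he hy
    have h1 : Real.sqrt (Pw K₀ B i) ≤ Pw K₀ B i ^ e := by
      rw [Real.sqrt_eq_rpow]
      exact Real.rpow_le_rpow_of_exponent_le (PA.one_le_Pw i.2 hB1.le) he
    have h2 : Pw K₀ B i ^ e ≤ B ^ (1 / (20000 * K₀) : ℝ) * Pw K₀ B i ^ e :=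
      le_mul_of_one_le_left (Real.rpow_pos_of_pos (PA.Pw_pos K₀ hB0 i) e).le hε
    linarith
  have hp1 : ∀ r ∈ s, ∏ i : Fin K₀, (‖slt M K₀ B i r‖ + Real.sqrt (Pw K₀ B i)) ≤
      (C₀ + 2) ^ K₀ * B ^ (1 / 20000 + σ r / 6) := by
    intro r hr
    have := prod_le (C := C₀ + 2) (ε := 1 / (20000 * K₀)) hB0
      (fun i : Fin K₀ => ‖slt M K₀ B i r‖ + Real.sqrt (Pw K₀ B i)) (fun _ => σ r)
      (fun i => by positivity) fun i => hadd i _ _ (by linarith [(hG' _ (hσ r hr).1).1])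
        ((hsl r hr i).trans (by
          have := PA.Pw_pos K₀ hB0 i
          gcongr; linarith))
    rwa [hKε, ← sum_mul, sum_ell hK, show 1 / 6 * σ r = σ r / 6 by ring] at this
  have hp2 : ∀ r ∈ s, ∏ i : Fin K₀, (‖slt M K₀ B i r‖ + Real.sqrt (Pw K₀ B i)) ≤
      (C₀ + 2) ^ K₀ * B ^ (1 / 20000 + (1 / 12 +
        (∑ i : Fin K₀, (k r i : ℝ) * (1 / 10000) * ell K₀ i) / 2 + 1 / 120000)) := by
    intro r hr
    have := prod_le (C := C₀ + 2) (ε := 1 / (20000 * K₀)) hB0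
      (fun i : Fin K₀ => ‖slt M K₀ B i r‖ + Real.sqrt (Pw K₀ B i))
      (fun i => (1 + ((k r i : ℝ) + 1) * (1 / 10000)) / 2)
      (fun i => by positivity) fun i => hadd i _ _
        (by have : (0 : ℝ) ≤ k r i := Nat.cast_nonneg _
            linarith) (by
          have hP := PA.Pw_pos K₀ hB0 i
          rcases (hk r i).2.2 with h | h
          · refine (hsl r hr i).trans ?_
            have h1 : Pw K₀ B i ^ σ r ≤ Pw K₀ B i ^ ((1 + ((k r i : ℝ) + 1) * (1 / 10000)) / 2) := by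
              refine Real.rpow_le_rpow_of_exponent_le (PA.one_le_Pw i.2 hB1.le) ?_
              rw [h]; push_cast
              linarith [(hG' _ (hσ r hr).1).2]
            gcongr; linarith
          · refine h.trans (le_mul_of_one_le_left (by positivity) ?_)
            nlinarith)
    rw [hKε] at this
    convert this using 3
    have e : ∀ i : Fin K₀, ell K₀ i * ((1 + ((k r i : ℝ) + 1) * (1 / 10000)) / 2) =
        (k r i : ℝ) * (1 / 10000) * ell K₀ i / 2 + ell K₀ i * (10001 / 20000) := fun i => by ring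
    simp only [e]
    rw [sum_add_distrib, ← sum_div, ← sum_mul, sum_ell hK]
    ring
  rw [mul_assoc, mul_assoc]
  refine sum_le_fibers s T (fun r => (σ r, j r, k r)) _ (fun r hr => ?_) ?_
  · simp only [hT, mem_product, mem_range, Fintype.mem_piFinset]
    refine ⟨(hσ r hr).1, ?_, fun i => Nat.lt_succ_of_le (hk r i).1⟩
    have : (j r : ℝ) < 20001 := by linarith [(hj r hr).1]
    exact_mod_cast this
  rintro ⟨σ₀, j₀, k₀⟩ -
  set S := s.filter fun r => (σ r, j r, k r) = (σ₀, j₀, k₀) with hS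
  have hY : 0 ≤ (C₀ + 2) ^ K₀ * max C 7 * (NrmB B * B ^ (β - 1 / 10000)) := by
    rw [NrmB_eq hB0]; positivity
  rcases S.eq_empty_or_nonempty with h0 | ⟨r₀, hr₀⟩
  · rw [h0, sum_empty]; exact hY
  have hS' : ∀ r ∈ S, r ∈ s ∧ σ r = σ₀ ∧ j r = j₀ ∧ k r = k₀ := by
    intro r hr
    simpa only [hS, mem_filter, Prod.mk.injEq] using hr
  obtain ⟨a0, a1, a2, a3⟩ := hS' r₀ hr₀
  have b1 := hG' _ (hσ r₀ a0).1
  have b2 := (hj r₀ a0).1
  rw [a1] at b1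
  rw [a2] at b2
  have hj0 : (0 : ℝ) ≤ j₀ := Nat.cast_nonneg _
  have hC7 : (0 : ℝ) ≤ max C 7 := le_max_of_le_right (by norm_num)
  rw [sum_congr rfl fun r hr => by rw [(hS' r hr).2.1]]
  have hrange : ∀ r ∈ S, B ^ ((j₀ : ℝ) * (1 / 20000) - 1 / 20000) ≤ nr r ∧
      nr r ≤ B ^ ((j₀ : ℝ) * (1 / 20000)) := by
    intro r hr
    obtain ⟨c0, -, c2, -⟩ := hS' r hr
    rw [← c2]
    exact ⟨(hj r c0).2.2, (hj r c0).2.1⟩
  -- trivial count
  have htriv : (13 / 16 + 1 / 10000 - (j₀ : ℝ) * (1 / 20000) + 1 / 20000) / 3 + σ₀ +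
      23 / 48 * (1 - σ₀) + (j₀ : ℝ) * (1 / 20000) * (σ₀ - 1 / 2) + (1 / 20000 + σ₀ / 6) +
      (j₀ : ℝ) * (1 / 20000) ≤ 25 / 32 + (β - 1 / 10000) →
      ∑ r ∈ S, (Apar B * B ^ (1 / 10000 : ℝ) / nr r) ^ (1 / 3 : ℝ) *
        (B ^ σ₀ * Xpar B ^ (1 - σ₀) * nr r ^ (σ₀ - 1 / 2) *
          ∏ i : Fin K₀, (‖slt M K₀ B i r‖ + Real.sqrt (Pw K₀ B i))) ≤
        (C₀ + 2) ^ K₀ * max C 7 * (NrmB B * B ^ (β - 1 / 10000)) := by
    intro hexp
    refine fiber S _ hB1.le (by linarith [b1.1]) (by positivity) hC7 (fun r hr =>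
      ⟨(hrange r hr).1, (hrange r hr).2, by positivity, ?_⟩) ?_ hexp
    · obtain ⟨c0, c1, -⟩ := hS' r hr
      rw [← c1]; exact hp1 r c0
    · have h1 : S ⊆ rows (B ^ ((j₀ : ℝ) * (1 / 20000))) := fun r hr =>
        (mem_rows (by positivity)).2 ⟨(hmem r (hS' r hr).1).2.1, (hrange r hr).2⟩
      have h2 : (S.card : ℝ) ≤ (rows (B ^ ((j₀ : ℝ) * (1 / 20000)))).card := by
        exact_mod_cast card_le_card h1
      refine h2.trans ((card_rows_le (by positivity)).trans ?_)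
      gcongr
      exact le_max_right _ _
  by_cases hσ0 : σ₀ = 51 / 100
  · refine htriv ?_
    rw [hσ0]; linarith
  rcases le_or_gt j₀ 4800 with hj₀ | hj₀
  · have e : σ₀ = β := by
      rcases (hσ r₀ a0).2.2 with h | h | h
      · rw [← a1, h.2]
      · exact absurd (a1.symm.trans h) hσ0
      · omega
    refine htriv ?_
    have : (j₀ : ℝ) ≤ 4800 := by exact_mod_cast hj₀
    rw [e]
    nlinarith
  obtain ⟨δ, rfl⟩ : ∃ δ : ℝ, σ₀ = (1 + δ) / 2 := ⟨2 * σ₀ - 1, by ring⟩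
  have hell : ∀ i : Fin K₀, 0 ≤ ell K₀ i := fun i => by
    have h1 := (ell_bounds i.2).1
    have h2 := PA.kap_nonneg K₀
    have h3 : 0 ≤ 1 / (8 * (K₀ : ℝ)) := by positivity
    linarith
  set w : ℝ := ∑ i : Fin K₀, (k₀ i : ℝ) * (1 / 10000) * ell K₀ i with hw
  have hw0 : 0 ≤ w := sum_nonneg fun i _ => mul_nonneg (by positivity) (hell i)
  have hδ : 1 / 50 ≤ δ := by linarith [b1.1]
  have hq0 : 0 ≤ min δ (6 * w) := le_min (by linarith) (by linarith)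
  have hj₁ : (4800 : ℝ) ≤ j₀ := by exact_mod_cast hj₀.le
  have hcard := hcc B hB0' (B ^ ((j₀ : ℝ) * (1 / 20000))) δ (min δ (6 * w))
    (fun i => if h : i < K₀ then (k₀ ⟨i, h⟩ : ℝ) * (1 / 10000) else 0) S
    (Real.rpow_le_rpow_of_exponent_le hB1.le (by linarith))
    (Real.rpow_le_rpow_of_exponent_le hB1.le (by linarith)) hδ (by linarith [b1.2]) hq0
    (min_le_left _ _) (fun i => by split_ifs <;> positivity)
    (by
      simp only [Fin.is_lt, dif_pos, Fin.eta]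
      linarith [min_le_right δ (6 * w)])
    (fun r hr => by
      obtain ⟨c0, c1, c2, c3⟩ := hS' r hr
      refine ⟨(hmem r c0).1, (hrange r hr).2, ?_, fun i hi => ?_⟩
      · rcases (hσ r c0).2.2 with h | h | h
        · omega
        · exact absurd (c1.symm.trans h) hσ0
        · rw [← c1]; exact h.2
      · simp only [hi, dif_pos]
        rw [← c3]
        refine (hk r ⟨i, hi⟩).2.1.imp (fun h => ?_) id
        rw [h]; simp)
  refine fiber S _ hB1.le (by linarith) (by positivity) hC7 (fun r hr =>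
    ⟨(hrange r hr).1, (hrange r hr).2, by positivity, ?_⟩) ?_
    (exp_class hδ b1.2 hβ hβ1 hq0 (min_le_left _ _) b2)
  · obtain ⟨c0, c1, -, c3⟩ := hS' r hr
    rcases le_total δ (6 * w) with h | h
    · refine (hp1 r c0).trans ?_
      rw [min_eq_left h, c1]
      exact mul_le_mul_of_nonneg_left (Real.rpow_le_rpow_of_exponent_le hB1.le (by linarith))
        (by positivity)
    · refine (hp2 r c0).trans ?_
      rw [min_eq_right h, c3]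
      exact mul_le_mul_of_nonneg_left (Real.rpow_le_rpow_of_exponent_le hB1.le (by linarith))
        (by positivity)
  · refine hcard.trans ?_
    rw [← Real.rpow_mul hB0.le, mul_assoc, ← Real.rpow_add hB0]
    gcongr
    exact le_max_left _ _

end Crest.Agent.R17.RSum
end
end

-- ▼ part PVc/R17/CountsAuxC
section

/-!
# Row 17, module M13, auxiliary file: the count of the rows of one class
-/

set_option autoImplicit false

noncomputable section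

namespace Crest.Agent.R17

namespace CC

/-- Powers of `log B` are negligible. -/
theorem poly (J : ℕ) {η : ℝ} (hη : 0 < η) : ∃ C : ℝ, 0 < C ∧ ∀ B τ : ℝ, 1 ≤ B →
    |τ| ≤ Real.log B ^ 3 + 3 → (1 + |τ|) ^ J ≤ C * B ^ η := by
  set θ : ℝ := η / (3 * J + 3) with hθ
  have hθ0 : 0 < θ := by positivity
  refine ⟨(4 + (θ⁻¹) ^ 3) ^ J, by positivity, fun B τ hB hτ => ?_⟩
  have hB0 : 0 < B := one_pos.trans_le hB
  have h1 : Real.log B ≤ θ⁻¹ * B ^ θ := by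
    rw [mul_comm, ← div_eq_mul_inv]; exact Real.log_le_rpow_div hB0.le hθ0
  have h2 : 1 ≤ B ^ θ := Real.one_le_rpow hB hθ0.le
  have h3 : Real.log B ^ 3 ≤ (θ⁻¹) ^ 3 * (B ^ θ) ^ 3 := by
    rw [← mul_pow]; exact pow_le_pow_left₀ (Real.log_nonneg hB) h1 3
  have h4 : 1 ≤ (B ^ θ) ^ 3 := one_le_pow₀ h2
  have h5 : 1 + |τ| ≤ (4 + (θ⁻¹) ^ 3) * (B ^ θ) ^ 3 := by nlinarith
  refine (pow_le_pow_left₀ (by positivity) h5 J).trans ?_
  rw [mul_pow, ← pow_mul, ← Real.rpow_natCast (B ^ θ), ← Real.rpow_mul hB0.le]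
  refine mul_le_mul_of_nonneg_left (Real.rpow_le_rpow_of_exponent_le hB ?_) (by positivity)
  rw [hθ, div_mul_eq_mul_div, div_le_iff₀ (by positivity)]
  push_cast
  nlinarith

open Classical in
/-- Pigeonhole over the characters and the dyadic scales. -/
theorem pigeon {M : O} (hM : Adm M) {η : ℝ} (hη : 0 < η) : ∃ C : ℝ, 0 < C ∧
    ∀ (S : Finset O) (ψ : O → Chr M) (y : O → ℝ) (B F : ℝ), 1 ≤ B → 0 ≤ F →
      (∀ a ∈ S, B⁻¹ ≤ y a ∧ y a ≤ B ^ 2) →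
      (∀ (ν : Chr M) (X : ℝ) (S' : Finset O), 0 < X → S' ⊆ S → S'.Nonempty →
        (∀ a ∈ S', ψ a = ν ∧ y a ∈ Set.Icc X (2 * X)) → (S'.card : ℝ) ≤ F) →
      (S.card : ℝ) ≤ C * B ^ η * F := by
  have := finite_chr hM.1
  let _ : Fintype (Chr M) := Fintype.ofFinite _
  obtain ⟨K, hK, hd⟩ := M4S.dyadic (show 0 < η / 3 by positivity)
  have hcard : (0 : ℝ) < Fintype.card (Chr M) := by exact_mod_cast Fintype.card_pos
  refine ⟨Fintype.card (Chr M) * K, by positivity, fun S ψ y B F hB hF hS h => ?_⟩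
  have hB0 : 0 < B := one_pos.trans_le hB
  have e : (S.card : ℝ) = ∑ _a ∈ S, (1 : ℝ) := by simp
  rw [e, ← Finset.sum_fiberwise_of_maps_to (t := Finset.univ) (g := ψ) fun _ _ => Finset.mem_univ _]
  refine (Finset.sum_le_card_nsmul _ _ (K * (B ^ 3) ^ (η / 3) * F) fun ν _ => ?_).trans_eq ?_
  · refine hd _ (fun a => y a * B) _ _ _ (one_le_pow₀ hB) hF (fun a ha => ?_)
      (fun a _ => zero_le_one) fun X hX _ => ?_
    · obtain ⟨h1, h2⟩ := hS a (Finset.mem_filter.1 ha).1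
      refine ⟨by rwa [← inv_le_iff_one_le_mul₀ hB0], ?_⟩
      rw [pow_succ]
      exact mul_le_mul_of_nonneg_right h2 hB0.le
    · set S' := (S.filter fun a => ψ a = ν).filter fun a => X ≤ y a * B ∧ y a * B ≤ 2 * X with hS'
      rcases S'.eq_empty_or_nonempty with he | hne
      · rw [he, Finset.sum_empty]; exact hF
      rw [Finset.sum_const, nsmul_eq_mul, mul_one]
      refine h ν (X / B) S' (by positivity)
        ((Finset.filter_subset _ _).trans (Finset.filter_subset _ _)) hne fun a ha => ?_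
      obtain ⟨h0, h1, h2⟩ := Finset.mem_filter.1 ha
      exact ⟨(Finset.mem_filter.1 h0).2, (div_le_iff₀ hB0).2 h1,
        by rw [← mul_div_assoc]; exact (le_div_iff₀ hB0).2 h2⟩
  · rw [Finset.card_univ, nsmul_eq_mul, ← Real.rpow_natCast B 3, ← Real.rpow_mul hB0.le,
      show ((3 : ℕ) : ℝ) * (η / 3) = η by push_cast; ring]
    ring

/-- One cell: a moment bound and a lower bound on each row give a bound for the number of rows. -/
theorem cell (k : ℕ) {η : ℝ} (hη : 0 < η) : ∃ C : ℝ, 0 < C ∧ ∀ (S : Finset O) (w : O → ℝ)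
    (b : O → O → ℂ) (B X K e f : ℝ) (Y t : O → ℝ), 1 ≤ B → 0 ≤ K → (∀ r, 0 ≤ w r) →
    (∀ r, PolyB (b r) 1 0) → 0 < X → (∀ r ∈ S, Y r ∈ Set.Icc X (2 * X)) →
    (∀ r ∈ S, |t r| ≤ Real.log B ^ 3) →
    (∀ Y' ∈ Set.Icc (X / 4) (8 * X), ∀ t' : ℝ, |t'| ≤ Real.log B ^ 3 + 3 →
      ∑ r ∈ S, w r * ‖Sm (b r) Y' (t' * Complex.I)‖ ^ k ≤ K * B ^ e) →
    (∀ r ∈ S, B ^ f ≤ w r * ‖Sm (b r) (Y r) (t r * Complex.I)‖ ^ k) →
    (S.card : ℝ) ≤ C * K * B ^ (e - f + η) := by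
  obtain ⟨C, hC, h⟩ := sup_moment k
  obtain ⟨C', hC', h'⟩ := poly (2 * k + 1) hη
  refine ⟨C * C', by positivity, fun S w b B X K e f Y t hB hK hw hb hX hY ht hE hW => ?_⟩
  have hB0 : 0 < B := one_pos.trans_le hB
  have hT : 0 ≤ Real.log B ^ 3 := pow_nonneg (Real.log_nonneg hB) 3
  have h1 := h S w b 1 0 X _ _ Y t hw hb hX hT hY ht hE
  have h2 := h' B (Real.log B ^ 3) hB (by rw [abs_of_nonneg hT]; linarith)
  rw [abs_of_nonneg hT] at h2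
  have h3 := (Finset.card_nsmul_le_sum S _ _ hW).trans h1
  rw [nsmul_eq_mul, ← le_div_iff₀ (by positivity)] at h3
  refine h3.trans ?_
  rw [div_le_iff₀ (by positivity), mul_assoc (C * C' * K), ← Real.rpow_add hB0,
    show e - f + η + f = η + e by ring, Real.rpow_add hB0]
  calc _ ≤ C * (C' * B ^ η) * (K * B ^ e) := by gcongr
    _ = _ := by ring

/-- Choice of the slots. -/
theorem select {K₀ : ℕ} (hK : 1 ≤ K₀) {η q z : ℝ} (hη : 5 / (24 * (K₀ : ℝ)) ≤ η) (qs : ℕ → ℝ)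
    (hq0 : 0 ≤ q) (hq1 : q ≤ 1) (hm : q / 6 ≤ ∑ i : Fin K₀, qs i * ell K₀ i) (hz : 0 ≤ z)
    (hz' : z ≤ 1 / 6) : ∃ I : Finset ℕ, (∀ i ∈ I, i < K₀) ∧ I.card ≤ K₀ ∧
      ∑ i ∈ I, (ell K₀ i + kapS K₀) ≤ z + η ∧ ∀ (M a : O) (B : ℝ), 1 ≤ B →
        (∀ i < K₀, qs i = 0 ∨ Pw K₀ B i ^ ((1 + qs i) / 2) ≤ ‖slt M K₀ B i a‖) →
        B ^ (∑ i ∈ I, (ell K₀ i + kapS K₀) + q * z - 2 * η) ≤ ∏ i ∈ I, ‖slt M K₀ B i a‖ ^ 2 := by
  classical
  have hK0 : (0 : ℝ) < K₀ := by exact_mod_cast hK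
  have hκ := PA.kap_nonneg K₀
  have hη0 : 0 ≤ η := le_trans (by positivity) hη
  have hl : ∀ i ∈ Finset.range K₀, 0 < ell K₀ i ∧ ell K₀ i ≤ η := fun i hi => by
    obtain ⟨h1, h2⟩ := ell_bounds (Finset.mem_range.1 hi)
    have : 0 < 1 / (8 * (K₀ : ℝ)) := by positivity
    constructor <;> linarith
  have hs : ∑ i ∈ Finset.range K₀, ell K₀ i = 1 / 6 := by
    rw [← sum_ell hK, Fin.sum_univ_eq_sum_range (fun i => ell K₀ i) K₀]
  rw [Fin.sum_univ_eq_sum_range (fun i => qs i * ell K₀ i) K₀] at hm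
  obtain ⟨I₁, h1, h2, h3, h4⟩ := greedy (Finset.range K₀) (ell K₀) qs hη0 hl hq0
    (by rw [hs]; linarith) hz (by rw [hs]; exact hz')
  have hsub : I₁.filter (fun i => qs i ≠ 0) ⊆ Finset.range K₀ := (Finset.filter_subset _ _).trans h1
  have hc : (I₁.filter (fun i => qs i ≠ 0)).card ≤ K₀ :=
    (Finset.card_le_card hsub).trans_eq (Finset.card_range _)
  have hκs : ∑ _i ∈ I₁.filter (fun i => qs i ≠ 0), kapS K₀ ≤ η := by
    rw [Finset.sum_const, nsmul_eq_mul]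
    have h5 : ((I₁.filter (fun i => qs i ≠ 0)).card : ℝ) ≤ K₀ := by exact_mod_cast hc
    refine (mul_le_mul_of_nonneg_right h5 hκ).trans (le_trans ?_ hη)
    unfold kapS
    rw [mul_one_div, div_le_div_iff₀ (by positivity) (by positivity)]
    nlinarith
  have h6 : ∑ i ∈ I₁.filter (fun i => qs i ≠ 0), ell K₀ i ≤ ∑ i ∈ I₁, ell K₀ i :=
    Finset.sum_le_sum_of_subset_of_nonneg (Finset.filter_subset _ _) fun i hi _ => (hl i (h1 hi)).1.le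
  have h7 : ∑ i ∈ I₁.filter (fun i => qs i ≠ 0), qs i * ell K₀ i = ∑ i ∈ I₁, qs i * ell K₀ i :=
    Finset.sum_filter_of_ne fun i _ h h0 => h (by rw [h0, zero_mul])
  refine ⟨I₁.filter (fun i => qs i ≠ 0), fun i hi => Finset.mem_range.1 (hsub hi), hc, ?_,
    fun M a B hB h => ?_⟩
  · rw [Finset.sum_add_distrib]; linarith
  have hB0 : 0 < B := one_pos.trans_le hB
  calc _ ≤ B ^ (∑ i ∈ I₁.filter (fun i => qs i ≠ 0), (ell K₀ i + qs i * ell K₀ i)) := by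
        refine Real.rpow_le_rpow_of_exponent_le hB ?_
        rw [Finset.sum_add_distrib, Finset.sum_add_distrib, h7]
        nlinarith [mul_le_mul_of_nonneg_left h3 hq0, mul_le_mul_of_nonneg_right hq1 hη0]
    _ ≤ _ := by
        rw [Real.rpow_sum_of_pos hB0]
        refine Finset.prod_le_prod (fun i _ => by positivity) fun i hi => ?_
        obtain ⟨hi1, hi2⟩ := Finset.mem_filter.1 hi
        have h8 := (h i (Finset.mem_range.1 (h1 hi1))).resolve_left hi2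
        refine le_trans (le_of_eq ?_) (pow_le_pow_left₀ (Real.rpow_nonneg (PA.Pw_pos K₀ hB0 i).le _) h8 2)
        rw [Pw, ← Real.rpow_mul hB0.le, ← Real.rpow_natCast, ← Real.rpow_mul hB0.le]
        congr 1
        push_cast
        ring

theorem le_of_eight {B η x Y : ℝ} (hB : 1 ≤ B) (h8 : 8 ≤ B ^ η) (hY : Y ≤ 8 * B ^ x) :
    Y ≤ B ^ (x + η) := by
  have hB0 : 0 < B := one_pos.trans_le hB
  rw [Real.rpow_add hB0, mul_comm]
  exact hY.trans (mul_le_mul_of_nonneg_right h8 (by positivity))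

theorem lower {B η x σ y u : ℝ} (hB : 1 ≤ B) (hσ : 0 ≤ σ) (hy : B ^ x ≤ y)
    (h : B ^ (-η) * y ^ σ ≤ u) (k : ℕ) : B ^ (k * (x * σ - η)) ≤ u ^ k := by
  have hB0 : 0 < B := one_pos.trans_le hB
  rw [mul_comm, Real.rpow_mul hB0.le, Real.rpow_natCast]
  refine pow_le_pow_left₀ (by positivity) (le_trans ?_ h) k
  rw [sub_eq_add_neg, add_comm, Real.rpow_add hB0, Real.rpow_mul hB0.le]
  exact mul_le_mul_of_nonneg_left (Real.rpow_le_rpow (by positivity) hy hσ) (by positivity)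

/-- Case (i): long Möbius sums. -/
theorem cell_long {M : O} (hM : Adm M) {η : ℝ} (hη : 0 < η) (hη1 : η ≤ 1 / 1000) :
    ∃ C : ℝ, 0 < C ∧ ∀ (B ρ δ E u x : ℝ) (ν : Chr M) (S : Finset O) (y t : O → ℝ), 1 ≤ B →
      8 ≤ B ^ η → 0 ≤ ρ → ρ ≤ 1 → 0 ≤ δ → u ≤ 1 / 2 → (5 / 6 - δ) * u ≤ E → 0 ≤ E →
      4 * B ^ ρ ≤ B ^ x → ρ ≤ x → x ≤ ρ * (1 + u) →
      (∀ a ∈ S, a ≠ 0 ∧ nr a ≤ B ^ ρ ∧ y a ∈ Set.Icc (B ^ x) (2 * B ^ x) ∧
        |t a| ≤ Real.log B ^ 3 ∧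
        B ^ (-η) * y a ^ ((1 + δ) / 2) ≤ ‖Mob ν a (y a) (t a * Complex.I)‖) →
      (S.card : ℝ) ≤ C * B ^ (ρ * (1 - δ + E) + 50 * η) := by
  obtain ⟨C₁, J, hC₁, h₁⟩ := inv_long hM hη
  obtain ⟨C₂, hC₂, h₂⟩ := poly J hη
  obtain ⟨C₃, hC₃, h₃⟩ := cell 2 hη
  refine ⟨C₃ * (C₁ * C₂), by positivity,
    fun B ρ δ E u x ν S y t hB h8 hρ hρ1 hδ hu hE hE0 hx hx1 hx2 hS => ?_⟩
  have hB0 : 0 < B := one_pos.trans_le hB
  have hx3 : x ≤ 3 / 2 := by nlinarith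
  refine (h₃ S (fun _ => 1) (fun a n => mu n * rc ν a n) B (B ^ x) (C₁ * C₂)
    ((x + η) * (η + 11 / 6) + ρ / 6 + η) ((2 : ℕ) * (x * ((1 + δ) / 2) - η)) y t hB (by positivity)
    (fun _ => zero_le_one) (fun a => polyB_mu_rc hM ν a) (by positivity) (fun a ha => (hS a ha).2.2.1)
    (fun a ha => (hS a ha).2.2.2.1) (fun Y hY τ hτ => ?_) fun a ha => ?_).trans ?_
  · have hA : B ^ ρ ≤ Y := by linarith [hY.1]
    have hA0 : 0 < B ^ ρ := by positivity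
    have hY0 : 0 < Y := hA0.trans_le hA
    have h4 := h₁ (B ^ ρ) Y τ ν (Real.one_le_rpow hB hρ) hA
    have h5 : ∑ a ∈ S, 1 * ‖Sm (fun n => mu n * rc ν a n) Y (τ * Complex.I)‖ ^ 2 ≤
        ∑ a ∈ rows (B ^ ρ), ‖Mob ν a Y (τ * Complex.I)‖ ^ 2 := by
      simp only [one_mul, ← Mob_eq_Sm]
      exact Finset.sum_le_sum_of_subset_of_nonneg
        (fun a ha => (mem_rows hA0.le).2 ⟨(hS a ha).1, (hS a ha).2.1⟩) fun _ _ _ => by positivity
    refine h5.trans (h4.trans ?_)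
    have h6 : Y ^ η * (Y ^ 2 * (B ^ ρ / Y) ^ (1 / 6 : ℝ)) = Y ^ (η + 11 / 6) * B ^ (ρ / 6) := by
      rw [Real.div_rpow hA0.le hY0.le, ← Real.rpow_mul hB0.le, ← Real.rpow_natCast,
        div_eq_mul_inv, ← Real.rpow_neg hY0.le,
        show η + 11 / 6 = η + (((2 : ℕ) : ℝ) + -(1 / 6)) by push_cast; ring, Real.rpow_add hY0,
        Real.rpow_add hY0, mul_one_div]
      ring
    have h7 : Y ^ (η + 11 / 6) ≤ B ^ ((x + η) * (η + 11 / 6)) := by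
      rw [Real.rpow_mul hB0.le]
      exact Real.rpow_le_rpow hY0.le (le_of_eight hB h8 hY.2) (by positivity)
    calc _ = C₁ * (1 + |τ|) ^ J * (Y ^ (η + 11 / 6) * B ^ (ρ / 6)) := by rw [← h6]; ring
      _ ≤ C₁ * (C₂ * B ^ η) * (B ^ ((x + η) * (η + 11 / 6)) * B ^ (ρ / 6)) := by
          gcongr
          exact h₂ B τ hB hτ
      _ = _ := by rw [Real.rpow_add hB0, Real.rpow_add hB0]; ring
  · rw [one_mul, ← Mob_eq_Sm]
    exact lower hB (by linarith) (hS a ha).2.2.1.1 (hS a ha).2.2.2.2 2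
  · refine mul_le_mul_of_nonneg_left (Real.rpow_le_rpow_of_exponent_le hB ?_) (by positivity)
    have h4 : (x - ρ) * (5 / 6 - δ) ≤ ρ * E := by
      rcases le_total 0 (5 / 6 - δ) with h | h
      · nlinarith [mul_le_mul_of_nonneg_right (show x - ρ ≤ ρ * u by linarith) h,
          mul_le_mul_of_nonneg_left hE hρ]
      · nlinarith [mul_nonneg hρ hE0, mul_nonneg (sub_nonneg.2 hx1) (neg_nonneg.2 h)]
    push_cast
    nlinarith [mul_le_mul_of_nonneg_right hx3 hη.le, mul_le_mul_of_nonneg_right hη1 hη.le]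

theorem slots {M : O} {K₀ : ℕ} {B : ℝ} (hB : 1 ≤ B) {i : ℕ} (hi : i < K₀) :
    1 ≤ B ^ (ell K₀ i + kapS K₀) ∧ ∀ p ∈ Pset M K₀ B i, Prime p ∧ Primary p ∧ ¬ p ∣ M ∧
      B ^ (1 / (8 * (K₀ : ℝ))) ≤ nr p ∧ nr p ≤ B ^ (ell K₀ i + kapS K₀) := by
  have h1 := (ell_bounds hi).1
  have h2 := PA.kap_nonneg K₀
  have h3 : 0 ≤ 1 / (8 * (K₀ : ℝ)) := by positivity
  refine ⟨Real.one_le_rpow hB (by linarith), fun p hp => ?_⟩
  obtain ⟨a1, a2, a3, a4, a5⟩ := (mem_Pset (one_pos.trans_le hB)).1 hp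
  exact ⟨a1, a2, a3, (Real.rpow_le_rpow_of_exponent_le hB h1).trans a4.le, a5⟩

/-- Case (ii): Möbius sums slightly shorter than the rows, with marks. -/
theorem cell_mid {M : O} (hM : Adm M) {K₀ : ℕ} (hK : 1 ≤ K₀) {η : ℝ} (hη : 0 < η)
    (hη1 : η ≤ 1 / 1000) (hKη : 5 / (24 * (K₀ : ℝ)) ≤ η) :
    ∃ C : ℝ, 0 < C ∧ ∀ (B ρ δ q E v x : ℝ) (qs : ℕ → ℝ) (ν : Chr M) (S : Finset O) (y t : O → ℝ),
      1 ≤ B → 8 ≤ B ^ η → 0 ≤ ρ → ρ ≤ 33 / 40 → δ ≤ 1 → 0 ≤ q → q ≤ δ →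
      q / 6 ≤ ∑ i : Fin K₀, qs i * ell K₀ i → 0 ≤ v → v ≤ 19 / 50 → (δ - q / 2) * v ≤ E → 0 ≤ E →
      ρ * (1 - v) - η ≤ x → x ≤ ρ + η →
      (∀ a ∈ S, a ≠ 0 ∧ nr a ≤ B ^ ρ ∧ y a ∈ Set.Icc (B ^ x) (2 * B ^ x) ∧
        |t a| ≤ Real.log B ^ 3 ∧
        B ^ (-η) * y a ^ ((1 + δ) / 2) ≤ ‖Mob ν a (y a) (t a * Complex.I)‖ ∧
        ∀ i < K₀, qs i = 0 ∨ Pw K₀ B i ^ ((1 + qs i) / 2) ≤ ‖slt M K₀ B i a‖) →
      (S.card : ℝ) ≤ C * B ^ (ρ * (1 - δ + E) + 50 * η) := by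
  have hK0 : (0 : ℝ) < K₀ := by exact_mod_cast hK
  obtain ⟨C₁, J, hC₁, h₁⟩ := inv_moment hM K₀ (show 0 < 1 / (8 * (K₀ : ℝ)) by positivity) hη
  obtain ⟨C₂, hC₂, h₂⟩ := poly J hη
  obtain ⟨C₃, hC₃, h₃⟩ := cell 2 hη
  refine ⟨C₃ * (C₁ * C₂), by positivity,
    fun B ρ δ q E v x qs ν S y t hB h8 hρ hρ1 hδ hq hqδ hm hv hv1 hE hE0 hx1 hx2 hS => ?_⟩
  have hB0 : 0 < B := one_pos.trans_le hB
  obtain ⟨z, hz0, hz1, hz2⟩ : ∃ z : ℝ, 0 ≤ z ∧ (ρ - x) / 2 ≤ z ∧ (z = 0 ∨ z = (ρ - x) / 2) :=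
    ⟨max 0 ((ρ - x) / 2), le_max_left _ _, le_max_right _ _, max_choice _ _⟩
  have hρv : ρ * v ≤ ρ * (19 / 50) := mul_le_mul_of_nonneg_left hv1 hρ
  have hz3 : z ≤ 1 / 6 := by rcases hz2 with h | h <;> linarith
  obtain ⟨I, hI, hIc, hl, hlow⟩ := select hK hKη qs hq (hqδ.trans hδ) hm hz0 hz3
  set l := ∑ i ∈ I, (ell K₀ i + kapS K₀) with hldef
  refine (h₃ S (fun a => ∏ i ∈ I, ‖slt M K₀ B i a‖ ^ 2) (fun a n => mu n * rc ν a n) B (B ^ x)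
    (C₁ * C₂) (η + η + (ρ + 5 * η + (x + η) + l))
    (l + q * z - 2 * η + (2 : ℕ) * (x * ((1 + δ) / 2) - η)) y t hB (by positivity)
    (fun _ => by positivity) (fun a => polyB_mu_rc hM ν a) (by positivity)
    (fun a ha => (hS a ha).2.2.1)
    (fun a ha => (hS a ha).2.2.2.1) (fun Y hY τ hτ => ?_) fun a ha => ?_).trans ?_
  · have hY0 : 0 < Y := lt_of_lt_of_le (by positivity) hY.1
    have hY1 := le_of_eight hB h8 hY.2
    have hZ : ∏ i ∈ I, B ^ (ell K₀ i + kapS K₀) = B ^ l := (Real.rpow_sum_of_pos hB0 _ _).symm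
    have h4 := h₁ I (fun i => B ^ (ell K₀ i + kapS K₀)) (Pset M K₀ B) (cw K₀ B) B
      (B ^ (ρ + 5 * η)) Y τ ν hB (Real.rpow_le_self_of_one_le hB (by linarith)) hY0 hIc
      (fun i hi => slots hB (hI i hi)) (fun i _ j _ h => disjoint_Pset M K₀ hB h)
      (norm_cw_le K₀ B) (by
        rw [hZ, ← Real.rpow_natCast, ← Real.rpow_mul hB0.le]
        refine (mul_le_mul_of_nonneg_right hY1 (by positivity)).trans ?_
        rw [← Real.rpow_add hB0]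
        refine Real.rpow_le_rpow_of_exponent_le hB ?_
        push_cast
        rcases hz2 with h | h <;> linarith) (by
        rw [hZ, ← Real.rpow_natCast (B ^ l), ← Real.rpow_mul hB0.le,
          ← Real.rpow_natCast (B ^ (ρ + 5 * η)), ← Real.rpow_mul hB0.le]
        refine (mul_le_mul_of_nonneg_right (pow_le_pow_left₀ hY0.le hY1 2) (by positivity)).trans ?_
        rw [← Real.rpow_natCast, ← Real.rpow_mul hB0.le, ← Real.rpow_add hB0]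
        refine Real.rpow_le_rpow_of_exponent_le hB ?_
        push_cast
        rcases hz2 with h | h <;> linarith)
    have h5 : ∑ a ∈ S, (∏ i ∈ I, ‖slt M K₀ B i a‖ ^ 2) *
          ‖Sm (fun n => mu n * rc ν a n) Y (τ * Complex.I)‖ ^ 2 ≤
        ∑ a ∈ rows (B ^ (ρ + 5 * η)), ‖Mob ν a Y (τ * Complex.I)‖ ^ 2 *
          ∏ i ∈ I, ‖slot (Pset M K₀ B i) (cw K₀ B i) a‖ ^ 2 := by
      simp only [← Mob_eq_Sm, slt, mul_comm (∏ i ∈ I, _)]
      exact Finset.sum_le_sum_of_subset_of_nonneg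
        (fun a ha => (mem_rows (by positivity)).2 ⟨(hS a ha).1, (hS a ha).2.1.trans
          (Real.rpow_le_rpow_of_exponent_le hB (by linarith))⟩) fun _ _ _ => by positivity
    refine h5.trans (h4.trans ?_)
    rw [hZ]
    calc _ ≤ C₁ * B ^ η * (C₂ * B ^ η) * (B ^ (ρ + 5 * η) * B ^ (x + η) * B ^ l) := by
          gcongr
          exact h₂ B τ hB hτ
      _ = _ := by
          rw [Real.rpow_add hB0 (η + η), Real.rpow_add hB0 η, Real.rpow_add hB0 _ l,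
            Real.rpow_add hB0 (ρ + 5 * η)]
          ring
  · rw [← Mob_eq_Sm, Real.rpow_add hB0]
    exact mul_le_mul (hlow M a B hB (hS a ha).2.2.2.2.2)
      (lower hB (by linarith) (hS a ha).2.2.1.1 (hS a ha).2.2.2.2.1 2) (by positivity)
      (by positivity)
  · refine mul_le_mul_of_nonneg_left (Real.rpow_le_rpow_of_exponent_le hB ?_) (by positivity)
    have h4 : (ρ - x) * δ - q * z ≤ ρ * E + η := by
      rcases hz2 with h | h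
      · nlinarith [mul_nonneg hρ hE0, mul_nonneg (show 0 ≤ x - ρ by linarith) (hq.trans hqδ)]
      · rw [h]
        nlinarith [mul_le_mul_of_nonneg_right (show ρ - x ≤ ρ * v + η by linarith)
          (show 0 ≤ δ - q / 2 by linarith), mul_le_mul_of_nonneg_left hE hρ,
          mul_le_mul_of_nonneg_left (show δ - q / 2 ≤ 1 by linarith) hη.le]
    push_cast
    nlinarith

/-- Case (iii): short plain sums, fourth moment with marks. -/
theorem cell_pln {M : O} (hM : Adm M) {K₀ : ℕ} (hK : 1 ≤ K₀) {η : ℝ} (hη : 0 < η)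
    (hη1 : η ≤ 1 / 1000) (hKη : 5 / (24 * (K₀ : ℝ)) ≤ η) :
    ∃ C : ℝ, 0 < C ∧ ∀ (B ρ δ q E w x : ℝ) (qs : ℕ → ℝ) (ν : Chr M) (S : Finset O) (y t : O → ℝ),
      1 ≤ B → 8 ≤ B ^ η → 0 < ρ → ρ ≤ 33 / 40 → δ ≤ 1 → 0 ≤ q → q ≤ δ →
      q / 6 ≤ ∑ i : Fin K₀, qs i * ell K₀ i → 0 ≤ E →
      (∀ s : ℝ, 0 ≤ s → s ≤ 1 - 2 * w → δ * s - q * min (2 / 7 * s) (3 / 50) ≤ E) →
      ρ * w - 2 * η ≤ x → x ≤ ρ / 2 + 2 * η →
      (∀ a ∈ S, ¬ Exc M a ∧ nr a ≤ B ^ ρ ∧ y a ∈ Set.Icc (B ^ x) (2 * B ^ x) ∧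
        |t a| ≤ Real.log B ^ 3 ∧
        B ^ (-η) * y a ^ ((1 + δ) / 2) ≤ ‖Pln ν a (y a) (t a * Complex.I)‖ ∧
        ∀ i < K₀, qs i = 0 ∨ Pw K₀ B i ^ ((1 + qs i) / 2) ≤ ‖slt M K₀ B i a‖) →
      (S.card : ℝ) ≤ C * B ^ (ρ * (1 - δ + E) + 50 * η) := by
  classical
  obtain ⟨C₁, J, hC₁, h₁⟩ := mom4_fill hM hη
  obtain ⟨C₂, hC₂, h₂⟩ := poly J hη
  obtain ⟨C₃, hC₃, h₃⟩ := cell 4 hη
  refine ⟨C₃ * (C₁ * C₂), by positivity,
    fun B ρ δ q E w x qs ν S y t hB h8 hρ hρ1 hδ hq hqδ hm hE0 hE hx1 hx2 hS => ?_⟩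
  have hB0 : 0 < B := one_pos.trans_le hB
  obtain ⟨s, hs0, hs1, hs2, hs3⟩ : ∃ s : ℝ, 0 ≤ s ∧ ρ - 2 * x - 4 * η ≤ ρ * s ∧
      2 * x + ρ * s ≤ ρ + 4 * η ∧ δ * s - q * min (2 / 7 * s) (3 / 50) ≤ E := by
    rcases le_total (ρ - 2 * x - 4 * η) 0 with h | h
    · exact ⟨0, le_rfl, by linarith, by linarith, by norm_num; exact hE0⟩
    · have e : ρ * ((ρ - 2 * x - 4 * η) / ρ) = ρ - 2 * x - 4 * η := mul_div_cancel₀ _ hρ.ne'
      refine ⟨(ρ - 2 * x - 4 * η) / ρ, by positivity, e.ge, by linarith, hE _ (by positivity) ?_⟩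
      rw [div_le_iff₀ hρ]
      linarith
  set μ := min (2 / 7 * s) (3 / 50) with hμ
  have hμ0 : 0 ≤ μ := le_min (by positivity) (by norm_num)
  have hμ1 : ρ * μ ≤ ρ * (2 / 7 * s) := mul_le_mul_of_nonneg_left (min_le_left _ _) hρ.le
  have hμ2 : ρ * μ ≤ ρ * (3 / 50) := mul_le_mul_of_nonneg_left (min_le_right _ _) hρ.le
  obtain ⟨I, hI, -, hl, hlow⟩ := select hK hKη qs hq (hqδ.trans hδ) hm (z := ρ * μ) (by positivity)
    (by linarith)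
  have hlb : ∀ i ∈ I, 0 ≤ ell K₀ i + kapS K₀ ∧ ell K₀ i + kapS K₀ ≤ η := fun i hi => by
    obtain ⟨h1, h2⟩ := ell_bounds (hI i hi)
    have h3 := PA.kap_nonneg K₀
    have h4 : 0 ≤ 1 / (8 * (K₀ : ℝ)) := by positivity
    constructor <;> linarith
  obtain ⟨I₁, hI₁, hb1, hb2⟩ := balanced I (fun i => ell K₀ i + kapS K₀) hη.le hlb
  have hsum := Finset.sum_sdiff (f := fun i => ell K₀ i + kapS K₀) hI₁
  set l := ∑ i ∈ I, (ell K₀ i + kapS K₀) with hldef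
  set l₁ := ∑ i ∈ I₁, (ell K₀ i + kapS K₀) with hl₁
  set l₂ := ∑ i ∈ I \ I₁, (ell K₀ i + kapS K₀) with hl₂
  have hl₂0 : 0 ≤ l₂ := Finset.sum_nonneg fun i hi => (hlb i (Finset.mem_sdiff.1 hi).1).1
  have key : ∀ I' ⊆ I, ∃ (Zs : Finset O) (c' : O → ℂ),
      (∀ z ∈ Zs, SP M z ∧ nr z ≤ B ^ ∑ i ∈ I', (ell K₀ i + kapS K₀)) ∧ (∀ z, ‖c' z‖ ≤ 1) ∧
      ∀ a, ∏ i ∈ I', ‖slt M K₀ B i a‖ ^ 2 = ‖slot Zs c' a‖ ^ 2 := fun I' hI' => by
    obtain ⟨Zs, c', k1, k2, k3⟩ := prod_slot_eq hM I' (fun i => B ^ (ell K₀ i + kapS K₀))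
      (Pset M K₀ B) (cw K₀ B) (fun i hi p hp => by
        obtain ⟨a1, a2, a3, -, a5⟩ := (slots hB (hI i (hI' hi))).2 p hp
        exact ⟨a1, a2, a3, a5⟩) (fun i _ j _ h => disjoint_Pset M K₀ hB h) (norm_cw_le K₀ B)
    refine ⟨Zs, c', by rw [Real.rpow_sum_of_pos hB0]; exact k1, k2, fun a => ?_⟩
    rw [← k3, norm_prod, Finset.prod_pow]
    rfl
  obtain ⟨Z₁, c₁, hZ₁, hc₁, e₁⟩ := key I₁ hI₁
  obtain ⟨Z₂, c₂, hZ₂, hc₂, e₂⟩ := key (I \ I₁) Finset.sdiff_subset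
  refine (h₃ S (fun a => ∏ i ∈ I, ‖slt M K₀ B i a‖ ^ 2) (fun a => rc ν a) B (B ^ x)
    (C₁ * C₂) (η + η + (ρ + 30 * η + (x + η) * 2 + l))
    (l + q * (ρ * μ) - 2 * η + (4 : ℕ) * (x * ((1 + δ) / 2) - η)) y t hB (by positivity)
    (fun _ => by positivity) (fun a => polyB_rc hM ν a) (by positivity)
    (fun a ha => (hS a ha).2.2.1)
    (fun a ha => (hS a ha).2.2.2.1) (fun Y hY τ hτ => ?_) fun a ha => ?_).trans ?_
  · have hY0 : 0 < Y := lt_of_lt_of_le (by positivity) hY.1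
    have hY1 : Y ^ 2 ≤ B ^ ((x + η) * 2) := by
      rw [Real.rpow_mul hB0.le, Real.rpow_two]
      exact pow_le_pow_left₀ hY0.le (le_of_eight hB h8 hY.2) 2
    have h4 := h₁ (B ^ (ρ + 30 * η)) Y (B ^ l₁) (B ^ l₂) τ ν Z₁ Z₂ c₁ c₂
      (Real.one_le_rpow hB (by linarith)) hY0 (Real.one_le_rpow hB hl₂0)
      (Real.rpow_le_rpow_of_exponent_le hB hb1) (by
        rw [← Real.rpow_natCast, ← Real.rpow_mul hB0.le]
        refine Real.rpow_le_rpow_of_exponent_le hB ?_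
        push_cast
        linarith) (by
        rw [← Real.rpow_natCast (B ^ l₁), ← Real.rpow_mul hB0.le,
          ← Real.rpow_natCast (B ^ l₂), ← Real.rpow_mul hB0.le, mul_assoc]
        refine (mul_le_mul_of_nonneg_right hY1 (by positivity)).trans ?_
        rw [← Real.rpow_add hB0, ← Real.rpow_add hB0]
        refine Real.rpow_le_rpow_of_exponent_le hB ?_
        push_cast
        linarith) hZ₁ hZ₂ hc₁ hc₂
    have h5 : ∑ a ∈ S, (∏ i ∈ I, ‖slt M K₀ B i a‖ ^ 2) * ‖Sm (rc ν a) Y (τ * Complex.I)‖ ^ 4 ≤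
        ∑ a ∈ nex M (B ^ (ρ + 30 * η)), ‖Pln ν a Y (τ * Complex.I)‖ ^ 4 *
          (‖slot Z₁ c₁ a‖ ^ 2 * ‖slot Z₂ c₂ a‖ ^ 2) := by
      refine le_trans (le_of_eq (Finset.sum_congr rfl fun a _ => ?_))
        (Finset.sum_le_sum_of_subset_of_nonneg (s := S)
        (fun a ha => (M4S.mem_nex (by positivity)).2 ⟨(hS a ha).2.1.trans
          (Real.rpow_le_rpow_of_exponent_le hB (by linarith)), (hS a ha).1⟩)
          fun _ _ _ => by positivity)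
      rw [← Finset.prod_sdiff hI₁, e₁, e₂, Pln_eq_Sm]
      ring
    refine h5.trans (h4.trans ?_)
    have h6 : (B ^ (ρ + 30 * η)) ^ η ≤ B ^ η :=
      Real.rpow_le_rpow (by positivity) (Real.rpow_le_self_of_one_le hB (by linarith)) hη.le
    rw [← Real.rpow_add hB0, show l₁ + l₂ = l by linarith]
    calc _ ≤ C₁ * B ^ η * (C₂ * B ^ η) * (B ^ (ρ + 30 * η) * B ^ ((x + η) * 2) * B ^ l) := by
          gcongr
          exact h₂ B τ hB hτ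
      _ = _ := by
          rw [Real.rpow_add hB0 (η + η), Real.rpow_add hB0 η, Real.rpow_add hB0 _ l,
            Real.rpow_add hB0 (ρ + 30 * η)]
          ring
  · rw [← Pln_eq_Sm, Real.rpow_add hB0]
    exact mul_le_mul (hlow M a B hB (hS a ha).2.2.2.2.2)
      (lower hB (by linarith) (hS a ha).2.2.1.1 (hS a ha).2.2.2.2.1 4) (by positivity)
      (by positivity)
  · refine mul_le_mul_of_nonneg_left (Real.rpow_le_rpow_of_exponent_le hB ?_) (by positivity)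
    push_cast
    nlinarith [mul_le_mul_of_nonneg_left hs3 hρ.le, mul_le_mul_of_nonneg_left hs1 (hq.trans hqδ),
      mul_le_mul_of_nonneg_right hδ hη.le]

theorem rpow_sq {B : ℝ} (hB : 0 < B) (e : ℝ) : (B ^ 2) ^ e = B ^ (2 * e) := by
  rw [← Real.rpow_natCast, ← Real.rpow_mul hB.le]; norm_num

/-- The detector in the normalisation of the count. -/
theorem detect {M : O} (hM : Adm M) {η : ℝ} (hη : 0 < η) (hη1 : η ≤ 1 / 1000) :
    ∃ ε₁ B₀ : ℝ, 0 < ε₁ ∧ ∀ B ≥ B₀, 1 < B ∧ 8 ≤ B ^ η ∧ ∀ (ρ u σ T : ℝ) (ν : Chr M) (z : ℂ) (r : O),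
      6 / 25 ≤ ρ → ρ ≤ 1 → 0 ≤ u → u ≤ 1 / 2 → 51 / 100 ≤ σ → σ ≤ 1 → ¬ Exc M r → nr r ≤ B ^ ρ →
      ZF M r σ T → Lc ν r z = 0 → σ - ε₁ ≤ z.re → |z.im| + Real.log B ^ 2 ≤ T →
      |z.im| ≤ Real.log B ^ 3 → ∃ t D N : ℝ, |t| ≤ Real.log B ^ 3 ∧ B ^ (-η) ≤ D ∧
        D ≤ B ^ (ρ * (1 + u)) ∧ B ^ (ρ * (1 + u) - η) ≤ D * N ∧ B ^ (-η) ≤ N ∧
        N ≤ B ^ (ρ / 2 + 2 * η) ∧ B ^ (-η) * D ^ σ ≤ ‖Mob ν r D (t * Complex.I)‖ ∧
        B ^ (-η) * N ^ σ ≤ ‖Pln ν r N (t * Complex.I)‖ := by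
  obtain ⟨ε₁, R₀, hε₁, h⟩ := detector hM (half_pos hη)
  obtain ⟨C, hC, hp⟩ := poly 1 (half_pos hη)
  obtain ⟨B₁, hB₁⟩ := detector_const (C := 8) hη
  obtain ⟨B₂, hB₂⟩ := detector_const (C := C) (half_pos hη)
  refine ⟨ε₁, max (max (Real.exp 15) R₀) (max B₁ B₂), hε₁, fun B hB => ?_⟩
  simp only [ge_iff_le, max_le_iff] at hB
  obtain ⟨⟨hB3, hB4⟩, hB1, hB2⟩ := hB
  have hB : 1 < B := lt_of_lt_of_le (Real.one_lt_exp_iff.2 (by norm_num)) hB3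
  have hB0 : 0 < B := one_pos.trans hB
  have hL : 15 ≤ Real.log B := (Real.le_log_iff_exp_le hB0).2 hB3
  have hBB : B ≤ B ^ 2 := le_self_pow₀ hB.le two_ne_zero
  refine ⟨hB, hB₁ B hB1, fun ρ u σ T ν z r hρ hρ1 hu hu1 hσ hσ1 hr hrρ hZ hz hzσ hT him => ?_⟩
  have hpl : 1 + |z.im| ≤ B ^ η := by
    have h1 := hp B z.im hB.le (by linarith)
    rw [pow_one] at h1
    refine h1.trans ?_
    nth_rewrite 2 [← add_halves η]
    rw [Real.rpow_add hB0]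
    exact mul_le_mul_of_nonneg_right (hB₂ B hB2) (by positivity)
  have hηB : B ^ η ≤ B := Real.rpow_le_self_of_one_le hB.le (by linarith)
  obtain ⟨D, N, k1, k2, k3, k4, k5, k6, k7⟩ := h (B ^ 2) (B ^ (ρ * (1 + u))) σ T ν r z
    (hB4.trans hBB) hr (hrρ.trans ((Real.rpow_le_self_of_one_le hB.le hρ1).trans hBB))
    (by
      rw [rpow_sq hB0]
      exact Real.rpow_le_rpow_of_exponent_le hB.le (by nlinarith))
    (by
      rw [← Real.rpow_two]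
      exact Real.rpow_le_rpow_of_exponent_le hB.le (by nlinarith)) hσ hσ1 hZ hz hzσ
    (by rw [Real.log_pow]; push_cast; nlinarith) (by linarith)
  have e1 : (B ^ 2) ^ (-(η / 2)) = B ^ (-η) := by rw [rpow_sq hB0]; congr 1; ring
  have e2 : (B ^ 2) ^ (η / 2) = B ^ η := by rw [rpow_sq hB0]; congr 1; ring
  rw [e1] at k1 k3 k4 k6 k7
  rw [e2] at k5
  refine ⟨-z.im, D, N, by rwa [abs_neg], k1, k2, by rwa [sub_eq_add_neg, Real.rpow_add hB0], k4,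
    k5.trans ?_, k6, k7⟩
  have h1 : Real.sqrt (nr r) ≤ B ^ (ρ / 2) := by
    rw [Real.sqrt_le_left (by positivity), ← Real.rpow_natCast, ← Real.rpow_mul hB0.le]
    convert hrρ using 2
    push_cast
    ring
  rw [two_mul, ← add_assoc, Real.rpow_add hB0, Real.rpow_add hB0]
  gcongr

theorem count {ε : ℝ} (hε : 0 < ε) : ∃ K₁ : ℕ, ∀ K₀ ≥ K₁,
    ∀ {M : O}, Adm M → ∃ ε₁ C B₀ : ℝ, 0 < ε₁ ∧ ∀ B ≥ B₀, ∀ (R₀ δ q : ℝ) (qs : ℕ → ℝ) (S : Finset O),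
      B ^ (6 / 25 : ℝ) ≤ R₀ → R₀ ≤ B ^ (33 / 40 : ℝ) → 1 / 50 ≤ δ → δ ≤ 1 → 0 ≤ q → q ≤ δ →
      q / 6 ≤ ∑ i : Fin K₀, qs i * ell K₀ i →
      (∀ r ∈ S, ¬ Exc M r ∧ nr r ≤ R₀ ∧
        (∃ (T : ℝ) (ν : Chr M) (ρ : ℂ), ZF M r ((1 + δ) / 2) T ∧ Lc ν r ρ = 0 ∧
          (1 + δ) / 2 - ε₁ ≤ ρ.re ∧ |ρ.im| + Real.log B ^ 2 ≤ T ∧ |ρ.im| ≤ Real.log B ^ 3) ∧
        ∀ i < K₀, qs i = 0 ∨ Pw K₀ B i ^ ((1 + qs i) / 2) ≤ ‖slt M K₀ B i r‖) →
      (S.card : ℝ) ≤ C * B ^ ε * R₀ ^ (1 - δ + Eexc δ q) := by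
  classical
  obtain ⟨η, hη, hη1, hηε⟩ : ∃ η : ℝ, 0 < η ∧ η ≤ 1 / 1000 ∧ 51 * η ≤ ε :=
    ⟨min (1 / 1000) (ε / 51), lt_min (by norm_num) (by positivity), min_le_left _ _,
      by linarith [min_le_right (1 / 1000) (ε / 51)]⟩
  refine ⟨⌈5 / (24 * η)⌉₊ + 1, fun K₀ hK₀ M hM => ?_⟩
  have hK : 1 ≤ K₀ := le_trans (by omega) hK₀
  have hKη : 5 / (24 * (K₀ : ℝ)) ≤ η := by
    have h0 : (0 : ℝ) < K₀ := by exact_mod_cast hK
    have h1 : 5 / (24 * η) ≤ K₀ := Nat.ceil_le.1 (by omega)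
    rw [div_le_iff₀ (by positivity)] at h1 ⊢
    linarith
  obtain ⟨ε₁, B₀, hε₁, hdet⟩ := detect hM hη hη1
  obtain ⟨C₀, hC₀, hpig⟩ := pigeon hM hη
  obtain ⟨C₁, hC₁, h₁⟩ := cell_long hM hη hη1
  obtain ⟨C₂, hC₂, h₂⟩ := cell_mid hM hK hη hη1 hKη
  obtain ⟨C₃, hC₃, h₃⟩ := cell_pln hM hK hη hη1 hKη
  refine ⟨ε₁, C₀ * (C₁ + C₂ + C₃), B₀, hε₁,
    fun B hB R₀ δ q qs S hR₀ hR₁ hδ0 hδ hq hqδ hm hS => ?_⟩
  obtain ⟨hB1, h8, hdet⟩ := hdet B hB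
  have hB0 : 0 < B := one_pos.trans hB1
  have hR0 : 0 < R₀ := lt_of_lt_of_le (by positivity) hR₀
  obtain ⟨ρ, rfl⟩ : ∃ ρ : ℝ, R₀ = B ^ ρ := ⟨_, (Real.rpow_logb hB0 hB1.ne' hR0).symm⟩
  rw [Real.rpow_le_rpow_left_iff hB1] at hR₀ hR₁
  obtain ⟨hE0, u, v, hu, hu1, hv, hv1, hEu, hEv, hEs⟩ := numeric hδ0 hδ hq hqδ
  set E := Eexc δ q
  have hex : ∀ r : O, ∃ (ν : Chr M) (t D N : ℝ), r ∈ S → |t| ≤ Real.log B ^ 3 ∧ B ^ (-η) ≤ D ∧
      D ≤ B ^ (ρ * (1 + u)) ∧ B ^ (ρ * (1 + u) - η) ≤ D * N ∧ B ^ (-η) ≤ N ∧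
      N ≤ B ^ (ρ / 2 + 2 * η) ∧ B ^ (-η) * D ^ ((1 + δ) / 2) ≤ ‖Mob ν r D (t * Complex.I)‖ ∧
      B ^ (-η) * N ^ ((1 + δ) / 2) ≤ ‖Pln ν r N (t * Complex.I)‖ := fun r => by
    by_cases hr : r ∈ S
    · obtain ⟨a1, a2, ⟨T, ν, z, a3, a4, a5, a6, a7⟩, -⟩ := hS r hr
      obtain ⟨t, D, N, h⟩ := hdet ρ u _ T ν z r hR₀ (by linarith) hu hu1 (by linarith)
        (by linarith) a1 a2 a3 a4 a5 a6 a7
      exact ⟨ν, t, D, N, fun _ => h⟩
    · exact ⟨1, 0, 0, 0, fun h => (hr h).elim⟩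
  choose ψ t D N hex using hex
  set F := B ^ (ρ * (1 - δ + E) + 50 * η) with hF
  have hF0 : 0 ≤ F := by positivity
  have hinv : B⁻¹ ≤ B ^ (-η) := by
    rw [← Real.rpow_neg_one]
    exact Real.rpow_le_rpow_of_exponent_le hB1.le (by linarith)
  have hS₁ : ((S.filter fun r => B ^ (ρ * (1 - v)) ≤ D r).card : ℝ) ≤
      C₀ * B ^ η * ((C₁ + C₂) * F) := by
    refine hpig _ ψ D B _ hB1.le (by positivity) (fun a ha => ?_) fun ν X S' hX hsub hne hS' => ?_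
    · obtain ⟨-, a1, a2, -⟩ := hex a (Finset.mem_filter.1 ha).1
      refine ⟨hinv.trans a1, a2.trans ?_⟩
      rw [← Real.rpow_two]
      exact Real.rpow_le_rpow_of_exponent_le hB1.le (by nlinarith)
    obtain ⟨x, rfl⟩ : ∃ x : ℝ, X = B ^ x := ⟨_, (Real.rpow_logb hB0 hB1.ne' hX).symm⟩
    obtain ⟨a₀, ha₀⟩ := hne
    obtain ⟨b1, b2⟩ := Finset.mem_filter.1 (hsub ha₀)
    have hx2 : x ≤ ρ * (1 + u) :=
      (Real.rpow_le_rpow_left_iff hB1).1 ((hS' a₀ ha₀).2.1.trans (hex a₀ b1).2.2.1)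
    have hx1 : ρ * (1 - v) ≤ x + η := (Real.rpow_le_rpow_left_iff hB1).1
      (le_of_eight hB1.le h8 (b2.trans ((hS' a₀ ha₀).2.2.trans (by linarith))))
    rcases le_total (4 * B ^ ρ) (B ^ x) with h | h
    · refine (h₁ B ρ δ E u x ν S' D t hB1.le h8 (by linarith) (by linarith) (by linarith) hu1 hEu
        hE0 h ((Real.rpow_le_rpow_left_iff hB1).1 (by linarith)) hx2 fun a ha => ?_).trans
        (mul_le_mul_of_nonneg_right (by linarith) hF0)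
      have c1 := (Finset.mem_filter.1 (hsub ha)).1
      obtain ⟨c2, c3⟩ := hS' a ha
      exact ⟨ne_zero_of_not_exc (hS a c1).1, (hS a c1).2.1, c3, (hex a c1).1,
        c2 ▸ (hex a c1).2.2.2.2.2.2.1⟩
    · refine (h₂ B ρ δ q E v x qs ν S' D t hB1.le h8 (by linarith) hR₁ hδ hq hqδ hm hv hv1 hEv
        hE0 (by linarith) ((Real.rpow_le_rpow_left_iff hB1).1
          (le_of_eight hB1.le h8 (by linarith))) fun a ha => ?_).trans
        (mul_le_mul_of_nonneg_right (by linarith) hF0)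
      have c1 := (Finset.mem_filter.1 (hsub ha)).1
      obtain ⟨c2, c3⟩ := hS' a ha
      exact ⟨ne_zero_of_not_exc (hS a c1).1, (hS a c1).2.1, c3, (hex a c1).1,
        c2 ▸ (hex a c1).2.2.2.2.2.2.1, (hS a c1).2.2.2⟩
  have hS₂ : ((S.filter fun r => ¬ B ^ (ρ * (1 - v)) ≤ D r).card : ℝ) ≤
      C₀ * B ^ η * (C₃ * F) := by
    refine hpig _ ψ N B _ hB1.le (by positivity) (fun a ha => ?_) fun ν X S' hX hsub hne hS' => ?_
    · obtain ⟨-, -, -, -, a1, a2, -⟩ := hex a (Finset.mem_filter.1 ha).1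
      refine ⟨hinv.trans a1, a2.trans ?_⟩
      rw [← Real.rpow_two]
      exact Real.rpow_le_rpow_of_exponent_le hB1.le (by linarith)
    obtain ⟨x, rfl⟩ : ∃ x : ℝ, X = B ^ x := ⟨_, (Real.rpow_logb hB0 hB1.ne' hX).symm⟩
    obtain ⟨a₀, ha₀⟩ := hne
    obtain ⟨b1, b2⟩ := Finset.mem_filter.1 (hsub ha₀)
    have hx2 : x ≤ ρ / 2 + 2 * η :=
      (Real.rpow_le_rpow_left_iff hB1).1 ((hS' a₀ ha₀).2.1.trans (hex a₀ b1).2.2.2.2.2.1)
    have hN : N a₀ ≤ B ^ (x + η) := le_of_eight hB1.le h8 ((hS' a₀ ha₀).2.2.trans (by linarith))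
    have hx1 : ρ * (1 + u) - η ≤ ρ * (1 - v) + (x + η) := by
      rw [← Real.rpow_le_rpow_left_iff hB1, Real.rpow_add hB0 (ρ * (1 - v))]
      exact (hex a₀ b1).2.2.2.1.trans (mul_le_mul (not_le.1 b2).le hN
        (le_trans (by positivity) (hex a₀ b1).2.2.2.2.1) (by positivity))
    refine h₃ B ρ δ q E (u + v) x qs ν S' N t hB1.le h8 (by linarith) hR₁ hδ hq hqδ hm hE0
      (fun s hs hs' => hEs s hs (by linarith)) (by linarith) hx2 fun a ha => ?_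
    have c1 := (Finset.mem_filter.1 (hsub ha)).1
    obtain ⟨c2, c3⟩ := hS' a ha
    exact ⟨(hS a c1).1, (hS a c1).2.1, c3, (hex a c1).1, c2 ▸ (hex a c1).2.2.2.2.2.2.2,
      (hS a c1).2.2.2⟩
  have hc : (S.card : ℝ) = (S.filter fun r => B ^ (ρ * (1 - v)) ≤ D r).card +
      (S.filter fun r => ¬ B ^ (ρ * (1 - v)) ≤ D r).card := by
    rw [← Nat.cast_add, Finset.card_filter_add_card_filter_not]
  have hfin : B ^ η * F ≤ B ^ ε * (B ^ ρ) ^ (1 - δ + E) := by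
    rw [hF, ← Real.rpow_mul hB0.le, ← Real.rpow_add hB0, ← Real.rpow_add hB0]
    exact Real.rpow_le_rpow_of_exponent_le hB1.le (by linarith)
  calc (S.card : ℝ) ≤ C₀ * (C₁ + C₂ + C₃) * (B ^ η * F) := by rw [hc]; linarith
    _ ≤ C₀ * (C₁ + C₂ + C₃) * (B ^ ε * (B ^ ρ) ^ (1 - δ + E)) := by gcongr
    _ = _ := by ring

end CC

end Crest.Agent.R17
end
end

-- ▼ part PVc/R17/Counts

/-!
# Row 17, module M13: counting the rows of each class, and the sum over the non-exceptional rows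
-/

set_option autoImplicit false

noncomputable section

namespace Crest.Agent.R17

/-- The row `r` has a zero with `Re ρ ≥ σ - ε₁` inside a window that is zero-free to the right of
`σ` with a margin. -/
def Cls (M r : O) (B σ ε₁ : ℝ) : Prop :=
  ∃ (T : ℝ) (ν : Chr M) (ρ : ℂ), ZF M r σ T ∧ Lc ν r ρ = 0 ∧ σ - ε₁ ≤ ρ.re ∧
    |ρ.im| + Real.log B ^ 2 ≤ T ∧ |ρ.im| ≤ Real.log B ^ 3

/-- Nested windows `T_i = i (log B)²`, `i ≤ 1/ε₁ + 3`: let `σ_i` be the least point of the grid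
`51/100 + ε₁ ℕ`, capped at `β`, with `ZF M r σ_i T_i`; `σ_i` is monotone, so `σ_i = σ_{i+1}` for
some `i ≥ 1`. -/
theorem exists_class {β ε₁ : ℝ} (hβ : 51 / 100 ≤ β) (hβ1 : β ≤ 1) (h : ZeroFree β) (hε : 0 < ε₁)
    {M : O} (hM : Adm M) : ∃ (G : Finset ℝ) (B₀ : ℝ), (∀ σ ∈ G, 51 / 100 ≤ σ ∧ σ ≤ β) ∧
      ∀ B ≥ B₀, ∀ r : O, ¬ Exc M r → ∃ σ ∈ G, ZF M r σ (Real.log B ^ 2) ∧
        (σ = 51 / 100 ∨ Cls M r B σ ε₁) := by
  classical
  obtain ⟨J, hJ⟩ := exists_nat_ge (1 / ε₁)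
  have hJ' : 1 ≤ (J : ℝ) * ε₁ := by rwa [div_le_iff₀ hε] at hJ
  set g : ℕ → ℝ := fun j => min β (51 / 100 + j * ε₁) with hg
  refine ⟨(Finset.range (J + 1)).image g, Real.exp J, ?_, ?_⟩
  · intro σ hσ
    obtain ⟨j, -, rfl⟩ := Finset.mem_image.1 hσ
    refine ⟨le_min hβ ?_, min_le_left _ _⟩
    have : 0 ≤ (j : ℝ) * ε₁ := by positivity
    linarith
  · intro B hB r hr
    have hL : (J : ℝ) ≤ Real.log B := by
      rw [Real.le_log_iff_exp_le ((Real.exp_pos _).trans_le hB)]; exact hB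
    have hL2 : 0 ≤ Real.log B ^ 2 := sq_nonneg _
    have hPJ : ZF M r (g J) ((J + 1) * Real.log B ^ 2) := by
      have : g J = β := min_eq_left (by linarith)
      rw [this]; exact h.zf hM hr _
    have hex : ∃ j : ℕ, ZF M r (g j) ((j + 1) * Real.log B ^ 2) := ⟨J, hPJ⟩
    have h1 := Nat.find_spec hex
    have h2 : Nat.find hex ≤ J := Nat.find_min' hex hPJ
    have h3 := fun j => @Nat.find_min _ _ hex j
    generalize Nat.find hex = j at h1 h2 h3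
    refine ⟨g j, Finset.mem_image.2 ⟨j, Finset.mem_range.2 (by omega), rfl⟩,
      h1.mono le_rfl ?_, ?_⟩
    · have : (0 : ℝ) ≤ j * Real.log B ^ 2 := by positivity
      linarith
    · rcases j with _ | j
      · left
        simp only [hg, Nat.cast_zero, zero_mul, add_zero]
        exact min_eq_right hβ
      · right
        have h4 := h3 j (Nat.lt_succ_self j)
        unfold ZF at h4
        push Not at h4
        obtain ⟨ν, ρ, a1, a2, a3⟩ := h4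
        refine ⟨_, ν, ρ, h1, a3, ?_, ?_, ?_⟩
        · have : g (j + 1) ≤ g j + ε₁ := by
            simp only [hg]
            rcases le_total β (51 / 100 + j * ε₁) with hc | hc
            · rw [min_eq_left hc]; linarith [min_le_left β (51 / 100 + ((j + 1 : ℕ) : ℝ) * ε₁)]
            · rw [min_eq_right hc]
              have := min_le_right β (51 / 100 + ((j + 1 : ℕ) : ℝ) * ε₁)
              push_cast at this ⊢
              linarith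
          linarith
        · push_cast; linarith
        · have h5 : ((j : ℝ) + 1) ≤ Real.log B := by
            have : ((j + 1 : ℕ) : ℝ) ≤ J := by exact_mod_cast h2
            push_cast at this; linarith
          calc |ρ.im| ≤ (j + 1) * Real.log B ^ 2 := a2
            _ ≤ Real.log B * Real.log B ^ 2 := mul_le_mul_of_nonneg_right h5 hL2
            _ = Real.log B ^ 3 := by ring

/-- **Count of the rows of class `(δ, q)`**, `σ = (1+δ)/2`, slot rates `q i`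
(`|slt_i(r)| ≥ P_i^{(1+q_i)/2}`, or `q i = 0`: no information), weighted mean `q`.
Proof: `numeric` gives `u, v`; `detector` (ambient `R = B²`) with `D₀ = R₀^{1+u}` gives `D, N` for
each row; pigeonhole `ν` and the dyadic sizes of `D, N`; `sup_moment` (`sup_four`) for the row
dependent scale and twist.  (i) `D ≥ R₀`: `inv_long`.  (ii) `R₀^{1-v} ≤ D ≤ R₀`, `D = R₀^{1-v'}`:
`greedy` with target `R₀^{v'/2}` among the slots, cut each slot to the primes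
`≤ P_i B^{ε'}` (`sum_cw_tail`), `inv_moment` (slots with `q i = 0` are simply not used: remove them
from the chosen set, this only shortens the marks).  (iii) `D ≤ R₀^{1-v}`: `N = R₀^{m'}`,
`u + v - ε' ≤ m' ≤ 1/2 + ε'`, `s = max(0, 1 - 2m')`, `greedy` with target `R₀^{min(2s/7, 3/50)}`,
`balanced`, `prod_slot_eq`, `mom4_fill` with `A` slightly larger than `R₀`.
The total length of the slots is `B^{1/6} ≥ R₀^{0.2}`; every slot is `≤ B^{5/(24K₀)}`. -/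
theorem class_count {ε : ℝ} (hε : 0 < ε) : ∃ K₁ : ℕ, ∀ K₀ ≥ K₁,
    ∀ {M : O}, Adm M → ∃ ε₁ C B₀ : ℝ, 0 < ε₁ ∧ ∀ B ≥ B₀, ∀ (R₀ δ q : ℝ) (qs : ℕ → ℝ) (S : Finset O),
      B ^ (6 / 25 : ℝ) ≤ R₀ → R₀ ≤ B ^ (33 / 40 : ℝ) → 1 / 50 ≤ δ → δ ≤ 1 → 0 ≤ q → q ≤ δ →
      (∀ i, 0 ≤ qs i) → q / 6 ≤ ∑ i : Fin K₀, qs i * ell K₀ i →
      (∀ r ∈ S, ¬ Exc M r ∧ nr r ≤ R₀ ∧ Cls M r B ((1 + δ) / 2) ε₁ ∧
        ∀ i < K₀, qs i = 0 ∨ Pw K₀ B i ^ ((1 + qs i) / 2) ≤ ‖slt M K₀ B i r‖) →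
      (S.card : ℝ) ≤ C * B ^ ε * R₀ ^ (1 - δ + Eexc δ q) := by
  obtain ⟨K₁, h⟩ := CC.count hε
  refine ⟨K₁, fun K₀ hK M hM => ?_⟩
  obtain ⟨ε₁, C, B₀, h1, h2⟩ := h K₀ hK hM
  exact ⟨ε₁, C, B₀, h1, fun B hB R₀ δ q qs S a1 a2 a3 a4 a5 a6 _ a8 a9 =>
    h2 B hB R₀ δ q qs S a1 a2 a3 a4 a5 a6 a8 a9⟩

/-- **Sum over the non-exceptional rows.**  Dyadic `N r ~ R₀`.  `R₀ ≤ B^{6/25}`: take `σ = β`,
trivial count and `slt_class`.  Otherwise `exists_class`; class `σ = 51/100`: trivial count and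
`slt_class`; other classes: bin the slot rates on a grid of mesh `ε'` (`slt_class` gives
`q_i ≤ δ + ε'`; put `q = min(δ, 6 ∑ q_i ell_i)`), `class_count`.  The exponent
`(1/3) log(A/R₀) + (σ - 1/2 + 1 - δ + E) log R₀` is increasing in `R₀`, and at `R₀ = A` the total is
`NrmB B · B^{max(7/8,σ) - 1/2000}` by the definition of `Eexc`. -/
theorem row_sum : ∃ (m : ℝ) (K₀ : ℕ), 0 < m ∧ m ≤ 1 / 100 ∧ 1 ≤ K₀ ∧ ∀ β : ℝ, 7 / 8 ≤ β → β ≤ 1 →
    ZeroFree β → ∀ {M : O}, Adm M → ∃ C B₀ : ℝ, ∀ B ≥ B₀, ∃ σ : O → ℝ,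
      (∀ r ∈ RS M (Apar B * B ^ m), 1 / 2 ≤ σ r ∧ σ r ≤ 1 ∧ ZF M r (σ r) (Real.log B ^ 2)) ∧
      ∑ r ∈ RS M (Apar B * B ^ m), (Apar B * B ^ m / nr r) ^ (1 / 3 : ℝ) *
          (B ^ σ r * Xpar B ^ (1 - σ r) * nr r ^ (σ r - 1 / 2) *
            ∏ i : Fin K₀, (‖slt M K₀ B i r‖ + Real.sqrt (Pw K₀ B i))) ≤
        C * NrmB B * B ^ (β - m) :=
  RSum.main Cls (fun a b c d _ e => exists_class a b c d e) (class_count (by norm_num))

end Crest.Agent.R17
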