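import Crest.Agent.PVc.R17.Weight
import Crest.Agent.PVc.R17.ReflDefs
import Crest.Agent.PVc.R17.ThetaDens

-- ▼ part PVc/R17/ReflMelAuxA
section

/-!
# Row 17, reflection module N1: contour shifts and the gamma factor
-/

set_option autoImplicit false

noncomputable section

namespace Crest.Agent.R17.RMA

open scoped ComplexConjugate Topology
open MeasureTheory Complex Filter

theorem integrable_exp_abs {c : ℝ} (hc : 0 < c) :
    Integrable (fun u : ℝ => Real.exp (-c * |u|)) := by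
  rw [← integrableOn_univ, ← Set.Iic_union_Ioi (a := (0 : ℝ))]
  refine IntegrableOn.union ?_ ?_
  · refine (integrableOn_exp_mul_Iic hc 0).congr_fun (fun x hx => ?_) measurableSet_Iic
    simp only
    rw [abs_of_nonpos hx]
    congr 1; ring
  · refine (exp_neg_integrableOn_Ioi 0 hc).congr_fun (fun x hx => ?_) measurableSet_Ioi
    simp only
    rw [abs_of_pos hx]

theorem integral_vertical_shift {F : ℂ → ℂ} {a b : ℝ} (hab : a ≤ b)
    (hF : DifferentiableOn ℂ F {s | a ≤ s.re ∧ s.re ≤ b})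
    {C c : ℝ} (hc : 0 < c)
    (hb : ∀ s : ℂ, a ≤ s.re → s.re ≤ b → ‖F s‖ ≤ C * Real.exp (-c * |s.im|)) :
    ∫ u : ℝ, F (a + u * I) = ∫ u : ℝ, F (b + u * I) := by
  have hint : ∀ x : ℝ, a ≤ x → x ≤ b → Integrable (fun u : ℝ => F (x + u * I)) := by
    intro x h1 h2
    have hcont : Continuous fun u : ℝ => F (x + u * I) :=
      hF.continuousOn.comp_continuous (by fun_prop) fun u => by simpa using ⟨h1, h2⟩
    refine ((integrable_exp_abs hc).const_mul C).mono' hcont.aestronglyMeasurable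
      (Eventually.of_forall fun u => ?_)
    simpa using hb (x + u * I) (by simpa using h1) (by simpa using h2)
  have hlim : ∀ x : ℝ, a ≤ x → x ≤ b →
      Tendsto (fun T : ℝ => ∫ u in (-T)..T, F (x + u * I)) atTop (𝓝 (∫ u : ℝ, F (x + u * I))) :=
    fun x h1 h2 => intervalIntegral_tendsto_integral (hint x h1 h2) tendsto_neg_atTop_atBot
      tendsto_id
  have hhor : ∀ T : ℝ, ‖∫ x in a..b, F (x + T * I)‖ ≤ C * Real.exp (-c * |T|) * |b - a| := by
    intro T
    refine intervalIntegral.norm_integral_le_of_norm_le_const fun x hx => ?_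
    rw [Set.uIoc_of_le hab] at hx
    simpa using hb (x + T * I) (by simpa using hx.1.le) (by simpa using hx.2)
  have hz : Tendsto (fun T : ℝ => C * Real.exp (-c * |T|) * |b - a|) atTop (𝓝 0) := by
    have : Tendsto (fun T : ℝ => -c * |T|) atTop atBot :=
      tendsto_abs_atTop_atTop.const_mul_atTop_of_neg (by linarith)
    simpa using ((Real.tendsto_exp_atBot.comp this).const_mul C).mul_const |b - a|
  have h1 : Tendsto (fun T : ℝ => ∫ x in a..b, F (x + T * I)) atTop (𝓝 0) :=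
    squeeze_zero_norm hhor hz
  have h2 : Tendsto (fun T : ℝ => ∫ x in a..b, F (x + (-T : ℝ) * I)) atTop (𝓝 0) :=
    squeeze_zero_norm (fun T => by simpa only [abs_neg] using hhor (-T)) hz
  have h3 := ((h2.sub h1).add ((hlim b hab le_rfl).const_smul I)).sub
    ((hlim a le_rfl hab).const_smul I)
  have h4 : ∀ T : ℝ, (∫ x in a..b, F (x + (-T : ℝ) * I)) - (∫ x in a..b, F (x + T * I)) +
      I • (∫ u in (-T)..T, F (b + u * I)) - I • (∫ u in (-T)..T, F (a + u * I)) = 0 := by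
    intro T
    refine integral_boundary_rect_eq_zero_of_differentiableOn F ⟨a, -T⟩ ⟨b, T⟩
      (hF.mono fun s hs => ?_)
    have := hs.1
    simp only [Set.uIcc_of_le hab] at this
    exact this
  simp only [h4] at h3
  have h5 := tendsto_nhds_unique tendsto_const_nhds h3
  simp only [sub_zero, zero_add, smul_eq_mul] at h5
  have h6 : I * ((∫ u : ℝ, F (a + u * I)) - ∫ u : ℝ, F (b + u * I)) = 0 := by
    linear_combination h5
  exact sub_eq_zero.1 ((mul_eq_zero.1 h6).resolve_left I_ne_zero)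

theorem norm_sin_le (z : ℂ) : ‖Complex.sin z‖ ≤ Real.exp |z.im| := by
  have h1 : ‖Complex.exp (-z * I)‖ ≤ Real.exp |z.im| := by
    rw [Complex.norm_exp]
    exact Real.exp_le_exp.2 (by simpa using le_abs_self z.im)
  have h2 : ‖Complex.exp (z * I)‖ ≤ Real.exp |z.im| := by
    rw [Complex.norm_exp]
    exact Real.exp_le_exp.2 (by simpa using neg_le_abs z.im)
  have := norm_sub_le (Complex.exp (-z * I)) (Complex.exp (z * I))
  rw [Complex.sin, norm_div, norm_mul, norm_I, mul_one, Complex.norm_two]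
  linarith

theorem norm_Gamma_bd {a : ℝ} (ha : 0 < a) (b : ℝ) : ∃ M : ℝ, 0 < M ∧ ∀ s : ℂ, a ≤ s.re →
    s.re ≤ b → ‖Gamma s‖ ≤ M := by
  have hc : ContinuousOn Real.Gamma (Set.Icc a b) := fun x hx =>
    (Real.differentiableAt_Gamma fun m => by
      have := hx.1
      have := Nat.cast_nonneg (α := ℝ) m
      intro h; linarith).continuousAt.continuousWithinAt
  obtain ⟨M, hM⟩ := isCompact_Icc.exists_bound_of_continuousOn hc
  refine ⟨|M| + 1, by positivity, fun s h1 h2 => ?_⟩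
  have := hM s.re ⟨h1, h2⟩
  have h3 := WA.norm_Gamma_le (s := s) (by linarith)
  rw [Real.norm_eq_abs] at this
  linarith [le_abs_self M, le_abs_self (Real.Gamma s.re)]

theorem norm_inv_Gamma_add {s : ℂ} (hs : 1 ≤ |s.im|) (N : ℕ) :
    ‖(Gamma (s + N))⁻¹‖ ≤ ‖(Gamma s)⁻¹‖ := by
  induction N with
  | zero => simp
  | succ N ih =>
    have h1 : 1 ≤ ‖s + N‖ := hs.trans (by simpa using abs_im_le_norm (s + N))
    have h0 : s + N ≠ 0 := norm_pos_iff.1 (by linarith)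
    rw [Nat.cast_succ, ← add_assoc, Gamma_add_one _ h0, mul_inv, norm_mul, norm_inv (s + N)]
    exact (mul_le_of_le_one_left (norm_nonneg _) (inv_le_one_of_one_le₀ h1)).trans ih

theorem norm_inv_Gamma_le (a b : ℝ) : ∃ C : ℝ, 0 < C ∧ ∀ s : ℂ, a ≤ s.re → s.re ≤ b →
    ‖(Gamma s)⁻¹‖ ≤ C * Real.exp (4 * |s.im|) := by
  obtain ⟨M₁, h₁⟩ := ((isCompact_Icc (a := a) (b := b)).reProdIm
    (isCompact_Icc (a := (-1 : ℝ)) (b := 1))).exists_bound_of_continuousOn
      differentiable_one_div_Gamma.continuous.continuousOn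
  obtain ⟨N, hN⟩ := exists_nat_ge b
  obtain ⟨M₂, hM₂, h₂⟩ := norm_Gamma_bd one_pos (1 + N - a)
  refine ⟨|M₁| + M₂, by positivity, fun s ha hb => ?_⟩
  have he : 1 ≤ Real.exp (4 * |s.im|) := Real.one_le_exp (by positivity)
  rcases le_total |s.im| 1 with h | h
  · have := h₁ s ⟨⟨ha, hb⟩, abs_le.1 h⟩
    nlinarith [le_abs_self M₁, abs_nonneg M₁]
  · have h3 := norm_inv_Gamma_add (s := s - N) (by simpa using h) N
    rw [sub_add_cancel] at h3
    set t : ℂ := s - N with ht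
    have him : t.im = s.im := by simp [ht]
    have hre : t.re = s.re - N := by simp [ht]
    have ht0 : Gamma t ≠ 0 := Gamma_ne_zero fun m hm => by
      have := congrArg Complex.im hm
      rw [him] at this
      simp at this
      rw [this] at h
      norm_num at h
    have ht1 : Gamma (1 - t) ≠ 0 := Gamma_ne_zero_of_re_pos (by simp [hre]; linarith)
    have hr := Gamma_mul_Gamma_one_sub t
    have hpi : (Real.pi : ℂ) ≠ 0 := ofReal_ne_zero.2 Real.pi_ne_zero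
    have hs : Complex.sin (Real.pi * t) ≠ 0 := fun h0 => by
      rw [h0, div_zero] at hr
      exact mul_ne_zero ht0 ht1 hr
    have e : (Gamma t)⁻¹ = Gamma (1 - t) * Complex.sin (Real.pi * t) / Real.pi := by
      rw [eq_div_iff hs] at hr
      rw [eq_div_iff hpi, inv_mul_eq_iff_eq_mul₀ ht0, ← mul_assoc, hr]
    have h4 := h₂ (1 - t) (by simp [hre]; linarith) (by simp [hre]; linarith)
    have h5 : ‖Complex.sin (Real.pi * t)‖ ≤ Real.exp (4 * |s.im|) := by
      refine (norm_sin_le _).trans (Real.exp_le_exp.2 ?_)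
      rw [im_ofReal_mul, abs_mul, him, abs_of_pos Real.pi_pos]
      exact mul_le_mul_of_nonneg_right Real.pi_le_four (abs_nonneg _)
    have h6 : ‖(Gamma t)⁻¹‖ ≤ M₂ * Real.exp (4 * |s.im|) := by
      rw [e, norm_div, norm_mul, Complex.norm_real, Real.norm_of_nonneg Real.pi_pos.le]
      refine (div_le_self (by positivity) (by linarith [Real.pi_gt_three])).trans ?_
      exact mul_le_mul h4 h5 (norm_nonneg _) hM₂.le
    nlinarith [abs_nonneg M₁]

theorem ratio_le {c : ℝ} (h0 : 1 / 3 ≤ c) (h1 : c < 1) (σ : ℕ) : ∃ C : ℝ, 0 < C ∧ ∀ u : ℝ,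
    ‖Gamma (c + (σ + u * I))‖ * ‖(Gamma (c + 1 - (σ + u * I)))⁻¹‖ ≤ C * (1 + |u|) ^ (2 * σ) := by
  induction σ with
  | zero =>
    refine ⟨3, by norm_num, fun u => ?_⟩
    have hne : (c : ℂ) - u * I ≠ 0 := fun h => by
      have := congrArg Complex.re h
      simp at this
      linarith
    have hG : Gamma ((c : ℂ) - u * I) ≠ 0 := Gamma_ne_zero_of_re_pos (by simp; linarith)
    have e1 : (c : ℂ) + 1 - (((0 : ℕ) : ℂ) + u * I) = (c - u * I) + 1 := by push_cast; ring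
    have e2 : (c : ℂ) + (((0 : ℕ) : ℂ) + u * I) = conj ((c : ℂ) - u * I) := by simp
    have h2 : 1 / 3 ≤ ‖(c : ℂ) - u * I‖ := h0.trans (by simpa using re_le_norm ((c : ℂ) - u * I))
    rw [e1, e2, Gamma_conj, Complex.norm_conj, Gamma_add_one _ hne, mul_inv, norm_mul, norm_inv,
      norm_inv, mul_left_comm, mul_inv_cancel₀ (norm_ne_zero_iff.2 hG), mul_zero, pow_zero,
      mul_one, mul_one]
    rw [inv_le_comm₀ (by linarith) (by norm_num)]
    linarith
  | succ σ ih =>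
    obtain ⟨C, hC, ih⟩ := ih
    refine ⟨C * (σ + 1) ^ 2, by positivity, fun u => ?_⟩
    have hσ := Nat.cast_nonneg (α := ℝ) σ
    have hn1 : (c : ℂ) + (σ + u * I) ≠ 0 := fun h => by
      have := congrArg Complex.re h
      simp at this
      linarith
    have hn2 : (c : ℂ) - (σ + u * I) ≠ 0 := fun h => by
      have := congrArg Complex.re h
      simp at this
      rcases Nat.eq_zero_or_pos σ with h | h
      · rw [h] at this; simp at this; linarith
      · have : (1 : ℝ) ≤ σ := by exact_mod_cast h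
        linarith
    have e1 : (c : ℂ) + (((σ + 1 : ℕ) : ℂ) + u * I) = (c + (σ + u * I)) + 1 := by push_cast; ring
    have e2 : (c : ℂ) + 1 - (((σ + 1 : ℕ) : ℂ) + u * I) = c - (σ + u * I) := by push_cast; ring
    have e3 : (c : ℂ) + 1 - (σ + u * I) = (c - (σ + u * I)) + 1 := by ring
    have e4 : (Gamma ((c : ℂ) - (σ + u * I)))⁻¹ =
        (c - (σ + u * I)) * (Gamma ((c : ℂ) + 1 - (σ + u * I)))⁻¹ := by
      rw [e3, Gamma_add_one _ hn2, mul_inv, ← mul_assoc, mul_inv_cancel₀ hn2, one_mul]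
    have b0 : ‖(σ : ℂ) + u * I‖ ≤ σ + |u| := (norm_add_le _ _).trans (by simp)
    have bc : ‖(c : ℂ)‖ ≤ 1 := by
      rw [Complex.norm_real, Real.norm_of_nonneg (by linarith)]; exact h1.le
    have hu := abs_nonneg u
    have b1 : ‖(c : ℂ) + (σ + u * I)‖ ≤ (σ + 1) * (1 + |u|) :=
      (norm_add_le _ _).trans (by nlinarith)
    have b2 : ‖(c : ℂ) - (σ + u * I)‖ ≤ (σ + 1) * (1 + |u|) :=
      (norm_sub_le _ _).trans (by nlinarith)
    rw [e1, e2, Gamma_add_one _ hn1, e4, norm_mul, norm_mul, mul_mul_mul_comm]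
    refine (mul_le_mul (mul_le_mul b1 b2 (norm_nonneg _) (by positivity)) (ih u)
      (by positivity) (by positivity)).trans (le_of_eq ?_)
    ring

/-- The gamma factor. -/
def gF (t : ℂ) : ℂ :=
  Gamma (1 / 3 + t) * Gamma (2 / 3 + t) / (Gamma (4 / 3 - t) * Gamma (5 / 3 - t))

theorem gF_eq (t : ℂ) : gF t =
    Gamma (1 / 3 + t) * (Gamma (4 / 3 - t))⁻¹ * (Gamma (2 / 3 + t) * (Gamma (5 / 3 - t))⁻¹) := by
  rw [gF, div_eq_mul_inv, mul_inv]; ring

theorem norm_gF_le (σ : ℕ) : ∃ C : ℝ, 0 < C ∧ ∀ u : ℝ,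
    ‖gF (σ + u * I)‖ ≤ C * (1 + |u|) ^ (4 * σ) := by
  obtain ⟨C₁, h₁, H₁⟩ := ratio_le (c := 1 / 3) le_rfl (by norm_num) σ
  obtain ⟨C₂, h₂, H₂⟩ := ratio_le (c := 2 / 3) (by norm_num) (by norm_num) σ
  refine ⟨C₁ * C₂, by positivity, fun u => ?_⟩
  have k₁ := H₁ u
  have k₂ := H₂ u
  push_cast at k₁ k₂
  rw [show (1 / 3 + 1 : ℂ) = 4 / 3 by norm_num] at k₁
  rw [show (2 / 3 + 1 : ℂ) = 5 / 3 by norm_num] at k₂
  rw [gF_eq, norm_mul, norm_mul, norm_mul]
  refine (mul_le_mul k₁ k₂ (by positivity) (by positivity)).trans (le_of_eq ?_)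
  ring

theorem differentiableAt_gF {t : ℂ} (ht : 0 ≤ t.re) : DifferentiableAt ℂ gF t := by
  have h : ∀ c : ℂ, 0 < c.re → DifferentiableAt ℂ (fun t => Gamma (c + t)) t := fun c hc =>
    (differentiableAt_Gamma (c + t) fun m hm => by
      have := congrArg Complex.re hm
      have hm := Nat.cast_nonneg (α := ℝ) m
      simp at this
      linarith).comp t (by fun_prop)
  have h' : ∀ c : ℂ, DifferentiableAt ℂ (fun t => (Gamma (c - t))⁻¹) t := fun c =>
    (differentiable_one_div_Gamma (c - t)).comp t (by fun_prop)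
  rw [show gF = _ from funext gF_eq]
  exact ((h _ (by norm_num)).mul (h' _)).mul ((h _ (by norm_num)).mul (h' _))

theorem norm_gF_strip (σ : ℝ) : ∃ C : ℝ, 0 < C ∧ ∀ t : ℂ, 0 ≤ t.re → t.re ≤ σ →
    ‖gF t‖ ≤ C * Real.exp (8 * |t.im|) := by
  obtain ⟨M, hM, h₁⟩ := norm_Gamma_bd (a := 1 / 3) (by norm_num) (1 + σ)
  obtain ⟨C, hC, h₂⟩ := norm_inv_Gamma_le (-σ) 2
  refine ⟨M * C * (M * C), by positivity, fun t h0 h1 => ?_⟩
  have a1 := h₁ (1 / 3 + t) (by simp; linarith) (by simp; linarith)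
  have a2 := h₁ (2 / 3 + t) (by simp; linarith) (by simp; linarith)
  have a3 := h₂ (4 / 3 - t) (by simp; linarith) (by simp; linarith)
  have a4 := h₂ (5 / 3 - t) (by simp; linarith) (by simp; linarith)
  have i3 : |(4 / 3 - t).im| = |t.im| := by simp
  have i4 : |(5 / 3 - t).im| = |t.im| := by simp
  rw [i3] at a3
  rw [i4] at a4
  rw [gF_eq, norm_mul, norm_mul, norm_mul]
  refine (mul_le_mul (mul_le_mul a1 a3 (norm_nonneg _) hM.le)
    (mul_le_mul a2 a4 (norm_nonneg _) hM.le) (by positivity) (by positivity)).trans (le_of_eq ?_)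
  rw [show 8 * |t.im| = 4 * |t.im| + 4 * |t.im| by ring, Real.exp_add]
  ring

/-- The density of the reflected kernel. -/
def K0 (t s : ℂ) : ℂ := (1 / (2 * Real.pi) : ℂ) * Wm (1 - t + s) * gF t

theorem differentiableAt_K0 (s : ℂ) {t : ℂ} (ht : 0 ≤ t.re) :
    DifferentiableAt ℂ (fun t => K0 t s) t :=
  (((differentiable_Wm _).comp t (by fun_prop)).const_mul _).mul (differentiableAt_gF ht)

theorem norm_c_le : ‖(1 / (2 * Real.pi) : ℂ)‖ ≤ 1 := by
  rw [show (1 / (2 * Real.pi) : ℂ) = ((1 / (2 * Real.pi) : ℝ) : ℂ) by push_cast; ring,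
    Complex.norm_real, Real.norm_of_nonneg (by positivity), div_le_one (by positivity)]
  linarith [Real.pi_gt_three]

theorem K0_shift (σ : ℕ) (s : ℂ) {x : ℝ} (hx : 0 < x) :
    ∫ u : ℝ, K0 (u * I) s * (x : ℂ) ^ (-((u : ℂ) * I)) =
      ∫ u : ℝ, K0 (σ + u * I) s * (x : ℂ) ^ (-((σ : ℂ) + u * I)) := by
  have hσ := Nat.cast_nonneg (α := ℝ) σ
  obtain ⟨C, hC, h⟩ := norm_gF_strip σ
  have := integral_vertical_shift (F := fun t => K0 t s * (x : ℂ) ^ (-t)) (a := 0) (b := σ) hσ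
    (fun t ht => ((differentiableAt_K0 s ht.1).mul (DifferentiableAt.const_cpow (by fun_prop)
      (Or.inl (ofReal_ne_zero.2 hx.ne')))).differentiableWithinAt)
    (C := Real.sqrt Real.pi * C * Real.exp ((1 + σ + |s.re|) ^ 2 / 4 + 81 + 9 * |s.im| +
      σ * |Real.log x|)) one_pos fun t h0 h1 => ?_
  · simpa using this
  have h0' : 0 ≤ t.re := by simpa using h0
  have e1 : (1 - t + s).re = 1 - t.re + s.re := by simp
  have e2 : (1 - t + s).im = s.im - t.im := by simp; ring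
  rw [norm_mul, K0, norm_mul, norm_mul, norm_Wm, Complex.norm_cpow_eq_rpow_re_of_pos hx, e1, e2,
    Real.rpow_def_of_pos hx]
  have b1 := mul_le_mul (mul_le_of_le_one_left (by positivity :
    0 ≤ Real.sqrt Real.pi * Real.exp (((1 - t.re + s.re) ^ 2 - (s.im - t.im) ^ 2) / 4)) norm_c_le)
    (h t h0' h1) (norm_nonneg _) (by positivity)
  refine (mul_le_mul_of_nonneg_right b1 (Real.exp_pos _).le).trans ?_
  have e3 : Real.sqrt Real.pi * Real.exp (((1 - t.re + s.re) ^ 2 - (s.im - t.im) ^ 2) / 4) *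
      (C * Real.exp (8 * |t.im|)) * Real.exp (Real.log x * (-t).re) =
      Real.sqrt Real.pi * C * Real.exp (((1 - t.re + s.re) ^ 2 - (s.im - t.im) ^ 2) / 4 +
        8 * |t.im| + Real.log x * (-t).re) := by
    rw [Real.exp_add, Real.exp_add]; ring
  rw [e3, mul_assoc (Real.sqrt Real.pi * C), ← Real.exp_add]
  refine mul_le_mul_of_nonneg_left (Real.exp_le_exp.2 ?_) (by positivity)
  have c1 : (1 - t.re + s.re) ^ 2 ≤ (1 + σ + |s.re|) ^ 2 :=
    sq_le_sq' (by linarith [neg_abs_le s.re]) (by linarith [le_abs_self s.re])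
  have c2 : |t.im| ≤ |s.im| + |s.im - t.im| := by
    have := abs_sub s.im (s.im - t.im)
    rwa [sub_sub_cancel] at this
  have c3 : Real.log x * (-t).re ≤ σ * |Real.log x| := by
    rw [neg_re]
    nlinarith [neg_abs_le (Real.log x), abs_nonneg (Real.log x)]
  nlinarith [sq_nonneg (|s.im - t.im| - 18), sq_abs (s.im - t.im)]

theorem K0_bound (σ : ℕ) (B : ℝ) : ∃ C : ℝ, ∀ s : ℂ, |s.re| ≤ B →
    Integrable (fun u : ℝ => K0 (σ + u * I) s) ∧
    (∫ u : ℝ, ‖K0 (σ + u * I) s‖) ≤ C * (1 + |s.im|) ^ (4 * σ) := by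
  have hσ := Nat.cast_nonneg (α := ℝ) σ
  obtain ⟨C, hC, h⟩ := norm_gF_le σ
  have hg := integrable_Wm_mul_pow 0 (4 * σ)
  set g : ℝ → ℝ := fun u => ‖Wm (((0 : ℝ) : ℂ) + u * I)‖ * (1 + |u|) ^ (4 * σ) with hgdef
  refine ⟨C * Real.exp ((1 + σ + B) ^ 2 / 4) * ∫ u, g u, fun s hs => ?_⟩
  have hpt : ∀ u : ℝ, ‖K0 (σ + u * I) s‖ ≤
      C * Real.exp ((1 + σ + B) ^ 2 / 4) * (1 + |s.im|) ^ (4 * σ) * g (u - s.im) := by
    intro u
    have e1 : (1 - ((σ : ℂ) + u * I) + s).re = 1 - σ + s.re := by simp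
    have e2 : (1 - ((σ : ℂ) + u * I) + s).im = s.im - u := by simp; ring
    have e3 : (((0 : ℝ) : ℂ) + ((u - s.im : ℝ) : ℂ) * I).re = 0 := by simp
    have e4 : (((0 : ℝ) : ℂ) + ((u - s.im : ℝ) : ℂ) * I).im = u - s.im := by simp
    have w : ‖Wm (1 - ((σ : ℂ) + u * I) + s)‖ ≤
        Real.exp ((1 + σ + B) ^ 2 / 4) * ‖Wm (((0 : ℝ) : ℂ) + ((u - s.im : ℝ) : ℂ) * I)‖ := by
      rw [norm_Wm, norm_Wm, e1, e2, e3, e4, mul_left_comm, ← Real.exp_add]
      refine mul_le_mul_of_nonneg_left (Real.exp_le_exp.2 ?_) (by positivity)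
      have c1 : (1 - σ + s.re) ^ 2 ≤ (1 + σ + B) ^ 2 :=
        sq_le_sq' (by linarith [neg_abs_le s.re]) (by linarith [le_abs_self s.re])
      nlinarith
    have p : (1 + |u|) ^ (4 * σ) ≤ (1 + |s.im|) ^ (4 * σ) * (1 + |u - s.im|) ^ (4 * σ) := by
      rw [← mul_pow]
      refine pow_le_pow_left₀ (by positivity) ?_ _
      have := abs_add_le (u - s.im) s.im
      rw [sub_add_cancel] at this
      nlinarith [abs_nonneg s.im, abs_nonneg (u - s.im)]
    rw [K0, norm_mul, norm_mul]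
    refine (mul_le_mul ((mul_le_of_le_one_left (norm_nonneg _) norm_c_le).trans w)
      ((h u).trans (mul_le_mul_of_nonneg_left p hC.le)) (norm_nonneg _) (by positivity)).trans
      (le_of_eq ?_)
    simp only [hgdef]
    ring
  have hcont : Continuous fun u : ℝ => K0 (σ + u * I) s :=
    continuous_iff_continuousAt.2 fun u =>
      (differentiableAt_K0 s (t := σ + u * I) (by simp)).continuousAt.comp
        (f := fun u : ℝ => (σ : ℂ) + u * I) (by fun_prop)
  have hi := (hg.comp_sub_right s.im).const_mul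
    (C * Real.exp ((1 + σ + B) ^ 2 / 4) * (1 + |s.im|) ^ (4 * σ))
  have hI : Integrable (fun u : ℝ => K0 (σ + u * I) s) :=
    hi.mono' hcont.aestronglyMeasurable (Eventually.of_forall hpt)
  refine ⟨hI, (integral_mono hI.norm hi hpt).trans (le_of_eq ?_)⟩
  rw [integral_const_mul, integral_sub_right_eq_self g]
  ring

end Crest.Agent.R17.RMA
end
end

-- ▼ part PVc/R17/ReflMelAuxN2
section

/-!
# Row 17, reflection module N: the proof of the Mellin transfer
-/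

set_option autoImplicit false

noncomputable section

namespace Crest.Agent.R17

open MeasureTheory Complex Set Filter Asymptotics
open scoped Topology

namespace MelN2

/-- The Bessel sum. -/
def fS (a : O → ℂ) (A : ℝ) (x : ℝ) : ℂ := ∑' n : O, a n * (U1 (A * nr n * x) : ℂ)

/-- The Dirichlet series. -/
def dS (a : O → ℂ) (s : ℂ) : ℂ := ∑' n : O, a n * (nr n : ℂ) ^ (-s)

variable {a b : O → ℂ} {H Ha Hb A B : ℝ}

theorem summable_coef (ha : PolyB a H 1) {k : ℝ} (hk : 2 < k) :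
    Summable fun n : O => ‖a n‖ * nr n ^ (-k) := by
  have hH := WeightB.H_nonneg ha
  refine Summable.of_nonneg_of_le (fun n => by positivity) (fun n => ?_)
    ((summable_nr_rpow (σ := k - 1) (by linarith)).mul_left H)
  by_cases h0 : n = 0
  · rw [h0, ha.1, norm_zero, zero_mul]
    positivity
  · rw [show -(k - 1) = 1 + -k by ring, Real.rpow_add (nr_pos h0), ← mul_assoc]
    exact mul_le_mul_of_nonneg_right (ha.2 n) (by positivity)

theorem term_le (ha : PolyB a H 1) (hA : 0 < A) {k : ℝ} (hk : 2 < k) :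
    ∃ u : O → ℝ, Summable u ∧ (∀ n, 0 ≤ u n) ∧
      ∀ n x, 0 < x → ‖a n * (U1 (A * nr n * x) : ℂ)‖ ≤ u n * x ^ (-k) := by
  obtain ⟨C, hC, h⟩ := U1_le_rpow (A := k) (by linarith)
  refine ⟨fun n => C * A ^ (-k) * (‖a n‖ * nr n ^ (-k)), (summable_coef ha hk).mul_left _,
    fun n => by positivity, fun n x hx => ?_⟩
  by_cases h0 : n = 0
  · simp [h0, ha.1]
  have hn := nr_pos h0
  obtain ⟨h1, h2⟩ := h (A * nr n * x) (by positivity)
  rw [norm_mul, Complex.norm_real, Real.norm_of_nonneg h1]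
  refine (mul_le_mul_of_nonneg_left h2 (norm_nonneg _)).trans (le_of_eq ?_)
  rw [Real.mul_rpow (by positivity) hx.le, Real.mul_rpow hA.le hn.le]
  ring

theorem norm_fS_le (ha : PolyB a H 1) (hA : 0 < A) {k : ℝ} (hk : 2 < k) :
    ∃ C : ℝ, ∀ x, 0 < x → ‖fS a A x‖ ≤ C * x ^ (-k) := by
  obtain ⟨u, hu, -, h⟩ := term_le ha hA hk
  exact ⟨∑' n, u n, fun x hx => tsum_of_norm_bounded (hu.hasSum.mul_right _) fun n => h n x hx⟩

theorem continuousOn_fS (ha : PolyB a H 1) (hA : 0 < A) : ContinuousOn (fS a A) (Ioi 0) := by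
  obtain ⟨u, hu, hu0, h⟩ := term_le ha hA (k := 3) (by norm_num)
  intro x hx
  have hx : 0 < x / 2 := half_pos hx
  refine ContinuousAt.continuousWithinAt (ContinuousOn.continuousAt (s := Ioi (x / 2)) ?_
    (Ioi_mem_nhds (by linarith)))
  refine continuousOn_tsum (fun n => ?_) (hu.mul_right ((x / 2) ^ (-3 : ℝ))) fun n y hy => ?_
  · by_cases h0 : n = 0
    · simp only [h0, ha.1, zero_mul]
      exact continuousOn_const
    have hn := nr_pos h0
    refine continuousOn_const.mul (continuous_ofReal.comp_continuousOn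
      (continuousOn_U1.comp (by fun_prop) fun y hy => ?_))
    have : 0 < y := hx.trans hy
    exact mem_Ioi.2 (by positivity)
  · exact (h n y (hx.trans hy)).trans (mul_le_mul_of_nonneg_left
      (Real.rpow_le_rpow_of_nonpos hx (le_of_lt hy) (by norm_num)) (hu0 n))

theorem mellin_U {s : ℂ} (hs : -(1 / 3) < s.re) :
    MellinConvergent (fun x => (U1 x : ℂ)) s ∧
      mellin (fun x => (U1 x : ℂ)) s = Gamma (s + 1 / 3) * Gamma (s + 2 / 3) := by
  simpa only [MellinConvergent, mellin, smul_eq_mul, mul_comm] using mellin_U1 hs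

theorem mellin_fS (ha : PolyB a H 1) (hA : 0 < A) {s : ℂ} (hs : 2 < s.re) :
    mellin (fS a A) s = Gamma (s + 1 / 3) * Gamma (s + 2 / 3) * (A : ℂ) ^ (-s) * dS a s := by
  obtain ⟨h1, h2⟩ := mellin_U (s := s) (by linarith)
  have hi : ∀ n : O, Integrable (fun t : ℝ => (t : ℂ) ^ (s - 1) • (a n * (U1 (A * nr n * t) : ℂ)))
      (volume.restrict (Ioi 0)) := by
    intro n
    by_cases h0 : n = 0
    · simp [h0, ha.1]
    exact ((MellinConvergent.comp_mul_left (mul_pos hA (nr_pos h0))).2 h1).const_smul (a n)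
  have hn : ∀ n : O, ∫ t in Ioi (0 : ℝ), ‖(t : ℂ) ^ (s - 1) • (a n * (U1 (A * nr n * t) : ℂ))‖ =
      A ^ (-s.re) * (‖a n‖ * nr n ^ (-s.re)) *
        ∫ t in Ioi (0 : ℝ), ‖(t : ℂ) ^ (s - 1) • (U1 t : ℂ)‖ := by
    intro n
    by_cases h0 : n = 0
    · simp [h0, ha.1]
    have hc := mul_pos hA (nr_pos h0)
    have h3 := integral_comp_mul_left_Ioi (fun t : ℝ => ‖(t : ℂ) ^ (s - 1) • (U1 t : ℂ)‖) 0 hc
    rw [mul_zero] at h3
    rw [setIntegral_congr_fun (g := fun t => ‖a n‖ * (A * nr n) ^ (1 - s.re) *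
      ‖((A * nr n * t : ℝ) : ℂ) ^ (s - 1) • (U1 (A * nr n * t) : ℂ)‖) measurableSet_Ioi,
      integral_const_mul, h3, smul_eq_mul, sub_eq_add_neg, Real.rpow_add hc, Real.rpow_one,
      Real.mul_rpow hA.le (nr_pos h0).le]
    · have := hA.ne'
      have := (nr_pos h0).ne'
      field_simp
    · intro t ht
      have ht : 0 < t := ht
      simp only [norm_smul, norm_mul]
      rw [Complex.norm_cpow_eq_rpow_re_of_pos ht,
        Complex.norm_cpow_eq_rpow_re_of_pos (mul_pos hc ht), Real.mul_rpow hc.le ht.le, sub_re,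
        one_re, show 1 - s.re = -(s.re - 1) by ring, Real.rpow_neg hc.le]
      have := (Real.rpow_pos_of_pos hc (s.re - 1)).ne'
      field_simp
  have h4 := integral_tsum_of_summable_integral_norm hi (by
    simp only [hn]
    exact ((summable_coef ha hs).mul_left _).mul_right _)
  rw [mellin]
  simp only [fS, smul_eq_mul] at h4 ⊢
  simp only [← tsum_mul_left]
  rw [← h4, dS, ← tsum_mul_left]
  refine tsum_congr fun n => ?_
  by_cases h0 : n = 0
  · simp [h0, ha.1]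
  have h5 := mellin_comp_mul_left (fun x => (U1 x : ℂ)) s (mul_pos hA (nr_pos h0))
  rw [h2, ofReal_mul, mul_cpow_ofReal_nonneg hA.le (nr_pos h0).le, mellin] at h5
  simp only [smul_eq_mul] at h5
  simp only [mul_left_comm _ (a n)]
  rw [integral_const_mul, h5]
  ring

theorem mellin_refl {f g : ℝ → ℂ} {ω : ℂ} (h : ∀ x : ℝ, 0 < x → f x = ω * (x : ℂ)⁻¹ * g x⁻¹)
    (s : ℂ) : mellin f s = ω * mellin g (1 - s) := by
  rw [← neg_sub, ← mellin_comp_inv, sub_eq_add_neg, ← mellin_cpow_smul, ← smul_eq_mul,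
    ← mellin_const_smul]
  refine setIntegral_congr_fun measurableSet_Ioi fun x hx => ?_
  simp only [h x hx, smul_eq_mul, cpow_neg_one, mul_assoc]

theorem rpow_le_add {t p q r : ℝ} (ht : 0 < t) (h1 : p ≤ r) (h2 : r ≤ q) :
    t ^ r ≤ t ^ p + t ^ q := by
  rcases le_total t 1 with h | h
  · exact (Real.rpow_le_rpow_of_exponent_ge ht h h1).trans (le_add_of_nonneg_right (by positivity))
  · exact (Real.rpow_le_rpow_of_exponent_le h h2).trans (le_add_of_nonneg_left (by positivity))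

theorem mellin_strip {f : ℝ → ℂ} (hf : ContinuousOn f (Ioi 0)) {C C' : ℝ}
    (h1 : ∀ x, 0 < x → ‖f x‖ ≤ C * x ^ (-4 : ℝ)) (h2 : ∀ x, 0 < x → ‖f x‖ ≤ C' * x ^ (3 : ℝ)) :
    ∃ K : ℝ, ∀ s : ℂ, -2 ≤ s.re → s.re ≤ 3 → DifferentiableAt ℂ (mellin f) s ∧ ‖mellin f s‖ ≤ K := by
  have hl := hf.locallyIntegrableOn (μ := volume) measurableSet_Ioi
  have ht : f =O[atTop] (· ^ (-4 : ℝ)) := IsBigO.of_bound C <| by
    filter_upwards [eventually_gt_atTop 0] with x hx
    rw [Real.norm_of_nonneg (by positivity)]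
    exact h1 x hx
  have hb : f =O[𝓝[>] 0] (· ^ (-(-3) : ℝ)) := IsBigO.of_bound C' <| by
    filter_upwards [self_mem_nhdsWithin] with x hx
    have hx : 0 < x := hx
    rw [Real.norm_of_nonneg (by positivity), neg_neg]
    exact h2 x hx
  have hi := fun (σ : ℝ) (h : σ < 4) (h' : -3 < σ) =>
    mellin_convergent_of_isBigO_scalar hl.norm ht.norm_left h hb.norm_left h'
  refine ⟨∫ t in Ioi (0 : ℝ), (t ^ ((-2 : ℝ) - 1) * ‖f t‖ + t ^ ((3 : ℝ) - 1) * ‖f t‖),
    fun s hs hs' => ⟨mellin_differentiableAt_of_isBigO_rpow hl ht (by linarith) hb (by linarith),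
      norm_integral_le_of_norm_le ((hi _ (by norm_num) (by norm_num)).add
        (hi _ (by norm_num) (by norm_num))) ?_⟩⟩
  filter_upwards [ae_restrict_mem measurableSet_Ioi] with t ht
  rw [norm_smul, Complex.norm_cpow_eq_rpow_re_of_pos ht, sub_re, one_re, ← add_mul]
  exact mul_le_mul_of_nonneg_right (rpow_le_add ht (by linarith) (by linarith)) (norm_nonneg _)

/-- The function whose line of integration is shifted. -/
def FF (L : ℂ → ℂ) (Y : ℝ) (s w : ℂ) : ℂ :=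
  Wm (w + s) * (Y : ℂ) ^ w * L w * (Gamma (w + 1 / 3))⁻¹ * (Gamma (w + 2 / 3))⁻¹

theorem FF_diff {L : ℂ → ℂ} {Y : ℝ} (hY : 0 < Y) (s : ℂ) {w : ℂ} (hL : DifferentiableAt ℂ L w) :
    DifferentiableAt ℂ (FF L Y s) w := by
  have h1 := differentiable_Wm
  have h2 := Complex.differentiable_one_div_Gamma
  refine ((((h1 _).comp w (by fun_prop : DifferentiableAt ℂ (fun w => w + s) w)).mul
    (differentiableAt_id.const_cpow (Or.inl (ofReal_ne_zero.2 hY.ne')))).mul hL).mul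
    ((h2 _).comp w (by fun_prop : DifferentiableAt ℂ (fun w => w + 1 / 3) w)) |>.mul
    ((h2 _).comp w (by fun_prop : DifferentiableAt ℂ (fun w => w + 2 / 3) w))

theorem FF_le {L : ℂ → ℂ} {Y K C : ℝ} (hY : 0 < Y) (s : ℂ)
    (hG : ∀ z : ℂ, -2 ≤ z.re → z.re ≤ 4 → ‖(Gamma z)⁻¹‖ ≤ C * Real.exp (4 * |z.im|))
    {w : ℂ} (h1 : -2 ≤ w.re) (h2 : w.re ≤ 3) (hL : ‖L w‖ ≤ K) :
    ‖FF L Y s w‖ ≤ Real.sqrt Real.pi * Real.exp ((3 + |s.re|) ^ 2 / 4 + 81 + 9 * |s.im|) *
      (Y ^ (-2 : ℝ) + Y ^ (3 : ℝ)) * K * C * C * Real.exp (-1 * |w.im|) := by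
  have g1 := hG (w + 1 / 3) (by norm_num; linarith) (by norm_num; linarith)
  have g2 := hG (w + 2 / 3) (by norm_num; linarith) (by norm_num; linarith)
  have hC : 0 ≤ C := (mul_nonneg_iff_of_pos_right (Real.exp_pos _)).1 ((norm_nonneg _).trans g1)
  have hK : 0 ≤ K := (norm_nonneg _).trans hL
  rw [show (w + 1 / 3).im = w.im by norm_num] at g1
  rw [show (w + 2 / 3).im = w.im by norm_num] at g2
  have g3 : ‖(Y : ℂ) ^ w‖ ≤ Y ^ (-2 : ℝ) + Y ^ (3 : ℝ) := by
    rw [Complex.norm_cpow_eq_rpow_re_of_pos hY]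
    exact rpow_le_add hY h1 h2
  have g4 : ‖Wm (w + s)‖ ≤ Real.sqrt Real.pi *
      Real.exp ((3 + |s.re|) ^ 2 / 4 + 81 + 9 * |s.im| + -9 * |w.im|) := by
    rw [norm_Wm, add_re, add_im]
    refine mul_le_mul_of_nonneg_left (Real.exp_le_exp.2 ?_) (Real.sqrt_nonneg _)
    have e1 : (w.re + s.re) ^ 2 ≤ (3 + |s.re|) ^ 2 :=
      sq_le_sq' (by linarith [neg_abs_le s.re]) (by linarith [le_abs_self s.re])
    have e2 : |w.im| ≤ |w.im + s.im| + |s.im| := by
      simpa using abs_sub (w.im + s.im) s.im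
    nlinarith [sq_nonneg (|w.im + s.im| - 18), sq_abs (w.im + s.im)]
  rw [FF, norm_mul, norm_mul, norm_mul, norm_mul]
  refine (mul_le_mul (mul_le_mul (mul_le_mul (mul_le_mul g4 g3 (norm_nonneg _) (by positivity)) hL
    (norm_nonneg _) (by positivity)) g1 (norm_nonneg _) (by positivity)) g2 (norm_nonneg _)
    (by positivity)).trans (le_of_eq ?_)
  rw [show -1 * |w.im| = -9 * |w.im| + 4 * |w.im| + 4 * |w.im| by ring]
  simp only [Real.exp_add]
  ring

theorem tsum_kernel {Kr : ℂ → ℂ → ℂ} {V : ℝ → ℂ → ℂ} (hK : KernelOK Kr V) (hb : PolyB b H 1)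
    {c : ℝ} (hc : 0 < c) (s : ℂ) :
    ∑' n : O, b n * V (c * nr n) s = ∫ u : ℝ, Kr (3 + u * I) s *
      ((c : ℂ) ^ (-(3 + (u : ℂ) * I)) * dS b (3 + u * I)) := by
  obtain ⟨C, J, h⟩ := hK 3 |s.re|
  obtain ⟨h1, -, h2⟩ := h s le_rfl
  simp only [Nat.cast_ofNat] at h1 h2
  have hn : ∀ (n : O) (u : ℝ), ‖(c : ℂ) ^ (-(3 + (u : ℂ) * I)) *
      (b n * (nr n : ℂ) ^ (-(3 + (u : ℂ) * I)))‖ = c ^ (-3 : ℝ) * (‖b n‖ * nr n ^ (-3 : ℝ)) := by
    intro n u
    by_cases h0 : n = 0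
    · simp [h0, hb.1]
    rw [norm_mul, norm_mul, Complex.norm_cpow_eq_rpow_re_of_pos hc,
      Complex.norm_cpow_eq_rpow_re_of_pos (nr_pos h0)]
    simp
  have hi : ∀ n : O, Integrable fun u : ℝ => Kr (3 + u * I) s * ((c : ℂ) ^ (-(3 + (u : ℂ) * I)) *
      (b n * (nr n : ℂ) ^ (-(3 + (u : ℂ) * I)))) := by
    intro n
    by_cases h0 : n = 0
    · simp [h0, hb.1]
    refine h1.mul_bdd (Continuous.aestronglyMeasurable ?_)
      (Eventually.of_forall fun u => (hn n u).le)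
    exact (Continuous.const_cpow (by fun_prop) (Or.inl (ofReal_ne_zero.2 hc.ne'))).mul
      (continuous_const.mul (Continuous.const_cpow (by fun_prop)
        (Or.inl (ofReal_ne_zero.2 (nr_pos h0).ne'))))
  simp only [dS, ← tsum_mul_left]
  rw [← integral_tsum_of_summable_integral_norm hi]
  · refine tsum_congr fun n => ?_
    by_cases h0 : n = 0
    · simp [h0, hb.1]
    rw [h2 _ (mul_pos hc (nr_pos h0)), ← integral_const_mul]
    congr 1
    funext u
    rw [ofReal_mul, mul_cpow_ofReal_nonneg hc.le (nr_pos h0).le]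
    ring
  · simp only [norm_mul (Kr _ _), hn, integral_mul_const]
    exact ((summable_coef hb (by norm_num)).mul_left _).mul_left _

theorem transfer {Kr : ℂ → ℂ → ℂ} {V : ℝ → ℂ → ℂ} (hK : KernelOK Kr V)
    (hKr : ∀ t s, Kr t s = (1 / (2 * Real.pi) : ℂ) * Wm (1 - t + s) *
      (Gamma (1 / 3 + t) * Gamma (2 / 3 + t) / (Gamma (4 / 3 - t) * Gamma (5 / 3 - t))))
    (hshift : ∀ (F : ℂ → ℂ) (C : ℝ), DifferentiableOn ℂ F {s | (-2 : ℝ) ≤ s.re ∧ s.re ≤ (3 : ℝ)} →
      (∀ s : ℂ, (-2 : ℝ) ≤ s.re → s.re ≤ (3 : ℝ) → ‖F s‖ ≤ C * Real.exp (-1 * |s.im|)) →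
      ∫ u : ℝ, F ((-2 : ℝ) + u * I) = ∫ u : ℝ, F ((3 : ℝ) + u * I))
    {C : ℝ} (hG : ∀ z : ℂ, -2 ≤ z.re → z.re ≤ 4 → ‖(Gamma z)⁻¹‖ ≤ C * Real.exp (4 * |z.im|))
    (ha : PolyB a Ha 1) (hb : PolyB b Hb 1) (hA : 0 < A) (hB : 0 < B) {ω : ℂ}
    (h : ∀ x : ℝ, 0 < x → fS a A x = ω * (x : ℂ)⁻¹ * fS b B x⁻¹) {X : ℝ} (hX : 0 < X) (s : ℂ) :
    Sm a X s = ω * ((A * X : ℝ) : ℂ) * ∑' n : O, b n * V (A * B * X * nr n) s := by
  obtain ⟨C1, h1⟩ := norm_fS_le ha hA (k := 4) (by norm_num)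
  obtain ⟨C2, h2⟩ := norm_fS_le hb hB (k := 4) (by norm_num)
  obtain ⟨K, hL⟩ := mellin_strip (continuousOn_fS ha hA) h1 (C' := ‖ω‖ * C2) fun x hx => by
    rw [h x hx, norm_mul, norm_mul, norm_inv, Complex.norm_real, Real.norm_of_nonneg hx.le]
    refine (mul_le_mul_of_nonneg_left (h2 _ (inv_pos.2 hx)) (by positivity)).trans (le_of_eq ?_)
    rw [Real.inv_rpow hx.le, Real.rpow_neg hx.le, inv_inv, show (4 : ℝ) = 3 + 1 by norm_num,
      Real.rpow_add hx, Real.rpow_one]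
    field_simp
  have hY := mul_pos hA hX
  have hA' : (A : ℂ) ≠ 0 := ofReal_ne_zero.2 hA.ne'
  have h3 := hshift (FF (mellin (fS a A)) (A * X) s) _
    (fun w hw => (FF_diff hY s (hL w hw.1 hw.2).1).differentiableWithinAt)
    fun w hw hw' => FF_le hY s hG hw hw' (hL w hw hw').2
  have h4 : ∀ u : ℝ, Wm ((3 : ℝ) + u * I + s) * (X : ℂ) ^ (((3 : ℝ) : ℂ) + u * I) *
      dS a ((3 : ℝ) + u * I) = FF (mellin (fS a A)) (A * X) s ((3 : ℝ) + u * I) := by
    intro u
    have e : (((3 : ℝ) : ℂ) + u * I).re = 3 := by simp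
    generalize ((3 : ℝ) : ℂ) + u * I = w at e
    have g1 : Gamma (w + 1 / 3) ≠ 0 := Gamma_ne_zero_of_re_pos (by norm_num [e])
    have g2 : Gamma (w + 2 / 3) ≠ 0 := Gamma_ne_zero_of_re_pos (by norm_num [e])
    have g3 : (A : ℂ) ^ w ≠ 0 := fun h => hA' ((cpow_eq_zero_iff _ _).1 h).1
    rw [FF, mellin_fS ha hA (by rw [e]; norm_num), ofReal_mul, mul_cpow_ofReal_nonneg hA.le hX.le,
      cpow_neg]
    generalize Gamma (w + 1 / 3) = G1 at g1 ⊢
    generalize Gamma (w + 2 / 3) = G2 at g2 ⊢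
    field_simp
  have h5 : ∀ u : ℝ, (1 / (2 * Real.pi) : ℂ) *
      FF (mellin (fS a A)) (A * X) s ((-2 : ℝ) + (-u : ℝ) * I) = ω * ((A * X : ℝ) : ℂ) *
        (Kr (3 + u * I) s * (((A * B * X : ℝ) : ℂ) ^ (-(3 + (u : ℂ) * I)) * dS b (3 + u * I))) := by
    intro u
    have e : ((3 : ℂ) + u * I).re = 3 := by simp
    rw [show (((-2 : ℝ) : ℂ) + (-u : ℝ) * I) = 1 - (3 + u * I) by push_cast; ring]
    generalize (3 : ℂ) + u * I = t at e
    rw [FF, mellin_refl h, sub_sub_cancel, mellin_fS hb hB (by rw [e]; norm_num), hKr,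
      show A * B * X = A * X * B by ring, ofReal_mul (A * X), mul_cpow_ofReal_nonneg hY.le hB.le,
      sub_eq_add_neg 1 t, cpow_add _ _ (ofReal_ne_zero.2 hY.ne'), cpow_one,
      show 1 + -t + 1 / 3 = 4 / 3 - t by ring, show 1 + -t + 2 / 3 = 5 / 3 - t by ring,
      add_comm t, add_comm t, div_eq_mul_inv (Gamma _ * Gamma _), mul_inv]
    ring
  rw [Sm_eq_integral ha hX (σ := 3) (by norm_num), tsum_kernel hK hb (by positivity),
    ← integral_const_mul ((ω * ((A * X : ℝ) : ℂ)))]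
  simp only [← h5]
  rw [integral_const_mul, integral_neg_eq_self
    (fun u : ℝ => FF (mellin (fS a A)) (A * X) s ((-2 : ℝ) + u * I)), h3]
  simp only [← h4]
  rfl

end MelN2

end Crest.Agent.R17
end
end

-- ▼ part PVc/R17/ReflMel

/-!
# Row 17, reflection module N: Mellin transfer from the Bessel weight `U1` to the weights `Wc`
-/

set_option autoImplicit false

noncomputable section

namespace Crest.Agent.R17

open scoped ComplexConjugate
open MeasureTheory Complex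

/-- The gamma factor (`t = 1 - s`). -/
def gamF (t : ℂ) : ℂ :=
  Gamma (1 / 3 + t) * Gamma (2 / 3 + t) / (Gamma (4 / 3 - t) * Gamma (5 / 3 - t))

/-- The density of the reflected kernel. -/
def Kr0 (t s : ℂ) : ℂ := (1 / (2 * Real.pi) : ℂ) * Wm (1 - t + s) * gamF t

/-- The reflected kernel. -/
def Vr (x : ℝ) (s : ℂ) : ℂ := ∫ u : ℝ, Kr0 (u * I) s * (x : ℂ) ^ (-((u : ℂ) * I))

/-- Shifting a vertical line of integration. -/
theorem integral_vertical_shift {F : ℂ → ℂ} {a b : ℝ} (hab : a ≤ b)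
    (hF : DifferentiableOn ℂ F {s | a ≤ s.re ∧ s.re ≤ b})
    {C c : ℝ} (hc : 0 < c) (hb : ∀ s : ℂ, a ≤ s.re → s.re ≤ b → ‖F s‖ ≤ C * Real.exp (-c * |s.im|)) :
    ∫ u : ℝ, F (a + u * I) = ∫ u : ℝ, F (b + u * I) :=
  RMA.integral_vertical_shift hab hF hc hb

/-- Crude growth of `1 / Γ` in vertical strips. -/
theorem norm_inv_Gamma_le (a b : ℝ) : ∃ C : ℝ, 0 < C ∧ ∀ s : ℂ, a ≤ s.re → s.re ≤ b →
    ‖(Gamma s)⁻¹‖ ≤ C * Real.exp (4 * |s.im|) :=
  RMA.norm_inv_Gamma_le a b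


theorem kernelOK_Kr0 : KernelOK Kr0 Vr := by
  intro σ B
  obtain ⟨C, h⟩ := RMA.K0_bound σ B
  exact ⟨C, 4 * σ, fun s hs => ⟨(h s hs).1, (h s hs).2, fun x hx => RMA.K0_shift σ s hx⟩⟩

/-- **Mellin transfer.** -/
theorem mellin_transfer {a b : O → ℂ} {Ha Hb : ℝ} (ha : PolyB a Ha 1) (hb : PolyB b Hb 1)
    {A B : ℝ} (hA : 0 < A) (hB : 0 < B) {ω : ℂ}
    (h : ∀ x : ℝ, 0 < x → ∑' n : O, a n * (U1 (A * nr n * x) : ℂ) =
      ω * (x : ℂ)⁻¹ * ∑' n : O, b n * (U1 (B * nr n / x) : ℂ))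
    {X : ℝ} (hX : 0 < X) (s : ℂ) :
    ∑' n : O, a n * Wc (nr n / X) s =
      ω * ((A * X : ℝ) : ℂ) * ∑' n : O, b n * Vr (A * B * X * nr n) s := by
  obtain ⟨C, -, hG⟩ := norm_inv_Gamma_le (-2) 4
  exact MelN2.transfer kernelOK_Kr0 (fun _ _ => rfl)
    (fun F C hF hb => integral_vertical_shift (by norm_num) hF one_pos hb) hG ha hb hA hB
    (fun x hx => by simpa only [MelN2.fS, div_eq_mul_inv] using h x hx) hX s

theorem summable_mul_Vr {b : O → ℂ} {Hb B : ℝ} (hb : PolyB b Hb B) {c : ℝ} (hc : 0 < c) (s : ℂ) :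
    Summable fun n : O => ‖b n * Vr (c * nr n) s‖ := by
  obtain ⟨σ, hσ⟩ := exists_nat_ge (B + 2)
  obtain ⟨C, J, h⟩ := kernelOK_Kr0 σ |s.re|
  obtain ⟨h1, -, h3⟩ := h s le_rfl
  have hH := WeightB.H_nonneg hb
  set K : ℝ := ∫ u : ℝ, ‖Kr0 (σ + u * I) s‖ with hK
  have hK0 : 0 ≤ K := integral_nonneg fun _ => norm_nonneg _
  refine Summable.of_nonneg_of_le (fun _ => norm_nonneg _) (fun n => ?_)
    ((summable_nr_rpow one_lt_two).mul_left (Hb * K * c ^ (-(σ : ℝ))))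
  by_cases hn : n = 0
  · rw [hn, hb.1, zero_mul, norm_zero]
    exact mul_nonneg (by positivity) (Real.rpow_nonneg (Nat.cast_nonneg _) _)
  have hp := nr_pos hn
  have hx := mul_pos hc hp
  have hV : ‖Vr (c * nr n) s‖ ≤ K * (c * nr n) ^ (-(σ : ℝ)) := by
    rw [h3 _ hx, hK, ← integral_mul_const]
    refine norm_integral_le_of_norm_le (h1.norm.mul_const _)
      (Filter.Eventually.of_forall fun u => le_of_eq ?_)
    rw [norm_mul, Complex.norm_cpow_eq_rpow_re_of_pos hx]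
    simp
  rw [norm_mul]
  refine (mul_le_mul (hb.2 n) hV (norm_nonneg _) (by positivity)).trans ?_
  have e : Hb * nr n ^ B * (K * (c * nr n) ^ (-(σ : ℝ))) =
      Hb * K * c ^ (-(σ : ℝ)) * nr n ^ (B + -(σ : ℝ)) := by
    rw [Real.mul_rpow hc.le hp.le, Real.rpow_add hp]; ring
  rw [e]
  exact mul_le_mul_of_nonneg_left
    (Real.rpow_le_rpow_of_exponent_le (one_le_nr hn) (by linarith)) (by positivity)

end Crest.Agent.R17
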