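import Crest.Agent.PVc.R17.ThetaH

-- ▼ part PVc/R17/ThetaUnfAuxB
section

/-!
# Row 17, theta module B: coordinates on `ℂ`, box integrals, counting of primitive vectors
-/

set_option autoImplicit false

noncomputable section

namespace Crest.Agent.R17.UnfB

open scoped ComplexConjugate ENNReal
open MeasureTheory

/-- First coordinate in the basis `1, ω`. -/
def cs (z : ℂ) : ℝ := z.re + z.im / Real.sqrt 3

/-- Second coordinate in the basis `1, ω`. -/
def ct (z : ℂ) : ℝ := 2 * z.im / Real.sqrt 3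

theorem s3 : 0 < Real.sqrt 3 := Real.sqrt_pos.2 (by norm_num)

theorem one_le_s3 : 1 ≤ Real.sqrt 3 := Real.one_le_sqrt.2 (by norm_num)

theorem coord (z : ℂ) : z = cs z + ct z * omC := by
  have h3 := s3
  apply Complex.ext
  · simp only [cs, ct, omC, Complex.add_re, Complex.ofReal_re, Complex.re_ofReal_mul]
    ring
  · simp only [cs, ct, omC, Complex.add_im, Complex.ofReal_im, Complex.im_ofReal_mul]
    field_simp
    ring

theorem cs_add (z : ℂ) (a b : ℝ) : cs (z + (a + b * omC)) = cs z + a := by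
  have h3 := s3
  simp only [cs, omC, Complex.add_re, Complex.ofReal_re, Complex.re_ofReal_mul, Complex.add_im,
    Complex.ofReal_im, Complex.im_ofReal_mul]
  field_simp
  ring

theorem ct_add (z : ℂ) (a b : ℝ) : ct (z + (a + b * omC)) = ct z + b := by
  have h3 := s3
  simp only [ct, omC, Complex.add_im, Complex.ofReal_im, Complex.im_ofReal_mul]
  field_simp
  ring

theorem measurable_cs : Measurable cs := by unfold cs; fun_prop

theorem measurable_ct : Measurable ct := by unfold ct; fun_prop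

theorem mp : MeasurePreserving (fun z : ℂ => (z.im, cs z)) volume (volume.prod volume) := by
  have h1 : MeasurePreserving (fun p : ℝ × ℝ => (p.1, p.2 + p.1 / Real.sqrt 3))
      ((volume : Measure ℝ).prod volume) ((volume : Measure ℝ).prod volume) :=
    (MeasurePreserving.id volume).skew_product (g := fun y x : ℝ => x + y / Real.sqrt 3)
      (by fun_prop) (Filter.Eventually.of_forall fun y => map_add_right_eq_self _ _)
  exact h1.comp ((Measure.measurePreserving_swap (μ := (volume : Measure ℝ)) (ν := volume)).comp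
    Complex.volume_preserving_equiv_real_prod)

theorem integral_coord {F G : ℝ → ℂ} (hF : Integrable F) (hG : Integrable G) :
    Integrable (fun z : ℂ => F (cs z) * G (ct z)) ∧
      ∫ z : ℂ, F (cs z) * G (ct z) = (Real.sqrt 3 / 2 : ℝ) * ((∫ x, F x) * ∫ x, G x) := by
  have h3 := s3
  have hc : 2 / Real.sqrt 3 ≠ 0 := by positivity
  have hG' : Integrable fun y : ℝ => G (2 / Real.sqrt 3 * y) := hG.comp_mul_left' hc
  have hI := hG'.mul_prod hF
  have e : ∀ z : ℂ, F (cs z) * G (ct z) =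
      (fun p : ℝ × ℝ => G (2 / Real.sqrt 3 * p.1) * F p.2) (z.im, cs z) := by
    intro z
    simp only [ct]
    rw [mul_comm]
    congr 2
    ring
  simp only [e]
  refine ⟨mp.integrable_comp_of_integrable hI, ?_⟩
  have h1 := integral_map (μ := (volume : Measure ℂ)) mp.measurable.aemeasurable
    (f := fun p : ℝ × ℝ => G (2 / Real.sqrt 3 * p.1) * F p.2)
    (by rw [mp.map_eq]; exact hI.aestronglyMeasurable)
  rw [← h1, mp.map_eq, integral_prod_mul (fun y : ℝ => G (2 / Real.sqrt 3 * y)) F,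
    Measure.integral_comp_mul_left, inv_div, abs_of_pos (by positivity), Complex.real_smul]
  ring

/-- A truncated exponential. -/
def ex (N : ℕ) (k : ℤ) : ℝ → ℂ :=
  (Set.Ico (0 : ℝ) N).indicator fun s => Complex.exp (2 * Real.pi * Complex.I * k / N * s)

theorem integrable_ex (N : ℕ) (k : ℤ) : Integrable (ex N k) := by
  refine IntegrableOn.integrable_indicator ?_ measurableSet_Ico
  exact (Continuous.integrableOn_Icc (by fun_prop)).mono_set Set.Ico_subset_Icc_self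

theorem integral_ex {N : ℕ} (hN : N ≠ 0) (k : ℤ) :
    ∫ x, ex N k x = if k = 0 then (N : ℂ) else 0 := by
  rw [ex, integral_indicator measurableSet_Ico, integral_Ico_eq_integral_Ioc,
    ← intervalIntegral.integral_of_le (Nat.cast_nonneg N)]
  have hN' : (N : ℂ) ≠ 0 := by exact_mod_cast hN
  split_ifs with hk
  · simp [hk]
  · have hk' : (k : ℂ) ≠ 0 := by exact_mod_cast hk
    have hpi : (Real.pi : ℂ) ≠ 0 := by exact_mod_cast Real.pi_ne_zero
    rw [integral_exp_mul_complex (by simp [hk', hN', hpi])]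
    have : 2 * Real.pi * Complex.I * k / N * ((N : ℝ) : ℂ) = k * (2 * Real.pi * Complex.I) := by
      push_cast
      field_simp
    rw [this, Complex.exp_int_mul_two_pi_mul_I]
    simp

theorem eC_coord (m : O) (N : ℕ) (z : ℂ) : eC (ι m / N * z) =
    Complex.exp (2 * Real.pi * Complex.I * m.im / N * cs z) *
      Complex.exp (2 * Real.pi * Complex.I * (m.re - m.im : ℤ) / N * ct z) := by
  have h3 : ((Real.sqrt 3 : ℝ) : ℂ) ≠ 0 := by exact_mod_cast s3.ne'
  have h1 : (ι m * z).im = Real.sqrt 3 / 2 * (m.re * ct z + m.im * cs z - m.im * ct z) := by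
    rw [← pois_im, ← coord z]
    simp only [Complex.ofReal_intCast]
    rfl
  have h2 : ι m / N * z = ι m * z / ((N : ℝ) : ℂ) := by
    push_cast
    ring
  rw [← Complex.exp_add, h2, eC, Complex.div_ofReal_im, h1]
  congr 1
  push_cast
  field_simp
  ring

theorem mem_Ico_iff (N : ℕ) (s : ℝ) (j : ℤ) :
    s + j ∈ Set.Ico (0 : ℝ) N ↔ j ∈ Finset.Ico ⌈-s⌉ (⌈-s⌉ + N) := by
  rw [Set.mem_Ico, Finset.mem_Ico, Int.ceil_le, ← sub_lt_iff_lt_add, Int.lt_ceil]
  push_cast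
  constructor <;> rintro ⟨h1, h2⟩ <;> constructor <;> linarith

/-- Proportional primitive vectors differ by a unit. -/
theorem exists_unit {v v' : O × O} (h : IsCoprime v.1 v.2) (h' : IsCoprime v'.1 v'.2)
    (hd : v.1 * v'.2 - v'.1 * v.2 = 0) : ∃ k < 6, v' = ((-om) ^ k * v.1, (-om) ^ k * v.2) := by
  obtain ⟨a, b, hab⟩ := h
  obtain ⟨a', b', hab'⟩ := h'
  have h1 : v'.1 = (a * v'.1 + b * v'.2) * v.1 := by
    linear_combination (-v'.1) * hab - b * hd
  have h2 : v'.2 = (a * v'.1 + b * v'.2) * v.2 := by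
    linear_combination (-v'.2) * hab + a * hd
  have hu : IsUnit (a * v'.1 + b * v'.2) :=
    IsUnit.of_mul_eq_one (a' * v.1 + b' * v.2) (by linear_combination hab' - a' * h1 - b' * h2)
  obtain ⟨k, hk, e⟩ := isUnit_iff_pow.1 hu
  exact ⟨k, hk, Prod.ext (by rw [← e]; exact h1) (by rw [← e]; exact h2)⟩

theorem floor_mem {T x : ℝ} (hT : 0 ≤ T) (hx : |x| ≤ 1) :
    ⌊2 * T * x⌋ ∈ Finset.Icc (-⌈2 * T⌉) ⌈2 * T⌉ := by
  obtain ⟨h1, h2⟩ := abs_le.1 hx
  have h3 := Int.le_ceil (2 * T)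
  rw [Finset.mem_Icc, Int.le_floor]
  constructor
  · push_cast
    nlinarith
  · have h4 := Int.floor_le (2 * T * x)
    have : (⌊2 * T * x⌋ : ℝ) ≤ ⌈2 * T⌉ := by nlinarith
    exact_mod_cast this

theorem half (S : Finset (O × O)) (ζ : O × O → ℂ) {T : ℝ} (hT : 0 ≤ T) (h1 : ∀ v ∈ S, ‖ζ v‖ ≤ 1)
    (h2 : ∀ v ∈ S, ∀ v' ∈ S, T * ‖ζ v - ζ v'‖ < 1 → v.1 * v'.2 - v'.1 * v.2 = 0)
    (h3 : ∀ v ∈ S, IsCoprime v.1 v.2) : (S.card : ℝ) ≤ 192 * (1 + T ^ 2) := by
  classical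
  have h := Finset.card_le_mul_card_image_of_maps_to (s := S)
    (f := fun v => (⌊2 * T * (ζ v).re⌋, ⌊2 * T * (ζ v).im⌋))
    (t := Finset.Icc (-⌈2 * T⌉) ⌈2 * T⌉ ×ˢ Finset.Icc (-⌈2 * T⌉) ⌈2 * T⌉)
    (fun v hv => Finset.mem_product.2
      ⟨floor_mem hT ((Complex.abs_re_le_norm _).trans (h1 v hv)),
        floor_mem hT ((Complex.abs_im_le_norm _).trans (h1 v hv))⟩) 6 (by
      intro b _
      rcases (S.filter fun v => (⌊2 * T * (ζ v).re⌋, ⌊2 * T * (ζ v).im⌋) = b).eq_empty_or_nonempty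
        with h | ⟨v, hv⟩
      · simp [h]
      refine le_trans (Finset.card_le_card (t := (Finset.range 6).image
        fun k => ((-om) ^ k * v.1, (-om) ^ k * v.2)) fun v' hv' => ?_)
        (Finset.card_image_le.trans (by simp))
      obtain ⟨hv, e⟩ := Finset.mem_filter.1 hv
      obtain ⟨hv', e'⟩ := Finset.mem_filter.1 hv'
      obtain ⟨e1, e2⟩ := Prod.mk.inj (e.trans e'.symm)
      have a1 := Int.abs_sub_lt_one_of_floor_eq_floor e1
      have a2 := Int.abs_sub_lt_one_of_floor_eq_floor e2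
      rw [← mul_sub, abs_mul, abs_of_nonneg (by positivity)] at a1 a2
      have a3 := Complex.norm_le_abs_re_add_abs_im (ζ v - ζ v')
      rw [Complex.sub_re, Complex.sub_im] at a3
      obtain ⟨k, hk, ek⟩ := exists_unit (h3 v hv) (h3 v' hv') (h2 v hv v' hv' (by nlinarith))
      exact Finset.mem_image.2 ⟨k, Finset.mem_range.2 hk, ek.symm⟩)
  have h0 : 0 ≤ ⌈2 * T⌉ := Int.ceil_nonneg (by positivity)
  have hc : ((Finset.Icc (-⌈2 * T⌉) ⌈2 * T⌉).card : ℝ) = 2 * ⌈2 * T⌉ + 1 := by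
    have : ((Finset.Icc (-⌈2 * T⌉) ⌈2 * T⌉).card : ℤ) = 2 * ⌈2 * T⌉ + 1 := by
      rw [Int.card_Icc]
      omega
    exact_mod_cast this
  have h4 := Int.ceil_lt_add_one (2 * T)
  have h5 : (0 : ℝ) ≤ ⌈2 * T⌉ := by exact_mod_cast h0
  have h6 : (S.card : ℝ) ≤ 6 * ((2 * ⌈2 * T⌉ + 1) * (2 * ⌈2 * T⌉ + 1)) := by
    rw [← hc]
    rw [Finset.card_product] at h
    exact_mod_cast h
  have h7 : (2 * (⌈2 * T⌉ : ℝ) + 1) * (2 * ⌈2 * T⌉ + 1) ≤ (4 * T + 3) * (4 * T + 3) :=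
    mul_self_le_mul_self (by positivity) (by linarith)
  nlinarith [sq_nonneg (4 * T - 3)]

/-- One half of the count, in terms of the two coordinates of the vector. -/
theorem half' (S : Finset (O × O)) (u u' : O × O → ℂ) {T y : ℝ} (hT : 0 ≤ T) (hy : 0 < y)
    (h0 : ∀ v ∈ S, u' v ≠ 0) (h1 : ∀ v ∈ S, ‖u v‖ ≤ ‖u' v‖) (h2 : ∀ v ∈ S, ‖u' v‖ ^ 2 ≤ y * T)
    (hd : ∀ v v', ‖u v * u' v' - u' v * u v'‖ = y * ‖ι (v.1 * v'.2 - v'.1 * v.2)‖)
    (h3 : ∀ v ∈ S, IsCoprime v.1 v.2) : (S.card : ℝ) ≤ 192 * (1 + T ^ 2) := by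
  refine half S (fun v => u v / u' v) hT (fun v hv => ?_) (fun v hv v' hv' h => ?_) h3
  · rw [norm_div]
    exact div_le_one_of_le₀ (h1 v hv) (norm_nonneg _)
  · by_contra hne
    have a1 : 1 ≤ ‖ι (v.1 * v'.2 - v'.1 * v.2)‖ := by
      rw [norm_ι]
      exact Real.one_le_sqrt.2 (one_le_nr hne)
    have p := norm_pos_iff.2 (h0 v hv)
    have p' := norm_pos_iff.2 (h0 v' hv')
    rw [div_sub_div _ _ (h0 v hv) (h0 v' hv'), norm_div, hd, norm_mul, ← mul_div_assoc,
      div_lt_one (by positivity)] at h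
    have a2 : y * T ≤ T * (y * ‖ι (v.1 * v'.2 - v'.1 * v.2)‖) := by
      have := mul_le_mul_of_nonneg_left a1 (mul_nonneg hy.le hT)
      linarith
    nlinarith [h2 v hv, h2 v' hv', sq_nonneg (‖u' v‖ - ‖u' v'‖)]

theorem card_le (w : H) (T : ℝ) (S : Finset (O × O))
    (h : ∀ v ∈ S, IsCoprime v.1 v.2 ∧ Qo w v.1 v.2 ≤ T) : (S.card : ℝ) ≤ 384 * (1 + T ^ 2) := by
  classical
  rcases S.eq_empty_or_nonempty with rfl | ⟨v0, hv0⟩
  · simp only [Finset.card_empty, Nat.cast_zero]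
    positivity
  have hT : 0 ≤ T := (Qf_nonneg _ _ _).trans (h v0 hv0).2
  have hy0 := hy_pos w
  let u : O × O → ℂ := fun v => ι v.1 * w.1 + ι v.2
  let u' : O × O → ℂ := fun v => ι v.1 * (hy w : ℂ)
  have hQ : ∀ v : O × O, hy w * Qo w v.1 v.2 = ‖u v‖ ^ 2 + ‖u' v‖ ^ 2 := by
    intro v
    simp only [Qo, Qf, u, u', norm_mul, Complex.norm_real, Real.norm_eq_abs, mul_pow, sq_abs]
    field_simp
  have hpos : ∀ v ∈ S, 0 < ‖u v‖ ^ 2 + ‖u' v‖ ^ 2 := by
    intro v hv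
    rw [← hQ]
    refine mul_pos hy0 (Qf_pos w ?_)
    by_contra hn
    push Not at hn
    have e1 : v.1 = 0 := ι_injective (by simpa using hn.1)
    have e2 : v.2 = 0 := ι_injective (by simpa using hn.2)
    have := (h v hv).1
    rw [e1, e2] at this
    exact not_isCoprime_zero_zero this
  have hle : ∀ v ∈ S, ‖u v‖ ^ 2 + ‖u' v‖ ^ 2 ≤ hy w * T := fun v hv => by
    rw [← hQ]
    exact mul_le_mul_of_nonneg_left (h v hv).2 hy0.le
  have hd : ∀ v v', ‖u v * u' v' - u' v * u v'‖ = hy w * ‖ι (v.1 * v'.2 - v'.1 * v.2)‖ := by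
    intro v v'
    have : u v * u' v' - u' v * u v' = -((hy w : ℂ) * ι (v.1 * v'.2 - v'.1 * v.2)) := by
      simp only [u, u', map_sub, map_mul]
      ring
    rw [this, norm_neg, norm_mul, Complex.norm_real, Real.norm_eq_abs, abs_of_pos hy0]
  have a1 := half' (S.filter fun v => ‖u v‖ ≤ ‖u' v‖) u u' hT hy0 (fun v hv h0 => by
      obtain ⟨hv, h1⟩ := Finset.mem_filter.1 hv
      have := hpos v hv
      rw [h0, norm_zero] at h1 this
      rw [le_antisymm h1 (norm_nonneg _)] at this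
      simp at this)
    (fun v hv => (Finset.mem_filter.1 hv).2)
    (fun v hv => by nlinarith [hle v (Finset.mem_filter.1 hv).1, sq_nonneg ‖u v‖]) hd
    fun v hv => (h v (Finset.mem_filter.1 hv).1).1
  have a2 := half' (S.filter fun v => ¬‖u v‖ ≤ ‖u' v‖) u' u hT hy0 (fun v hv h0 => by
      obtain ⟨hv, h1⟩ := Finset.mem_filter.1 hv
      rw [h0, norm_zero] at h1
      exact h1 (norm_nonneg _))
    (fun v hv => (not_le.1 (Finset.mem_filter.1 hv).2).le)
    (fun v hv => by nlinarith [hle v (Finset.mem_filter.1 hv).1, sq_nonneg ‖u' v‖])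
    (fun v v' => by rw [← hd, norm_sub_rev])
    fun v hv => (h v (Finset.mem_filter.1 hv).1).1
  have := Finset.card_filter_add_card_filter_not (s := S) fun v => ‖u v‖ ≤ ‖u' v‖
  rw [← this]
  push_cast
  linarith

end Crest.Agent.R17.UnfB
end
end

-- ▼ part PVc/R17/ThetaUnf

/-!
# Row 17, theta module B: unfolding with weights (no fundamental domains), Parseval, multiplicity

A *weight* for a countable group `Γ` acting on `X` is `ϖ ≥ 0` with `∑_γ ϖ (γ x) = 1`;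
`∫_{Γ\X} f := ∫_X ϖ f`.
-/

set_option autoImplicit false

noncomputable section

namespace Crest.Agent.R17

open scoped ComplexConjugate ENNReal
open MeasureTheory

/-! ## part B1: abstract unfolding -/

/-- A weight function. -/
structure IsWt (Γ : Type*) {X : Type*} [Group Γ] [MulAction Γ X] [MeasurableSpace X]
    (ϖ : X → ℝ) : Prop where
  meas : Measurable ϖ
  nonneg : ∀ x, 0 ≤ ϖ x
  sum : ∀ x, HasSum (fun γ : Γ => ϖ (γ • x)) 1

section Abstract

variable {Γ X : Type*} [Group Γ] [Countable Γ] [MulAction Γ X] [MeasurableSpace X]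
  {μ : Measure X} {ϖ : X → ℝ}

omit [Countable Γ] in
theorem IsWt.le_one (h : IsWt Γ ϖ) (x : X) : ϖ x ≤ 1 := by
  simpa using le_hasSum (h.sum x) 1 fun γ _ => h.nonneg _

omit [Countable Γ] in
theorem IsWt.B1_sum_inv (h : IsWt Γ ϖ) (x : X) : HasSum (fun γ : Γ => ϖ (γ⁻¹ • x)) 1 :=
  (Equiv.inv Γ).hasSum_iff.2 (h.sum x)

omit [Countable Γ] in
theorem IsWt.B1_tsum_ofReal (h : IsWt Γ ϖ) (x : X) :
    ∑' γ : Γ, ENNReal.ofReal (ϖ (γ⁻¹ • x)) = 1 := by
  rw [← ENNReal.ofReal_tsum_of_nonneg (fun _ => h.nonneg _) (h.B1_sum_inv x).summable,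
    (h.B1_sum_inv x).tsum_eq, ENNReal.ofReal_one]

theorem IsWt.lintegral_unfold (h : IsWt Γ ϖ)
    (hμ : ∀ γ : Γ, MeasurePreserving (fun x : X => γ • x) μ μ) {φ : X → ℝ≥0∞} (hφ : Measurable φ) :
    ∫⁻ x, ENNReal.ofReal (ϖ x) * ∑' γ : Γ, φ (γ • x) ∂μ = ∫⁻ x, φ x ∂μ := by
  have hm : ∀ γ : Γ, Measurable fun y => ENNReal.ofReal (ϖ (γ⁻¹ • y)) * φ y := fun γ =>
    (h.meas.comp (hμ γ⁻¹).measurable).ennreal_ofReal.mul hφ
  simp only [← ENNReal.tsum_mul_left]
  have hm' : ∀ γ : Γ, Measurable fun x => ENNReal.ofReal (ϖ x) * φ (γ • x) := fun γ =>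
    h.meas.ennreal_ofReal.mul (hφ.comp (hμ γ).measurable)
  rw [lintegral_tsum fun γ => (hm' γ).aemeasurable]
  have e : ∀ γ : Γ, ∫⁻ x, ENNReal.ofReal (ϖ x) * φ (γ • x) ∂μ =
      ∫⁻ y, ENNReal.ofReal (ϖ (γ⁻¹ • y)) * φ y ∂μ := fun γ => by
    rw [← (hμ γ).lintegral_comp (hm γ)]
    simp only [inv_smul_smul]
  simp only [e]
  rw [← lintegral_tsum fun γ => (hm γ).aemeasurable]
  simp only [ENNReal.tsum_mul_right, h.B1_tsum_ofReal, one_mul]

theorem IsWt.integral_unfold (h : IsWt Γ ϖ)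
    (hμ : ∀ γ : Γ, MeasurePreserving (fun x : X => γ • x) μ μ) {φ : X → ℂ} (hφm : Measurable φ)
    (hφ : Integrable φ μ) :
    Integrable (fun x => (ϖ x : ℂ) * ∑' γ : Γ, φ (γ • x)) μ ∧
      ∫ x, (ϖ x : ℂ) * ∑' γ : Γ, φ (γ • x) ∂μ = ∫ x, φ x ∂μ := by
  have hϖ : Measurable fun x => (ϖ x : ℂ) := Complex.measurable_ofReal.comp h.meas
  have hn : ∀ x, ‖(ϖ x : ℂ)‖ₑ = ENNReal.ofReal (ϖ x) := fun x => by
    rw [← ofReal_norm, Complex.norm_real, Real.norm_of_nonneg (h.nonneg x)]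
  have hL := h.lintegral_unfold hμ hφm.enorm
  have hm : ∀ γ : Γ, Measurable fun x => (ϖ x : ℂ) * φ (γ • x) := fun γ =>
    hϖ.mul (hφm.comp (hμ γ).measurable)
  have hm' : ∀ γ : Γ, Measurable fun y => (ϖ (γ⁻¹ • y) : ℂ) * φ y := fun γ =>
    (hϖ.comp (hμ γ⁻¹).measurable).mul hφm
  refine ⟨⟨(hϖ.mul (Measurable.tsum fun γ => hφm.comp (hμ γ).measurable)).aestronglyMeasurable,
    lt_of_le_of_lt (lintegral_mono fun x => ?_) (hL.trans_lt hφ.2)⟩, ?_⟩
  · rw [enorm_mul, hn]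
    exact mul_le_mul_right enorm_tsum_le_tsum_enorm _
  simp only [← tsum_mul_left]
  rw [integral_tsum fun γ => (hm γ).aestronglyMeasurable]
  · have e : ∀ γ : Γ, ∫ x, (ϖ x : ℂ) * φ (γ • x) ∂μ = ∫ y, (ϖ (γ⁻¹ • y) : ℂ) * φ y ∂μ := fun γ => by
      conv_rhs => rw [← (hμ γ).map_eq,
        integral_map (hμ γ).measurable.aemeasurable (hm' γ).aestronglyMeasurable]
      simp only [inv_smul_smul]
    simp only [e]
    rw [← integral_tsum fun γ => (hm' γ).aestronglyMeasurable]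
    · refine integral_congr_ae (ae_of_all _ fun y => ?_)
      simp only [tsum_mul_right, ← Complex.ofReal_tsum, (h.B1_sum_inv y).tsum_eq,
        Complex.ofReal_one, one_mul]
    · rw [← lintegral_tsum fun γ => (hm' γ).enorm.aemeasurable]
      simp only [enorm_mul, hn, ENNReal.tsum_mul_right, h.B1_tsum_ofReal, one_mul]
      exact hφ.2.ne
  · rw [← lintegral_tsum fun γ => (hm γ).enorm.aemeasurable]
    simp only [enorm_mul, hn, ENNReal.tsum_mul_left]
    exact (hL.trans_lt hφ.2).ne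

/-- Comparison of a local norm with the global norm of an invariant function. -/
theorem IsWt.lintegral_le (h : IsWt Γ ϖ)
    (hμ : ∀ γ : Γ, MeasurePreserving (fun x : X => γ • x) μ μ) {φ F : X → ℝ≥0∞}
    (hφ : Measurable φ) (hF : Measurable F) (hinv : ∀ (γ : Γ) x, F (γ • x) = F x) {m : ℝ≥0∞}
    (hm : ∀ x, ∑' γ : Γ, φ (γ • x) ≤ m) :
    ∫⁻ x, φ x * F x ∂μ ≤ m * ∫⁻ x, ENNReal.ofReal (ϖ x) * F x ∂μ := by
  have h1 : Measurable fun x => φ x * F x := hφ.mul hF
  have h2 : Measurable fun x => ENNReal.ofReal (ϖ x) * F x := h.meas.ennreal_ofReal.mul hF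
  rw [← h.lintegral_unfold hμ h1, ← lintegral_const_mul _ h2]
  refine lintegral_mono fun x => ?_
  simp only [hinv, ENNReal.tsum_mul_right]
  calc ENNReal.ofReal (ϖ x) * ((∑' γ : Γ, φ (γ • x)) * F x)
      ≤ ENNReal.ofReal (ϖ x) * (m * F x) := by gcongr; exact hm x
    _ = _ := mul_left_comm _ _ _

/-- Pairing of an automorphic function with a Poincaré series. -/
theorem IsWt.inner_unfold (h : IsWt Γ ϖ)
    (hμ : ∀ γ : Γ, MeasurePreserving (fun x : X => γ • x) μ μ) (κ : Γ → ℂ)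
    {F φ : X → ℂ} (hF : Measurable F) (hφ : Measurable φ)
    (haut : ∀ (γ : Γ) x, F (γ • x) = κ γ * F x)
    (hint : Integrable (fun x => F x * conj (φ x)) μ)
    (hsum : ∀ x, Summable fun γ : Γ => conj (κ γ) * φ (γ • x)) :
    Integrable (fun x => (ϖ x : ℂ) * (F x * conj (∑' γ : Γ, conj (κ γ) * φ (γ • x)))) μ ∧
      ∫ x, (ϖ x : ℂ) * (F x * conj (∑' γ : Γ, conj (κ γ) * φ (γ • x))) ∂μ =
        ∫ x, F x * conj (φ x) ∂μ := by
  have e : ∀ x, F x * conj (∑' γ : Γ, conj (κ γ) * φ (γ • x)) =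
      ∑' γ : Γ, F (γ • x) * conj (φ (γ • x)) := fun x => by
    rw [Complex.conj_tsum, ← tsum_mul_left]
    refine tsum_congr fun γ => ?_
    rw [haut, map_mul, Complex.conj_conj]
    ring
  simp only [e]
  exact h.integral_unfold hμ (hF.mul (Complex.continuous_conj.measurable.comp hφ)) hint

end Abstract

/-- A weight for a subgroup `Δ` of `SL₂(O)`. -/
def wOf (Δ : Subgroup SL2) (w : H) : ℝ :=
  Real.exp (-(Qo w 1 0 + Qo w 0 1)) / ∑' δ : Δ, Real.exp (-(Qo (δ • w) 1 0 + Qo (δ • w) 0 1))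

theorem summable_exp_Qo (w : H) {Y : ℝ} (hY : 0 < Y) :
    Summable fun v : O × O => Real.exp (-Y * Qo w v.1 v.2) := by
  have hy0 := hy_pos w
  set K : ℝ := 2 + (1 + 2 * ‖w.1‖ ^ 2) / hy w ^ 2 with hK
  have hK0 : 0 < K := by positivity
  have hc : 0 < 2 * Real.pi / Real.sqrt 3 := by positivity
  have hs := summable_gw' (X := 2 * Real.pi / Real.sqrt 3 * (K * hy w) / Y) (by positivity)
  refine Summable.of_nonneg_of_le (fun _ => (Real.exp_pos _).le) (fun v => ?_)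
    (hs.mul_of_nonneg hs (fun _ => (gw_pos _).le) fun _ => (gw_pos _).le)
  unfold gw
  rw [← Real.exp_add, Real.exp_le_exp]
  have h1 : nr v.1 + nr v.2 ≤ K * hy w * Qo w v.1 v.2 := by
    rw [← norm_ι_sq, ← norm_ι_sq, Qo, Qf]
    set c := ι v.1
    set d := ι v.2
    have h2 : ‖d‖ ≤ ‖c * w.1 + d‖ + ‖c‖ * ‖w.1‖ := by
      rw [← norm_mul]
      simpa using norm_sub_le (c * w.1 + d) (c * w.1)
    have h3 : ‖d‖ ^ 2 ≤ 2 * ‖c * w.1 + d‖ ^ 2 + 2 * (‖c‖ ^ 2 * ‖w.1‖ ^ 2) := by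
      have := pow_le_pow_left₀ (norm_nonneg _) h2 2
      nlinarith [sq_nonneg (‖c * w.1 + d‖ - ‖c‖ * ‖w.1‖)]
    have h4 : K * hy w * ((‖c * w.1 + d‖ ^ 2 + ‖c‖ ^ 2 * hy w ^ 2) / hy w) =
        2 * ‖c * w.1 + d‖ ^ 2 + (1 + 2 * ‖w.1‖ ^ 2) * ‖c‖ ^ 2 + (2 * (‖c‖ ^ 2 * hy w ^ 2) +
          (1 + 2 * ‖w.1‖ ^ 2) / hy w ^ 2 * ‖c * w.1 + d‖ ^ 2) := by
      rw [hK]; field_simp; ring
    rw [h4]
    have h5 : 0 ≤ 2 * (‖c‖ ^ 2 * hy w ^ 2) +
        (1 + 2 * ‖w.1‖ ^ 2) / hy w ^ 2 * ‖c * w.1 + d‖ ^ 2 := by positivity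
    nlinarith
  have h6 : ∀ t : ℝ, -(2 * Real.pi / Real.sqrt 3) *
      (t / (2 * Real.pi / Real.sqrt 3 * (K * hy w) / Y)) = -Y * (t / (K * hy w)) := fun t => by
    field_simp
  rw [h6, h6, ← mul_add, ← add_div, neg_mul, neg_mul, neg_le_neg_iff]
  refine mul_le_mul_of_nonneg_left ?_ hY.le
  rw [div_le_iff₀ (by positivity), mul_comm]
  exact h1

theorem B1_summable (Δ : Subgroup SL2) (w : H) :
    Summable fun δ : Δ => Real.exp (-(Qo (δ • w) 1 0 + Qo (δ • w) 0 1)) := by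
  have hs := summable_exp_Qo w one_pos
  have h2 := hs.mul_of_nonneg hs (fun _ => (Real.exp_pos _).le) fun _ => (Real.exp_pos _).le
  have hi : Function.Injective fun δ : Δ =>
      ((((δ : SL2) 0 0, (δ : SL2) 0 1), ((δ : SL2) 1 0, (δ : SL2) 1 1)) : (O × O) × O × O) := by
    intro δ δ' h
    simp only [Prod.mk.injEq] at h
    refine Subtype.ext (Matrix.SpecialLinearGroup.ext _ _ fun i j => ?_)
    fin_cases i <;> fin_cases j
    exacts [h.1.1, h.1.2, h.2.1, h.2.2]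
  refine (h2.comp_injective hi).congr fun δ => ?_
  simp only [Function.comp, Subgroup.smul_def, Qo_smul, one_mul, zero_mul, add_zero, zero_add]
  rw [← Real.exp_add]
  congr 1
  ring

theorem isWt_wOf (Δ : Subgroup SL2) : IsWt Δ (wOf Δ) := by
  have hE : Continuous fun w : H => Real.exp (-(Qo w 1 0 + Qo w 0 1)) :=
    Real.continuous_exp.comp ((continuous_Qf _ _).add (continuous_Qf _ _)).neg
  refine ⟨hE.measurable.div (Measurable.tsum fun δ : Δ =>
    (hE.comp (continuous_smul_SL δ)).measurable), fun w =>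
    div_nonneg (Real.exp_pos _).le (tsum_nonneg fun _ => (Real.exp_pos _).le), fun w => ?_⟩
  have hpos := (B1_summable Δ w).tsum_pos (fun _ => (Real.exp_pos _).le) 1 (Real.exp_pos _)
  have h1 := (B1_summable Δ w).hasSum.div_const
    (∑' δ : Δ, Real.exp (-(Qo (δ • w) 1 0 + Qo (δ • w) 0 1)))
  rw [div_self hpos.ne'] at h1
  refine (funext fun γ => ?_ : _ = fun γ : Δ => wOf Δ (γ • w)) ▸ h1
  unfold wOf
  congr 1
  symm
  simp only [← mul_smul]
  exact (Equiv.mulRight γ).tsum_eq fun δ : Δ => Real.exp (-(Qo (δ • w) 1 0 + Qo (δ • w) 0 1))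

/-! ## part B2: the box weight on `ℂ` and Parseval for absolutely convergent series -/

open Classical in
/-- `N⁻²` times the indicator function of the parallelogram `{s + t ω : 0 ≤ s, t < N}`. -/
def wt (N : ℕ) (z : ℂ) : ℝ :=
  if z.re + z.im / Real.sqrt 3 ∈ Set.Ico (0 : ℝ) N ∧ 2 * z.im / Real.sqrt 3 ∈ Set.Ico (0 : ℝ) N
  then ((N : ℝ) ^ 2)⁻¹ else 0

/-- The covolume of `O`. -/
def V0 : ℝ := Real.sqrt 3 / 2

theorem V0_pos : 0 < V0 := by unfold V0; positivity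

theorem UnfB.wt_eq (N : ℕ) (z : ℂ) : wt N z =
    (Set.Ico (0 : ℝ) N ×ˢ Set.Ico (0 : ℝ) N).indicator (fun _ => ((N : ℝ) ^ 2)⁻¹)
      (UnfB.cs z, UnfB.ct z) := by
  classical
  rw [Set.indicator_apply]
  exact if_congr Iff.rfl rfl rfl

theorem measurable_wt (N : ℕ) : Measurable (wt N) := by
  have : wt N = _ := funext (UnfB.wt_eq N)
  rw [this]
  exact (measurable_const.indicator (measurableSet_Ico.prod measurableSet_Ico)).comp
    (UnfB.measurable_cs.prodMk UnfB.measurable_ct)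

theorem wt_nonneg (N : ℕ) (z : ℂ) : 0 ≤ wt N z := by
  unfold wt
  split_ifs <;> positivity

theorem UnfB.wt_mul_eC (N : ℕ) (m : O) (z : ℂ) : (wt N z : ℂ) * eC (ι m / N * z) =
    ((N : ℂ) ^ 2)⁻¹ * (UnfB.ex N m.im (UnfB.cs z) * UnfB.ex N (m.re - m.im) (UnfB.ct z)) := by
  rw [UnfB.wt_eq, UnfB.eC_coord, UnfB.ex, UnfB.ex]
  by_cases h1 : UnfB.cs z ∈ Set.Ico (0 : ℝ) N
  · by_cases h2 : UnfB.ct z ∈ Set.Ico (0 : ℝ) N
    · rw [Set.indicator_of_mem h1, Set.indicator_of_mem h2,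
        Set.indicator_of_mem (Set.mk_mem_prod h1 h2)]
      push_cast
      rfl
    · rw [Set.indicator_of_notMem h2, Set.indicator_of_notMem fun h => h2 h.2]
      simp
  · rw [Set.indicator_of_notMem h1, Set.indicator_of_notMem fun h => h1 h.1]
    simp

theorem UnfB.integrable_wtC (N : ℕ) : Integrable fun z => (wt N z : ℂ) := by
  have h := (UnfB.integral_coord (UnfB.integrable_ex N 0) (UnfB.integrable_ex N 0)).1.const_mul
    ((N : ℂ) ^ 2)⁻¹
  refine h.congr (Filter.Eventually.of_forall fun z => ?_)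
  have := UnfB.wt_mul_eC N 0 z
  simpa using this.symm

theorem integrable_wt (N : ℕ) : Integrable (wt N) := by
  simpa using (UnfB.integrable_wtC N).re

theorem hasSum_wt {N : ℕ} (hN : N ≠ 0) (z : ℂ) : HasSum (fun n : O => wt N (z + ι n)) 1 := by
  classical
  rw [← poisE.hasSum_iff]
  have e : ∀ p : ℤ × ℤ, wt N (z + ι (poisE p)) =
      if p ∈ Finset.Ico ⌈-UnfB.cs z⌉ (⌈-UnfB.cs z⌉ + N) ×ˢ
        Finset.Ico ⌈-UnfB.ct z⌉ (⌈-UnfB.ct z⌉ + N) then ((N : ℝ) ^ 2)⁻¹ else 0 := by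
    intro p
    rw [UnfB.wt_eq, ι_poisE, UnfB.cs_add, UnfB.ct_add, Set.indicator_apply]
    refine if_congr ?_ rfl rfl
    rw [Set.mem_prod, Finset.mem_product, UnfB.mem_Ico_iff, UnfB.mem_Ico_iff]
  have h := hasSum_sum_of_ne_finset_zero (f := fun p => wt N (z + ι (poisE p)))
    (L := SummationFilter.unconditional _)
    (s := Finset.Ico ⌈-UnfB.cs z⌉ (⌈-UnfB.cs z⌉ + N) ×ˢ Finset.Ico ⌈-UnfB.ct z⌉ (⌈-UnfB.ct z⌉ + N))
    fun p hp => by rw [e, if_neg hp]
  rw [Finset.sum_congr rfl fun p hp => (e p).trans (if_pos hp)] at h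
  have : (N : ℝ) ≠ 0 := by exact_mod_cast hN
  have h1 : (∑ _p ∈ Finset.Ico ⌈-UnfB.cs z⌉ (⌈-UnfB.cs z⌉ + N) ×ˢ
      Finset.Ico ⌈-UnfB.ct z⌉ (⌈-UnfB.ct z⌉ + N), ((N : ℝ) ^ 2)⁻¹) = 1 := by
    simp
    field_simp
  rw [h1] at h
  exact h

theorem UnfB.integral_wt_eC {N : ℕ} (hN : N ≠ 0) (m : O) :
    ∫ z, (wt N z : ℂ) * eC (ι m / N * z) = if m = 0 then (V0 : ℂ) else 0 := by
  simp only [UnfB.wt_mul_eC]
  rw [integral_const_mul, (UnfB.integral_coord (UnfB.integrable_ex _ _)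
    (UnfB.integrable_ex _ _)).2, UnfB.integral_ex hN, UnfB.integral_ex hN]
  have hN' : (N : ℂ) ≠ 0 := by exact_mod_cast hN
  by_cases hm : m = 0
  · simp only [hm, V0]
    simp
    field_simp
  · rw [if_neg hm]
    by_cases h1 : m.im = 0
    · rw [if_neg (c := m.re - m.im = 0)]
      · simp
      · intro h2
        apply hm
        ext
        · simpa [h1] using h2
        · simpa using h1
    · simp [h1]

theorem integral_wt {N : ℕ} (hN : N ≠ 0) : ∫ z, wt N z = V0 := by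
  have h := UnfB.integral_wt_eC hN 0
  simp only [map_zero, zero_div, zero_mul, eC_zero, mul_one, if_true] at h
  rw [integral_complex_ofReal] at h
  exact_mod_cast h

/-- Orthogonality. -/
theorem integral_wt_eC {N : ℕ} (hN : N ≠ 0) {ξ : ℂ} (hξ : ξ ≠ 0) {m : O} (hm : ι m = N * ξ) :
    ∫ z, (wt N z : ℂ) * eC (ξ * z) = 0 := by
  have hN' : (N : ℂ) ≠ 0 := by exact_mod_cast hN
  have h := UnfB.integral_wt_eC hN m
  rw [hm, mul_div_cancel_left₀ _ hN', if_neg] at h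
  · exact h
  · rintro rfl
    exact mul_ne_zero hN' hξ (by simpa using hm.symm)

/-- Every disc lies in a translated box. -/
theorem exists_wt_ge (R : ℝ) : ∃ (m : ℕ) (t : ℂ), m ≠ 0 ∧ ∀ z : ℂ, ‖z‖ ≤ R →
    wt (9 * m) (z - t) = (((9 * m : ℕ) : ℝ) ^ 2)⁻¹ := by
  refine ⟨⌈R⌉₊ + 1, -(((2 * R : ℝ) : ℂ) + (2 * R : ℝ) * omC), Nat.succ_ne_zero _, fun z hz => ?_⟩
  have h3 := UnfB.s3
  have hR : 0 ≤ R := (norm_nonneg _).trans hz
  have h1 := abs_le.1 ((Complex.abs_re_le_norm z).trans hz)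
  have h2 : |z.im / Real.sqrt 3| ≤ R := by
    rw [abs_div, abs_of_pos h3]
    exact (div_le_self (abs_nonneg _) UnfB.one_le_s3).trans ((Complex.abs_im_le_norm z).trans hz)
  have h2 := abs_le.1 h2
  have h4 := Nat.le_ceil R
  rw [UnfB.wt_eq, sub_neg_eq_add, UnfB.cs_add, UnfB.ct_add, Set.indicator_of_mem]
  simp only [Set.mem_prod, Set.mem_Ico, UnfB.cs, UnfB.ct, mul_div_assoc]
  push_cast
  refine ⟨⟨?_, ?_⟩, ?_, ?_⟩ <;> linarith

theorem continuous_eC : Continuous eC := by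
  unfold eC
  fun_prop

/-- Mean value of a trigonometric series, general index set. -/
theorem UnfB.integral_gen {κ : Type} [Countable κ] {N : ℕ} (hN : N ≠ 0) (t : ℂ) {ξ : κ → ℂ}
    [∀ r, Decidable (ξ r = 0)]
    (hξ : ∀ r, ∃ m : O, ι m = N * ξ r) {a : κ → ℂ} (ha : Summable fun r => ‖a r‖) :
    ∫ z, (wt N (z - t) : ℂ) * ∑' r, a r * eC (ξ r * z) = V0 * ∑' r, if ξ r = 0 then a r else 0 := by
  have hw := (UnfB.integrable_wtC N).comp_sub_right t
  have hi : ∀ r, Integrable fun z => (wt N (z - t) : ℂ) * (a r * eC (ξ r * z)) := fun r =>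
    hw.mul_bdd (c := ‖a r‖) (by have := continuous_eC; fun_prop)
      (Filter.Eventually.of_forall fun z => by rw [norm_mul, norm_eC, mul_one])
  have hs : Summable fun r => ∫ z, ‖(wt N (z - t) : ℂ) * (a r * eC (ξ r * z))‖ := by
    simp only [norm_mul, norm_eC, mul_one, integral_mul_const]
    exact ha.mul_left _
  simp only [← tsum_mul_left]
  rw [← integral_tsum_of_summable_integral_norm hi hs]
  refine tsum_congr fun r => ?_
  rw [← integral_add_right_eq_self _ t]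
  simp only [add_sub_cancel_right, mul_add, eC_add]
  have e : ∀ z, (wt N z : ℂ) * (a r * (eC (ξ r * z) * eC (ξ r * t))) =
      (wt N z : ℂ) * eC (ξ r * z) * (a r * eC (ξ r * t)) := fun z => by ring
  simp only [e]
  rw [integral_mul_const]
  split_ifs with h
  · simp only [h, zero_mul, eC_zero, mul_one]
    rw [integral_complex_ofReal, integral_wt hN]
  · obtain ⟨m, hm⟩ := hξ r
    rw [R17.integral_wt_eC hN h hm]
    simp

/-- Mean value of a trigonometric series with frequencies `ξ r`, `N ξ r ∈ O`, `ξ r = 0 ↔ r = 0`. -/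
theorem integral_wt_tsum {N : ℕ} (hN : N ≠ 0) {ξ : O → ℂ} (h0 : ∀ r, ξ r = 0 ↔ r = 0)
    (hξ : ∀ r, ∃ m : O, ι m = N * ξ r) {a : O → ℂ} (ha : Summable fun r => ‖a r‖) :
    ∫ z, (wt N z : ℂ) * ∑' r, a r * eC (ξ r * z) = V0 * a 0 := by
  classical
  have h := UnfB.integral_gen hN 0 hξ ha
  simp only [sub_zero] at h
  rw [h, tsum_eq_single 0 fun r hr => if_neg fun h => hr ((h0 r).1 h), if_pos ((h0 0).2 rfl)]

theorem UnfB.normSq_tsum {a : O → ℂ} (ha : Summable fun r => ‖a r‖) (z : ℂ) :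
    ∑' p : O × O, a p.1 * conj (a p.2) * eC ((ι p.1 - ι p.2) / 9 * z) =
      ((‖∑' r, a r * eC (ι r * z / 9)‖ ^ 2 : ℝ) : ℂ) := by
  have s1 : Summable fun r => ‖a r * eC (ι r * z / 9)‖ := by
    simpa only [norm_mul, norm_eC, mul_one] using ha
  have s2 : Summable fun r => ‖conj (a r * eC (ι r * z / 9))‖ := by
    simpa only [Complex.norm_conj] using s1
  rw [Complex.ofReal_pow, ← Complex.mul_conj', Complex.conj_tsum,
    tsum_mul_tsum_of_summable_norm s1 s2]
  refine tsum_congr fun p => ?_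
  rw [map_mul, ← eC_neg, mul_mul_mul_comm, ← eC_add]
  congr 2
  ring

open Classical in
theorem UnfB.tsum_diag (a : O → ℂ) :
    (∑' p : O × O, if (ι p.1 - ι p.2) / 9 = 0 then a p.1 * conj (a p.2) else 0) =
      ((∑' r, ‖a r‖ ^ 2 : ℝ) : ℂ) := by
  have hinj : Function.Injective fun r : O => (r, r) := fun r s h => (Prod.mk.inj h).1
  rw [← hinj.tsum_eq, Complex.ofReal_tsum]
  · refine tsum_congr fun r => ?_
    simp [Complex.mul_conj']
  · intro p hp
    by_contra hn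
    refine hp (if_neg fun h => hn ⟨p.1, Prod.ext rfl (ι_injective ?_)⟩)
    simpa [sub_eq_zero] using h

theorem UnfB.parseval_real {m : ℕ} (hm : m ≠ 0) (t : ℂ) {a : O → ℂ}
    (ha : Summable fun r => ‖a r‖) :
    ∫ z, wt (9 * m) (z - t) * ‖∑' r, a r * eC (ι r * z / 9)‖ ^ 2 = V0 * ∑' r, ‖a r‖ ^ 2 := by
  classical
  have ha' : Summable fun r => ‖conj (a r)‖ := by simpa only [Complex.norm_conj] using ha
  have hb : Summable fun p : O × O => ‖a p.1 * conj (a p.2)‖ :=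
    Summable.mul_norm (f := a) (g := fun r => conj (a r)) ha ha'
  have h := UnfB.integral_gen (κ := O × O) (N := 9 * m) (by omega) t
    (ξ := fun p => (ι p.1 - ι p.2) / 9) (a := fun p => a p.1 * conj (a p.2))
    (fun p => ⟨m * (p.1 - p.2), by
      rw [map_mul, map_natCast, map_sub]
      push_cast
      ring⟩) hb
  rw [UnfB.tsum_diag a] at h
  simp only [UnfB.normSq_tsum ha, ← Complex.ofReal_mul] at h
  rw [integral_complex_ofReal] at h
  exact_mod_cast h

/-- Parseval. -/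
theorem parseval {m : ℕ} (hm : m ≠ 0) (t : ℂ) {a : O → ℂ} (ha : Summable fun r => ‖a r‖) :
    ∫⁻ z, ENNReal.ofReal (wt (9 * m) (z - t)) * ‖∑' r, a r * eC (ι r * z / 9)‖ₑ ^ 2 =
      ENNReal.ofReal V0 * ∑' r, ‖a r‖ₑ ^ 2 := by
  have hc : Continuous fun z : ℂ => ∑' r, a r * eC (ι r * z / 9) :=
    continuous_tsum (fun r => by have := continuous_eC; fun_prop) ha
      fun r z => by rw [norm_mul, norm_eC, mul_one]
  have hi : Integrable fun z => wt (9 * m) (z - t) * ‖∑' r, a r * eC (ι r * z / 9)‖ ^ 2 := by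
    refine ((integrable_wt _).comp_sub_right t).mul_bdd (c := (∑' r, ‖a r‖) ^ 2)
      (hc.norm.pow 2).aestronglyMeasurable
      (Filter.Eventually.of_forall fun z => ?_)
    rw [norm_pow, norm_norm]
    refine pow_le_pow_left₀ (norm_nonneg _) (tsum_of_norm_bounded ha.hasSum fun r => ?_) 2
    rw [norm_mul, norm_eC, mul_one]
  have hs : Summable fun r => ‖a r‖ ^ 2 := by
    refine (ha.mul_left (∑' r, ‖a r‖)).of_nonneg_of_le (fun _ => by positivity) fun r => ?_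
    rw [sq]
    exact mul_le_mul_of_nonneg_right (ha.le_tsum r fun _ _ => norm_nonneg _) (norm_nonneg _)
  simp only [← ofReal_norm, ← ENNReal.ofReal_pow (norm_nonneg _),
    ← ENNReal.ofReal_mul (wt_nonneg _ _)]
  rw [← ofReal_integral_eq_lintegral_ofReal hi (Filter.Eventually.of_forall fun z =>
    mul_nonneg (wt_nonneg _ _) (by positivity)), UnfB.parseval_real hm t ha,
    ENNReal.ofReal_mul V0_pos.le, ENNReal.ofReal_tsum_of_nonneg (fun _ => by positivity) hs]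

/-- Uniqueness of the coefficients of a series with pairwise distinct rational frequencies
(grouped form: `a`, `a'` are indexed by the same lattice `q⁻¹ O`). -/
theorem coeff_unique {q : O} (hq : q ≠ 0) {a a' : O → ℂ} (ha : Summable fun r => ‖a r‖)
    (ha' : Summable fun r => ‖a' r‖)
    (h : ∀ z : ℂ, ∑' r, a r * eC (ι r * z / ι q) = ∑' r, a' r * eC (ι r * z / ι q)) :
    a = a' := by
  classical
  funext s
  have hq' : ι q ≠ 0 := fun h => hq (ι_injective (by simpa using h))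
  have key : ∀ {b : O → ℂ}, (Summable fun r => ‖b r‖) →
      ∫ z, (wt (nm q) (z - 0) : ℂ) * ((∑' r, b r * eC (ι r * z / ι q)) * eC (-(ι s * z / ι q))) =
        V0 * b s := by
    intro b hb
    have h1 := UnfB.integral_gen (N := nm q) (fun h => hq (nm_eq_zero.1 h)) 0
      (ξ := fun r => (ι r - ι s) / ι q) (fun r => ⟨(r - s) * cj q, by
        have := congrArg ι (mul_cj q)
        rw [map_mul, map_natCast] at this
        rw [← this, map_mul, map_sub]
        field_simp⟩) hb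
    rw [tsum_eq_single s fun r hr => if_neg fun h => hr (ι_injective (by
      simpa [hq', sub_eq_zero] using h)), if_pos (by simp)] at h1
    rw [← h1]
    congr 1
    funext z
    rw [← tsum_mul_right]
    congr 1
    refine tsum_congr fun r => ?_
    rw [mul_assoc, ← eC_add]
    congr 2
    ring
  have h1 := key ha
  simp only [h] at h1
  have hV : (V0 : ℂ) ≠ 0 := by exact_mod_cast V0_pos.ne'
  exact mul_left_cancel₀ hV (h1.symm.trans (key ha'))

/-! ## part B3: the multiplicity lemma -/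


/-- Multiplicity with which a strip at the cusp `σ ∞` covers `Δ \ H`. -/
theorem tsum_strip_le : ∃ C : ℝ, 0 < C ∧ ∀ (Δ : Subgroup SL2) (σ : SL2) (N : ℕ) (t : ℂ) (a : ℝ)
    (w : H), N ≠ 0 → 0 < a →
    ∑' δ : Δ, (if a < hy (σ⁻¹ • δ • w) then ENNReal.ofReal (wt N ((σ⁻¹ • δ • w).1 - t)) else 0)
      ≤ ENNReal.ofReal (C * (1 + (a ^ 2)⁻¹)) := by
  classical
  refine ⟨384, by norm_num, fun Δ σ N t a w hN ha => ?_⟩
  let f : SL2 → ℝ≥0∞ := fun γ =>
    if a < hy (γ • w) then ENNReal.ofReal (wt N ((γ • w).1 - t)) else 0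
  have h1 : Function.Injective fun δ : Δ => σ⁻¹ * (δ : SL2) := fun δ δ' h =>
    Subtype.ext (mul_left_cancel h)
  have h2 := ENNReal.tsum_comp_le_tsum_of_injective h1 f
  simp only [f, mul_smul] at h2
  refine le_trans h2 ?_
  choose γ hγ using fun v : {v : O × O // IsCoprime v.1 v.2} => exists_SL_row v.2
  have h3 : Function.Surjective fun p : {v : O × O // IsCoprime v.1 v.2} × O => nT p.2 * γ p.1 := by
    intro τ
    have hc : IsCoprime (τ 1 0) (τ 1 1) :=
      ⟨-τ 0 1, τ 0 0, by linear_combination τ.det_eq⟩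
    have h := hγ ⟨(τ 1 0, τ 1 1), hc⟩
    obtain ⟨n, hn⟩ := exists_nT_mul (σ := τ) h.1.symm h.2.symm
    exact ⟨(_, n), hn.symm⟩
  refine (ENNReal.tsum_le_tsum_comp_of_surjective h3 f).trans ?_
  rw [ENNReal.tsum_prod']
  have h4 : ∀ v, ∑' n : O, f (nT n * γ v) ≤ if Qo w v.1.1 v.1.2 ≤ a⁻¹ then 1 else 0 := by
    intro v
    have e : ∀ n, hy ((nT n * γ v) • w) = (Qo w v.1.1 v.1.2)⁻¹ := by
      intro n
      rw [mul_smul, nT_smul, ← (hγ v).1, ← (hγ v).2, ← hy_smul]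
      rfl
    simp only [f, e]
    by_cases h : a < (Qo w v.1.1 v.1.2)⁻¹
    · rw [if_pos (le_inv_of_le_inv₀ ha h.le)]
      simp only [h, if_true, mul_smul, nT_smul]
      have hs := hasSum_wt hN ((γ v • w).1 - t)
      simp only [sub_add_eq_add_sub] at hs
      rw [← ENNReal.ofReal_tsum_of_nonneg (fun _ => wt_nonneg _ _) hs.summable, hs.tsum_eq]
      simp
    · simp [h]
  refine (ENNReal.tsum_le_tsum h4).trans (ENNReal.summable.tsum_le_of_sum_le fun S => ?_)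
  rw [Finset.sum_boole, ← ENNReal.ofReal_natCast, ← inv_pow]
  refine ENNReal.ofReal_le_ofReal ?_
  rw [← Finset.card_map (Function.Embedding.subtype _)]
  refine UnfB.card_le w _ _ fun v hv => ?_
  obtain ⟨u, hu, rfl⟩ := Finset.mem_map.1 hv
  exact ⟨u.2, (Finset.mem_filter.1 hu).2⟩

end Crest.Agent.R17
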