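import Crest.Agent.PVc.R17.ThetaH
import Crest.Agent.PVc.R17.Poisson
import Crest.Agent.PVc.R17.ThetaUnf

-- ▼ part PVc/R17/ThetaKubAuxC1
section

/-!
# Row 17, theta module C: auxiliary lemmas for part C1 of `ThetaKub.lean`
-/

set_option autoImplicit false

noncomputable section

namespace Crest.Agent.R17

open scoped ComplexConjugate

namespace KubC1

theorem one_10 : (1 : SL2) 1 0 = 0 := rfl
theorem one_11 : (1 : SL2) 1 1 = 1 := rfl

theorem mul_apply (σ τ : SL2) (i j : Fin 2) : (σ * τ) i j = σ i 0 * τ 0 j + σ i 1 * τ 1 j := by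
  rw [Matrix.SpecialLinearGroup.coe_mul, Matrix.mul_apply, Fin.sum_univ_two]

theorem inv_10 (σ : SL2) : σ⁻¹ 1 0 = -σ 1 0 := by
  rw [Matrix.SpecialLinearGroup.coe_inv, Matrix.adjugate_fin_two]; rfl
theorem inv_11 (σ : SL2) : σ⁻¹ 1 1 = σ 0 0 := by
  rw [Matrix.SpecialLinearGroup.coe_inv, Matrix.adjugate_fin_two]; rfl

theorem primary_add {n k : O} (hn : Primary n) (hk : (9 : O) ∣ k) : Primary (n + k) := by
  obtain ⟨a, ha⟩ := hn
  obtain ⟨b, hb⟩ := hk
  exact ⟨a + 3 * b, by linear_combination ha + hb⟩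

theorem primary_congr {n n' : O} (hn : Primary n) (h : (9 : O) ∣ n - n') : Primary n' := by
  have := primary_add hn h.neg_right
  rwa [show n + -(n - n') = n' by ring] at this

theorem primary_00 {γ : SL2} (h1 : (9 : O) ∣ γ 1 0) (h2 : Primary (γ 1 1)) : Primary (γ 0 0) := by
  refine h2.of_mul ?_
  have h := primary_add primary_one (h1.mul_left (γ 0 1))
  rwa [show 1 + γ 0 1 * γ 1 0 = γ 1 1 * γ 0 0 by linear_combination -γ.det_eq] at h

theorem lam_dvd_nine : lam ∣ (9 : O) := ⟨lam ^ 3, by linear_combination (3 - lam ^ 2) * lam_sq⟩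

theorem lam_dvd_congr {x y : O} (h : (9 : O) ∣ x - y) : lam ∣ x ↔ lam ∣ y :=
  dvd_iff_dvd_of_dvd_sub (lam_dvd_nine.trans h)

theorem not_lam_dvd {α β : O} (h : IsCoprime α β) (hβ : lam ∣ β) : ¬ lam ∣ α := fun hα =>
  prime_lam.not_isUnit (h.isUnit_of_dvd' hα hβ)

/-- The symbol of a unit only depends on the denominator modulo `9`. -/
theorem cub_unit_congr {u n n' : O} (hu : IsUnit u) (hn : Primary n) (hn' : Primary n')
    (h9 : (9 : O) ∣ n - n') : cub n u = cub n' u := by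
  obtain ⟨k, -, rfl⟩ := isUnit_iff_pow.1 hu
  rw [cub_pow_right, cub_pow_right, ← neg_one_mul om, cub_mul_right, cub_mul_right, cub_neg_one,
    cub_neg_one, cub_om_congr hn hn' h9]

theorem cub_pow_three' {n a : O} (hn : ¬ lam ∣ n) (h : IsCoprime n a) : cub n a ^ 3 = 1 := by
  obtain ⟨u, hu, hun⟩ := exists_unit_primary hn
  rw [← cub_unit_mul_left hu]
  exact cub_pow_three hun ((isCoprime_mul_unit_left_left hu _ _).2 h)

theorem norm_cub' {n a : O} (hn : ¬ lam ∣ n) (h : IsCoprime n a) : ‖cub n a‖ = 1 := by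
  obtain ⟨u, hu, hun⟩ := exists_unit_primary hn
  rw [← cub_unit_mul_left hu]
  exact norm_cub hun ((isCoprime_mul_unit_left_left hu _ _).2 h)

theorem cub_congr' {n a b : O} (h : n ∣ a - b) : cub n a = cub n b :=
  cub_congr ((rad_dvd n).trans h)

theorem eq_conj_of_mul {x y : ℂ} (hx : ‖x‖ = 1) (h : x * y = 1) : y = conj x := by
  have h1 : conj x * x = 1 := by
    rw [mul_comm, Complex.mul_conj, Complex.normSq_eq_norm_sq, hx]; norm_num
  linear_combination (-y) * h1 + conj x * h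

end KubC1

end Crest.Agent.R17
end
end

-- ▼ part PVc/R17/ThetaKub
section

/-!
# Row 17, theta module C: the Kubota symbol

`Gam = {(a b; c d) : 9 ∣ c, d ≡ 1 (3)}`, `kap γ = (c / d)₃` is a character of `Gam`.
-/

set_option autoImplicit false

noncomputable section

namespace Crest.Agent.R17

open scoped ComplexConjugate

/-- The group. -/
def Gam : Subgroup SL2 where
  carrier := {γ | (9 : O) ∣ γ 1 0 ∧ Primary (γ 1 1)}
  one_mem' := by
    refine ⟨?_, ?_⟩
    · rw [KubC1.one_10]; exact dvd_zero _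
    · rw [KubC1.one_11]; exact primary_one
  mul_mem' := by
    rintro γ γ' ⟨h1, h2⟩ ⟨h3, h4⟩
    refine ⟨?_, ?_⟩
    · rw [KubC1.mul_apply]; exact dvd_add (h1.mul_right _) (h3.mul_left _)
    · rw [KubC1.mul_apply, add_comm]; exact KubC1.primary_add (h2.mul h4) (h1.mul_right _)
  inv_mem' := by
    rintro γ ⟨h1, h2⟩
    refine ⟨?_, ?_⟩
    · rw [KubC1.inv_10]; exact h1.neg_right
    · rw [KubC1.inv_11]; exact KubC1.primary_00 h1 h2

theorem mem_Gam {γ : SL2} : γ ∈ Gam ↔ (9 : O) ∣ γ 1 0 ∧ Primary (γ 1 1) := Iff.rfl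

/-- The (conjugate) Kubota symbol `(c / d)₃`. -/
def kap (γ : SL2) : ℂ := cub (γ 1 1) (γ 1 0)

/-- Congruence of matrices. -/
def Cong (N : O) (σ τ : SL2) : Prop := ∀ i j, N ∣ σ i j - τ i j

open Classical in
/-- The factor attached to a first column. -/
def Jc (α β : O) : ℂ := if lam ∣ β then conj (cub α β) else conj (cub β α)

open Classical in
/-- `conj κ` as a function of the second row (zero on the rows which do not occur in `Gam`). -/
def xi (c d : O) : ℂ := if (9 : O) ∣ c ∧ Primary d then conj (cub d c) else 0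

/-- The same function seen from the cusp `σ ∞`: `xis σ v = xi (v σ⁻¹)`. -/
def xis (σ : SL2) (c d : O) : ℂ := xi (c * σ 1 1 - d * σ 1 0) (d * σ 0 0 - c * σ 0 1)

/-- Admissible coefficient functions. -/
def XiOK (ξ : O → O → ℂ) : Prop :=
  (∀ c d, ‖ξ c d‖ ≤ 1) ∧ (∀ c d, ¬ IsCoprime c d → ξ c d = 0) ∧
    ∀ c d t, ξ c (d + 9 * c * t) = ξ c d

/-! ## part C1 -/

/-- L0: periodicity in the denominator. -/
theorem cub_congr9 {c n n' : O} (hc : c ≠ 0) (hn : Primary n) (hn' : Primary n')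
    (h9 : (9 : O) ∣ n - n') (h : rad c ∣ n - n') : cub n c = cub n' c := by
  obtain ⟨u, j, hu, e⟩ := exists_eq_unit_lam_primary hc
  have h1 : Primary (∏ p ∈ pf c, p ^ vp p c) := BasicB.primary_prod_pow (fun _ => BasicB.pf_sub) _
  have h2 : rad (∏ p ∈ pf c, p ^ vp p c) ∣ rad c := by
    refine Finset.prod_dvd_prod_of_subset _ _ _ fun p hp => ?_
    obtain ⟨a1, a2, a3⟩ := BasicB.of_mem_pf hp
    exact (mem_pf hc).2 ⟨a1, a2, a3.trans (BasicB.prod_dvd hc)⟩
  generalize ∏ p ∈ pf c, p ^ vp p c = c1 at e h1 h2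
  have h3 : cub n c1 = cub n' c1 := by
    rw [cub_recip hn h1, cub_recip hn' h1]; exact cub_congr (h2.trans h)
  rw [e, cub_mul_right, cub_mul_right, cub_mul_right, cub_mul_right, cub_pow_right, cub_pow_right,
    KubC1.cub_unit_congr hu hn hn' h9, cub_lam_congr hn hn' h9, h3]
/-- L0': the same with `c ∣ n - n'` (also for `c = 0`). -/
theorem cub_congr9' {c n n' : O} (hn : Primary n) (hn' : Primary n')
    (h9 : (9 : O) ∣ n - n') (h : c ∣ n - n') : cub n c = cub n' c := by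
  rcases eq_or_ne c 0 with rfl | hc
  · rw [sub_eq_zero.1 (zero_dvd_iff.1 h)]
  · exact cub_congr9 hc hn hn' h9 ((rad_dvd c).trans h)
/-- L1: stable range. -/
theorem exists_add_mul_isCoprime {a b c : O} (h : IsCoprime a b) (hc : c ≠ 0) :
    ∃ t, IsCoprime (a + b * t) c := by
  classical
  refine ⟨((UniqueFactorizationMonoid.factors c).filter (fun q => ¬ q ∣ a)).prod, ?_⟩
  refine isCoprime_of_prime_dvd (fun h0 => hc h0.2) fun z hz hz1 hz2 => ?_
  by_cases hza : z ∣ a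
  · rcases hz.dvd_or_dvd ((dvd_add_right hza).1 hz1) with hb | ht
    · exact hz.not_isUnit (h.isUnit_of_dvd' hza hb)
    · obtain ⟨q, hq, hzq⟩ := hz.exists_mem_multiset_dvd ht
      obtain ⟨hq1, hq2⟩ := Multiset.mem_filter.1 hq
      exact hq2 ((hz.associated_of_dvd (UniqueFactorizationMonoid.prime_of_factor q hq1)
        hzq).symm.dvd.trans hza)
  · obtain ⟨q, hq, hzq⟩ := UniqueFactorizationMonoid.exists_mem_factors_of_dvd hc hz.irreducible hz2
    have h1 : q ∣ ((UniqueFactorizationMonoid.factors c).filter (fun q => ¬ q ∣ a)).prod :=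
      Multiset.dvd_prod (Multiset.mem_filter.2 ⟨hq, fun hqa => hza (hzq.dvd.trans hqa)⟩)
    exact hza ((dvd_add_left ((hzq.dvd.trans h1).mul_left b)).1 hz1)
/-- The master lemma when `d'` is coprime to `c`. -/
theorem KubC1.master_aux {c d a' b' c' d' : O} (hdet : a' * d' - b' * c' = 1) (hd : Primary d)
    (hd' : Primary d') (hcd : IsCoprime d' c) (h9 : (9 : O) ∣ c * b') :
    cub (c * b' + d * d') (c * a' + d * c') = cub d c * cub d' c' := by
  have hp : Primary (c * b' + d * d') := by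
    rw [add_comm]; exact KubC1.primary_add (hd.mul hd') h9
  have e1 : cub (c * b' + d * d') (c * a' + d * c') * cub (c * b' + d * d') d'
      = cub (c * b' + d * d') c := by
    rw [← cub_mul_right]
    exact KubC1.cub_congr' ⟨c', by linear_combination c * hdet⟩
  have e2 : cub (c * b' + d * d') c = cub d c * cub d' c := by
    rw [← cub_mul_left hd.ne_zero hd'.ne_zero]
    exact cub_congr9' hp (hd.mul hd') (by rwa [add_sub_cancel_right]) ⟨b', by ring⟩
  have e3 : cub (c * b' + d * d') d' = cub d' c * cub d' b' := by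
    rw [cub_recip hp hd', ← cub_mul_right]
    exact KubC1.cub_congr' ⟨d, by ring⟩
  have e4 : cub d' b' * cub d' c' = 1 := by
    rw [← cub_mul_right, ← cub_neg_one d']
    exact KubC1.cub_congr' ⟨a', by linear_combination -hdet⟩
  have e5 : cub d' c ≠ 0 := fun h0 => (cub_eq_zero_iff hd').1 h0 hcd
  rw [e2, e3] at e1
  apply mul_left_cancel₀ e5
  linear_combination cub d' c' * e1
    - cub (c * b' + d * d') (c * a' + d * c') * cub d' c * e4
/-- **Master lemma**: the row `(c, d)` times the matrix `(a' b'; c' d')`. -/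
theorem cub_master {c d a' b' c' d' : O} (hdet : a' * d' - b' * c' = 1) (hd : Primary d)
    (hd' : Primary d') (hcd : IsCoprime c d) (h9 : (9 : O) ∣ c * b') :
    cub (c * b' + d * d') (c * a' + d * c') = cub d c * cub d' c' := by
  rcases eq_or_ne c 0 with rfl | hc
  · obtain rfl : d = 1 := hd.eq_one_of_isUnit (isCoprime_zero_left.1 hcd)
    simp
  have h1 : IsCoprime d' (9 * c') := by
    refine IsCoprime.mul_right ?_ ⟨a', -b', by linear_combination hdet⟩
    rw [show (9 : O) = 3 * 3 by norm_num]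
    exact hd'.isCoprime_three.mul_right hd'.isCoprime_three
  obtain ⟨t, ht⟩ := exists_add_mul_isCoprime h1 hc
  have hp : Primary (c * b' + d * d') := by
    rw [add_comm]; exact KubC1.primary_add (hd.mul hd') h9
  have hd1 : Primary (d' + 9 * c' * t) := KubC1.primary_add hd' ⟨c' * t, by ring⟩
  have h9' : (9 : O) ∣ c * (b' + 9 * a' * t) := by
    rw [mul_add]; exact dvd_add h9 ⟨c * a' * t, by ring⟩
  have hp1 : Primary (c * (b' + 9 * a' * t) + d * (d' + 9 * c' * t)) := by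
    rw [add_comm]; exact KubC1.primary_add (hd.mul hd1) h9'
  have key := KubC1.master_aux (a' := a') (b' := b' + 9 * a' * t) (c' := c')
    (by linear_combination hdet) hd hd1 ht h9'
  rw [cub_congr9' hp1 hp ⟨t * (c * a' + d * c'), by ring⟩ ⟨9 * t, by ring⟩,
    cub_congr9' hd1 hd' ⟨c' * t, by ring⟩ ⟨9 * t, by ring⟩] at key
  exact key
theorem KubC1.isCoprime_row (γ : SL2) : IsCoprime (γ 1 0) (γ 1 1) :=
  ⟨-γ 0 1, γ 0 0, by linear_combination γ.det_eq⟩
theorem KubC1.isCoprime_col (γ : SL2) : IsCoprime (γ 0 0) (γ 1 0) :=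
  ⟨γ 1 1, -γ 0 1, by linear_combination γ.det_eq⟩
theorem kap_mul {γ γ' : SL2} (h : γ ∈ Gam) (h' : γ' ∈ Gam) : kap (γ * γ') = kap γ * kap γ' := by
  unfold kap
  rw [KubC1.mul_apply, KubC1.mul_apply]
  exact cub_master γ'.det_eq h.2 h'.2 (KubC1.isCoprime_row γ) (h.1.mul_right _)
theorem kap_one : kap 1 = 1 := by
  unfold kap
  rw [KubC1.one_11, cub_one_left]
theorem norm_kap {γ : SL2} (h : γ ∈ Gam) : ‖kap γ‖ = 1 :=
  norm_cub h.2 (KubC1.isCoprime_row γ).symm
theorem kap_pow_three {γ : SL2} (h : γ ∈ Gam) : kap γ ^ 3 = 1 :=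
  cub_pow_three h.2 (KubC1.isCoprime_row γ).symm
theorem kap_inv {γ : SL2} (h : γ ∈ Gam) : kap γ⁻¹ = conj (kap γ) :=
  KubC1.eq_conj_of_mul (norm_kap h) (by rw [← kap_mul h (Gam.inv_mem h), mul_inv_cancel, kap_one])
theorem kap_eq_a {γ : SL2} (h : γ ∈ Gam) : kap γ = conj (cub (γ 0 0) (γ 1 0)) := by
  have h1 : kap γ⁻¹ = cub (γ 0 0) (γ 1 0) := by
    unfold kap
    rw [KubC1.inv_11, KubC1.inv_10, ← neg_one_mul (γ 1 0), cub_mul_right, cub_neg_one, one_mul]
  rw [← h1, kap_inv h, Complex.conj_conj]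
theorem kap_eq_b {γ : SL2} (h : γ ∈ Gam) : kap γ = conj (cub (γ 1 1) (γ 0 1)) := by
  have h1 : kap γ * cub (γ 1 1) (γ 0 1) = 1 := by
    unfold kap
    rw [← cub_mul_right, ← cub_neg_one (γ 1 1)]
    exact KubC1.cub_congr' ⟨γ 0 0, by linear_combination -γ.det_eq⟩
  rw [KubC1.eq_conj_of_mul (norm_kap h) h1, Complex.conj_conj]
theorem nT_mem (t : O) : nT t ∈ Gam := ⟨dvd_zero _, primary_one⟩
theorem kap_nT (t : O) : kap (nT t) = 1 := cub_one_left _
theorem KubC1.cong_one {σ τ : SL2} (h : Cong 9 σ τ) : Cong 9 (σ * τ⁻¹) 1 := by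
  intro i j
  rw [← mul_inv_cancel τ, KubC1.mul_apply, KubC1.mul_apply]
  have := dvd_add ((h i 0).mul_right (τ⁻¹ 0 j)) ((h i 1).mul_right (τ⁻¹ 1 j))
  convert this using 1
  ring
theorem Cong.mul_inv_mem {σ τ : SL2} (h : Cong 9 σ τ) : σ * τ⁻¹ ∈ Gam := by
  have h1 := KubC1.cong_one h 1 0
  have h2 := KubC1.cong_one h 1 1
  rw [KubC1.one_10, sub_zero] at h1
  rw [KubC1.one_11] at h2
  exact ⟨h1, Dvd.dvd.trans ⟨3, by norm_num⟩ h2⟩
theorem norm_Jc {α β : O} (h : IsCoprime α β) : ‖Jc α β‖ = 1 := by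
  unfold Jc
  split_ifs with hβ
  · rw [Complex.norm_conj]; exact KubC1.norm_cub' (KubC1.not_lam_dvd h hβ) h
  · rw [Complex.norm_conj]; exact KubC1.norm_cub' hβ h.symm
/-- The master lemma for a row whose second entry is only prime to `λ`. -/
theorem KubC1.master_unit {c d a' b' c' d' : O} (hdet : a' * d' - b' * c' = 1) (hd : ¬ lam ∣ d)
    (hd' : (9 : O) ∣ d' - 1) (hcd : IsCoprime c d) (h9 : (9 : O) ∣ b') :
    cub (c * b' + d * d') (c * a' + d * c') = cub d c * cub d' c' := by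
  obtain ⟨u, hu, hud⟩ := exists_unit_primary hd
  have hp' : Primary d' := Dvd.dvd.trans ⟨3, by norm_num⟩ hd'
  have key := cub_master (c := u * c) hdet hud hp' ((isCoprime_mul_unit_left hu _ _).2 hcd)
    (h9.mul_left _)
  have h1 : (9 : O) ∣ u * d - u * (c * b' + d * d') := by
    have := dvd_sub (hd'.mul_left (-(u * d))) (h9.mul_left (u * c))
    convert this using 1
    ring
  have hp : Primary (u * (c * b' + d * d')) := KubC1.primary_congr hud h1
  have h2 : cub (u * d) u ≠ 0 := fun h0 =>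
    (cub_eq_zero_iff hud).1 h0
      (by simpa using (isCoprime_mul_unit_left_right hu (u * d) 1).2 isCoprime_one_right)
  rw [show u * c * b' + u * d * d' = u * (c * b' + d * d') by ring,
    show u * c * a' + u * d * c' = u * (c * a' + d * c') by ring, cub_mul_right, cub_mul_right,
    ← KubC1.cub_unit_congr hu hud hp h1, mul_assoc] at key
  have := mul_left_cancel₀ h2 key
  rwa [cub_unit_mul_left hu, cub_unit_mul_left hu] at this
/-- The symbol of `σ τ⁻¹ ∈ Γ(9)` in terms of the first columns. -/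
theorem kap_mul_Jc {σ τ : SL2} (h : Cong 9 σ τ) :
    kap (σ * τ⁻¹) * Jc (τ 0 0) (τ 1 0) = Jc (σ 0 0) (σ 1 0) := by
  have hm := h.mul_inv_mem
  have hc := KubC1.cong_one h
  have hl : lam ∣ σ 1 0 ↔ lam ∣ τ 1 0 := KubC1.lam_dvd_congr (h 1 0)
  have e : σ = σ * τ⁻¹ * τ := by rw [inv_mul_cancel_right]
  generalize σ * τ⁻¹ = γ at hm hc e
  have e0 : σ 0 0 = γ 0 0 * τ 0 0 + γ 0 1 * τ 1 0 := by rw [← KubC1.mul_apply, ← e]
  have e1 : σ 1 0 = γ 1 0 * τ 0 0 + γ 1 1 * τ 1 0 := by rw [← KubC1.mul_apply, ← e]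
  have hco := KubC1.isCoprime_col τ
  unfold Jc
  by_cases hβ : lam ∣ τ 1 0
  · rw [if_pos hβ, if_pos (hl.2 hβ), kap_eq_a hm, ← map_mul]
    have key := KubC1.master_unit (c := τ 1 0) (d := τ 0 0) (a' := γ 1 1) (b' := γ 0 1)
      (c' := γ 1 0) (d' := γ 0 0) (by linear_combination γ.det_eq) (KubC1.not_lam_dvd hco hβ)
      (hc 0 0) hco.symm (by simpa using hc 0 1)
    rw [show τ 1 0 * γ 0 1 + τ 0 0 * γ 0 0 = σ 0 0 by rw [e0]; ring,
      show τ 1 0 * γ 1 1 + τ 0 0 * γ 1 0 = σ 1 0 by rw [e1]; ring] at key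
    rw [key, mul_comm]
  · rw [if_neg hβ, if_neg (fun h' => hβ (hl.1 h')), kap_eq_b hm, ← map_mul]
    have key := KubC1.master_unit (c := τ 0 0) (d := τ 1 0) (a' := γ 0 0) (b' := γ 1 0)
      (c' := γ 0 1) (d' := γ 1 1) (by linear_combination γ.det_eq) hβ (hc 1 1) hco hm.1
    rw [show τ 0 0 * γ 1 0 + τ 1 0 * γ 1 1 = σ 1 0 by rw [e1]; ring,
      show τ 0 0 * γ 0 0 + τ 1 0 * γ 0 1 = σ 0 0 by rw [e0]; ring] at key
    rw [key, mul_comm]
/-- `Jc` does not see a change of `α` modulo `9` and modulo the radical of `β`. -/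
theorem Jc_congr {α α' β : O} (hβ : β ≠ 0) (h : IsCoprime α β) (h9 : (9 : O) ∣ α - α')
    (hr : rad β ∣ α - α') : Jc α β = Jc α' β := by
  unfold Jc
  split_ifs with hl
  · obtain ⟨u, hu, hua⟩ := exists_unit_primary (KubC1.not_lam_dvd h hl)
    have h1 : (9 : O) ∣ u * α - u * α' := by rw [← mul_sub]; exact h9.mul_left _
    rw [← cub_unit_mul_left hu α, ← cub_unit_mul_left hu α',
      cub_congr9 hβ hua (KubC1.primary_congr hua h1) h1 (by rw [← mul_sub]; exact hr.mul_left _)]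
  · rw [cub_congr hr]
theorem Jc_mul_cube {α β p : O} (hp : Primary p) (h : IsCoprime α (p ^ 3 * β)) :
    Jc α (p ^ 3 * β) = Jc α β := by
  have hl : lam ∣ p ^ 3 * β ↔ lam ∣ β :=
    ⟨fun h1 => (prime_lam.dvd_or_dvd h1).resolve_left (hp.pow 3).not_lam_dvd, fun h1 => h1.mul_left _⟩
  have hc : IsCoprime α p := (IsCoprime.pow_right_iff (by norm_num)).1 h.of_mul_right_left
  unfold Jc
  by_cases hβ : lam ∣ β
  · rw [if_pos hβ, if_pos (hl.2 hβ), cub_mul_right, cub_pow_right,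
      KubC1.cub_pow_three' (KubC1.not_lam_dvd h (hl.2 hβ)) hc, one_mul]
  · have h0 : β ≠ 0 := by rintro rfl; exact hβ (dvd_zero _)
    rw [if_neg hβ, if_neg (fun h' => hβ (hl.1 h')), cub_mul_left (hp.pow 3).ne_zero h0,
      cub_pow_left hp.ne_zero, cub_pow_three hp hc.symm, one_mul]

/-! ## part C2 -/

theorem KubC2.mul_apply (σ τ : SL2) (i j : Fin 2) :
    (σ * τ) i j = σ i 0 * τ 0 j + σ i 1 * τ 1 j := by
  simp [Matrix.mul_apply, Fin.sum_univ_two]

theorem KubC2.inv_apply (σ : SL2) :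
    σ⁻¹ 0 0 = σ 1 1 ∧ σ⁻¹ 0 1 = -σ 0 1 ∧ σ⁻¹ 1 0 = -σ 1 0 ∧ σ⁻¹ 1 1 = σ 0 0 := by
  rw [Matrix.SpecialLinearGroup.SL2_inv_expl]
  exact ⟨rfl, rfl, rfl, rfl⟩

theorem xi_row {γ : SL2} (h : γ ∈ Gam) : xi (γ 1 0) (γ 1 1) = conj (kap γ) := if_pos (mem_Gam.1 h)

theorem KubC2.of_ne {c d : O} (h : xi c d ≠ 0) : (9 : O) ∣ c ∧ Primary d ∧ IsCoprime c d := by
  unfold xi at h
  split_ifs at h with h1
  · refine ⟨h1.1, h1.2, IsCoprime.symm ?_⟩
    by_contra h2
    exact h (by rw [(cub_eq_zero_iff h1.2).2 h2, map_zero])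
  · exact absurd rfl h

theorem exists_Gam_of_xi_ne {c d : O} (h : xi c d ≠ 0) : ∃ γ ∈ Gam, γ 1 0 = c ∧ γ 1 1 = d := by
  obtain ⟨h1, h2, h3⟩ := KubC2.of_ne h
  obtain ⟨γ, rfl, rfl⟩ := exists_SL_row h3
  exact ⟨γ, mem_Gam.2 ⟨h1, h2⟩, rfl, rfl⟩

theorem xis_one : xis 1 = xi := by
  funext c d
  simp [xis]

theorem xis_row (σ : SL2) (c d : O) :
    xis σ (c * σ 0 0 + d * σ 1 0) (c * σ 0 1 + d * σ 1 1) = xi c d := by
  unfold xis
  congr 1
  · linear_combination c * σ.det_eq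
  · linear_combination d * σ.det_eq

theorem KubC2.xi_mul_of_ne {γ : SL2} (h : γ ∈ Gam) {c d : O} (h0 : xi c d ≠ 0) :
    xis γ c d = kap γ * xi c d := by
  obtain ⟨g, hg, rfl, rfl⟩ := exists_Gam_of_xi_ne h0
  obtain ⟨e1, e2, e3, e4⟩ := KubC2.inv_apply γ
  have h1 := xi_row (Gam.mul_mem hg (Gam.inv_mem h))
  rw [kap_mul hg (Gam.inv_mem h), kap_inv h, KubC2.mul_apply, KubC2.mul_apply, e1, e2, e3, e4]
    at h1
  rw [xi_row hg, xis]
  rw [map_mul, Complex.conj_conj, mul_comm (conj _)] at h1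
  rw [← h1]
  congr 1 <;> ring

theorem KubC2.xi_mul {γ : SL2} (h : γ ∈ Gam) (c d : O) : xis γ c d = kap γ * xi c d := by
  by_cases h0 : xi c d = 0
  · rw [h0, mul_zero]
    by_contra h1
    obtain ⟨g, hg, e1, e2⟩ := exists_Gam_of_xi_ne h1
    have h2 := xi_row (Gam.mul_mem hg h)
    have h3 := norm_kap (Gam.mul_mem hg h)
    rw [KubC2.mul_apply, KubC2.mul_apply, e1, e2] at h2
    have e3 : (c * γ 1 1 - d * γ 1 0) * γ 0 0 + (d * γ 0 0 - c * γ 0 1) * γ 1 0 = c := by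
      linear_combination c * γ.det_eq
    have e4 : (c * γ 1 1 - d * γ 1 0) * γ 0 1 + (d * γ 0 0 - c * γ 0 1) * γ 1 1 = d := by
      linear_combination d * γ.det_eq
    rw [e3, e4, h0, eq_comm, map_eq_zero] at h2
    simp [h2] at h3
  · exact KubC2.xi_mul_of_ne h h0

theorem xis_mul {γ : SL2} (h : γ ∈ Gam) (σ : SL2) (c d : O) :
    xis (γ * σ) c d = kap γ * xis σ c d := by
  rw [xis, xis, ← KubC2.xi_mul h, xis]
  simp only [KubC2.mul_apply]
  congr 1 <;> ring

theorem KubC2.coprime_iff (σ : SL2) (c d : O) :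
    IsCoprime (c * σ 1 1 - d * σ 1 0) (d * σ 0 0 - c * σ 0 1) ↔ IsCoprime c d := by
  constructor
  · rintro ⟨a, b, h⟩
    exact ⟨a * σ 1 1 - b * σ 0 1, b * σ 0 0 - a * σ 1 0, by linear_combination h⟩
  · rintro ⟨a, b, h⟩
    exact ⟨a * σ 0 0 + b * σ 0 1, a * σ 1 0 + b * σ 1 1, by
      linear_combination h + (a * c + b * d) * σ.det_eq⟩

theorem xiOK_xis (σ : SL2) : XiOK (xis σ) := by
  refine ⟨fun c d => ?_, fun c d h => ?_, fun c d t => ?_⟩
  · unfold xis xi
    split_ifs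
    · rw [Complex.norm_conj]
      exact norm_cub_le _ _
    · simp
  · by_contra h1
    exact h ((KubC2.coprime_iff σ c d).1 (KubC2.of_ne h1).2.2)
  · have e : ∀ i, (σ * nT (-(9 * t))) i 0 = σ i 0 ∧
        (σ * nT (-(9 * t))) i 1 = σ i 1 - 9 * (t * σ i 0) := fun i => by
      simp only [KubC2.mul_apply, nT, mkSL_00, mkSL_01, mkSL_10, mkSL_11]
      constructor <;> ring
    have h1 : Cong 9 (σ * nT (-(9 * t))) σ := fun i j => by
      fin_cases j
      · simp [(e i).1]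
      · simp [(e i).2]
    have h2 := kap_mul_Jc h1
    have h3 := norm_Jc (α := σ 0 0) (β := σ 1 0) ⟨σ 1 1, -σ 0 1, by linear_combination σ.det_eq⟩
    rw [(e 0).1, (e 1).1, mul_eq_right₀ (by rintro h0; simp [h0] at h3)] at h2
    have h4 := xis_mul h1.mul_inv_mem σ c d
    rw [h2, one_mul, inv_mul_cancel_right] at h4
    rw [← h4, xis, xis, (e 0).1, (e 1).1, (e 0).2, (e 1).2]
    congr 1 <;> ring

theorem KubC2.cube {α x β δ c d m : O} (hdet : α * δ - x * β = 1) (hm : Primary m)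
    (hc : IsCoprime m c) {c₀ d₀ c₁ d₁ : O} (h₀ : (9 : O) ∣ c₀ ∧ Primary d₀ ∧ IsCoprime c₀ d₀)
    (h₁ : (9 : O) ∣ c₁ ∧ Primary d₁ ∧ IsCoprime c₁ d₁)
    (e1 : c₀ * α + d₀ * β = c) (e2 : c₀ * x + d₀ * δ = d)
    (e3 : c₁ * α + d₁ * β = c) (e4 : c₁ * x + d₁ * δ = m ^ 3 * d) : cub d₁ c₁ = cub d₀ c₀ := by
  have hp : ∀ {y z : O}, Primary z → Primary (c₀ * y + d₀ * z) := fun {y z} hz => by
    obtain ⟨k, hk⟩ := h₀.1
    obtain ⟨l, hl⟩ := h₀.2.1.mul hz
    exact ⟨3 * k * y + l, by linear_combination y * hk + hl⟩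
  by_cases hδ : lam ∣ δ
  · have hβ : ¬ lam ∣ -β := fun h => prime_lam.not_isUnit (isUnit_of_dvd_one
      (hdet ▸ dvd_sub (hδ.mul_left _) ((dvd_neg.1 h).mul_left _)))
    obtain ⟨u, hu, hp'⟩ := exists_unit_primary hβ
    obtain ⟨v, hv⟩ := hu.exists_right_inv
    have hd : (x * v) * (u * -β) - (-α * u) * (δ * v) = 1 := by
      linear_combination (u * v) * hdet + hv
    have a0 := cub_master hd h₀.2.1 hp' h₀.2.2 (h₀.1.mul_right _)
    have a1 := cub_master hd h₁.2.1 hp' h₁.2.2 (h₁.1.mul_right _)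
    have a2 := hp (y := -α * u) hp'
    have f1 : c₀ * (-α * u) + d₀ * (u * -β) = -u * c := by linear_combination -u * e1
    have f2 : c₀ * (x * v) + d₀ * (δ * v) = d * v := by linear_combination v * e2
    have f3 : c₁ * (-α * u) + d₁ * (u * -β) = -u * c := by linear_combination -u * e3
    have f4 : c₁ * (x * v) + d₁ * (δ * v) = m ^ 3 * (d * v) := by linear_combination v * e4
    rw [f1] at a2
    rw [f1, f2] at a0
    rw [f3, f4, cub_mul_right, cub_pow_right, cub_pow_three a2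
      ((isCoprime_mul_unit_left_left hu.neg _ _).2 hc.symm), one_mul, a0] at a1
    refine (mul_right_cancel₀ ?_ a1).symm
    rw [Ne, cub_eq_zero_iff hp', not_not]
    exact ⟨x * v, α * u, by linear_combination hd⟩
  · obtain ⟨u, hu, hp'⟩ := exists_unit_primary hδ
    obtain ⟨v, hv⟩ := hu.exists_right_inv
    have hd : (α * v) * (u * δ) - (x * u) * (β * v) = 1 := by
      linear_combination (u * v) * hdet + hv
    have a0 := cub_master hd h₀.2.1 hp' h₀.2.2 (h₀.1.mul_right _)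
    have a1 := cub_master hd h₁.2.1 hp' h₁.2.2 (h₁.1.mul_right _)
    have a2 := hp (y := x * u) hp'
    have f1 : c₀ * (x * u) + d₀ * (u * δ) = u * d := by linear_combination u * e2
    have f2 : c₀ * (α * v) + d₀ * (β * v) = c * v := by linear_combination v * e1
    have f3 : c₁ * (x * u) + d₁ * (u * δ) = m ^ 3 * (u * d) := by linear_combination u * e4
    have f4 : c₁ * (α * v) + d₁ * (β * v) = c * v := by linear_combination v * e3
    rw [f1] at a2
    rw [f1, f2] at a0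
    rw [f3, f4, cub_mul_left (pow_ne_zero _ hm.ne_zero) a2.ne_zero, cub_pow_left hm.ne_zero,
      cub_pow_three hm ((isCoprime_mul_unit_right_right (IsUnit.of_mul_eq_one_right _ hv) _ _).2
        hc), one_mul, a0] at a1
    refine (mul_right_cancel₀ ?_ a1).symm
    rw [Ne, cub_eq_zero_iff hp', not_not]
    exact ⟨α * v, -(x * u), by linear_combination hd⟩

/-- Invariance under cubes which are `1` modulo `9`. -/
theorem xis_mul_cube (σ : SL2) {c m : O} (hm : (9 : O) ∣ m - 1) (hc : IsCoprime m c) (d : O) :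
    xis σ c (m ^ 3 * d) = xis σ c d := by
  obtain ⟨k, hk⟩ := hm
  have hm' : Primary m := ⟨3 * k, by linear_combination hk⟩
  obtain ⟨l, hl⟩ := hm'.nine_dvd_cube
  by_cases hcd : IsCoprime c d
  swap
  · rw [(xiOK_xis σ).2.1 _ _ hcd, (xiOK_xis σ).2.1 _ _ fun h => hcd h.of_mul_right_right]
  have h1 := (KubC2.coprime_iff σ c d).2 hcd
  have h2 := (KubC2.coprime_iff σ c (m ^ 3 * d)).2 (hc.symm.pow_right.mul_right hcd)
  have h3 : ((9 : O) ∣ c * σ 1 1 - m ^ 3 * d * σ 1 0 ∧ Primary (m ^ 3 * d * σ 0 0 - c * σ 0 1)) ↔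
      ((9 : O) ∣ c * σ 1 1 - d * σ 1 0 ∧ Primary (d * σ 0 0 - c * σ 0 1)) := by
    constructor
    · rintro ⟨⟨a, ha⟩, b, hb⟩
      exact ⟨⟨a + l * d * σ 1 0, by linear_combination ha + d * σ 1 0 * hl⟩,
        b - 3 * l * d * σ 0 0, by linear_combination hb - d * σ 0 0 * hl⟩
    · rintro ⟨⟨a, ha⟩, b, hb⟩
      exact ⟨⟨a - l * d * σ 1 0, by linear_combination ha - d * σ 1 0 * hl⟩,
        b + 3 * l * d * σ 0 0, by linear_combination hb + d * σ 0 0 * hl⟩
  unfold xis xi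
  by_cases h4 : (9 : O) ∣ c * σ 1 1 - d * σ 1 0 ∧ Primary (d * σ 0 0 - c * σ 0 1)
  · have h5 := h3.2 h4
    rw [if_pos h4, if_pos h5, KubC2.cube (d := d) σ.det_eq hm' hc
      ⟨h4.1, h4.2, h1⟩ ⟨h5.1, h5.2, h2⟩
      (by linear_combination c * σ.det_eq) (by linear_combination d * σ.det_eq)
      (by linear_combination c * σ.det_eq) (by linear_combination m ^ 3 * d * σ.det_eq)]
  · rw [if_neg h4, if_neg (h3.not.2 h4)]

theorem KubC2.lift' {M a b c d k : O} (hc : c ≠ 0) (h : a * d - b * c = 1 + M * k) :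
    ∃ τ : SL2, M ∣ τ 0 0 - a ∧ M ∣ τ 0 1 - b ∧ M ∣ τ 1 0 - c ∧ M ∣ τ 1 1 - d := by
  obtain ⟨t, p, q, ht⟩ := exists_add_mul_isCoprime (a := d) (b := b * c + M * k)
    ⟨a, -1, by linear_combination h⟩ hc
  refine ⟨mkSL (a - p * M * (k + a * k * t)) (b + (q + p * b * t) * M * (k + a * k * t)) c
    (d + M * k * t) (by linear_combination h - M * (k + a * k * t) * ht), ?_, ?_, ?_, ?_⟩
  · exact ⟨-p * (k + a * k * t), by simp only [mkSL_00]; ring⟩
  · exact ⟨(q + p * b * t) * (k + a * k * t), by simp only [mkSL_01]; ring⟩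
  · simp
  · exact ⟨k * t, by simp only [mkSL_11]; ring⟩

/-- Lifting from `SL₂(O / M)`. -/
theorem KubC2.lift {M a b c d k : O} (hM : M ≠ 0) (h : a * d - b * c = 1 + M * k) :
    ∃ τ : SL2, M ∣ τ 0 0 - a ∧ M ∣ τ 0 1 - b ∧ M ∣ τ 1 0 - c ∧ M ∣ τ 1 1 - d := by
  by_cases hc : c = 0
  · subst hc
    obtain ⟨τ, h1, h2, h3, h4⟩ := KubC2.lift' (M := M) (a := a) (b := b) (c := M) (d := d)
      (k := k - b) hM (by linear_combination h)
    exact ⟨τ, h1, h2, by simpa using h3.add (dvd_refl M), h4⟩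
  · exact KubC2.lift' hc h

/-- Strong approximation (generate `SL₂(O)` by elementary matrices and lift the entries). -/
theorem exists_cong_crt (σ : SL2) {N : O} (hN : IsCoprime N 3) :
    ∃ τ : SL2, Cong 9 τ σ ∧ Cong N τ 1 := by
  have h3 : ¬ IsUnit (3 : O) := fun h => by
    have := (nm_natCast 3).symm.trans (isUnit_iff_nm.1 h)
    norm_num at this
  have hN0 : N ≠ 0 := by
    rintro rfl
    exact h3 (isCoprime_zero_left.1 hN)
  have h9 : (9 : O) ≠ 0 := fun h => by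
    have := (nm_natCast 9).symm.trans (nm_eq_zero.2 h)
    norm_num at this
  obtain ⟨a, b, hab⟩ := hN.mul_right hN
  obtain ⟨τ, ⟨p, h1⟩, ⟨q, h2⟩, ⟨r, h3⟩, ⟨s, h4⟩⟩ := KubC2.lift (M := 9 * N)
    (a := a * N * σ 0 0 + 9 * b) (b := a * N * σ 0 1) (c := a * N * σ 1 0)
    (d := a * N * σ 1 1 + 9 * b) (k := a * b * (σ 0 0 + σ 1 1 - 2)) (mul_ne_zero h9 hN0)
    (by linear_combination (a * N) ^ 2 * σ.det_eq + (a * N + 9 * b + 1) * hab)
  refine ⟨τ, fun i j => ?_, fun i j => ?_⟩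
  · fin_cases i <;> fin_cases j
    · exact ⟨N * p + b - b * σ 0 0, by
        change τ 0 0 - σ 0 0 = _; linear_combination h1 + σ 0 0 * hab⟩
    · exact ⟨N * q - b * σ 0 1, by change τ 0 1 - σ 0 1 = _; linear_combination h2 + σ 0 1 * hab⟩
    · exact ⟨N * r - b * σ 1 0, by change τ 1 0 - σ 1 0 = _; linear_combination h3 + σ 1 0 * hab⟩
    · exact ⟨N * s + b - b * σ 1 1, by
        change τ 1 1 - σ 1 1 = _; linear_combination h4 + σ 1 1 * hab⟩
  · fin_cases i <;> fin_cases j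
    · exact ⟨9 * p + a * σ 0 0 - a, by change τ 0 0 - 1 = _; linear_combination h1 + hab⟩
    · exact ⟨9 * q + a * σ 0 1, by change τ 0 1 - 0 = _; linear_combination h2⟩
    · exact ⟨9 * r + a * σ 1 0, by change τ 1 0 - 0 = _; linear_combination h3⟩
    · exact ⟨9 * s + a * σ 1 1 - a, by change τ 1 1 - 1 = _; linear_combination h4 + hab⟩

/-- Principal congruence subgroups have finite index. -/
theorem finiteIndex_of_cong {N : O} (hN : N ≠ 0) {Δ : Subgroup SL2}
    (h : ∀ γ, Cong N γ 1 → γ ∈ Δ) : Δ.FiniteIndex := by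
  have : Fact (N ≠ 0) := ⟨hN⟩
  have : Finite (Matrix.SpecialLinearGroup (Fin 2) (O ⧸ Ideal.span {N})) :=
    inferInstanceAs (Finite {A : Matrix (Fin 2) (Fin 2) (O ⧸ Ideal.span {N}) // A.det = 1})
  refine Subgroup.finiteIndex_of_le (H := (Matrix.SpecialLinearGroup.map (n := Fin 2)
    (Ideal.Quotient.mk (Ideal.span {N}))).ker) fun γ hγ => h γ fun i j => mk_eq_mk_iff.1 ?_
  have h1 := congrArg (fun A : Matrix.SpecialLinearGroup (Fin 2) (O ⧸ Ideal.span {N}) => A i j)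
    (MonoidHom.mem_ker.1 hγ)
  have h2 := congrArg (fun A : Matrix.SpecialLinearGroup (Fin 2) (O ⧸ Ideal.span {N}) => A i j)
    (map_one (Matrix.SpecialLinearGroup.map (n := Fin 2) (Ideal.Quotient.mk (Ideal.span {N}))))
  exact h1.trans h2.symm

theorem KubC2.cub_lam_ne {d : O} (h : (9 : O) ∣ d - (1 + 3 * lam)) : cub d lam ≠ 1 := by
  obtain ⟨k, hk⟩ := h
  have hp : Prime (⟨4, -3⟩ : O) := BasicA.prime_of_nm (by simp [nm]; norm_num)
  have hp' : Primary (⟨4, -3⟩ : O) := BasicA.primary_iff.2 (by simp)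
  have e : (⟨4, -3⟩ : O) = 1 + 3 * lam - 9 * om := by ext <;> rfl
  have hn : nm (⟨4, -3⟩ : O) = 37 := by simp [nm]
  rw [cub_lam_congr (n' := ⟨4, -3⟩) ⟨lam + 3 * k, by linear_combination hk⟩ hp'
    ⟨k + om, by rw [e]; linear_combination hk⟩, cub_prime hp hp']
  intro h1
  have h2 := (cub1_eq_pow_iff (a := lam) hp hp' 0).1 (by simpa using h1)
  have h3 : lam ^ ((37 - 1) / 3) - om ^ 0 = (728 : ℕ) := by
    rw [show (37 - 1) / 3 = 2 * 6 by norm_num, pow_mul, lam_sq]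
    norm_num
  rw [hn, h3] at h2
  have h4 := nm_dvd_of_dvd h2
  rw [hn, nm_natCast] at h4
  norm_num at h4

theorem KubC2.cub_lam_ne' {d : O} (h : (9 : O) ∣ d - (1 - 3 * lam)) : cub d lam ≠ 1 := by
  obtain ⟨k, hk⟩ := h
  have h1 : Primary d := ⟨-lam + 3 * k, by linear_combination hk⟩
  have h2 : Primary (1 + 3 * lam) := ⟨lam, by ring⟩
  have h3 := cub_lam_congr (h1.mul h2) primary_one
    ⟨3 + k * (1 + 3 * lam), by linear_combination (1 + 3 * lam) * hk - 9 * lam_sq⟩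
  intro h4
  rw [cub_mul_left h1.ne_zero h2.ne_zero, h4, one_mul, cub_one_left] at h3
  exact KubC2.cub_lam_ne (by simp) h3

/-- A non-essential cusp: for `λ ∥ β` the stabiliser contains an element with `κ ≠ 1`. -/
theorem exists_kap_ne_one {σ : SL2} (h1 : lam ∣ σ 1 0) (h3 : ¬ (3 : O) ∣ σ 1 0) :
    σ * nT 3 * σ⁻¹ ∈ Gam ∧ kap (σ * nT 3 * σ⁻¹) ≠ 1 := by
  obtain ⟨b, hb⟩ := h1
  obtain ⟨e1, e2, e3, e4⟩ := KubC2.inv_apply σ
  have f1 : (σ * nT 3 * σ⁻¹) 1 0 = lam ^ 4 * b ^ 2 := by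
    simp only [KubC2.mul_apply, nT, mkSL_00, mkSL_01, mkSL_10, mkSL_11, e1, e3, hb]
    linear_combination (-lam ^ 2 * b ^ 2) * lam_sq
  have f2 : (σ * nT 3 * σ⁻¹) 1 1 = 1 + 3 * lam * (σ 0 0 * b) := by
    have := σ.det_eq
    simp only [KubC2.mul_apply, nT, mkSL_00, mkSL_01, mkSL_10, mkSL_11, e2, e4, hb] at this ⊢
    linear_combination this
  have hd : Primary (1 + 3 * lam * (σ 0 0 * b)) := ⟨lam * (σ 0 0 * b), by ring⟩
  have hb' : ¬ lam ∣ b := by
    rintro ⟨k, rfl⟩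
    exact h3 ⟨-k, by linear_combination hb + k * lam_sq⟩
  have hα : ¬ lam ∣ σ 0 0 := fun h => prime_lam.not_isUnit (isUnit_of_dvd_one
    (σ.det_eq ▸ dvd_sub (h.mul_right _) (Dvd.dvd.mul_left ⟨b, hb⟩ _)))
  refine ⟨mem_Gam.2 ⟨?_, f2 ▸ hd⟩, ?_⟩
  · exact ⟨b ^ 2, by rw [f1]; linear_combination (lam ^ 2 - 3) * b ^ 2 * lam_sq⟩
  obtain ⟨u, hu, hub⟩ := exists_unit_primary hb'
  have g1 : cub (1 + 3 * lam * (σ 0 0 * b)) u = 1 := by
    obtain ⟨k, -, rfl⟩ := isUnit_iff_pow.1 hu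
    rw [cub_pow_right, ← neg_one_mul om, cub_mul_right, cub_neg_one,
      RecipA.om_congr hd primary_one ⟨σ 0 0 * b, by ring⟩]
    simp
  have g2 : cub (1 + 3 * lam * (σ 0 0 * b)) b = 1 := by
    have := cub_recip hd hub
    rw [cub_mul_right, g1, one_mul, cub_unit_mul_left hu] at this
    rw [this, cub_congr (b := 1) ((rad_dvd b).trans ⟨3 * lam * σ 0 0, by ring⟩), cub_one_right]
  have g3 := cub_pow_three (a := lam) hd ⟨1, -(3 * (σ 0 0 * b)), by ring⟩
  rw [kap, f1, f2, cub_mul_right, cub_pow_right, cub_pow_right, g2, pow_succ, g3, one_pow, one_mul,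
    mul_one]
  have g4 : ¬ lam ∣ σ 0 0 * b := fun h => (prime_lam.dvd_or_dvd h).elim hα hb'
  generalize σ 0 0 * b = z at g4
  have g5 : lam ∣ z - 1 ∨ lam ∣ z + 1 := by
    simp only [BasicA.lam_dvd_iff, QuadraticAlgebra.re_sub, QuadraticAlgebra.im_sub,
      QuadraticAlgebra.re_add, QuadraticAlgebra.im_add, QuadraticAlgebra.re_one,
      QuadraticAlgebra.im_one] at g4 ⊢
    omega
  rcases g5 with ⟨k, hk⟩ | ⟨k, hk⟩
  · exact KubC2.cub_lam_ne ⟨-k, by linear_combination 3 * lam * hk + 3 * k * lam_sq⟩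
  · exact KubC2.cub_lam_ne' ⟨-k, by linear_combination 3 * lam * hk + 3 * k * lam_sq⟩

end Crest.Agent.R17
end
end

-- ▼ part PVc/R17/ThetaEisAuxD2
section

/-!
# Row 17, theta module D (part D2): Poisson summation for a periodic function against a shifted
Gaussian, and the bounds which give the absolute convergence of the Fourier expansion
-/

set_option autoImplicit false

noncomputable section

namespace Crest.Agent.R17

theorem d2_summable_shift {X : ℝ} (hX : 0 < X) (u : ℂ) :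
    Summable fun k : O => gw (‖ι k + u‖ ^ 2 / X) := by
  refine ((summable_gw' (X := 2 * X) (by positivity)).mul_left
    (gw (-(‖u‖ ^ 2 / X)))).of_nonneg_of_le (fun _ => (gw_pos _).le) fun k => ?_
  rw [← gw_add]
  apply gw_antitone
  have h1 : ‖ι k‖ ≤ ‖ι k + u‖ + ‖u‖ := by
    simpa using norm_sub_le (ι k + u) u
  have h2 : nr k ≤ 2 * ‖ι k + u‖ ^ 2 + 2 * ‖u‖ ^ 2 := by
    rw [← norm_ι_sq]
    have h3 := pow_le_pow_left₀ (norm_nonneg _) h1 2
    nlinarith [sq_nonneg (‖ι k + u‖ - ‖u‖)]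
  have e : -(‖u‖ ^ 2 / X) + nr k / (2 * X) = (nr k / 2 - ‖u‖ ^ 2) / X := by
    field_simp
    ring
  rw [e]
  exact div_le_div_of_nonneg_right (by linarith) hX.le

theorem d2_summable_mul {X : ℝ} (hX : 0 < X) : Summable fun h : O => gw (X * nr h) := by
  refine (summable_gw' (inv_pos.2 hX)).congr fun h => ?_
  rw [div_inv_eq_mul, mul_comm]

theorem d2_summable_mul' {X : ℝ} (hX : 0 < X) :
    Summable fun h : O => gw (X * nr h) * (1 + nr h) := by
  refine (summable_gw (inv_pos.2 hX) 1).congr fun h => ?_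
  rw [div_inv_eq_mul, mul_comm (nr h) X, Real.rpow_one]

theorem d2_tsum_mul_le {X : ℝ} (hX : 0 < X) : X * ∑' h : O, gw (X * nr h) ≤ X + 7 := by
  have h := tsum_gw_le (inv_pos.2 hX)
  have e : (fun k : O => gw (nr k / X⁻¹)) = fun k : O => gw (X * nr k) := by
    funext k
    rw [div_inv_eq_mul, mul_comm]
  rw [e] at h
  refine (mul_le_mul_of_nonneg_left h hX.le).trans (le_of_eq ?_)
  field_simp

theorem d2_tsum_shift_le {X : ℝ} (hX : 0 < X) (u : ℂ) :
    ∑' k : O, gw (‖ι k + u‖ ^ 2 / X) ≤ X + 7 := by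
  have H := poisson_shift hX u 0
  simp only [mul_zero, eC_zero, mul_one, add_zero, norm_ι_sq] at H
  rw [← Complex.ofReal_tsum] at H
  have h1 := congrArg norm H
  rw [Complex.norm_real, Real.norm_of_nonneg (tsum_nonneg fun _ => (gw_pos _).le), norm_mul,
    Complex.norm_real, Real.norm_of_nonneg hX.le] at h1
  rw [h1]
  refine le_trans (mul_le_mul_of_nonneg_left ?_ hX.le) (d2_tsum_mul_le hX)
  refine tsum_of_norm_bounded (d2_summable_mul hX).hasSum fun h => ?_
  rw [norm_mul, norm_eC, mul_one, Complex.norm_real, Real.norm_of_nonneg (gw_pos _).le]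

theorem d2_norm_ft_le {q : O} (hq : q ≠ 0) {f : O → ℂ} (hb : ∀ k, ‖f k‖ ≤ 1) (h : O) :
    ‖ft q f h‖ ≤ nr q := by
  unfold ft
  refine (norm_sum_le _ _).trans ?_
  refine (Finset.sum_le_card_nsmul _ _ 1 fun x _ => ?_).trans (le_of_eq ?_)
  · rw [norm_mul, norm_eq, mul_one]
    exact hb x
  · rw [card_res hq, nsmul_eq_mul, mul_one]

/-- Poisson summation for a periodic function against a shifted Gaussian. -/
theorem d2_poisson {q : O} (hq : q ≠ 0) (f : O → ℂ) (hf : ∀ x t, f (x + q * t) = f x)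
    (hb : ∀ k, ‖f k‖ ≤ 1) {X : ℝ} (hX : 0 < X) (u : ℂ) :
    ∑' k : O, f k * (gw (‖ι k + u‖ ^ 2 / X) : ℂ) =
      ∑' h : O, ft q f h * ((X / nr q * gw (X / nr q * nr h) : ℝ) : ℂ) * eC (ι h * u / ι q) := by
  classical
  have hq0 := nr_pos hq
  have hιq : ι q ≠ 0 := fun h0 => hq (ι_injective (by rw [h0, map_zero]))
  have hX' : 0 < X / nr q := div_pos hX hq0
  have hs : Summable fun k : O => f k * (gw (‖ι k + u‖ ^ 2 / X) : ℂ) := by
    refine Summable.of_norm_bounded (d2_summable_shift hX u) fun k => ?_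
    rw [norm_mul, Complex.norm_real, Real.norm_of_nonneg (gw_pos _).le]
    exact mul_le_of_le_one_left (gw_pos _).le (hb k)
  let e : res q × O ≃ O := Equiv.ofBijective (fun z => (z.1 : O) + q * z.2) (by
    constructor
    · rintro ⟨⟨x, hx⟩, k⟩ ⟨⟨x', hx'⟩, k'⟩ hz
      simp only at hz
      obtain ⟨r, -, hr⟩ := exists_unique_res hq (x + q * k)
      have h1 : x = r := hr x ⟨hx, ⟨k, by ring⟩⟩
      have h2 : x' = r := hr x' ⟨hx', ⟨k', by rw [hz]; ring⟩⟩
      have h3 : x = x' := h1.trans h2.symm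
      subst h3
      have h4 : k = k' := mul_left_cancel₀ hq (add_left_cancel hz)
      rw [h4]
    · intro k
      obtain ⟨r, ⟨hr, c, hc⟩, -⟩ := exists_unique_res hq k
      exact ⟨(⟨r, hr⟩, c), by simp only; rw [← hc]; ring⟩)
  have he : ∀ z : res q × O, e z = (z.1 : O) + q * z.2 := fun _ => rfl
  have t1 := (e.summable_iff.2 hs).tsum_prod
  simp only [Function.comp] at t1
  rw [← e.tsum_eq, t1, tsum_fintype]
  simp only [he]
  have inner : ∀ x : O, ∑' k : O, f (x + q * k) * (gw (‖ι (x + q * k) + u‖ ^ 2 / X) : ℂ) =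
      ∑' h : O, f x * eq (h * x) q * ((X / nr q * gw (X / nr q * nr h) : ℝ) : ℂ) *
        eC (ι h * u / ι q) := by
    intro x
    have H := poisson_shift hX' ((ι x + u) / ι q) 0
    simp only [mul_zero, eC_zero, mul_one, add_zero] at H
    have e1 : ∀ k : O, f (x + q * k) * (gw (‖ι (x + q * k) + u‖ ^ 2 / X) : ℂ)
        = f x * (gw (‖ι k + (ι x + u) / ι q‖ ^ 2 / (X / nr q)) : ℂ) := by
      intro k
      rw [hf x k]
      congr 3
      have : ι k + (ι x + u) / ι q = (ι (x + q * k) + u) / ι q := by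
        rw [map_add, map_mul]
        field_simp
        ring
      rw [this, norm_div, div_pow, norm_ι_sq]
      field_simp
    simp only [e1]
    rw [tsum_mul_left, H, ← tsum_mul_left, ← tsum_mul_left, ← (Equiv.neg O).tsum_eq]
    refine tsum_congr fun h => ?_
    simp only [Equiv.neg_apply, norm_ι_sq, nr, norm_neg, eq, map_neg, map_mul]
    rw [show -(-ι h * ((ι x + u) / ι q)) = ι h * ι x / ι q + ι h * u / ι q by ring, eC_add]
    push_cast
    ring
  simp only [inner]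
  rw [Finset.sum_coe_sort (res q) (fun x => ∑' h : O, f x * eq (h * x) q *
    ((X / nr q * gw (X / nr q * nr h) : ℝ) : ℂ) * eC (ι h * u / ι q))]
  have hs2 : ∀ x : O, Summable fun h : O => f x * eq (h * x) q *
      ((X / nr q * gw (X / nr q * nr h) : ℝ) : ℂ) * eC (ι h * u / ι q) := by
    intro x
    refine Summable.of_norm_bounded ((d2_summable_mul hX').mul_left (‖f x‖ * (X / nr q)))
      fun h => ?_
    rw [norm_mul, norm_mul, norm_mul, norm_eq, norm_eC, mul_one, mul_one, Complex.norm_real,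
      Real.norm_of_nonneg (mul_pos hX' (gw_pos _)).le, mul_assoc]
  rw [← Summable.tsum_finsetSum fun x _ => hs2 x]
  refine tsum_congr fun h => ?_
  rw [ft, Finset.sum_mul, Finset.sum_mul]

/-- Absolute convergence of the series on `O × O`. -/
theorem d2_summable_pair {X T : ℝ} (hX : 0 < X) (hT : 0 < T) (u : O → ℂ) :
    Summable fun v : O × O => gw (T * nr v.1) * gw (‖ι v.2 + u v.1‖ ^ 2 / X) := by
  rw [summable_prod_of_nonneg fun v => (mul_pos (gw_pos _) (gw_pos _)).le]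
  refine ⟨fun c => (d2_summable_shift hX (u c)).mul_left (gw (T * nr c)), ?_⟩
  refine ((d2_summable_mul hT).mul_right (X + 7)).of_nonneg_of_le
    (fun c => tsum_nonneg fun d => (mul_pos (gw_pos _) (gw_pos _)).le) fun c => ?_
  simp only
  rw [tsum_mul_left]
  exact mul_le_mul_of_nonneg_left (d2_tsum_shift_le hX (u c)) (gw_pos _).le

/-- Absolute convergence of the dual series on `O × O`. -/
theorem d2_summable_dual {K T : ℝ} (hK : 0 < K) (hT : 0 < T) :
    Summable fun v : O × O =>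
      nr v.1 * (gw (T * nr v.1) * (K / nr v.1 * gw (K / nr v.1 * nr v.2))) := by
  have hnn : ∀ v : O × O,
      0 ≤ nr v.1 * (gw (T * nr v.1) * (K / nr v.1 * gw (K / nr v.1 * nr v.2))) := fun v => by
    have h1 := gw_pos (T * nr v.1)
    have h2 := gw_pos (K / nr v.1 * nr v.2)
    positivity
  rw [summable_prod_of_nonneg hnn]
  constructor
  · intro c
    rcases eq_or_ne c 0 with rfl | hc
    · simp
    · exact (((d2_summable_mul (div_pos hK (nr_pos hc))).mul_left (K / nr c)).mul_left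
        (gw (T * nr c))).mul_left (nr c)
  · refine ((d2_summable_mul' hT).mul_right (K + 7)).of_nonneg_of_le
      (fun c => tsum_nonneg fun d => hnn (c, d)) fun c => ?_
    have hg := gw_pos (T * nr c)
    simp only
    rcases eq_or_ne c 0 with rfl | hc
    · have h0 : 0 ≤ gw (T * nr (0 : O)) * (1 + nr (0 : O)) * (K + 7) := by positivity
      simpa using h0
    · have hc0 := nr_pos hc
      rw [tsum_mul_left, tsum_mul_left, tsum_mul_left]
      have h1 := d2_tsum_mul_le (div_pos hK hc0)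
      have h2 : nr c * (K / nr c + 7) ≤ (1 + nr c) * (K + 7) := by
        rw [mul_add, mul_div_cancel₀ _ hc0.ne']
        nlinarith
      calc _ ≤ nr c * (gw (T * nr c) * (K / nr c + 7)) :=
            mul_le_mul_of_nonneg_left (mul_le_mul_of_nonneg_left h1 hg.le) hc0.le
        _ = gw (T * nr c) * (nr c * (K / nr c + 7)) := by ring
        _ ≤ gw (T * nr c) * ((1 + nr c) * (K + 7)) := mul_le_mul_of_nonneg_left h2 hg.le
        _ = _ := by ring

theorem d2_nr_nine_mul (c : O) : nr (9 * c) = 81 * nr c := by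
  have h : nm (9 : O) = 81 := by simpa using nm_natCast 9
  rw [nr_mul, nr, h]
  norm_num

end Crest.Agent.R17
end
end

-- ▼ part PVc/R17/ThetaEisAuxA

/-!
# Row 17, theta module D: auxiliary estimates for the incomplete Eisenstein series
-/

set_option autoImplicit false

noncomputable section

namespace Crest.Agent.R17

open scoped ComplexConjugate ENNReal Topology
open MeasureTheory Filter

namespace EisA

/-- The six units. -/
def U6 : Finset O := by classical exact (Finset.range 6).image fun k => (-om) ^ k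

theorem card_U6 : U6.card ≤ 6 := by
  classical
  exact Finset.card_image_le.trans (by simp)

theorem xi_zero_eq {ξ : O → O → ℂ} (h : XiOK ξ) {d : O} (hd : d ∉ U6) : ξ 0 d = 0 := by
  classical
  refine h.2.1 0 d fun hc => hd ?_
  obtain ⟨k, hk, rfl⟩ := isUnit_iff_pow.1 (isCoprime_zero_left.1 hc)
  exact Finset.mem_image.2 ⟨k, Finset.mem_range.2 hk, rfl⟩

theorem tsum_zero_le {ξ : O → O → ℂ} (h : XiOK ξ) {f : O → ℝ} (h0 : ∀ d, 0 ≤ f d)
    (h1 : ∀ d, f d ≤ 1) : ∑' d : O, ‖ξ 0 d‖ * f d ≤ 6 := by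
  rw [tsum_eq_sum (s := U6) fun d hd => by rw [xi_zero_eq h hd, norm_zero, zero_mul]]
  calc ∑ d ∈ U6, ‖ξ 0 d‖ * f d ≤ ∑ d ∈ U6, (1 : ℝ) :=
        Finset.sum_le_sum fun d _ => mul_le_one₀ (h.1 0 d) (h0 d) (h1 d)
    _ ≤ 6 := by
      rw [Finset.sum_const, nsmul_eq_mul, mul_one]
      exact_mod_cast card_U6

/-- A shifted Gaussian sum, uniformly in the shift. -/
theorem tsum_shift_le {X : ℝ} (hX : 0 < X) (u : ℂ) :
    ∑' d : O, gw (‖ι d + u‖ ^ 2 / X) ≤ X + 7 := by
  have h := poisson_shift hX u 0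
  simp only [mul_zero, eC_zero, mul_one, add_zero] at h
  rw [← Complex.ofReal_tsum] at h
  have hs := summable_gw' (inv_pos.2 hX)
  have e : ∀ k : O, ‖(gw (X * ‖ι k‖ ^ 2) : ℂ) * eC (-(ι k * u))‖ = gw (nr k / X⁻¹) := fun k => by
    rw [norm_mul, norm_eC, mul_one, Complex.norm_real, Real.norm_of_nonneg (gw_pos _).le,
      norm_ι_sq, div_inv_eq_mul, mul_comm]
  have h2 : ‖∑' k : O, (gw (X * ‖ι k‖ ^ 2) : ℂ) * eC (-(ι k * u))‖ ≤ 1 + 7 * X⁻¹ := by
    refine (norm_tsum_le_tsum_norm (by simpa only [e] using hs)).trans ?_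
    simp only [e]
    exact tsum_gw_le (inv_pos.2 hX)
  have h3 := congrArg norm h
  rw [Complex.norm_real, norm_mul, Complex.norm_real, Real.norm_of_nonneg hX.le] at h3
  calc _ ≤ ‖∑' d : O, gw (‖ι d + u‖ ^ 2 / X)‖ := Real.le_norm_self _
    _ ≤ X * (1 + 7 * X⁻¹) := by rw [h3]; exact mul_le_mul_of_nonneg_left h2 hX.le
    _ = X + 7 := by field_simp

open Classical in
theorem tsum_ne_le {X : ℝ} (hX : 0 < X) :
    (Summable fun c : O => if c = 0 then 0 else gw (nr c / X)) ∧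
      ∑' c : O, (if c = 0 then 0 else gw (nr c / X)) ≤ 7 * X := by
  refine ⟨Summable.of_nonneg_of_le (fun c => ?_) (fun c => ?_) (summable_gw' hX), ?_⟩
  · split_ifs
    · exact le_rfl
    · exact (gw_pos _).le
  · split_ifs
    · exact (gw_pos _).le
    · exact le_rfl
  · have h := tsum_gw_le hX
    rw [(summable_gw' hX).tsum_eq_add_tsum_ite 0] at h
    have : gw (nr (0 : O) / X) = 1 := by simp [gw]
    rw [this] at h
    convert (add_le_add_iff_left 1).1 h

/-- The constant of the Gaussian. -/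
def a0 : ℝ := 2 * Real.pi / Real.sqrt 3

theorem a0_pos : 0 < a0 := by unfold a0; positivity

theorem exp_Qo {Y : ℝ} (hY : 0 < Y) (w : H) (c d : O) : Real.exp (-Y * Qo w c d) =
    gw (‖ι d + ι c * w.1‖ ^ 2 / (a0 * hy w / Y)) * gw (nr c / (a0 / (Y * hy w))) := by
  have := a0_pos
  have := hy_pos w
  rw [← gw_add, gw, Qo, Qf, norm_ι_sq, add_comm (ι d)]
  congr 1
  change _ = -a0 * _
  field_simp

theorem summable_norm {ξ : O → O → ℂ} (h : XiOK ξ) {Y : ℝ} (hY : 0 < Y) (w : H) :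
    Summable fun v : O × O => ‖ξ v.1 v.2‖ * Real.exp (-Y * Qo w v.1 v.2) :=
  Summable.of_nonneg_of_le (fun _ => by positivity)
    (fun v => mul_le_of_le_one_left (Real.exp_pos _).le (h.1 _ _)) (summable_exp_Qo w hY)

theorem tsum_norm_le {ξ : O → O → ℂ} (h : XiOK ξ) {Y : ℝ} (hY : 0 < Y) (w : H) :
    ∑' v : O × O, ‖ξ v.1 v.2‖ * Real.exp (-Y * Qo w v.1 v.2) ≤
      6 + 7 * a0 ^ 2 / Y ^ 2 + 49 * a0 / Y * (hy w)⁻¹ := by
  classical
  have ha := a0_pos
  have hy0 := hy_pos w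
  have hs := summable_norm h hY w
  have hX : 0 < a0 * hy w / Y := by positivity
  have hX' : 0 < a0 / (Y * hy w) := by positivity
  obtain ⟨s1, s2⟩ := tsum_ne_le hX'
  rw [hs.tsum_prod' hs.prod_factor]
  have key : ∀ c : O, ∑' d : O, ‖ξ c d‖ * Real.exp (-Y * Qo w c d) ≤ (if c = 0 then 6 else 0) +
      (a0 * hy w / Y + 7) * (if c = 0 then 0 else gw (nr c / (a0 / (Y * hy w)))) := by
    intro c
    split_ifs with hc
    · subst hc
      rw [mul_zero, add_zero]
      refine tsum_zero_le h (fun _ => (Real.exp_pos _).le) fun d => Real.exp_le_one_iff.2 ?_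
      have := Qf_nonneg w (ι 0) (ι d)
      unfold Qo
      nlinarith
    · have s3 := (summable_exp_Qo w hY).prod_factor c
      refine ((hs.prod_factor c).tsum_le_tsum
        (fun d => mul_le_of_le_one_left (Real.exp_pos _).le (h.1 _ _)) s3).trans ?_
      simp only [exp_Qo hY, tsum_mul_right, zero_add]
      exact mul_le_mul_of_nonneg_right (tsum_shift_le hX _) (gw_pos _).le
  have s0 : HasSum (fun c : O => if c = 0 then (6 : ℝ) else 0) 6 := hasSum_ite_eq 0 6
  refine (hs.prod.tsum_le_tsum key (s0.summable.add (s1.mul_left _))).trans ?_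
  rw [s0.summable.tsum_add (s1.mul_left _), s0.tsum_eq, tsum_mul_left]
  calc _ ≤ 6 + (a0 * hy w / Y + 7) * (7 * (a0 / (Y * hy w))) := by gcongr
    _ = _ := by field_simp; ring

/-- Local comparison of the forms. -/
theorem Qf_le {w w0 : H} (h1 : ‖w.1 - w0.1‖ < hy w0) (h2 : hy w0 < 2 * hy w)
    (h3 : hy w < 2 * hy w0) (c d : ℂ) : Qf w0 c d ≤ 6 * Qf w c d := by
  have p := hy_pos w
  have p0 := hy_pos w0
  have t : ‖c * w0.1 + d‖ ≤ ‖c * w.1 + d‖ + ‖c‖ * hy w0 := by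
    calc ‖c * w0.1 + d‖ = ‖(c * w.1 + d) - c * (w.1 - w0.1)‖ := by congr 1; ring
      _ ≤ ‖c * w.1 + d‖ + ‖c * (w.1 - w0.1)‖ := norm_sub_le _ _
      _ ≤ _ := by rw [norm_mul]; gcongr
  have t2 : ‖c * w0.1 + d‖ ^ 2 ≤ 2 * ‖c * w.1 + d‖ ^ 2 + 2 * (‖c‖ ^ 2 * hy w0 ^ 2) := by
    have := pow_le_pow_left₀ (norm_nonneg _) t 2
    nlinarith [sq_nonneg (‖c * w.1 + d‖ - ‖c‖ * hy w0)]
  unfold Qf
  rw [← mul_div_assoc, div_le_div_iff₀ p0 p]
  set A := ‖c * w.1 + d‖ ^ 2
  set B := ‖c‖ ^ 2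
  have hA : 0 ≤ A := sq_nonneg _
  have hB : 0 ≤ B := sq_nonneg _
  have e1 : A * hy w ≤ A * (2 * hy w0) := by gcongr
  have e2 : B * hy w0 * hy w * hy w0 ≤ B * hy w0 * hy w * (2 * hy w) := by gcongr
  have e3 := mul_le_mul_of_nonneg_right t2 p.le
  have e4 : 0 ≤ A * hy w0 := by positivity
  nlinarith

theorem continuous_tsum {ξ : O → O → ℂ} (h : XiOK ξ) {Y : ℝ} (hY : 0 < Y) :
    Continuous fun w : H => ∑' v : O × O, ξ v.1 v.2 * (Real.exp (-Y * Qo w v.1 v.2) : ℂ) := by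
  refine continuous_iff_continuousAt.2 fun w0 => ?_
  have p0 := hy_pos w0
  have ho : IsOpen {w : H | ‖w.1 - w0.1‖ < hy w0 ∧ hy w0 < 2 * hy w ∧ hy w < 2 * hy w0} := by
    have := continuous_hy
    exact IsOpen.and (isOpen_lt (by fun_prop) continuous_const)
      (IsOpen.and (isOpen_lt continuous_const (by fun_prop)) (isOpen_lt this continuous_const))
  refine (continuousOn_tsum (fun v => ?_) (summable_exp_Qo w0 (Y := Y / 6) (by positivity))
    fun v w hw => ?_).continuousAt (ho.mem_nhds ⟨by simpa using p0, by linarith, by linarith⟩)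
  · exact (continuous_const.mul (Complex.continuous_ofReal.comp (Real.continuous_exp.comp
      (continuous_const.mul (continuous_Qf _ _))))).continuousOn
  · rw [norm_mul, Complex.norm_real, Real.norm_of_nonneg (Real.exp_pos _).le]
    refine (mul_le_of_le_one_left (Real.exp_pos _).le (h.1 _ _)).trans (Real.exp_le_exp.2 ?_)
    have := Qf_le hw.1 hw.2.1 hw.2.2 (ι v.1) (ι v.2)
    unfold Qo
    nlinarith

/-- Right multiplication of row vectors by `σ`. -/
def rowE (σ : SL2) : O × O ≃ O × O where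
  toFun v := (v.1 * σ 0 0 + v.2 * σ 1 0, v.1 * σ 0 1 + v.2 * σ 1 1)
  invFun v := (v.1 * σ 1 1 - v.2 * σ 1 0, v.2 * σ 0 0 - v.1 * σ 0 1)
  left_inv v := by
    ext1
    · linear_combination v.1 * σ.det_eq
    · linear_combination v.2 * σ.det_eq
  right_inv v := by
    ext1
    · linear_combination v.1 * σ.det_eq
    · linear_combination v.2 * σ.det_eq

/-- The second row. -/
def row (γ : Gam) : O × O := ((γ : SL2) 1 0, (γ : SL2) 1 1)

theorem nT_mul_apply (t : O) (γ : SL2) (j : Fin 2) : (nT t * γ) 1 j = γ 1 j := by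
  simp [nT, mkSL, Matrix.SpecialLinearGroup.coe_mul, Matrix.mul_apply, Fin.sum_univ_two]

theorem hasSum_fiber {N : ℕ} (hN : N ≠ 0) (w : H) {v : O × O} (hv : xi v.1 v.2 ≠ 0) :
    HasSum (fun γ : {γ : Gam // row γ = v} => wt N (γ.1 • w).1) 1 := by
  obtain ⟨g, hg, h0, h1⟩ := exists_Gam_of_xi_ne hv
  let f : O → {γ : Gam // row γ = v} := fun t => ⟨⟨nT t * g, Gam.mul_mem (nT_mem t) hg⟩,
    Prod.ext ((nT_mul_apply t g 0).trans h0) ((nT_mul_apply t g 1).trans h1)⟩
  have hf : Function.Bijective f := by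
    refine ⟨fun s t hst => ?_, fun γ => ?_⟩
    · have e : nT s * g = nT t * g := congrArg (fun x => (x.1 : SL2)) hst
      exact congrArg (fun σ : SL2 => σ 0 1) (mul_right_cancel e)
    · obtain ⟨t, ht⟩ := exists_nT_mul (σ := γ.1) (τ := g)
        ((congrArg Prod.fst γ.2).trans h0.symm) ((congrArg Prod.snd γ.2).trans h1.symm)
      exact ⟨t, Subtype.ext (Subtype.ext ht.symm)⟩
  rw [← (Equiv.ofBijective f hf).hasSum_iff]
  convert hasSum_wt hN (g • w).1 using 2 with t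
  change wt N ((nT t * g) • w).1 = _
  rw [mul_smul, nT_smul]

/-- Folding a sum over second rows into a sum over the group. -/
theorem hasSum_fold {N : ℕ} (hN : N ≠ 0) (w : H) {G : O × O → ℂ} (hG : Summable fun v => ‖G v‖)
    (h0 : ∀ v, xi v.1 v.2 = 0 → G v = 0) :
    HasSum (fun γ : Gam => (wt N (γ • w).1 : ℂ) * G (row γ)) (∑' v, G v) := by
  have f1 : ∀ v, HasSum (fun γ : {γ : Gam // row γ = v} => (wt N (γ.1 • w).1 : ℂ) * G (row γ.1))
      (G v) := fun v => by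
    simp only [fun γ : {γ : Gam // row γ = v} => γ.2]
    by_cases hv : xi v.1 v.2 = 0
    · simp only [h0 v hv, mul_zero]; exact hasSum_zero
    · simpa using (Complex.hasSum_ofReal.2 (hasSum_fiber hN w hv)).mul_right (G v)
  have f2 : ∀ v, HasSum
      (fun γ : {γ : Gam // row γ = v} => ‖(wt N (γ.1 • w).1 : ℂ) * G (row γ.1)‖) ‖G v‖ := fun v => by
    simp only [fun γ : {γ : Gam // row γ = v} => γ.2, norm_mul, Complex.norm_real,
      Real.norm_of_nonneg (wt_nonneg _ _)]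
    by_cases hv : xi v.1 v.2 = 0
    · simp only [h0 v hv, norm_zero, mul_zero]; exact hasSum_zero
    · simpa using (hasSum_fiber hN w hv).mul_right ‖G v‖
  rw [← (Equiv.sigmaFiberEquiv row).hasSum_iff]
  have s : Summable fun x : Σ v, {γ : Gam // row γ = v} =>
      (wt N (x.2.1 • w).1 : ℂ) * G (row x.2.1) := by
    refine Summable.of_norm ((summable_sigma_of_nonneg fun _ => norm_nonneg _).2
      ⟨fun v => (f2 v).summable, ?_⟩)
    simpa only [fun v => (f2 v).tsum_eq] using hG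
  rw [(s.hasSum.sigma f1).tsum_eq]
  exact s.hasSum

theorem pow_mul_exp_le {Y : ℝ} (hY : 0 < Y) (k : ℕ) {x : ℝ} (hx : 0 ≤ x) :
    x ^ k * Real.exp (-Y * x) ≤ k.factorial / Y ^ k := by
  have h := Real.pow_div_factorial_le_exp (Y * x) (by positivity) k
  have hk : (0 : ℝ) < k.factorial := by exact_mod_cast k.factorial_pos
  rw [div_le_iff₀ hk, mul_pow] at h
  rw [le_div_iff₀ (by positivity), neg_mul, Real.exp_neg]
  have := Real.exp_pos (Y * x)
  calc _ = Y ^ k * x ^ k / Real.exp (Y * x) := by field_simp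
    _ ≤ _ := by rw [div_le_iff₀ this, mul_comm (k.factorial : ℝ)]; exact h

theorem integrableOn_prof {Y : ℝ} (hY : 0 < Y) : IntegrableOn
    (fun y : ℝ => (y + y ^ (-(4 : ℝ)) + 1) * Real.exp (-Y / y) * (y ^ 3)⁻¹) (Set.Ioi 0) := by
  obtain ⟨K, hK⟩ : ∃ K : ℝ, ∀ x : ℝ, 0 ≤ x →
      (x ^ 0 + x ^ 1 + x ^ 2 + x ^ 3 + x ^ 5 + x ^ 7) * Real.exp (-Y * x) ≤ K :=
    ⟨_, fun x hx => by
      simp only [add_mul]
      exact add_le_add (add_le_add (add_le_add (add_le_add (add_le_add (pow_mul_exp_le hY 0 hx)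
        (pow_mul_exp_le hY 1 hx)) (pow_mul_exp_le hY 2 hx)) (pow_mul_exp_le hY 3 hx))
        (pow_mul_exp_le hY 5 hx)) (pow_mul_exp_le hY 7 hx)⟩
  refine Integrable.mono' (integrable_inv_one_add_sq.const_mul K).integrableOn
    (Measurable.aestronglyMeasurable (by fun_prop)) ?_
  refine (ae_restrict_iff' measurableSet_Ioi).2 (Eventually.of_forall fun y (hy0 : 0 < y) => ?_)
  rw [Real.norm_of_nonneg (by positivity), ← div_eq_mul_inv K, le_div_iff₀ (by positivity)]
  refine le_trans (le_of_eq ?_) (hK y⁻¹ (by positivity))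
  rw [Real.rpow_neg hy0.le, show (4 : ℝ) = (4 : ℕ) by norm_num, Real.rpow_natCast,
    div_eq_mul_inv (-Y)]
  field_simp
  ring

theorem lintegral_lt_top {g : ℝ → ℝ} (hg : Measurable g) (h0 : ∀ y, 0 < y → 0 ≤ g y)
    (hi : IntegrableOn (fun y => g y * (y ^ 3)⁻¹) (Set.Ioi 0)) (N : ℕ) :
    ∫⁻ w : H, ENNReal.ofReal (wt N w.1) * ENNReal.ofReal (g (hy w)) ∂μH < ∞ := by
  rw [lintegral_μH (f := fun w : H => ENNReal.ofReal (wt N w.1) * ENNReal.ofReal (g (hy w)))
    (((measurable_wt N).comp measurable_fst).ennreal_ofReal.mul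
    (hg.comp continuous_hy.measurable).ennreal_ofReal)]
  have e : ∀ y ∈ Set.Ioi (0 : ℝ), (∫⁻ z : ℂ, ENNReal.ofReal (wt N (hp z y).1) *
      ENNReal.ofReal (g (hy (hp z y)))) * ENNReal.ofReal (y ^ 3)⁻¹ =
      (∫⁻ z : ℂ, ENNReal.ofReal (wt N z)) * ENNReal.ofReal (g y * (y ^ 3)⁻¹) := fun y hy0 => by
    simp only [hp_fst, hy_hp _ hy0]
    rw [lintegral_mul_const _ (measurable_wt N).ennreal_ofReal, mul_assoc,
      ENNReal.ofReal_mul (h0 y hy0)]
  rw [setLIntegral_congr_fun measurableSet_Ioi e,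
    lintegral_const_mul' _ _ (integrable_wt N).lintegral_lt_top.ne]
  exact ENNReal.mul_lt_top (integrable_wt N).lintegral_lt_top hi.lintegral_lt_top

end EisA

end Crest.Agent.R17
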