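import Crest.Agent.PVc.R17.ThetaUnf
import Crest.Agent.PVc.R17.ThetaEisAuxA_Mg
import Crest.Agent.PVc.R17.ThetaDens
import Crest.Agent.PVc.R17.LBasicAuxA

-- ▼ part PVc/R17/ThetaEis
section

/-!
# Row 17, theta module D: the incomplete Eisenstein series
`θ_Y(w) = Y^{4/3} ∑_v ξ(v) exp(-Y Q_w(v))`, its automorphy and its Fourier expansion
-/

set_option autoImplicit false

noncomputable section

namespace Crest.Agent.R17

open scoped ComplexConjugate ENNReal Topology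
open MeasureTheory Filter

/-- The series. -/
def thY (ξ : O → O → ℂ) (Y : ℝ) (w : H) : ℂ :=
  ((Y ^ (4 / 3 : ℝ) : ℝ) : ℂ) * ∑' v : O × O, ξ v.1 v.2 * (Real.exp (-Y * Qo w v.1 v.2) : ℂ)

open Classical in
/-- The Gauss sums in its Fourier expansion. -/
def Gx (ξ : O → O → ℂ) (r c : O) : ℂ :=
  if c = 0 then 0 else ∑ d ∈ res (9 * c), ξ c d * eq (r * d) (9 * c)

/-- Constants. -/
def k1 : ℝ := 2 * Real.pi / (81 * Real.sqrt 3)
def b1 : ℝ := 4 * Real.pi ^ 2 / 243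

theorem k1_pos : 0 < k1 := by unfold k1; positivity
theorem b1_pos : 0 < b1 := by unfold b1; positivity

open Classical in
/-- The Fourier coefficient of `thY ξ Y` at the frequency `r / 9` and height `y`. -/
def Acoef (ξ : O → O → ℂ) (Y : ℝ) (r : O) (y : ℝ) : ℂ :=
  (if r = 0 then (∑' d : O, ξ 0 d) * ((Y ^ (4 / 3 : ℝ) * Real.exp (-Y / y) : ℝ) : ℂ) else 0) +
    (k1 : ℂ) * Sk (Gx ξ r) (Fk y (b1 * nr r)) Y

/-- The seed of the Poincaré series. -/
def seed (N : ℕ) (Y : ℝ) (w : H) : ℂ :=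
  ((wt N w.1 * (Y ^ (4 / 3 : ℝ) * Real.exp (-Y / hy w)) : ℝ) : ℂ)

theorem d2_norm_Gx_le {ξ : O → O → ℂ} (h : XiOK ξ) (r c : O) : ‖Gx ξ r c‖ ≤ 81 * nr c := by
  unfold Gx
  split_ifs with hc
  · rw [norm_zero]
    positivity
  · rw [← d2_nr_nine_mul]
    exact d2_norm_ft_le (mul_ne_zero (by decide) hc) (h.1 c) r

theorem polyG_Gx {ξ : O → O → ℂ} (h : XiOK ξ) (r : O) : PolyG (Gx ξ r) :=
  ⟨81, 1, zero_le_one, by simp [Gx], fun c => by
    rw [Real.rpow_one]; exact d2_norm_Gx_le h r c⟩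

theorem norm_tsum_xi_zero_le {ξ : O → O → ℂ} (h : XiOK ξ) : ‖∑' d : O, ξ 0 d‖ ≤ 6 := by
  have h1 := EisA.tsum_zero_le h (f := fun _ => 1) (fun _ => zero_le_one) fun _ => le_rfl
  simp only [mul_one] at h1
  exact (norm_tsum_le_tsum_norm (summable_of_ne_finset_zero (s := EisA.U6) fun d hd => by
    rw [EisA.xi_zero_eq h hd, norm_zero])).trans h1
theorem tsum_xi_zero : ∑' d : O, xi 0 d = 1 := by
  rw [tsum_eq_single 1 fun d hd => ?_]
  · simp [xi, primary_one, cub]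
  · by_contra h
    have h1 : IsCoprime 0 d := by
      by_contra h1
      exact h ((xis_one ▸ xiOK_xis 1).2.1 0 d h1)
    have h2 : Primary d := by
      by_contra h2
      exact h (by simp [xi, h2])
    exact hd (h2.eq_one_of_isUnit (isCoprime_zero_left.1 h1))
theorem continuous_thY {ξ : O → O → ℂ} (h : XiOK ξ) {Y : ℝ} (hY : 0 < Y) :
    Continuous (thY ξ Y) := continuous_const.mul (EisA.continuous_tsum h hY)
/-- Crude bound, uniform in `z`. -/
theorem norm_thY_le {Y : ℝ} (hY : 0 < Y) : ∃ C : ℝ, ∀ ξ : O → O → ℂ, XiOK ξ → ∀ w : H,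
    ‖thY ξ Y w‖ ≤ C * (1 + (hy w)⁻¹) := by
  refine ⟨Y ^ (4 / 3 : ℝ) * (6 + 7 * EisA.a0 ^ 2 / Y ^ 2 + 49 * EisA.a0 / Y), fun ξ h w => ?_⟩
  have e : ∀ v : O × O, ‖ξ v.1 v.2 * (Real.exp (-Y * Qo w v.1 v.2) : ℂ)‖ =
      ‖ξ v.1 v.2‖ * Real.exp (-Y * Qo w v.1 v.2) := fun v => by
    rw [norm_mul, Complex.norm_real, Real.norm_of_nonneg (Real.exp_pos _).le]
  rw [thY, norm_mul, Complex.norm_real, Real.norm_of_nonneg (by positivity), mul_assoc]
  refine mul_le_mul_of_nonneg_left ((norm_tsum_le_tsum_norm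
    (by simpa only [e] using EisA.summable_norm h hY w)).trans ?_) (by positivity)
  simp only [e]
  refine (EisA.tsum_norm_le h hY w).trans ?_
  have := EisA.a0_pos
  have := hy_pos w
  have h1 : 0 ≤ 49 * EisA.a0 / Y := by positivity
  have h2 : 0 ≤ (6 + 7 * EisA.a0 ^ 2 / Y ^ 2) * (hy w)⁻¹ := by positivity
  nlinarith
theorem thY_smul {Y : ℝ} (σ : SL2) (w : H) : thY xi Y (σ • w) = thY (xis σ) Y w := by
  rw [thY, thY]
  congr 1
  refine Eq.trans ?_ ((EisA.rowE σ).tsum_eq _)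
  refine tsum_congr fun v => ?_
  rw [Qo_smul, ← xis_row σ]
  rfl
theorem thY_aut {Y : ℝ} {γ : SL2} (h : γ ∈ Gam) (w : H) :
    thY xi Y (γ • w) = kap γ * thY xi Y w := by
  have e : ∀ c d, xis γ c d = kap γ * xi c d := fun c d => by
    rw [← xis_one, ← xis_mul h, mul_one]
  rw [thY_smul, thY, thY]
  simp only [e, mul_assoc, tsum_mul_left]
  ring
theorem measurable_seed (N : ℕ) (Y : ℝ) : Measurable (seed N Y) := by
  have h1 := measurable_wt N
  have h2 := continuous_hy.measurable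
  unfold seed
  fun_prop
/-- `θ_Y` as a Poincaré series. -/
theorem thY_eq_tsum {N : ℕ} (hN : N ≠ 0) {Y : ℝ} (hY : 0 < Y) (w : H) :
    (Summable fun γ : Gam => conj (kap γ) * seed N Y (γ • w)) ∧
      thY xi Y w = ∑' γ : Gam, conj (kap γ) * seed N Y (γ • w) := by
  have h := EisA.hasSum_fold hN w (G := fun v => ((Y ^ (4 / 3 : ℝ) : ℝ) : ℂ) *
      (xi v.1 v.2 * (Real.exp (-Y * Qo w v.1 v.2) : ℂ)))
    (by
      simp only [norm_mul, Complex.norm_real, Real.norm_of_nonneg (Real.exp_pos _).le]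
      exact (EisA.summable_norm (xis_one ▸ xiOK_xis 1) hY w).mul_left _)
    fun v hv => by simp only [hv, zero_mul, mul_zero]
  have e : ∀ γ : Gam, conj (kap γ) * seed N Y (γ • w) = (wt N (γ • w).1 : ℂ) *
      (((Y ^ (4 / 3 : ℝ) : ℝ) : ℂ) * (xi (EisA.row γ).1 (EisA.row γ).2 *
        (Real.exp (-Y * Qo w (EisA.row γ).1 (EisA.row γ).2) : ℂ))) := fun γ => by
    have h1 : hy (γ • w) = _ := hy_smul γ w
    rw [seed, h1, div_inv_eq_mul, ← xi_row γ.2, EisA.row]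
    push_cast
    ring
  simp only [e]
  exact ⟨h.summable, by rw [h.tsum_eq, thY, tsum_mul_left]⟩
/-- A function of moderate growth is integrable against the seed. -/
theorem integrable_mul_seed {F : H → ℂ} (hF : Measurable F) {C : ℝ}
    (hb : ∀ w, ‖F w‖ ≤ C * (hy w + hy w ^ (-(4 : ℝ)) + 1)) (N : ℕ) {Y : ℝ} (hY : 0 < Y) :
    Integrable (fun w => F w * conj (seed N Y w)) μH := by
  refine ⟨(hF.mul (Complex.continuous_conj.measurable.comp
    (measurable_seed N Y))).aestronglyMeasurable, ?_⟩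
  refine lt_of_le_of_lt (lintegral_mono fun w => ?_) (EisA.lintegral_lt_top
    (g := fun y => |C| * Y ^ (4 / 3 : ℝ) * ((y + y ^ (-(4 : ℝ)) + 1) * Real.exp (-Y / y)))
    (by fun_prop) (fun y hy0 => by positivity)
    (by simpa only [mul_assoc, IntegrableOn] using
      (EisA.integrableOn_prof hY).const_mul (|C| * Y ^ (4 / 3 : ℝ))) N)
  have p := hy_pos w
  have q := wt_nonneg N w.1
  rw [← ENNReal.ofReal_mul q, ← ofReal_norm]
  refine ENNReal.ofReal_le_ofReal ?_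
  rw [norm_mul, Complex.norm_conj, seed, Complex.norm_real, Real.norm_of_nonneg (by positivity)]
  have h1 : ‖F w‖ ≤ |C| * (hy w + hy w ^ (-(4 : ℝ)) + 1) :=
    (hb w).trans (mul_le_mul_of_nonneg_right (le_abs_self C) (by positivity))
  exact (mul_le_mul_of_nonneg_right h1 (by positivity)).trans_eq (by ring)

theorem d2_k1_Fk {Y y : ℝ} (hY : 0 < Y) (r c : O) :
    k1 * Fk y (b1 * nr r) (Y * nr c) = gw (Real.sqrt 3 / (2 * Real.pi) * (Y * y) * nr c) *
      (k1 * y / Y / nr c * gw (k1 * y / Y / nr c * nr r)) := by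
  rcases eq_or_ne c 0 with rfl | hc
  · simp [Fk]
  have hc0 := nr_pos hc
  have h3 : 0 < Real.sqrt 3 := Real.sqrt_pos.2 (by norm_num)
  have h33 : Real.sqrt 3 ^ 2 = 3 := Real.sq_sqrt (by norm_num)
  have hpi := Real.pi_pos
  have e : -y * (Y * nr c + b1 * nr r / (Y * nr c)) =
      -(2 * Real.pi / Real.sqrt 3) * (Real.sqrt 3 / (2 * Real.pi) * (Y * y) * nr c) +
        -(2 * Real.pi / Real.sqrt 3) * (k1 * y / Y / nr c * nr r) := by
    have e1 : 2 * Real.pi / Real.sqrt 3 * k1 = b1 := by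
      unfold k1 b1
      field_simp
      rw [h33]
      norm_num
    rw [← e1]
    field_simp
    ring
  unfold Fk gw
  rw [e, Real.exp_add]
  field_simp

theorem d2_exp_Qo {Y y : ℝ} (hY : 0 < Y) (hy0 : 0 < y) (z : ℂ) (c d : O) :
    Real.exp (-Y * Qo (hp z y) c d) = gw (Real.sqrt 3 / (2 * Real.pi) * (Y * y) * nr c) *
      gw (‖ι d + ι c * z‖ ^ 2 / (81 * (k1 * y / Y))) := by
  have h3 : 0 < Real.sqrt 3 := Real.sqrt_pos.2 (by norm_num)
  have hpi := Real.pi_pos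
  rw [Qo, Qf_hp z hy0, norm_ι_sq, ← gw_add, gw, add_comm (ι d)]
  congr 1
  unfold k1
  field_simp
  ring

open Classical in
/-- The inner sum for a fixed `c`. -/
theorem d2_inner {ξ : O → O → ℂ} (h : XiOK ξ) {Y y : ℝ} (hY : 0 < Y) (hy0 : 0 < y) (z : ℂ) (c : O) :
    ∑' d : O, ξ c d * (Real.exp (-Y * Qo (hp z y) c d) : ℂ) =
      (if c = 0 then (∑' d : O, ξ 0 d) * (Real.exp (-Y / y) : ℂ) else 0) +
        ∑' r : O, (k1 : ℂ) * (Gx ξ r c * (Fk y (b1 * nr r) (Y * nr c) : ℂ)) * eC (ι r * z / 9) := by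
  split_ifs with hc
  · subst hc
    simp only [Gx, if_true, zero_mul, mul_zero, tsum_zero, add_zero]
    rw [← tsum_mul_right]
    refine tsum_congr fun d => ?_
    by_cases hd : IsCoprime (0 : O) d
    · have h1 : nm d = 1 := isUnit_iff_nm.1 (isCoprime_zero_left.1 hd)
      rw [Qo, map_zero, Qf_zero_left, norm_ι_sq, hy_hp z hy0, nr, h1]
      congr 3
      push_cast
      ring
    · rw [h.2.1 0 d hd, zero_mul, zero_mul]
  · have hk := k1_pos
    have hc0 := nr_pos hc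
    have hιc : ι c ≠ 0 := fun h0 => hc (ι_injective (by rw [h0, map_zero]))
    have H := d2_poisson (q := 9 * c) (mul_ne_zero (by decide) hc) (ξ c) (h.2.2 c) (h.1 c)
      (X := 81 * (k1 * y / Y)) (by positivity) (ι c * z)
    have e1 : 81 * (k1 * y / Y) / nr (9 * c) = k1 * y / Y / nr c := by
      rw [d2_nr_nine_mul]
      field_simp
    rw [e1] at H
    simp only [d2_exp_Qo hY hy0, Complex.ofReal_mul, mul_left_comm (ξ c _)]
    rw [tsum_mul_left, H, zero_add, ← tsum_mul_left]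
    refine tsum_congr fun r => ?_
    have e2 : ι r * (ι c * z) / ι (9 * c) = ι r * z / 9 := by
      rw [map_mul, map_ofNat]
      field_simp
    have e3 : Gx ξ r c = ft (9 * c) (ξ c) r := by
      rw [Gx, if_neg hc, ft]
    have e4 := congrArg (fun t : ℝ => (t : ℂ)) (d2_k1_Fk (y := y) hY r c)
    simp only [Complex.ofReal_mul] at e4
    rw [e2, e3, mul_left_comm (k1 : ℂ), e4]
    simp only [Complex.ofReal_mul]
    ring

theorem d2_summable_terms {ξ : O → O → ℂ} (h : XiOK ξ) {Y y : ℝ} (hY : 0 < Y) (hy0 : 0 < y) :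
    Summable fun v : O × O =>
      ‖(k1 : ℂ) * (Gx ξ v.2 v.1 * (Fk y (b1 * nr v.2) (Y * nr v.1) : ℂ))‖ := by
  have hk := k1_pos
  have h3 : 0 < Real.sqrt 3 := Real.sqrt_pos.2 (by norm_num)
  have hpi := Real.pi_pos
  refine ((d2_summable_dual (K := k1 * y / Y) (T := Real.sqrt 3 / (2 * Real.pi) * (Y * y))
    (by positivity) (by positivity)).mul_left 81).of_nonneg_of_le (fun _ => norm_nonneg _)
    fun v => ?_
  rw [mul_left_comm, ← Complex.ofReal_mul, d2_k1_Fk hY, norm_mul, Complex.norm_real, ← mul_assoc 81]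
  have h1 := gw_pos (Real.sqrt 3 / (2 * Real.pi) * (Y * y) * nr v.1)
  have h2 := gw_pos (k1 * y / Y / nr v.1 * nr v.2)
  rw [Real.norm_of_nonneg (by positivity)]
  exact mul_le_mul_of_nonneg_right (d2_norm_Gx_le h _ _) (by positivity)

/-- Fourier expansion (Poisson summation `poisson_shift` in each class `d mod 9c`). -/
theorem thY_fourier {ξ : O → O → ℂ} (h : XiOK ξ) {Y y : ℝ} (hY : 0 < Y) (hy0 : 0 < y) :
    (Summable fun r => ‖Acoef ξ Y r y‖) ∧
      ∀ z : ℂ, thY ξ Y (hp z y) = ∑' r : O, Acoef ξ Y r y * eC (ι r * z / 9) := by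
  classical
  have hk := k1_pos
  have h3 : 0 < Real.sqrt 3 := Real.sqrt_pos.2 (by norm_num)
  have hpi := Real.pi_pos
  have hS := d2_summable_terms h hY hy0
  set a : ℂ := (∑' d : O, ξ 0 d) * (Real.exp (-Y / y) : ℂ) with ha
  set P : ℂ := ((Y ^ (4 / 3 : ℝ) : ℝ) : ℂ) with hP
  have hA : ∀ r, Acoef ξ Y r y = P * ((if r = 0 then a else 0) +
      ∑' c : O, (k1 : ℂ) * (Gx ξ r c * (Fk y (b1 * nr r) (Y * nr c) : ℂ))) := by
    intro r
    rw [Acoef, Sk, tsum_mul_left, ha, hP]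
    split_ifs
    · push_cast
      ring
    · ring
  have hite : ∀ b : ℂ, HasSum (fun r : O => if r = 0 then b else 0) b := fun b => hasSum_ite_eq 0 b
  constructor
  · simp only [hA]
    exact (((hite a).summable.add hS.of_norm.prod_symm.prod).mul_left P).norm
  · intro z
    have hS1 : Summable fun v : O × O =>
        ξ v.1 v.2 * (Real.exp (-Y * Qo (hp z y) v.1 v.2) : ℂ) := by
      refine Summable.of_norm_bounded (d2_summable_pair (X := 81 * (k1 * y / Y))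
        (T := Real.sqrt 3 / (2 * Real.pi) * (Y * y)) (by positivity) (by positivity)
        fun c => ι c * z) fun v => ?_
      rw [norm_mul, Complex.norm_real, Real.norm_of_nonneg (Real.exp_pos _).le, d2_exp_Qo hY hy0]
      exact mul_le_of_le_one_left (mul_pos (gw_pos _) (gw_pos _)).le (h.1 _ _)
    have hS2 : Summable fun v : O × O =>
        (k1 : ℂ) * (Gx ξ v.2 v.1 * (Fk y (b1 * nr v.2) (Y * nr v.1) : ℂ)) * eC (ι v.2 * z / 9) := by
      refine Summable.of_norm_bounded hS fun v => ?_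
      rw [norm_mul, norm_eC, mul_one]
    have hcomm := Summable.tsum_comm (f := fun c r : O =>
      (k1 : ℂ) * (Gx ξ r c * (Fk y (b1 * nr r) (Y * nr c) : ℂ)) * eC (ι r * z / 9)) hS2
    rw [thY, hS1.tsum_prod]
    simp only [d2_inner h hY hy0 z, hA, mul_assoc P]
    rw [tsum_mul_left, (hite a).summable.tsum_add hS2.prod, (hite a).tsum_eq, ← hcomm]
    congr 1
    have e1 : ∀ r : O, ((if r = 0 then a else 0) +
        ∑' c : O, (k1 : ℂ) * (Gx ξ r c * (Fk y (b1 * nr r) (Y * nr c) : ℂ))) * eC (ι r * z / 9) =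
        (if r = 0 then a else 0) + ∑' c : O,
          (k1 : ℂ) * (Gx ξ r c * (Fk y (b1 * nr r) (Y * nr c) : ℂ)) * eC (ι r * z / 9) := by
      intro r
      rw [add_mul, tsum_mul_right]
      split_ifs with hr
      · subst hr
        simp
      · simp
    simp only [e1]
    have hS3 : Summable fun r : O => ∑' c : O,
        (k1 : ℂ) * (Gx ξ r c * (Fk y (b1 * nr r) (Y * nr c) : ℂ)) * eC (ι r * z / 9) :=
      hS2.prod_symm.prod
    rw [(hite a).summable.tsum_add hS3, (hite a).tsum_eq]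

theorem measurable_Acoef (ξ : O → O → ℂ) (Y : ℝ) (r : O) : Measurable (Acoef ξ Y r) := by
  unfold Acoef
  refine Measurable.add ?_ ((measurable_Sk_Fk _ _ _).const_mul _)
  split_ifs
  · fun_prop
  · exact measurable_const

end Crest.Agent.R17
end
end

-- ▼ part PVc/R17/ThetaArithAuxE2
section

/-!
# Row 17, theta module E (auxiliary file): evaluation of the constant-term sums
-/

set_option autoImplicit false

noncomputable section

namespace Crest.Agent.R17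
namespace E2

open scoped ComplexConjugate ENNReal Topology
open MeasureTheory Filter

/-- `φ(n) / N(n)` (the same as `phiN`). -/
def phi (n : O) : ℝ := ∏ p ∈ pf n, (1 - (nr p)⁻¹)

theorem phi_nonneg (n : O) : 0 ≤ phi n := by
  refine Finset.prod_nonneg fun p hp => ?_
  have h := one_le_nr (BasicB.of_mem_pf hp).1.ne_zero
  have := inv_le_one_of_one_le₀ h
  linarith

theorem phi_le_one (n : O) : phi n ≤ 1 := by
  refine Finset.prod_le_one (fun p hp => ?_) fun p hp => ?_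
  · have h := one_le_nr (BasicB.of_mem_pf hp).1.ne_zero
    have := inv_le_one_of_one_le₀ h
    linarith
  · have : 0 ≤ (nr p)⁻¹ := by positivity
    linarith

theorem phi_cube (m : O) : phi (m ^ 3) = phi m := by
  unfold phi; rw [pf_pow (by norm_num)]

/-- product of two periodic functions with coprime periods -/
theorem sum_res_mul_mul {m n : O} (hm : m ≠ 0) (hn : n ≠ 0) (h : IsCoprime m n) (g f : O → ℂ)
    (hg : ∀ x y, m ∣ x - y → g x = g y) (hf : ∀ x y, n ∣ x - y → f x = f y) :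
    ∑ x ∈ res (m * n), g x * f x = (∑ x ∈ res m, g x) * ∑ y ∈ res n, f y := by
  rw [sum_res_crt hm hn h (fun x => g x * f x) (fun x y hxy => by
    rw [hg x y ((dvd_mul_right m n).trans hxy), hf x y ((dvd_mul_left n m).trans hxy)])]
  rw [← sum_res_affine hm g hg h.symm 0, ← sum_res_affine hn f hf h 0, Finset.sum_mul_sum]
  refine Finset.sum_congr rfl fun x _ => Finset.sum_congr rfl fun y _ => ?_
  rw [hg (n * x + m * y) (n * x + 0) ⟨y, by ring⟩, hf (n * x + m * y) (m * y + 0) ⟨x, by ring⟩]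

/-- a function with a smaller period -/
theorem sum_res_of_period {m n : O} (hm : m ≠ 0) (hn : n ≠ 0) (g : O → ℂ)
    (hg : ∀ x y, m ∣ x - y → g x = g y) :
    ∑ x ∈ res (m * n), g x = (nm n : ℂ) * ∑ x ∈ res m, g x := by
  rw [sum_res_mul hm hn g (fun x y hxy => hg x y ((dvd_mul_right m n).trans hxy)), Finset.mul_sum]
  refine Finset.sum_congr rfl fun x _ => ?_
  rw [Finset.sum_congr rfl (fun y _ => hg (x + m * y) x ⟨y, by ring⟩), Finset.sum_const,
    card_res hn, nsmul_eq_mul]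

theorem isCoprime_congr {n x y : O} (h : n ∣ x - y) : IsCoprime n x ↔ IsCoprime n y := by
  obtain ⟨t, ht⟩ := h
  have : x = y + n * t := by rw [← ht]; ring
  rw [this, IsCoprime.add_mul_left_right_iff]

theorem primary_congr {x y : O} (h : (3 : O) ∣ x - y) : Primary x ↔ Primary y := by
  constructor
  · intro hx
    have : y - 1 = (x - 1) - (x - y) := by ring
    change (3 : O) ∣ y - 1
    rw [this]; exact dvd_sub hx h
  · intro hy
    have : x - 1 = (y - 1) + (x - y) := by ring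
    change (3 : O) ∣ x - 1
    rw [this]; exact dvd_add hy h

open Classical in
/-- indicator of the coprime classes -/
def ind (n x : O) : ℂ := if IsCoprime n x then 1 else 0

theorem ind_per (n x y : O) (h : n ∣ x - y) : ind n x = ind n y := by
  unfold ind; rw [isCoprime_congr h]

theorem sum_ind_prime {p : O} (hp : Prime p) : ∑ x ∈ res p, ind p x = (nm p : ℂ) - 1 := by
  classical
  have h1 := Gauss_delta (f := fun _ => (1 : ℂ)) hp.ne_zero (fun _ _ _ => rfl) 0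
  have h2 : ∀ x, ind p x = 1 - (if p ∣ 0 - x then (1 : ℂ) else 0) := by
    intro x
    unfold ind
    rw [zero_sub, dvd_neg]
    by_cases h : p ∣ x
    · rw [if_neg (fun hc => hp.not_isUnit (hc.isUnit_of_dvd' dvd_rfl h)), if_pos h]; simp
    · rw [if_pos (hp.coprime_iff_not_dvd.2 h), if_neg h]; simp
  rw [Finset.sum_congr rfl (fun x _ => h2 x), Finset.sum_sub_distrib, Finset.sum_const,
    card_res hp.ne_zero]
  simp only [nsmul_eq_mul, mul_one]
  congr 1

theorem sum_ind {n : O} (hn : Primary n) : ∑ x ∈ res n, ind n x = ((nr n * phi n : ℝ) : ℂ) := by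
  classical
  refine Primary.induction (P := fun n => ∑ x ∈ res n, ind n x = ((nr n * phi n : ℝ) : ℂ))
    ?_ ?_ hn
  · have : ∀ x, ind 1 x = 1 := fun x => by unfold ind; rw [if_pos isCoprime_one_left]
    simp only [this, Finset.sum_const, card_res one_ne_zero]
    simp [phi]
  · intro p n hp hp' hn ih
    have hn0 := hn.ne_zero
    by_cases hd : p ∣ n
    · have h1 : ∀ x, ind (p * n) x = ind n x := by
        intro x
        unfold ind
        have : IsCoprime (p * n) x ↔ IsCoprime n x :=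
          ⟨fun h => h.of_mul_left_right, fun h => (h.of_isCoprime_of_dvd_left hd).mul_left h⟩
        rw [this]
      have h2 : phi (p * n) = phi n := by
        unfold phi
        rw [pf_mul hp.ne_zero hn0, pf_prime hp hp', Finset.union_eq_right.2]
        exact Finset.singleton_subset_iff.2 ((mem_pf hn0).2 ⟨hp, hp', hd⟩)
      simp only [h1]
      rw [mul_comm p n, sum_res_of_period hn0 hp.ne_zero _ (ind_per n), ih, mul_comm n p, h2,
        nr_mul]
      push_cast; ring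
    · have hc : IsCoprime p n := hp.coprime_iff_not_dvd.2 hd
      have h1 : ∀ x, ind (p * n) x = ind p x * ind n x := by
        intro x
        unfold ind
        rw [IsCoprime.mul_left_iff]
        by_cases a : IsCoprime p x <;> by_cases b : IsCoprime n x <;> simp [a, b]
      have h2 : phi (p * n) = (1 - (nr p)⁻¹) * phi n := by
        unfold phi
        rw [pf_mul hp.ne_zero hn0, pf_prime hp hp', ← Finset.insert_eq, Finset.prod_insert]
        exact fun h => hd (BasicB.of_mem_pf h).2.2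
      simp only [h1]
      rw [sum_res_mul_mul hp.ne_zero hn0 hc _ _ (ind_per p) (ind_per n), ih, sum_ind_prime hp, h2,
        nr_mul]
      have : ((nm p : ℕ) : ℂ) ≠ 0 := by
        have := nr_pos hp.ne_zero
        exact_mod_cast this.ne'
      push_cast
      field_simp

open Classical in
/-- indicator of the primary classes -/
def pri (x : O) : ℂ := if Primary x then 1 else 0

theorem pri_per (x y : O) (h : (3 : O) ∣ x - y) : pri x = pri y := by
  unfold pri; rw [primary_congr h]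

theorem three_ne : (3 : O) ≠ 0 := by
  intro h
  have := congrArg QuadraticAlgebra.re h
  revert this
  decide

theorem sum_pri {m : O} (hm : m ≠ 0) : ∑ x ∈ res (3 * m), pri x = (nm m : ℂ) := by
  classical
  rw [sum_res_of_period three_ne hm _ pri_per]
  have h1 := Gauss_delta (f := fun _ => (1 : ℂ)) three_ne (fun _ _ _ => rfl) 1
  have h2 : ∑ x ∈ res 3, pri x = 1 := by
    rw [← h1]
    refine Finset.sum_congr rfl fun x _ => ?_
    unfold pri
    have : Primary x ↔ (3 : O) ∣ 1 - x := by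
      rw [← dvd_neg, neg_sub]; rfl
    by_cases h : Primary x
    · rw [if_pos h, if_pos (this.1 h)]
    · rw [if_neg h, if_neg (fun h' => h (this.2 h'))]
  rw [h2, mul_one]

theorem nine_eq : (9 : O) = lam ^ 4 := by
  have : lam ^ 4 = (lam ^ 2) ^ 2 := by ring
  rw [this, lam_sq]; norm_num

theorem nine_dvd_iff {u n : O} (hu : IsUnit u) (j : ℕ) (hn : Primary n) :
    (9 : O) ∣ u * lam ^ j * n ↔ 4 ≤ j := by
  have h0 : u * lam ^ j * n ≠ 0 :=
    mul_ne_zero (mul_ne_zero hu.ne_zero (pow_ne_zero _ prime_lam.ne_zero)) hn.ne_zero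
  rw [nine_eq, pow_dvd_iff_le_vp prime_lam h0,
    vp_mul prime_lam (mul_ne_zero hu.ne_zero (pow_ne_zero _ prime_lam.ne_zero)) hn.ne_zero,
    vp_mul prime_lam hu.ne_zero (pow_ne_zero _ prime_lam.ne_zero), BasicB.vp_unit prime_lam hu,
    vp_pow prime_lam prime_lam.ne_zero, vp_self prime_lam,
    (vp_eq_zero_iff prime_lam hn.ne_zero).2 hn.not_lam_dvd]
  simp

theorem cop_lam {u d : O} (hu : IsUnit u) (j : ℕ) (hd : Primary d) :
    IsCoprime d (u * lam ^ j) := by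
  have h1 : IsCoprime d lam := (prime_lam.coprime_iff_not_dvd.2 hd.not_lam_dvd).symm
  have h2 : IsCoprime d u := by
    obtain ⟨v, rfl⟩ := hu
    exact ⟨0, (v⁻¹ : Oˣ), by simp⟩
  exact h2.mul_right h1.pow_right

theorem crt {a b : O} (h : IsCoprime a b) (x y : O) : ∃ d, a ∣ d - x ∧ b ∣ d - y := by
  obtain ⟨s, t, hst⟩ := h
  refine ⟨y * (s * a) + x * (t * b), ⟨(y - x) * s, ?_⟩, ⟨(x - y) * t, ?_⟩⟩
  · linear_combination x * hst
  · linear_combination y * hst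

/-- triviality of the character `d ↦ (c / d)₃` -/
theorem triv_iff {u n : O} (hu : IsUnit u) (j : ℕ) (hn : Primary n) :
    (∀ d, Primary d → IsCoprime d (u * lam ^ j * n) → cub d (u * lam ^ j * n) = 1) ↔
      (∀ d, Primary d → cub d (u * lam ^ j) = 1) ∧ ∃ m, Primary m ∧ n = m ^ 3 := by
  classical
  have h0 : u * lam ^ j ≠ 0 := mul_ne_zero hu.ne_zero (pow_ne_zero _ prime_lam.ne_zero)
  have hn0 := hn.ne_zero
  constructor
  · intro H
    have h1 : ∀ d, Primary d → cub d (u * lam ^ j) = 1 := by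
      intro d hd
      have hc : IsCoprime (9 * (u * lam ^ j)) n := by
        refine IsCoprime.mul_left ?_ (cop_lam hu j hn).symm
        have : (9 : O) = 3 ^ 2 := by norm_num
        rw [this]; exact hn.isCoprime_three.symm.pow_left
      obtain ⟨d', h1, h2⟩ := crt hc d 1
      have hd' : Primary d' :=
        (primary_congr (Dvd.dvd.trans ⟨3 * (u * lam ^ j), by ring⟩ h1)).2 hd
      have h3 : IsCoprime d' n := ((isCoprime_congr h2).2 isCoprime_one_right).symm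
      have h4 := H d' hd' ((cop_lam hu j hd').mul_right h3)
      rw [cub_mul_right, cub_recip hd' hn, cub_congr ((rad_dvd n).trans h2), cub_one_right, mul_one,
        cub_periodic h0 hd' hd h1] at h4
      exact h4
    refine ⟨h1, ∏ p ∈ pf n, p ^ (vp p n / 3),
      BasicB.primary_prod_pow (fun q hq => BasicB.pf_sub hq) _, ?_⟩
    have h2 : ∀ p ∈ pf n, vp p n % 3 = 0 := by
      intro p hp
      obtain ⟨hp1, hp2, -⟩ := BasicB.of_mem_pf hp
      obtain ⟨a, ha, ha1⟩ := Symbol_exists_cub_ne hp1 hp2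
      have hc : IsCoprime p (3 * ∏ q ∈ (pf n).erase p, q) := by
        refine hp2.isCoprime_three.mul_right (IsCoprime.prod_right fun q hq => ?_)
        obtain ⟨hq1, hq2⟩ := Finset.mem_erase.1 hq
        obtain ⟨hq3, hq4, -⟩ := BasicB.of_mem_pf hq2
        exact hp1.coprime_iff_not_dvd.2 fun h => hq1 (BasicB.eq_of_dvd hp1 hq3 hp2 hq4 h).symm
      obtain ⟨d, e1, e2⟩ := crt hc a 1
      have hd : Primary d := (dvd_mul_right _ _).trans e2
      have e3 : ∀ q ∈ (pf n).erase p, q ∣ d - 1 := fun q hq =>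
        ((Finset.dvd_prod_of_mem _ hq).trans (dvd_mul_left _ _)).trans e2
      have hpa : IsCoprime p a := ha.symm
      have hcd : IsCoprime n d := by
        by_contra hh
        obtain ⟨q, hq, hqd⟩ := (SymbolAux.not_coprime_iff hn).1 hh
        have hq1 := (BasicB.of_mem_pf hq).1
        by_cases hqp : q = p
        · subst hqp
          exact hq1.not_isUnit (((isCoprime_congr e1).2 hpa).isUnit_of_dvd' dvd_rfl hqd)
        · have := e3 q (Finset.mem_erase.2 ⟨hqp, hq⟩)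
          exact hq1.not_isUnit
            (((isCoprime_congr this).2 isCoprime_one_right).isUnit_of_dvd' dvd_rfl hqd)
      have h4 := H d hd ((cop_lam hu j hd).mul_right hcd.symm)
      rw [cub_mul_right, h1 d hd, one_mul, cub_recip hd hn] at h4
      have h5 : cub n d = ∏ q ∈ pf n, cub1 q d ^ vp q n := rfl
      rw [h5, ← Finset.mul_prod_erase _ _ hp, Finset.prod_eq_one (fun q hq => by
        obtain ⟨hq3, hq4, -⟩ := BasicB.of_mem_pf (Finset.mem_erase.1 hq).2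
        rw [SymbolAux.cub1_congr (e3 q hq), SymbolAux.cub1_one hq3 hq4, one_pow]), mul_one,
        SymbolAux.cub1_congr e1, ← cub_prime hp1 hp2] at h4
      have h6 : cub p a ^ 3 = 1 := cub_pow_three hp2 hpa
      have h7 : cub p a ^ (vp p n % 3) = 1 := by
        rw [← Nat.mod_add_div (vp p n) 3, pow_add, pow_mul, h6, one_pow, mul_one] at h4
        exact h4
      have h8 : vp p n % 3 < 3 := Nat.mod_lt _ (by norm_num)
      generalize vp p n % 3 = r at h7 h8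
      interval_cases r
      · rfl
      · exact absurd (by simpa using h7) ha1
      · exfalso
        apply ha1
        calc cub p a = cub p a ^ 2 * cub p a := by rw [h7, one_mul]
          _ = 1 := by rw [← pow_succ, h6]
    have h3 := BasicB.eq_mod_mul_div hn 3
    rw [Finset.prod_eq_one (fun p hp => by rw [h2 p hp, pow_zero]), one_mul] at h3
    exact h3
  · rintro ⟨h1, m, hm, rfl⟩ d hd hc
    rw [cub_mul_right, h1 d hd, one_mul, cub_pow_right]
    exact cub_pow_three hd ((IsCoprime.pow_right_iff (by norm_num)).1 hc.of_mul_right_right)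

open Classical in
theorem Gx_xi_zero {u n : O} (hu : IsUnit u) (j : ℕ) (hn : Primary n) :
    Gx xi 0 (u * lam ^ j * n) =
      if 4 ≤ j ∧ (∀ d, Primary d → cub d (u * lam ^ j) = 1) ∧ ∃ m, Primary m ∧ n = m ^ 3
      then ((9 * nr (u * lam ^ j * n) * phi n : ℝ) : ℂ) else 0 := by
  have h0 : u * lam ^ j ≠ 0 := mul_ne_zero hu.ne_zero (pow_ne_zero _ prime_lam.ne_zero)
  have hn0 := hn.ne_zero
  set c := u * lam ^ j * n with hc
  have hc0 : c ≠ 0 := mul_ne_zero h0 hn0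
  have h9 : (9 : O) ≠ 0 := by rw [nine_eq]; exact pow_ne_zero _ prime_lam.ne_zero
  have hG : Gx xi 0 c = ∑ d ∈ res (9 * c), xi c d := by
    have : Gx xi 0 c = if c = 0 then 0 else ∑ d ∈ res (9 * c), xi c d * eq (0 * d) (9 * c) := rfl
    rw [this, if_neg hc0]
    exact Finset.sum_congr rfl fun d _ => by rw [zero_mul, eq_zero_left, mul_one]
  have hxi : ∀ d, xi c d = if (9 : O) ∣ c ∧ Primary d then conj (cub d c) else 0 := fun d => rfl
  rw [hG]
  by_cases hj : 4 ≤ j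
  swap
  · rw [if_neg (fun h => hj h.1)]
    refine Finset.sum_eq_zero fun d _ => ?_
    rw [hxi, if_neg (fun h => hj ((nine_dvd_iff hu j hn).1 h.1))]
  have h9c : (9 : O) ∣ c := (nine_dvd_iff hu j hn).2 hj
  have hxi' : ∀ d, xi c d = if Primary d then conj (cub d c) else 0 := by
    intro d
    rw [hxi]
    by_cases hd : Primary d
    · rw [if_pos ⟨h9c, hd⟩, if_pos hd]
    · rw [if_neg (fun h => hd h.2), if_neg hd]
  by_cases H : ∀ d, Primary d → IsCoprime d c → cub d c = 1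
  · rw [if_pos ⟨hj, (triv_iff hu j hn).1 H⟩]
    have h1 : ∀ d, xi c d = pri d * ind n d := by
      intro d
      rw [hxi']
      unfold pri ind
      by_cases hd : Primary d
      · rw [if_pos hd, if_pos hd, one_mul]
        by_cases hcd : IsCoprime n d
        · rw [if_pos hcd, H d hd ((cop_lam hu j hd).mul_right hcd.symm), map_one]
        · rw [if_neg hcd, (cub_eq_zero_iff hd).2 (fun h => hcd h.of_mul_right_right.symm), map_zero]
      · rw [if_neg hd, if_neg hd, zero_mul]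
    have h2 : 9 * c = (3 * (3 * (u * lam ^ j))) * n := by rw [hc]; ring
    have h3 : IsCoprime (3 * (3 * (u * lam ^ j))) n :=
      hn.isCoprime_three.symm.mul_left
        (hn.isCoprime_three.symm.mul_left (cop_lam hu j hn).symm)
    simp only [h1]
    rw [h2, sum_res_mul_mul (mul_ne_zero three_ne (mul_ne_zero three_ne h0)) hn0 h3 _ _
      (fun x y h => pri_per x y ((dvd_mul_right _ _).trans h)) (ind_per n),
      sum_pri (mul_ne_zero three_ne h0), sum_ind hn, hc, nr_mul (u * lam ^ j) n, nm_mul 3]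
    have : nm 3 = 9 := by simpa using nm_natCast 3
    rw [this]
    push_cast; ring
  · rw [if_neg (fun h => H ((triv_iff hu j hn).2 h.2))]
    push Not at H
    obtain ⟨d₀, hd₀, hc₀, hne⟩ := H
    have hper : ∀ x y, 9 * c ∣ x - y → xi c x = xi c y := by
      intro x y h
      have hp := primary_congr (Dvd.dvd.trans ⟨3 * c, by ring⟩ h)
      rw [hxi', hxi']
      by_cases hx : Primary x
      · rw [if_pos hx, if_pos (hp.1 hx), cub_periodic hc0 hx (hp.1 hx) h]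
      · rw [if_neg hx, if_neg (fun h => hx (hp.2 h))]
    have hcop : IsCoprime d₀ (9 * c) := by
      refine IsCoprime.mul_right ?_ hc₀
      have : (9 : O) = 3 ^ 2 := by norm_num
      rw [this]; exact hd₀.isCoprime_three.pow_right
    have h1 := sum_res_affine (mul_ne_zero h9 hc0) (xi c) hper hcop 0
    have h2 : ∀ x, xi c (d₀ * x + 0) = conj (cub d₀ c) * xi c x := by
      intro x
      rw [add_zero, hxi', hxi']
      by_cases hx : Primary x
      · rw [if_pos hx, if_pos (hd₀.mul hx), cub_mul_left hd₀.ne_zero hx.ne_zero, map_mul]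
      · rw [if_neg hx, if_neg (fun h => hx (hd₀.of_mul h)), mul_zero]
    simp only [h2] at h1
    rw [← Finset.mul_sum] at h1
    have h3 : conj (cub d₀ c) - 1 ≠ 0 := by
      intro h
      apply hne
      have := congrArg conj (sub_eq_zero.1 h)
      simpa using this
    have h4 : (conj (cub d₀ c) - 1) * ∑ x ∈ res (9 * c), xi c x = 0 := by
      rw [sub_mul, h1, one_mul, sub_self]
    exact (mul_eq_zero.1 h4).resolve_left h3

/-! ### the scattering sum -/

open Classical in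
/-- the smoothed sum of `φ(n) / N(n)` -/
def S (η : ℝ) : ℝ := ∑' n : O, if Primary n then phi n * Real.exp (-η * nr n ^ 3) else 0

open Classical in
theorem summable_S {η : ℝ} (hη : 0 < η) :
    Summable fun n : O => if Primary n then phi n * Real.exp (-η * nr n ^ 3) else 0 := by
  have hk : 0 < 2 * Real.pi / Real.sqrt 3 := by positivity
  refine Summable.of_nonneg_of_le (fun n => ?_) (fun n => ?_)
    (summable_gw' (X := 2 * Real.pi / Real.sqrt 3 / η) (by positivity))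
  · split_ifs
    · exact mul_nonneg (phi_nonneg n) (Real.exp_pos _).le
    · exact le_rfl
  · split_ifs with h
    · have h1 := one_le_nr h.ne_zero
      have h2 : gw (nr n / (2 * Real.pi / Real.sqrt 3 / η)) = Real.exp (-η * nr n) := by
        have : gw (nr n / (2 * Real.pi / Real.sqrt 3 / η)) = Real.exp
          (-(2 * Real.pi / Real.sqrt 3) * (nr n / (2 * Real.pi / Real.sqrt 3 / η))) := rfl
        rw [this]
        congr 1
        field_simp
      rw [h2]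
      have h3 : Real.exp (-η * nr n ^ 3) ≤ Real.exp (-η * nr n) := by
        apply Real.exp_le_exp.2
        have : nr n ≤ nr n ^ 3 := le_self_pow₀ h1 (by norm_num)
        nlinarith
      calc phi n * Real.exp (-η * nr n ^ 3) ≤ 1 * Real.exp (-η * nr n ^ 3) :=
            mul_le_mul_of_nonneg_right (phi_le_one n) (Real.exp_pos _).le
        _ ≤ _ := by rw [one_mul]; exact h3
    · exact (gw_pos _).le

theorem S_nonneg (η : ℝ) : 0 ≤ S η := by
  refine tsum_nonneg fun n => ?_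
  split_ifs
  · exact mul_nonneg (phi_nonneg n) (Real.exp_pos _).le
  · exact le_rfl

/-- the units -/
abbrev U : Type := {u : O // IsUnit u}

instance : Finite U := by
  have : Set.Finite {u : O | IsUnit u} :=
    (ball 1).finite_toSet.subset fun u hu => by
      simpa [mem_ball] using (isUnit_iff_nm.1 hu).le
  exact this

open Classical in
/-- the condition on the part `u λ^j` -/
def eps (i : U × ℕ) : ℝ :=
  if 4 ≤ i.2 ∧ ∀ d, Primary d → cub d (i.1.1 * lam ^ i.2) = 1 then 1 else 0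

theorem eps_nonneg (i : U × ℕ) : 0 ≤ eps i := by
  unfold eps; split_ifs <;> norm_num

theorem eps_le_one (i : U × ℕ) : eps i ≤ 1 := by
  unfold eps; split_ifs <;> norm_num

theorem eps_six : eps (⟨1, isUnit_one⟩, 6) = 1 := by
  unfold eps
  rw [if_pos]
  refine ⟨by norm_num, fun d hd => ?_⟩
  have : (1 : O) * lam ^ 6 = (1 * lam ^ 2) ^ 3 := by ring
  change cub d (1 * lam ^ 6) = 1
  rw [this, cub_pow_right]
  exact cub_pow_three hd (cop_lam isUnit_one 2 hd)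

/-- the geometric weight -/
def wj (j : ℕ) : ℝ := ((3 : ℝ) ^ (-(1 / 3 : ℝ))) ^ j

theorem wj_pos (j : ℕ) : 0 < wj j := by unfold wj; positivity

theorem summable_wj : Summable fun i : U × ℕ => wj i.2 := by
  have h : Summable wj := summable_geometric_of_lt_one (by positivity)
    (Real.rpow_lt_one_of_one_lt_of_neg (by norm_num) (by norm_num))
  rw [summable_prod_of_nonneg (fun i => (wj_pos i.2).le)]
  exact ⟨fun _ => h, Summable.of_finite⟩

theorem rpow_eq {ε : ℝ} (hε : 0 < ε) (j : ℕ) :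
    ε ^ (1 / 3 : ℝ) = wj j * (ε * 3 ^ j) ^ (1 / 3 : ℝ) := by
  unfold wj
  rw [Real.mul_rpow hε.le (by positivity), ← Real.rpow_natCast, ← Real.rpow_natCast,
    ← Real.rpow_mul (by norm_num), ← Real.rpow_mul (by norm_num), mul_left_comm,
    ← Real.rpow_add (by norm_num)]
  have : -(1 / 3 : ℝ) * j + j * (1 / 3) = 0 := by ring
  rw [this, Real.rpow_zero, mul_one]

open Classical in
/-- the general term -/
def tm (ε : ℝ) (x : (U × ℕ) × O) : ℝ :=
  9 * eps x.1 * (if Primary x.2 then phi x.2 * Real.exp (-(ε * 3 ^ x.1.2) * nr x.2 ^ 3) else 0)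

theorem tm_nonneg (ε : ℝ) (x : (U × ℕ) × O) : 0 ≤ tm ε x := by
  unfold tm
  refine mul_nonneg (mul_nonneg (by norm_num) (eps_nonneg _)) ?_
  split_ifs
  · exact mul_nonneg (phi_nonneg _) (Real.exp_pos _).le
  · exact le_rfl

theorem tsum_tm (ε : ℝ) (i : U × ℕ) : ∑' m, tm ε (i, m) = 9 * eps i * S (ε * 3 ^ i.2) := by
  unfold tm S
  rw [← tsum_mul_left]

theorem term_eq (ε : ℝ) (i : U × ℕ) {m : O} (hm : Primary m) :
    Gx xi 0 (i.1.1 * lam ^ i.2 * m ^ 3) *
      (((nr (i.1.1 * lam ^ i.2 * m ^ 3))⁻¹ * Real.exp (-ε * nr (i.1.1 * lam ^ i.2 * m ^ 3)) : ℝ) : ℂ)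
      = (tm ε (i, m) : ℂ) := by
  obtain ⟨⟨u, hu⟩, j⟩ := i
  have h0 : u * lam ^ j * m ^ 3 ≠ 0 :=
    mul_ne_zero (mul_ne_zero hu.ne_zero (pow_ne_zero _ prime_lam.ne_zero)) (hm.pow 3).ne_zero
  have hN : nr (u * lam ^ j * m ^ 3) = 3 ^ j * nr m ^ 3 := by
    have e1 : nr u = 1 := by
      change ((nm u : ℕ) : ℝ) = 1
      rw [isUnit_iff_nm.1 hu, Nat.cast_one]
    have e2 : nr lam = 3 := by
      change ((nm lam : ℕ) : ℝ) = 3
      rw [nm_lam]; norm_num
    rw [nr_mul, nr_mul, nr_pow, nr_pow, e1, e2, one_mul]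
  unfold tm eps
  simp only
  rw [Gx_xi_zero hu j (hm.pow 3), if_pos hm]
  by_cases h : 4 ≤ j ∧ ∀ d, Primary d → cub d (u * lam ^ j) = 1
  · rw [if_pos ⟨h.1, h.2, m, hm, rfl⟩, if_pos h, ← Complex.ofReal_mul, phi_cube]
    congr 1
    have := (nr_pos h0).ne'
    have e : -ε * nr (u * lam ^ j * m ^ 3) = -(ε * 3 ^ j) * nr m ^ 3 := by rw [hN]; ring
    rw [e]
    field_simp
  · rw [if_neg (fun h' => h ⟨h'.1, h'.2.1⟩), if_neg h]
    simp

theorem tsum_eq (ε : ℝ) :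
    ∑' c : O, Gx xi 0 c * (((nr c)⁻¹ * Real.exp (-ε * nr c) : ℝ) : ℂ) =
      ∑' x, (tm ε x : ℂ) := by
  classical
  have hprim : ∀ x : (U × ℕ) × O, (tm ε x : ℂ) ≠ 0 → Primary x.2 := by
    intro x hx
    by_contra h
    apply hx
    unfold tm
    rw [if_neg h]; simp
  refine tsum_eq_tsum_of_ne_zero_bij
    (fun x => x.1.1.1.1 * lam ^ x.1.1.2 * x.1.2 ^ 3) ?_ ?_ ?_
  · rintro ⟨⟨⟨⟨u, hu⟩, j⟩, m⟩, hx⟩ ⟨⟨⟨⟨u', hu'⟩, j'⟩, m'⟩, hx'⟩ h
    have hm : Primary m := hprim _ hx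
    have hm' : Primary m' := hprim _ hx'
    simp only at h
    have hv : ∀ (u : O) (j : ℕ) (n : O), IsUnit u → Primary n → vp lam (u * lam ^ j * n) = j := by
      intro u j n hu hn
      rw [vp_mul prime_lam (mul_ne_zero hu.ne_zero (pow_ne_zero _ prime_lam.ne_zero)) hn.ne_zero,
        vp_mul prime_lam hu.ne_zero (pow_ne_zero _ prime_lam.ne_zero), BasicB.vp_unit prime_lam hu,
        vp_pow prime_lam prime_lam.ne_zero, vp_self prime_lam,
        (vp_eq_zero_iff prime_lam hn.ne_zero).2 hn.not_lam_dvd]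
      simp
    have hj : j = j' := by
      rw [← hv u j _ hu (hm.pow 3), h, hv u' j' _ hu' (hm'.pow 3)]
    subst hj
    have h1 : u * m ^ 3 = u' * m' ^ 3 := by
      apply mul_left_cancel₀ (pow_ne_zero j prime_lam.ne_zero)
      linear_combination h
    have h2 : m ^ 3 = m' ^ 3 := by
      refine (hm.pow 3).eq_of_associated (hm'.pow 3) ?_
      exact ((associated_unit_mul_left _ _ hu).symm.trans (Associated.of_eq h1)).trans
        (associated_unit_mul_left _ _ hu')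
    have h3 : u = u' := by
      rw [h2] at h1
      exact mul_right_cancel₀ (hm'.pow 3).ne_zero h1
    have h4 : m = m' := by
      refine hm.ext_vp hm' fun p hp _ => ?_
      have := congrArg (vp p) h2
      rw [vp_pow hp hm.ne_zero, vp_pow hp hm'.ne_zero] at this
      omega
    subst h3 h4
    rfl
  · intro c hc
    have hG : Gx xi 0 c ≠ 0 := left_ne_zero_of_mul hc
    have hc0 : c ≠ 0 := by
      rintro rfl
      apply hG
      have : Gx xi 0 0 = if (0 : O) = 0 then 0 else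
        ∑ d ∈ res (9 * 0), xi 0 d * eq (0 * d) (9 * 0) := rfl
      rw [this, if_pos rfl]
    obtain ⟨u, j, hu, hc1⟩ := exists_eq_unit_lam_primary hc0
    have hn : Primary (∏ p ∈ pf c, p ^ vp p c) :=
      BasicB.primary_prod_pow (fun q hq => BasicB.pf_sub hq) _
    generalize ∏ p ∈ pf c, p ^ vp p c = n at hc1 hn
    subst hc1
    rw [Gx_xi_zero hu j hn] at hG
    split_ifs at hG with h
    · obtain ⟨-, -, m, hm, rfl⟩ := h
      refine ⟨⟨((⟨u, hu⟩, j), m), ?_⟩, rfl⟩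
      have := term_eq ε (⟨u, hu⟩, j) hm
      rw [Function.mem_support, ← this]
      exact hc
    · exact absurd rfl hG
  · rintro ⟨⟨i, m⟩, hx⟩
    exact term_eq ε i (hprim _ hx)

theorem phi0_tendsto
    (h : ∃ c C : ℝ, 0 < c ∧ Tendsto (fun η : ℝ => η ^ (1 / 3 : ℝ) * S η) (𝓝[>] 0) (𝓝 c) ∧
      ∀ η : ℝ, 0 < η → η ^ (1 / 3 : ℝ) * S η ≤ C) :
    ∃ ρ C : ℝ, 0 < ρ ∧
      Tendsto (fun ε : ℝ => ((ε ^ (1 / 3 : ℝ) : ℝ) : ℂ) *
        ∑' c : O, Gx xi 0 c * (((nr c)⁻¹ * Real.exp (-ε * nr c) : ℝ) : ℂ)) (𝓝[>] 0) (𝓝 (ρ : ℂ)) ∧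
      ∀ ε : ℝ, 0 < ε → ‖((ε ^ (1 / 3 : ℝ) : ℝ) : ℂ) *
        ∑' c : O, Gx xi 0 c * (((nr c)⁻¹ * Real.exp (-ε * nr c) : ℝ) : ℂ)‖ ≤ C := by
  obtain ⟨c, C, hc, hlim, hbd⟩ := h
  set F : ℝ → U × ℕ → ℝ := fun ε i =>
    9 * eps i * wj i.2 * ((ε * 3 ^ i.2) ^ (1 / 3 : ℝ) * S (ε * 3 ^ i.2)) with hF
  have hF0 : ∀ ε, 0 < ε → ∀ i, 0 ≤ F ε i := fun ε hε i =>
    mul_nonneg (mul_nonneg (mul_nonneg (by norm_num) (eps_nonneg i)) (wj_pos _).le)
      (mul_nonneg (by positivity) (S_nonneg _))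
  have hFle : ∀ ε, 0 < ε → ∀ i, F ε i ≤ 9 * C * wj i.2 := by
    intro ε hε i
    have h1 := hbd (ε * 3 ^ i.2) (by positivity)
    have h2 : 0 ≤ (ε * 3 ^ i.2) ^ (1 / 3 : ℝ) * S (ε * 3 ^ i.2) :=
      mul_nonneg (by positivity) (S_nonneg _)
    have h3 : eps i * ((ε * 3 ^ i.2) ^ (1 / 3 : ℝ) * S (ε * 3 ^ i.2)) ≤ 1 * C :=
      mul_le_mul (eps_le_one i) h1 h2 zero_le_one
    have h4 := mul_le_mul_of_nonneg_left h3 (wj_pos i.2).le
    simp only [hF]
    nlinarith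
  have hsb : Summable fun i : U × ℕ => 9 * C * wj i.2 := summable_wj.mul_left _
  have hFs : ∀ ε, 0 < ε → Summable (F ε) := fun ε hε =>
    Summable.of_nonneg_of_le (hF0 ε hε) (hFle ε hε) hsb
  have hFeq : ∀ ε, 0 < ε → ∀ i, F ε i = ε ^ (1 / 3 : ℝ) * (9 * eps i * S (ε * 3 ^ i.2)) := by
    intro ε hε i
    simp only [hF]
    rw [rpow_eq hε i.2]; ring
  have key : ∀ ε : ℝ, 0 < ε → ((ε ^ (1 / 3 : ℝ) : ℝ) : ℂ) *
      ∑' c : O, Gx xi 0 c * (((nr c)⁻¹ * Real.exp (-ε * nr c) : ℝ) : ℂ) =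
      ((∑' i, F ε i : ℝ) : ℂ) := by
    intro ε hε
    have hp : 0 < ε ^ (1 / 3 : ℝ) := by positivity
    have hs : Summable (tm ε) := by
      rw [summable_prod_of_nonneg (tm_nonneg ε)]
      constructor
      · intro i
        exact (summable_S (η := ε * 3 ^ i.2) (by positivity)).mul_left (9 * eps i)
      · simp only [tsum_tm]
        have := (hFs ε hε).mul_left (ε ^ (1 / 3 : ℝ))⁻¹
        refine this.congr fun i => ?_
        rw [hFeq ε hε, ← mul_assoc, inv_mul_cancel₀ hp.ne', one_mul]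
    rw [tsum_eq, ← Complex.ofReal_tsum, hs.tsum_prod, ← Complex.ofReal_mul]
    congr 1
    simp only [tsum_tm, hFeq ε hε]
    rw [tsum_mul_left]
  have hG : Summable fun i : U × ℕ => 9 * eps i * wj i.2 * c := by
    refine Summable.of_nonneg_of_le (fun i => ?_) (fun i => ?_) (summable_wj.mul_left (9 * c))
    · exact mul_nonneg (mul_nonneg (mul_nonneg (by norm_num) (eps_nonneg i)) (wj_pos _).le) hc.le
    · have := mul_le_mul_of_nonneg_right (eps_le_one i) (mul_pos (wj_pos i.2) hc).le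
      nlinarith
  refine ⟨∑' i : U × ℕ, 9 * eps i * wj i.2 * c, ∑' i : U × ℕ, 9 * C * wj i.2, ?_, ?_, ?_⟩
  · refine hG.tsum_pos (fun i => ?_) (⟨1, isUnit_one⟩, 6) ?_
    · exact mul_nonneg (mul_nonneg (mul_nonneg (by norm_num) (eps_nonneg i)) (wj_pos _).le) hc.le
    · rw [eps_six]
      have := wj_pos 6
      positivity
  · have h1 : Tendsto (fun ε => ∑' i, F ε i) (𝓝[>] 0)
        (𝓝 (∑' i : U × ℕ, 9 * eps i * wj i.2 * c)) := by
      refine tendsto_tsum_of_dominated_convergence hsb (fun i => ?_) ?_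
      · refine Tendsto.const_mul _ (hlim.comp ?_)
        refine tendsto_nhdsWithin_iff.2 ⟨?_, ?_⟩
        · have : Tendsto (fun ε : ℝ => ε * 3 ^ i.2) (𝓝 0) (𝓝 (0 * 3 ^ i.2)) :=
            tendsto_id.mul_const _
          rw [zero_mul] at this
          exact this.mono_left nhdsWithin_le_nhds
        · filter_upwards [self_mem_nhdsWithin] with ε hε
          have : 0 < ε := hε
          change 0 < ε * 3 ^ i.2
          positivity
      · filter_upwards [self_mem_nhdsWithin] with ε hε i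
        rw [Real.norm_eq_abs, abs_of_nonneg (hF0 ε hε i)]
        exact hFle ε hε i
    refine ((Complex.continuous_ofReal.tendsto _).comp h1).congr' ?_
    filter_upwards [self_mem_nhdsWithin] with ε hε
    exact (key ε hε).symm
  · intro ε hε
    rw [key ε hε, Complex.norm_real, Real.norm_eq_abs, abs_of_nonneg (tsum_nonneg (hF0 ε hε))]
    exact (hFs ε hε).tsum_le_tsum (hFle ε hε) hsb

theorem Sk_eq (g : O → ℂ) {Y y : ℝ} (hY : 0 < Y) (hy0 : 0 < y) :
    Sk g (Fk y 0) Y = ((y ^ (2 / 3 : ℝ) : ℝ) : ℂ) * (((y * Y) ^ (1 / 3 : ℝ) : ℝ) *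
      ∑' c : O, g c * (((nr c)⁻¹ * Real.exp (-(y * Y) * nr c) : ℝ) : ℂ)) := by
  have h1 : Sk g (Fk y 0) Y =
    ((Y ^ (4 / 3 : ℝ) : ℝ) : ℂ) * ∑' c : O, g c * (Fk y 0 (Y * nr c) : ℂ) := rfl
  have h2 : ∀ c : O, g c * (Fk y 0 (Y * nr c) : ℂ) =
      ((y / Y : ℝ) : ℂ) * (g c * (((nr c)⁻¹ * Real.exp (-(y * Y) * nr c) : ℝ) : ℂ)) := by
    intro c
    have : Fk y 0 (Y * nr c) = y / Y * ((nr c)⁻¹ * Real.exp (-(y * Y) * nr c)) := by
      have : Fk y 0 (Y * nr c) =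
        y / (Y * nr c) * Real.exp (-y * (Y * nr c + 0 / (Y * nr c))) := rfl
      rw [this, zero_div, add_zero, ← div_div, div_eq_mul_inv (y / Y), mul_assoc]
      congr 3
      ring
    rw [this, Complex.ofReal_mul]; ring
  rw [h1]
  simp only [h2]
  rw [tsum_mul_left, ← mul_assoc, ← mul_assoc, ← Complex.ofReal_mul, ← Complex.ofReal_mul]
  congr 2
  have e1 : Y ^ (4 / 3 : ℝ) = Y ^ (1 / 3 : ℝ) * Y := by
    rw [show (4 / 3 : ℝ) = 1 / 3 + 1 by norm_num, Real.rpow_add hY, Real.rpow_one]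
  have e2 : y ^ (2 / 3 : ℝ) * y ^ (1 / 3 : ℝ) = y := by
    rw [← Real.rpow_add hy0]; norm_num
  rw [Real.mul_rpow hy0.le hY.le, ← mul_assoc, e2, e1]
  field_simp

end E2
end Crest.Agent.R17
end
end

-- ▼ part PVc/R17/ThetaArithAuxE1
section

/-!
# Row 17, theta module E, auxiliary file (part E1): density of the primary elements, mean value of
`φ(n) / N(n)` and its Abelian consequence.
-/

set_option autoImplicit false

noncomputable section

namespace Crest.Agent.R17.TAE1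

open scoped Topology
open MeasureTheory Filter

/-- The norm form on `ℝ²`. -/
def F (x : Fin 2 → ℝ) : ℝ := x 0 ^ 2 - x 0 * x 1 + x 1 ^ 2

theorem continuous_F : Continuous F := by unfold F; fun_prop

theorem F_smul (x : Fin 2 → ℝ) (r : ℝ) : F (r • x) = r ^ 2 * F x := by
  simp only [F, Pi.smul_apply, smul_eq_mul]; ring

theorem convex_F : Convex ℝ {x : Fin 2 → ℝ | x ∈ Set.univ ∧ F x ≤ 1} := by
  intro x hx y hy a b ha hb hab
  refine ⟨trivial, ?_⟩
  have h1 := hx.2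
  have h2 := hy.2
  simp only [F, Pi.add_apply, Pi.smul_apply, smul_eq_mul] at h1 h2 ⊢
  obtain rfl : b = 1 - a := by linarith
  have h3 : 0 ≤ (x 0 - y 0) ^ 2 - (x 0 - y 0) * (x 1 - y 1) + (x 1 - y 1) ^ 2 := by
    nlinarith [sq_nonneg (2 * (x 0 - y 0) - (x 1 - y 1)), sq_nonneg (x 1 - y 1)]
  nlinarith [mul_nonneg (mul_nonneg ha hb) h3, mul_le_mul_of_nonneg_left h1 ha,
    mul_le_mul_of_nonneg_left h2 hb]

theorem bounded_F : Bornology.IsBounded {x : Fin 2 → ℝ | x ∈ Set.univ ∧ F x ≤ 1} := by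
  refine (Metric.isBounded_closedBall (x := (0 : Fin 2 → ℝ)) (r := 2)).subset fun x hx => ?_
  have h1 := hx.2
  simp only [F] at h1
  rw [mem_closedBall_zero_iff, pi_norm_le_iff_of_nonneg (by norm_num)]
  intro i
  rw [Real.norm_eq_abs, abs_le]
  fin_cases i
  · simp only [Fin.zero_eta]
    constructor <;> nlinarith [sq_nonneg (x 0 - 2 * x 1)]
  · simp only [Fin.mk_one]
    constructor <;> nlinarith [sq_nonneg (2 * x 0 - x 1)]

theorem volume_F_pos : 0 < volume.real {x : Fin 2 → ℝ | x ∈ Set.univ ∧ F x ≤ 1} := by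
  refine ENNReal.toReal_pos (ne_of_gt ?_) bounded_F.measure_lt_top.ne
  have h : IsOpen {x : Fin 2 → ℝ | F x < 1} := isOpen_lt continuous_F continuous_const
  refine lt_of_lt_of_le (h.measure_pos volume ⟨0, ?_⟩) (measure_mono fun x hx => ⟨trivial, le_of_lt hx⟩)
  simp [F]

/-- The standard lattice. -/
abbrev L : Submodule ℤ (Fin 2 → ℝ) := Submodule.span ℤ (Set.range (Pi.basisFun ℝ (Fin 2)))

/-- Coordinates. -/
def co (z : O) : Fin 2 → ℝ := ![(z.re : ℝ), (z.im : ℝ)]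

theorem co_inj : Function.Injective co := by
  intro z w h
  have h0 := congrFun h 0
  have h1 := congrFun h 1
  simp only [co, Matrix.cons_val_zero, Matrix.cons_val_one, Int.cast_inj] at h0 h1
  ext <;> assumption

theorem F_co (z : O) : F (co z) = nr z := by
  have h : ((nm z : ℤ) : ℝ) = ((z.re ^ 2 - z.re * z.im + z.im ^ 2 : ℤ) : ℝ) := by rw [nm_cast]
  push_cast at h
  simp only [F, co, Matrix.cons_val_zero, Matrix.cons_val_one, nr, h]

theorem inter_eq {c : ℝ} (hc : 0 ≤ c) :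
    ({x | x ∈ Set.univ ∧ F x ≤ c} ∩ L : Set (Fin 2 → ℝ)) = co '' (ball ⌊c⌋₊ : Set O) := by
  ext x
  simp only [Set.mem_inter_iff, Set.mem_ofPred_eq, Set.mem_univ, true_and, SetLike.mem_coe,
    Module.Basis.mem_span_iff_repr_mem, Pi.basisFun_repr, Set.mem_image, mem_ball,
    Nat.le_floor_iff hc]
  constructor
  · rintro ⟨h1, h2⟩
    obtain ⟨a, ha⟩ := h2 0
    obtain ⟨b, hb⟩ := h2 1
    have h3 : co ⟨a, b⟩ = x := by
      funext i
      fin_cases i
      · simpa [co] using ha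
      · simpa [co] using hb
    exact ⟨⟨a, b⟩, by rw [← h3, F_co] at h1; exact h1, h3⟩
  · rintro ⟨z, h1, rfl⟩
    refine ⟨by rw [F_co]; exact h1, fun i => ?_⟩
    fin_cases i
    · exact ⟨z.re, by simp [co]⟩
    · exact ⟨z.im, by simp [co]⟩

theorem tendsto_card_ball : ∃ c : ℝ, 0 < c ∧
    Tendsto (fun X : ℝ => ((ball ⌊X⌋₊).card : ℝ) / X) atTop (𝓝 c) := by
  have h := ZLattice.covolume.tendsto_card_le_div L (X := Set.univ) (F := F)
    (fun _ _ _ _ => trivial) (fun x r _ => by rw [F_smul]; simp) bounded_F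
    (by simpa using (isClosed_le continuous_F continuous_const).measurableSet)
    (convex_F.addHaar_frontier volume)
  refine ⟨_, div_pos volume_F_pos (ZLattice.covolume_pos L volume), h.congr' ?_⟩
  filter_upwards [eventually_ge_atTop 0] with c hc
  rw [inter_eq hc, Nat.card_image_of_injective co_inj, Nat.card_coe_set_eq, Set.ncard_coe_finset]

open Classical in
theorem card_split (X : ℕ) : (ball X).card =
    (ball (X / 3)).card + ((ball 1).erase 0).card * ((ball X).filter Primary).card := by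
  rw [← Finset.card_filter_add_card_filter_not (s := ball X) (fun n => lam ∣ n), ← Finset.card_product]
  have hU : ∀ u : O, u ∈ (ball 1).erase 0 ↔ IsUnit u := by
    intro u
    rw [CountAux.mem_erase_ball, isUnit_iff_nm, Ne, ← nm_eq_zero]
    omega
  congr 1
  · symm
    refine Finset.card_nbij (fun m => lam * m) (fun m hm => ?_) (fun m _ m' _ h => ?_)
      (fun n hn => ?_)
    · rw [Finset.mem_coe, mem_ball] at hm
      refine Finset.mem_coe.2 (Finset.mem_filter.2 ⟨mem_ball.2 ?_, dvd_mul_right _ _⟩)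
      rw [nm_mul, nm_lam]; omega
    · exact mul_left_cancel₀ prime_lam.ne_zero h
    · obtain ⟨h1, m, rfl⟩ := Finset.mem_filter.1 (Finset.mem_coe.1 hn)
      rw [mem_ball, nm_mul, nm_lam] at h1
      exact ⟨m, Finset.mem_coe.2 (mem_ball.2 (by omega)), rfl⟩
  · symm
    refine Finset.card_nbij (fun z => z.1 * z.2) (fun z hz => ?_) (fun z hz z' hz' h => ?_)
      (fun n hn => ?_)
    · obtain ⟨h1, h2⟩ := Finset.mem_product.1 (Finset.mem_coe.1 hz)
      obtain ⟨h3, h4⟩ := Finset.mem_filter.1 h2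
      rw [hU] at h1
      refine Finset.mem_coe.2 (Finset.mem_filter.2 ⟨mem_ball.2 ?_, fun h => ?_⟩)
      · rw [nm_mul, isUnit_iff_nm.1 h1, one_mul]; exact mem_ball.1 h3
      · exact h4.not_lam_dvd (h1.dvd_mul_left.1 h)
    · obtain ⟨h1, h2⟩ := Finset.mem_product.1 (Finset.mem_coe.1 hz)
      obtain ⟨h1', h2'⟩ := Finset.mem_product.1 (Finset.mem_coe.1 hz')
      have h4 := (Finset.mem_filter.1 h2).2
      have h4' := (Finset.mem_filter.1 h2').2
      rw [hU] at h1 h1'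
      have h5 : z.1 * z.2 = z'.1 * z'.2 := h
      have h6 : z.2 = z'.2 := h4.eq_of_associated h4'
        (((associated_isUnit_mul_left_iff h1).1 (Associated.of_eq h5)).trans
          (associated_unit_mul_left _ _ h1'))
      refine Prod.ext ?_ h6
      rw [h6] at h5
      exact mul_right_cancel₀ h4'.ne_zero h5
    · obtain ⟨h1, h2⟩ := Finset.mem_filter.1 (Finset.mem_coe.1 hn)
      obtain ⟨u, hu, h3⟩ := exists_unit_primary h2
      obtain ⟨v, hv⟩ := hu.exists_left_inv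
      refine ⟨(v, u * n), Finset.mem_coe.2 (Finset.mem_product.2
        ⟨(hU v).2 (IsUnit.of_mul_eq_one u hv), Finset.mem_filter.2 ⟨mem_ball.2 ?_, h3⟩⟩), ?_⟩
      · rw [nm_mul, isUnit_iff_nm.1 hu, one_mul]; exact mem_ball.1 h1
      · show v * (u * n) = n
        rw [← mul_assoc, hv, one_mul]

open Classical in
theorem tendsto_card_primary : ∃ c : ℝ, 0 < c ∧
    Tendsto (fun X : ℝ => (((ball ⌊X⌋₊).filter Primary).card : ℝ) / X) atTop (𝓝 c) := by
  obtain ⟨c, hc, h⟩ := tendsto_card_ball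
  have hU : (0 : ℝ) < ((ball 1).erase 0).card := by
    refine Nat.cast_pos.2 (Finset.card_pos.2 ⟨1, ?_⟩)
    rw [CountAux.mem_erase_ball]
    exact ⟨one_ne_zero, (isUnit_iff_nm.1 isUnit_one).le⟩
  have h3 := (h.comp (tendsto_id.atTop_div_const (show (0 : ℝ) < 3 by norm_num))).div_const 3
  refine ⟨(c - c / 3) / ((ball 1).erase 0).card, div_pos (by linarith) hU,
    ((h.sub h3).div_const _).congr' ?_⟩
  filter_upwards [eventually_gt_atTop 0] with X hX
  have h4 : ⌊X / 3⌋₊ = ⌊X⌋₊ / 3 := Nat.floor_div_ofNat X 3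
  simp only [Function.comp, id, h4]
  rw [card_split ⌊X⌋₊]
  push_cast
  field_simp
  ring

/-- `φ(n) / N(n)`. -/
def ph (n : O) : ℝ := ∏ p ∈ pf n, (1 - (nr p)⁻¹)

theorem ph_nonneg (n : O) : 0 ≤ ph n :=
  Finset.prod_nonneg fun _ hp => sub_nonneg.2
    (inv_le_one_of_one_le₀ (one_le_nr (BasicB.pf_sub hp).1.ne_zero))

theorem ph_le_one (n : O) : ph n ≤ 1 :=
  Finset.prod_le_one (fun _ hp => sub_nonneg.2
    (inv_le_one_of_one_le₀ (one_le_nr (BasicB.pf_sub hp).1.ne_zero)))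
    fun _ _ => sub_le_self _ (inv_nonneg.2 (Nat.cast_nonneg _))

theorem mu_re (n : O) : (((mu n).re : ℝ) : ℂ) = mu n :=
  Complex.conj_eq_iff_re.1 (conj_mu n)

theorem abs_mu_re (n : O) : |(mu n).re| ≤ 1 := (Complex.abs_re_le_norm _).trans (norm_mu_le n)

theorem ph_eq {n : O} (hn : n ≠ 0) : ph n = ∑ d ∈ pdiv n, (mu d).re * (nr d)⁻¹ := by
  classical
  have h1 : ∑ d ∈ pdiv n, (mu d).re * (nr d)⁻¹ =
      ∑ s ∈ (pf n).powerset, ∏ p ∈ s, (-(nr p)⁻¹) := by
    rw [← Finset.sum_filter_of_ne (p := Squarefree)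
      fun d _ h => by_contra fun h' => h (by rw [BasicB.mu_of_not h', Complex.zero_re, zero_mul])]
    refine Finset.sum_nbij' pf (fun s => ∏ q ∈ s, q) (fun d hd => ?_) (fun s hs => ?_)
      (fun d hd => ?_) (fun s hs => ?_) fun d hd => ?_
    · obtain ⟨h2, -⟩ := Finset.mem_filter.1 hd
      refine Finset.mem_powerset.2 fun p hp => ?_
      obtain ⟨h3, h4, h5⟩ := BasicB.of_mem_pf hp
      exact (mem_pf hn).2 ⟨h3, h4, h5.trans ((mem_pdiv hn).1 h2).2⟩
    · have hs' := Finset.mem_powerset.1 hs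
      have h2 := squarefree_prod_primes (s := s) fun q hq => BasicB.pf_sub (hs' hq)
      exact Finset.mem_filter.2
        ⟨(mem_pdiv hn).2 ⟨h2.2.1, BasicB.prod_dvd_of_subset hn hs'⟩, h2.1⟩
    · obtain ⟨h2, h3⟩ := Finset.mem_filter.1 hd
      exact ((mem_pdiv hn).1 h2).1.eq_rad h3
    · exact (squarefree_prod_primes fun q hq => BasicB.pf_sub (Finset.mem_powerset.1 hs hq)).2.2
    · obtain ⟨h2, h3⟩ := Finset.mem_filter.1 hd
      have h4 : nr d = ∏ p ∈ pf d, nr p := by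
        conv_lhs => rw [← ((mem_pdiv hn).1 h2).1.eq_rad h3]
        rw [rad, nr, nm_prod, Nat.cast_prod]
      have h5 : (mu d).re = (-1) ^ (pf d).card := by
        apply Complex.ofReal_injective
        rw [mu_re, BasicB.mu_of_squarefree h3]; push_cast; rfl
      rw [h4, h5, Finset.prod_neg, Finset.prod_inv_distrib]
  rw [h1, ← Finset.prod_one_add]
  exact Finset.prod_congr rfl fun _ _ => sub_eq_add_neg _ _

open Classical in
/-- The number of primary elements of norm at most `X`. -/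
def P (X : ℝ) : ℝ := (((ball ⌊X⌋₊).filter Primary).card : ℝ)

theorem P_nonneg (X : ℝ) : 0 ≤ P X := Nat.cast_nonneg _

theorem P_le {X : ℝ} (hX : 0 ≤ X) : P X ≤ 7 * X := by
  classical
  refine le_trans ?_ ((CountAux.card_erase_le ⌊X⌋₊).trans
    (mul_le_mul_of_nonneg_left (Nat.floor_le hX) (by norm_num)))
  refine Nat.cast_le.2 (Finset.card_le_card fun n hn => ?_)
  obtain ⟨h1, h2⟩ := Finset.mem_filter.1 hn
  exact Finset.mem_erase.2 ⟨h2.ne_zero, h1⟩

open Classical in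
theorem sum_ph_eq {X : ℝ} (hX : 0 < X) : ∑ n ∈ (ball ⌊X⌋₊).filter Primary, ph n =
    ∑' d : O, if Primary d then (mu d).re * (nr d)⁻¹ * P (X / nr d) else 0 := by
  set S := (ball ⌊X⌋₊).filter Primary with hS
  have hmem : ∀ (Y : ℝ), 0 ≤ Y → ∀ n, n ∈ (ball ⌊Y⌋₊).filter Primary ↔ nr n ≤ Y ∧ Primary n := by
    intro Y hY n
    rw [Finset.mem_filter, mem_ball, Nat.le_floor_iff hY]
  rw [tsum_eq_sum (s := S)]
  · have h1 : ∀ n ∈ S, ph n = ∑ d ∈ S, if d ∣ n then (mu d).re * (nr d)⁻¹ else 0 := by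
      intro n hn
      obtain ⟨h2, h3⟩ := (hmem X hX.le n).1 hn
      rw [ph_eq h3.ne_zero, ← Finset.sum_filter]
      refine Finset.sum_congr ?_ fun _ _ => rfl
      ext d
      rw [mem_pdiv h3.ne_zero, Finset.mem_filter, hmem X hX.le]
      exact ⟨fun h => ⟨⟨(Nat.cast_le.2 (nm_le_of_dvd h.2 h3.ne_zero)).trans h2, h.1⟩, h.2⟩,
        fun h => ⟨h.1.2, h.2⟩⟩
    rw [Finset.sum_congr rfl h1, Finset.sum_comm]
    refine Finset.sum_congr rfl fun d hd => ?_
    obtain ⟨h2, h3⟩ := (hmem X hX.le d).1 hd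
    have h4 := nr_pos h3.ne_zero
    rw [if_pos h3, ← Finset.sum_filter, Finset.sum_const, nsmul_eq_mul, mul_comm]
    congr 1
    rw [P, Nat.cast_inj]
    symm
    refine Finset.card_nbij (fun m => d * m) (fun m hm => ?_) (fun m _ m' _ h => ?_)
      (fun n hn => ?_)
    · obtain ⟨h5, h6⟩ := (hmem _ (div_pos hX h4).le m).1 hm
      refine Finset.mem_coe.2 (Finset.mem_filter.2 ⟨(hmem X hX.le _).2 ⟨?_, h3.mul h6⟩,
        dvd_mul_right _ _⟩)
      rw [nr_mul]; exact (le_div_iff₀' h4).1 h5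
    · exact mul_left_cancel₀ h3.ne_zero h
    · obtain ⟨h5, m, rfl⟩ := Finset.mem_filter.1 (Finset.mem_coe.1 hn)
      obtain ⟨h6, h7⟩ := (hmem X hX.le _).1 h5
      rw [nr_mul] at h6
      exact ⟨m, (hmem _ (div_pos hX h4).le m).2 ⟨(le_div_iff₀' h4).2 h6, h3.of_mul h7⟩, rfl⟩
  · intro d hd
    split_ifs with h
    · have h4 := nr_pos h.ne_zero
      have h1 : X < nr d := lt_of_not_ge fun h1 => hd ((hmem X hX.le d).2 ⟨h1, h⟩)
      have h2 : P (X / nr d) = 0 := by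
        rw [P, Nat.cast_eq_zero, Finset.card_eq_zero, Finset.eq_empty_iff_forall_notMem]
        intro m hm
        obtain ⟨h5, h6⟩ := (hmem _ (div_pos hX h4).le m).1 hm
        exact absurd ((one_le_nr h6.ne_zero).trans h5) (not_le.2 ((div_lt_one h4).2 h1))
      rw [h2, mul_zero]
    · rfl

theorem summable_inv_sq : Summable fun n : O => ((nr n)⁻¹) ^ 2 := by
  refine (summable_nr_rpow (σ := 2) (by norm_num)).congr fun n => ?_
  rw [Real.rpow_neg (Nat.cast_nonneg _), Real.rpow_two, inv_pow]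

open Classical in
theorem tsum_mu_ne : ∑' d : O, (if Primary d then (mu d).re * ((nr d)⁻¹) ^ 2 else 0) ≠ 0 := by
  have h : LBA.CM fun n : O => if Primary n then ((((nr n)⁻¹) ^ 2 : ℝ) : ℂ) else 0 := by
    refine ⟨fun n hn => if_neg hn, ?_, fun m n hm hn => ?_, ?_⟩
    · rw [if_pos primary_one, nr, isUnit_iff_nm.1 isUnit_one]; simp
    · rw [if_pos hm, if_pos hn, if_pos (hm.mul hn), nr_mul]; push_cast; ring
    · refine summable_inv_sq.of_nonneg_of_le (fun _ => norm_nonneg _) fun n => ?_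
      split_ifs
      · rw [Complex.norm_real, Real.norm_of_nonneg (sq_nonneg _)]
      · rw [norm_zero]; exact sq_nonneg _
  intro h0
  have h1 := congrArg (fun x : ℝ => (x : ℂ)) h0
  simp only [Complex.ofReal_tsum, Complex.ofReal_zero] at h1
  have h2 := h.conv
  rw [show (∑' n, mu n * if Primary n then ((((nr n)⁻¹) ^ 2 : ℝ) : ℂ) else 0) = 0 from ?_,
    mul_zero] at h2
  · exact zero_ne_one h2
  · refine Eq.trans (tsum_congr fun n => ?_) h1
    split_ifs
    · rw [Complex.ofReal_mul, mu_re]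
    · simp

open Classical in
theorem tendsto_sum_ph : ∃ c : ℝ, 0 < c ∧
    Tendsto (fun X : ℝ => (∑ n ∈ (ball ⌊X⌋₊).filter Primary, ph n) / X) atTop (𝓝 c) := by
  obtain ⟨c, hc, h⟩ := tendsto_card_primary
  have key : Tendsto (fun X : ℝ => (∑ n ∈ (ball ⌊X⌋₊).filter Primary, ph n) / X) atTop
      (𝓝 (∑' d : O, (if Primary d then (mu d).re * ((nr d)⁻¹) ^ 2 else 0) * c)) := by
    have h1 := tendsto_tsum_of_dominated_convergence (𝓕 := atTop)
      (f := fun (X : ℝ) (d : O) => (if Primary d then (mu d).re * ((nr d)⁻¹) ^ 2 else 0) *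
        (P (X / nr d) / (X / nr d)))
      (g := fun d => (if Primary d then (mu d).re * ((nr d)⁻¹) ^ 2 else 0) * c)
      (summable_inv_sq.mul_right 7) (fun d => ?_) ?_
    · refine h1.congr' ?_
      filter_upwards [eventually_gt_atTop 0] with X hX
      rw [sum_ph_eq hX, ← tsum_div_const]
      refine tsum_congr fun d => ?_
      split_ifs with hd
      · have h4 := nr_pos hd.ne_zero
        field_simp
      · simp
    · split_ifs with hd
      · exact (h.comp (tendsto_id.atTop_div_const (nr_pos hd.ne_zero))).const_mul _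
      · simp
    · filter_upwards [eventually_gt_atTop 0] with X hX d
      split_ifs with hd
      · have h4 := div_pos hX (nr_pos hd.ne_zero)
        rw [norm_mul, norm_mul, Real.norm_of_nonneg (sq_nonneg _),
          Real.norm_of_nonneg (div_nonneg (P_nonneg _) h4.le)]
        exact mul_le_mul (mul_le_of_le_one_left (sq_nonneg _) (abs_mu_re d))
          ((div_le_iff₀ h4).2 (P_le h4.le)) (div_nonneg (P_nonneg _) h4.le) (sq_nonneg _)
      · rw [zero_mul, norm_zero]; positivity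
  refine ⟨_, lt_of_le_of_ne (ge_of_tendsto key ?_) (Ne.symm ?_), key⟩
  · filter_upwards [eventually_gt_atTop 0] with X hX
    exact div_nonneg (Finset.sum_nonneg fun n _ => ph_nonneg n) hX.le
  · rw [tsum_mul_right]
    exact mul_ne_zero tsum_mu_ne hc.ne'

/-- Partial sums. -/
def A (a : O → ℝ) (X : ℝ) : ℝ := ∑ n ∈ ball ⌊X⌋₊, a n

theorem measurable_A (a : O → ℝ) : Measurable (A a) :=
  (measurable_of_countable fun k : ℕ => ∑ n ∈ ball k, a n).comp Nat.measurable_floor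

theorem le_rpow_iff {η u : ℝ} (hη : 0 < η) (hu : 0 < u) (n : O) :
    nm n ≤ ⌊(u / η) ^ (1 / 3 : ℝ)⌋₊ ↔ η * nr n ^ 3 ≤ u := by
  have h1 : 0 ≤ u / η := (div_pos hu hη).le
  rw [Nat.le_floor_iff (Real.rpow_nonneg h1 _), one_div,
    Real.le_rpow_inv_iff_of_pos (Nat.cast_nonneg _) h1 (by norm_num), le_div_iff₀' hη,
    show (3 : ℝ) = ((3 : ℕ) : ℝ) by norm_num, Real.rpow_natCast]

theorem summable_exp {η : ℝ} (hη : 0 < η) : Summable fun n : O => Real.exp (-η * nr n ^ 3) := by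
  have h3 : 0 < 2 * Real.pi / Real.sqrt 3 := lt_of_lt_of_le (by norm_num) pois_three_le
  refine (summable_gw' (X := 2 * Real.pi / Real.sqrt 3 / η) (div_pos h3 hη)).of_nonneg_of_le
    (fun _ => (Real.exp_pos _).le) fun n => Real.exp_le_exp.2 ?_
  have h4 : nr n ≤ nr n ^ 3 := by exact_mod_cast Nat.le_self_pow (by norm_num) (nm n)
  generalize 2 * Real.pi / Real.sqrt 3 = κ at h3
  rw [show -κ * (nr n / (κ / η)) = -η * nr n by field_simp]
  nlinarith

theorem tsum_eq_integral {a : O → ℝ} (h0 : ∀ n, 0 ≤ a n) (h1 : ∀ n, a n ≤ 1) (hz : a 0 = 0)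
    {η : ℝ} (hη : 0 < η) : ∑' n : O, a n * Real.exp (-η * nr n ^ 3) =
      ∫ u in Set.Ioi (0 : ℝ), Real.exp (-u) * A a ((u / η) ^ (1 / 3 : ℝ)) := by
  set f : O → ℝ → ℝ := fun n => (Set.Ici (η * nr n ^ 3)).indicator fun u => a n * Real.exp (-u)
    with hf
  have hint : ∀ n, Integrable (f n) (volume.restrict (Set.Ioi 0)) := fun n =>
    ((integrableOn_exp_neg_Ioi 0).const_mul (a n)).indicator measurableSet_Ici
  have hval : ∀ n, ∫ u in Set.Ioi (0 : ℝ), f n u = a n * Real.exp (-η * nr n ^ 3) := by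
    intro n
    rcases eq_or_ne n 0 with rfl | hn
    · simp [hf, hz]
    · have h2 : 0 < η * nr n ^ 3 := mul_pos hη (pow_pos (nr_pos hn) 3)
      rw [hf, integral_indicator measurableSet_Ici, Measure.restrict_restrict measurableSet_Ici,
        Set.inter_eq_left.2 (Set.Ici_subset_Ioi.2 h2), integral_const_mul,
        integral_Ici_eq_integral_Ioi, integral_exp_neg_Ioi, neg_mul]
  have hnn : ∀ n u, 0 ≤ f n u := fun n u =>
    Set.indicator_nonneg (fun _ _ => mul_nonneg (h0 n) (Real.exp_pos _).le) u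
  have hs : Summable fun n => ∫ u in Set.Ioi (0 : ℝ), ‖f n u‖ := by
    simp only [Real.norm_of_nonneg (hnn _ _), hval]
    exact (summable_exp hη).of_nonneg_of_le (fun n => mul_nonneg (h0 n) (Real.exp_pos _).le)
      fun n => mul_le_of_le_one_left (Real.exp_pos _).le (h1 n)
  rw [← tsum_congr hval, integral_tsum_of_summable_integral_norm hint hs]
  refine setIntegral_congr_fun measurableSet_Ioi fun u hu => ?_
  have hu' : 0 < u := hu
  rw [tsum_eq_sum (s := ball ⌊(u / η) ^ (1 / 3 : ℝ)⌋₊), A, Finset.mul_sum]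
  · refine Finset.sum_congr rfl fun n hn => ?_
    rw [mem_ball, le_rpow_iff hη hu'] at hn
    rw [hf]
    exact (Set.indicator_of_mem (show u ∈ Set.Ici _ from hn) _).trans (mul_comm _ _)
  · intro n hn
    rw [mem_ball, le_rpow_iff hη hu'] at hn
    exact Set.indicator_of_notMem (show u ∉ Set.Ici _ from hn) _

theorem abelian {a : O → ℝ} (h0 : ∀ n, 0 ≤ a n) (h1 : ∀ n, a n ≤ 1) (hz : a 0 = 0) {c : ℝ}
    (hc : 0 < c) (h : Tendsto (fun X => A a X / X) atTop (𝓝 c)) : ∃ c C : ℝ, 0 < c ∧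
    Tendsto (fun η : ℝ => η ^ (1 / 3 : ℝ) * ∑' n : O, a n * Real.exp (-η * nr n ^ 3))
      (𝓝[>] 0) (𝓝 c) ∧
    ∀ η : ℝ, 0 < η → η ^ (1 / 3 : ℝ) * (∑' n : O, a n * Real.exp (-η * nr n ^ 3)) ≤ C := by
  classical
  have hA0 : ∀ X, 0 ≤ A a X := fun X => Finset.sum_nonneg fun n _ => h0 n
  have hA : ∀ X, 0 ≤ X → A a X ≤ 7 * X := by
    intro X hX
    refine le_trans ?_ ((CountAux.card_erase_le ⌊X⌋₊).trans
      (mul_le_mul_of_nonneg_left (Nat.floor_le hX) (by norm_num)))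
    rw [A, ← Finset.sum_erase _ hz]
    simpa using Finset.sum_le_card_nsmul _ a 1 fun n _ => h1 n
  set g : ℝ → ℝ := fun u => Real.exp (-u) * u ^ ((4 / 3 : ℝ) - 1) with hg
  have hgi : IntegrableOn g (Set.Ioi 0) := Real.GammaIntegral_convergent (by norm_num)
  have hgv : ∫ u in Set.Ioi 0, g u = Real.Gamma (4 / 3) :=
    (Real.Gamma_eq_integral (by norm_num)).symm
  set G : ℝ → ℝ → ℝ := fun η u =>
    g u * (A a ((u / η) ^ (1 / 3 : ℝ)) / (u / η) ^ (1 / 3 : ℝ)) with hG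
  have hrep : ∀ η : ℝ, 0 < η → η ^ (1 / 3 : ℝ) * ∑' n : O, a n * Real.exp (-η * nr n ^ 3) =
      ∫ u in Set.Ioi 0, G η u := by
    intro η hη
    rw [tsum_eq_integral h0 h1 hz hη, ← integral_const_mul]
    refine setIntegral_congr_fun measurableSet_Ioi fun u hu => ?_
    have hu' : 0 < u := hu
    have h2 := Real.rpow_pos_of_pos hu' (1 / 3)
    have h3 := Real.rpow_pos_of_pos hη (1 / 3)
    simp only [hG, hg]
    rw [show (4 / 3 : ℝ) - 1 = 1 / 3 by norm_num]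
    generalize A a ((u / η) ^ (1 / 3 : ℝ)) = B
    rw [Real.div_rpow hu'.le hη.le]
    field_simp
  have hg0 : ∀ u, 0 < u → 0 ≤ g u := fun u hu =>
    mul_nonneg (Real.exp_pos _).le (Real.rpow_nonneg hu.le _)
  have hbd : ∀ η : ℝ, 0 < η → ∀ u, 0 < u → 0 ≤ G η u ∧ G η u ≤ g u * 7 := by
    intro η hη u hu
    have h2 := Real.rpow_pos_of_pos (div_pos hu hη) (1 / 3)
    exact ⟨mul_nonneg (hg0 u hu) (div_nonneg (hA0 _) h2.le),
      mul_le_mul_of_nonneg_left ((div_le_iff₀ h2).2 (hA _ h2.le)) (hg0 u hu)⟩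
  have hmeas : ∀ η : ℝ, Measurable (G η) := by
    intro η
    have h2 : Measurable fun u : ℝ => (u / η) ^ (1 / 3 : ℝ) := by fun_prop
    have h3 : Measurable g := by rw [hg]; fun_prop
    exact h3.mul (((measurable_A a).comp h2).div h2)
  refine ⟨Real.Gamma (4 / 3) * c, Real.Gamma (4 / 3) * 7,
    mul_pos (Real.Gamma_pos_of_pos (by norm_num)) hc, ?_, fun η hη => ?_⟩
  · rw [← hgv, ← integral_mul_const]
    refine Tendsto.congr' (eventually_mem_nhdsWithin.mono fun η hη => (hrep η hη).symm) ?_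
    refine tendsto_integral_filter_of_dominated_convergence (fun u => g u * 7)
      (Eventually.of_forall fun η => (hmeas η).aestronglyMeasurable) ?_ (hgi.mul_const 7) ?_
    · filter_upwards [self_mem_nhdsWithin] with η hη
      filter_upwards [ae_restrict_mem measurableSet_Ioi] with u hu
      rw [Real.norm_of_nonneg (hbd η hη u hu).1]
      exact (hbd η hη u hu).2
    · filter_upwards [ae_restrict_mem measurableSet_Ioi] with u hu
      refine (h.comp ((tendsto_rpow_atTop (by norm_num)).comp ?_)).const_mul _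
      exact (tendsto_inv_nhdsGT_zero.const_mul_atTop hu).congr fun η => (div_eq_mul_inv _ _).symm
  · rw [hrep η hη, ← hgv, ← integral_mul_const]
    refine integral_mono_of_nonneg ?_ (hgi.mul_const 7) ?_
    · filter_upwards [ae_restrict_mem measurableSet_Ioi] with u hu
      exact (hbd η hη u hu).1
    · filter_upwards [ae_restrict_mem measurableSet_Ioi] with u hu
      exact (hbd η hη u hu).2

open Classical in
theorem tendsto_tsum_ph : ∃ c C : ℝ, 0 < c ∧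
    Tendsto (fun η : ℝ => η ^ (1 / 3 : ℝ) *
      ∑' n : O, if Primary n then ph n * Real.exp (-η * nr n ^ 3) else 0) (𝓝[>] 0) (𝓝 c) ∧
    ∀ η : ℝ, 0 < η → η ^ (1 / 3 : ℝ) *
      (∑' n : O, if Primary n then ph n * Real.exp (-η * nr n ^ 3) else 0) ≤ C := by
  obtain ⟨c, hc, h⟩ := tendsto_sum_ph
  have key := abelian (a := fun n => if Primary n then ph n else 0) (c := c)
    (fun n => by split_ifs; exacts [ph_nonneg n, le_rfl])
    (fun n => by split_ifs; exacts [ph_le_one n, zero_le_one])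
    (if_neg fun h => h.ne_zero rfl) hc (by simpa only [A, Finset.sum_filter] using h)
  simpa only [ite_mul, zero_mul] using key

end Crest.Agent.R17.TAE1
end
end

-- ▼ part PVc/R17/ThetaArith
section

/-!
# Row 17, theta module E: the constant term at `∞`

`Gx xi 0 c = ∑_{d mod 9c, d ≡ 1 (3)} conj (c/d)₃` vanishes unless `9 ∣ c` and the character
`d ↦ (c/d)₃` is trivial, i.e. `c = u λ^j n³` with `(u λ^j / ·)₃` trivial on primary elements.
-/

set_option autoImplicit false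

noncomputable section

namespace Crest.Agent.R17

open scoped ComplexConjugate ENNReal Topology
open MeasureTheory Filter


/-- `φ(n) / N(n)`. -/
def phiN (n : O) : ℝ := ∏ p ∈ pf n, (1 - (nr p)⁻¹)


open Classical in
/-- Abelian consequence. -/
theorem tendsto_tsum_phiN : ∃ c C : ℝ, 0 < c ∧
    Tendsto (fun η : ℝ => η ^ (1 / 3 : ℝ) *
      ∑' n : O, if Primary n then phiN n * Real.exp (-η * nr n ^ 3) else 0) (𝓝[>] 0) (𝓝 c) ∧
    ∀ η : ℝ, 0 < η → η ^ (1 / 3 : ℝ) *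
      (∑' n : O, if Primary n then phiN n * Real.exp (-η * nr n ^ 3) else 0) ≤ C :=
  TAE1.tendsto_tsum_ph


/-- The scattering sum. -/
def Phi0 (ε : ℝ) : ℂ :=
  ((ε ^ (1 / 3 : ℝ) : ℝ) : ℂ) * ∑' c : O, Gx xi 0 c * (((nr c)⁻¹ * Real.exp (-ε * nr c) : ℝ) : ℂ)

theorem phi0_tendsto : ∃ ρ C : ℝ, 0 < ρ ∧ Tendsto Phi0 (𝓝[>] 0) (𝓝 (ρ : ℂ)) ∧
    ∀ ε, 0 < ε → ‖Phi0 ε‖ ≤ C :=
  E2.phi0_tendsto tendsto_tsum_phiN

theorem Sk_xi_zero {Y y : ℝ} (hY : 0 < Y) (hy0 : 0 < y) :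
    Sk (Gx xi 0) (Fk y 0) Y = ((y ^ (2 / 3 : ℝ) : ℝ) : ℂ) * Phi0 (y * Y) :=
  E2.Sk_eq _ hY hy0

/-- The weak density of the constant-term sums is not zero. -/
theorem wd_xi_zero : ∃ t : ℂ, t ≠ 0 ∧ WD (Gx xi 0) t := by
  obtain ⟨ρ, C, hρ, hlim, -⟩ := phi0_tendsto
  have hk : KC (Fk 1 0) := KC_Fk one_pos le_rfl
  have hM : ((Mo (Fk 1 0) : ℝ) : ℂ) ≠ 0 := by exact_mod_cast hk.2.2.1.ne'
  refine ⟨ρ / Mo (Fk 1 0), div_ne_zero (by exact_mod_cast hρ.ne') hM, Fk 1 0, hk, ?_⟩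
  rw [div_mul_cancel₀ _ hM]
  refine hlim.congr' ?_
  filter_upwards [self_mem_nhdsWithin] with Y hY
  rw [Sk_xi_zero hY one_pos]
  simp

end Crest.Agent.R17
end
end

-- ▼ part PVc/R17/ThetaNorm
section

/-!
# Row 17, theta module F: the norm formula; `θ_Y` is Cauchy in `L²(Γ \ H)` as `Y → 0`
-/

set_option autoImplicit false

noncomputable section

namespace Crest.Agent.R17

open scoped ComplexConjugate ENNReal Topology
open MeasureTheory Filter

/-- The square of the norm on `Δ \ H`. -/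
def N2 (Δ : Subgroup SL2) (f : H → ℂ) : ℝ≥0∞ :=
  ∫⁻ w, ENNReal.ofReal (wOf Δ w) * ‖f w‖ₑ ^ 2 ∂μH

/-- `Φ(ε) = ∫ e^{-u} u^{1/3} Φ₀(ε / u) du`. -/
def Phi1 (ε : ℝ) : ℂ :=
  ∫ u in Set.Ioi (0 : ℝ), ((Real.exp (-u) * u ^ (1 / 3 : ℝ) : ℝ) : ℂ) * Phi0 (ε / u)

theorem tn1_measurable_Phi0 : Measurable Phi0 := by
  unfold Phi0
  refine Measurable.mul (Complex.measurable_ofReal.comp (measurable_id.pow_const _)) ?_
  refine Measurable.tsum (fun c => ?_)
  refine Measurable.const_mul (Complex.measurable_ofReal.comp ?_) _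
  fun_prop

theorem tn1_integrableOn_gamma {s : ℝ} (hs : 0 ≤ s) :
    IntegrableOn (fun u : ℝ => Real.exp (-u) * u ^ s) (Set.Ioi 0) := by
  have := Real.GammaIntegral_convergent (s := s + 1) (by linarith)
  simpa using this

theorem tn1_integrableOn_Phi1 {ε : ℝ} (hε : 0 < ε) :
    IntegrableOn (fun u : ℝ => ((Real.exp (-u) * u ^ (1 / 3 : ℝ) : ℝ) : ℂ) * Phi0 (ε / u))
      (Set.Ioi 0) := by
  obtain ⟨ρ, C, -, -, hC⟩ := phi0_tendsto
  refine Integrable.mono' ((tn1_integrableOn_gamma (s := 1 / 3) (by norm_num)).mul_const C) ?_ ?_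
  · refine Measurable.aestronglyMeasurable ?_
    refine Measurable.mul (Complex.measurable_ofReal.comp ?_)
      (tn1_measurable_Phi0.comp (measurable_const.div measurable_id))
    exact (Real.measurable_exp.comp measurable_neg).mul (measurable_id.pow_const _)
  · refine (ae_restrict_iff' measurableSet_Ioi).2 (Eventually.of_forall fun u hu => ?_)
    have hu : 0 < u := hu
    rw [norm_mul, Complex.norm_real, Real.norm_of_nonneg (by positivity)]
    exact mul_le_mul_of_nonneg_left (hC _ (by positivity)) (by positivity)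

theorem phi1_tendsto : ∃ ρ : ℂ, Tendsto Phi1 (𝓝[>] 0) (𝓝 ρ) := by
  obtain ⟨ρ, C, -, hρ, hC⟩ := phi0_tendsto
  refine ⟨∫ u in Set.Ioi (0 : ℝ), ((Real.exp (-u) * u ^ (1 / 3 : ℝ) : ℝ) : ℂ) * (ρ : ℂ), ?_⟩
  unfold Phi1
  refine tendsto_integral_filter_of_dominated_convergence
    (fun u : ℝ => Real.exp (-u) * u ^ (1 / 3 : ℝ) * C) ?_ ?_
    ((tn1_integrableOn_gamma (s := 1 / 3) (by norm_num)).mul_const C) ?_
  · filter_upwards [self_mem_nhdsWithin] with ε hε
    exact (tn1_integrableOn_Phi1 hε).aestronglyMeasurable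
  · filter_upwards [self_mem_nhdsWithin] with ε hε
    have hε : 0 < ε := hε
    refine (ae_restrict_iff' measurableSet_Ioi).2 (Eventually.of_forall fun u hu => ?_)
    have hu : 0 < u := hu
    rw [norm_mul, Complex.norm_real, Real.norm_of_nonneg (by positivity)]
    exact mul_le_mul_of_nonneg_left (hC _ (by positivity)) (by positivity)
  · refine (ae_restrict_iff' measurableSet_Ioi).2 (Eventually.of_forall fun u hu => ?_)
    have hu : 0 < u := hu
    refine Tendsto.const_mul _ (hρ.comp ?_)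
    refine tendsto_nhdsWithin_iff.2 ⟨?_, ?_⟩
    · have : Tendsto (fun ε : ℝ => ε / u) (𝓝 0) (𝓝 (0 / u)) := tendsto_id.div_const u
      rw [zero_div] at this
      exact this.mono_left nhdsWithin_le_nhds
    · filter_upwards [self_mem_nhdsWithin] with ε hε
      exact div_pos hε hu

/-- The substitution `u = A / y`. -/
theorem tn1_subst {A : ℝ} (hA : 0 < A) (g : ℝ → ℂ) :
    (IntegrableOn g (Set.Ioi 0) ↔
      IntegrableOn (fun y : ℝ => (A / y ^ 2) • g (A / y)) (Set.Ioi 0)) ∧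
    ∫ u in Set.Ioi (0 : ℝ), g u = ∫ y in Set.Ioi (0 : ℝ), (A / y ^ 2) • g (A / y) := by
  have hd : ∀ y ∈ Set.Ioi (0 : ℝ),
      HasDerivWithinAt (fun y : ℝ => A / y) (-(A / y ^ 2)) (Set.Ioi 0) y := by
    intro y hy0
    have hy0 : (0 : ℝ) < y := hy0
    have := (hasDerivAt_inv hy0.ne').const_mul A
    refine HasDerivAt.hasDerivWithinAt ?_
    simp only [div_eq_mul_inv]
    rw [← mul_neg]
    exact this
  have hi : Set.InjOn (fun y : ℝ => A / y) (Set.Ioi 0) := by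
    intro y hy0 y' hy' h
    have hy0 : (0 : ℝ) < y := hy0
    have hy' : (0 : ℝ) < y' := hy'
    simp only at h
    rw [div_eq_div_iff hy0.ne' hy'.ne'] at h
    exact (mul_left_cancel₀ hA.ne' h).symm
  have him : (fun y : ℝ => A / y) '' Set.Ioi 0 = Set.Ioi 0 := by
    ext u
    constructor
    · rintro ⟨y, hy0, rfl⟩
      exact div_pos hA hy0
    · intro hu
      have hu : (0 : ℝ) < u := hu
      exact ⟨A / u, div_pos hA hu, by field_simp⟩
  have h1 := integrableOn_image_iff_integrableOn_abs_deriv_smul measurableSet_Ioi hd hi g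
  have h2 := integral_image_eq_integral_abs_deriv_smul measurableSet_Ioi hd hi g
  rw [him] at h1 h2
  have habs : ∀ y : ℝ, |-(A / y ^ 2)| = A / y ^ 2 := fun y => by
    rw [abs_neg, abs_of_nonneg (by positivity)]
  simp only [habs] at h1 h2
  exact ⟨h1, h2⟩

theorem tn1_Acoef_zero {Y y : ℝ} (hY : 0 < Y) (hy0 : 0 < y) :
    Acoef xi Y 0 y = ((Y ^ (4 / 3 : ℝ) * Real.exp (-Y / y) : ℝ) : ℂ) +
      (k1 : ℂ) * (((y ^ (2 / 3 : ℝ) : ℝ) : ℂ) * Phi0 (y * Y)) := by
  have h0 : b1 * nr (0 : O) = 0 := by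
    have : nm (0 : O) = 0 := nm_eq_zero.2 rfl
    simp [nr, this]
  unfold Acoef
  rw [if_pos rfl, tsum_xi_zero, one_mul, h0, Sk_xi_zero hY hy0]

theorem tn1_mean {Y y : ℝ} (hY : 0 < Y) (hy0 : 0 < y) :
    ∫ z : ℂ, (wt 9 z : ℂ) * thY xi Y (hp z y) = V0 * Acoef xi Y 0 y := by
  have hx : XiOK xi := xis_one ▸ xiOK_xis 1
  obtain ⟨h1, h2⟩ := thY_fourier hx hY hy0
  have := integral_wt_tsum (N := 9) (by norm_num) (ξ := fun r => ι r / 9)
    (fun r => by
      constructor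
      · intro h
        apply ι_injective
        rw [map_zero]
        simpa using h
      · rintro rfl; simp)
    (fun r => ⟨r, by push_cast; ring⟩) h1
  rw [← this]
  refine integral_congr_ae (Eventually.of_forall fun z => ?_)
  simp only [h2]
  congr 1
  refine tsum_congr fun r => ?_
  congr 2
  ring

theorem tn1_integrable_seed {Y Y' : ℝ} (hY : 0 < Y) (hY' : 0 < Y') :
    Integrable (fun w => thY xi Y w * conj (seed 9 Y' w)) μH := by
  have hx : XiOK xi := xis_one ▸ xiOK_xis 1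
  obtain ⟨C, hC⟩ := norm_thY_le hY
  refine integrable_mul_seed (C := 2 * |C|) (continuous_thY hx hY).measurable (fun w => ?_) 9 hY'
  have hw := hy_pos w
  have h4 : 0 ≤ hy w ^ (-(4 : ℝ)) := by positivity
  have h1 : (hy w)⁻¹ ≤ hy w ^ (-(4 : ℝ)) + 1 := by
    rcases le_total (hy w) 1 with h | h
    · have : hy w ^ (-(1 : ℝ)) ≤ hy w ^ (-(4 : ℝ)) :=
        Real.rpow_le_rpow_of_exponent_ge hw h (by norm_num)
      rw [Real.rpow_neg_one] at this
      linarith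
    · have : (hy w)⁻¹ ≤ 1 := inv_le_one_of_one_le₀ h
      linarith
  have h2 : 0 ≤ (hy w)⁻¹ := by positivity
  calc ‖thY xi Y w‖ ≤ C * (1 + (hy w)⁻¹) := hC xi hx w
    _ ≤ |C| * (1 + (hy w)⁻¹) := mul_le_mul_of_nonneg_right (le_abs_self C) (by positivity)
    _ ≤ |C| * (2 * (hy w + hy w ^ (-(4 : ℝ)) + 1)) :=
        mul_le_mul_of_nonneg_left (by linarith) (abs_nonneg C)
    _ = _ := by ring

theorem tn1_radial {Y Y' : ℝ} (hY : 0 < Y) (hY' : 0 < Y') :
    ∫ y in Set.Ioi (0 : ℝ), Acoef xi Y 0 y * ((Y' ^ (4 / 3 : ℝ) * Real.exp (-Y' / y) : ℝ) : ℂ) *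
        (((y ^ 3)⁻¹ : ℝ) : ℂ) =
      (((Y * Y') ^ (4 / 3 : ℝ) / (Y + Y') ^ 2 : ℝ) : ℂ) + k1 * Phi1 (Y * Y') := by
  have hA : 0 < Y + Y' := by positivity
  obtain ⟨a1, a2⟩ := tn1_subst hA (fun u : ℝ =>
    (((Y * Y') ^ (4 / 3 : ℝ) / (Y + Y') ^ 2 : ℝ) : ℂ) * ((Real.exp (-u) * u ^ (1 : ℝ) : ℝ) : ℂ))
  obtain ⟨b1', b2⟩ := tn1_subst hY' (fun u : ℝ =>
    (k1 : ℂ) * (((Real.exp (-u) * u ^ (1 / 3 : ℝ) : ℝ) : ℂ) * Phi0 (Y * Y' / u)))
  have i1 := a1.1 ((tn1_integrableOn_gamma (s := 1) (by norm_num)).ofReal.const_mul _)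
  have i2 := b1'.1 ((tn1_integrableOn_Phi1 (mul_pos hY hY')).const_mul _)
  have g1 : ∫ u in Set.Ioi (0 : ℝ), Real.exp (-u) * u ^ (1 : ℝ) = 1 := by
    have := Real.Gamma_eq_integral (s := 2) (by norm_num)
    rw [Real.Gamma_two, show (2 : ℝ) - 1 = 1 by norm_num] at this
    exact this.symm
  rw [integral_const_mul, integral_complex_ofReal, g1] at a2
  rw [integral_const_mul] at b2
  have e1 : (((Y * Y') ^ (4 / 3 : ℝ) / (Y + Y') ^ 2 : ℝ) : ℂ) =
      (((Y * Y') ^ (4 / 3 : ℝ) / (Y + Y') ^ 2 : ℝ) : ℂ) * ((1 : ℝ) : ℂ) := by simp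
  unfold Phi1
  rw [e1, a2, b2, ← integral_add i1 i2]
  refine setIntegral_congr_fun measurableSet_Ioi (fun y hy0 => ?_)
  have hy0 : (0 : ℝ) < y := hy0
  rw [tn1_Acoef_zero hY hy0, show Y * Y' / (Y' / y) = y * Y by field_simp]
  have r1 : Y ^ (4 / 3 : ℝ) * Real.exp (-Y / y) * (Y' ^ (4 / 3 : ℝ) * Real.exp (-Y' / y)) *
      (y ^ 3)⁻¹ = (Y + Y') / y ^ 2 * ((Y * Y') ^ (4 / 3 : ℝ) / (Y + Y') ^ 2 *
        (Real.exp (-((Y + Y') / y)) * ((Y + Y') / y) ^ (1 : ℝ))) := by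
    rw [Real.rpow_one, Real.mul_rpow hY.le hY'.le,
      show -((Y + Y') / y) = -Y / y + -Y' / y by ring, Real.exp_add]
    field_simp
  have r2 : y ^ (2 / 3 : ℝ) * (Y' ^ (4 / 3 : ℝ) * Real.exp (-Y' / y)) * (y ^ 3)⁻¹ =
      Y' / y ^ 2 * (Real.exp (-(Y' / y)) * (Y' / y) ^ (1 / 3 : ℝ)) := by
    have s1 : Y' ^ (4 / 3 : ℝ) = Y' * Y' ^ (1 / 3 : ℝ) := by
      rw [show (4 / 3 : ℝ) = 1 + 1 / 3 by norm_num, Real.rpow_add hY', Real.rpow_one]
    have s2 : y ^ (2 / 3 : ℝ) = y / y ^ (1 / 3 : ℝ) := by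
      rw [show (2 / 3 : ℝ) = 1 - 1 / 3 by norm_num, Real.rpow_sub hy0, Real.rpow_one]
    have s3 : 0 < y ^ (1 / 3 : ℝ) := by positivity
    rw [s1, s2, Real.div_rpow hY'.le hy0.le, neg_div]
    field_simp
  have r1' := congrArg (fun t : ℝ => (t : ℂ)) r1
  have r2' := congrArg (fun t : ℝ => (t : ℂ)) r2
  simp only [Complex.ofReal_mul] at r1' r2'
  simp only [Complex.real_smul, Complex.ofReal_mul]
  linear_combination r1' + (k1 : ℂ) * Phi0 (y * Y) * r2'

/-- The inner product formula (`IsWt.inner_unfold`, `integral_μH`, `integral_wt_tsum`). -/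
theorem inner_thY {Y Y' : ℝ} (hY : 0 < Y) (hY' : 0 < Y') :
    Integrable (fun w => (wOf Gam w : ℂ) * (thY xi Y w * conj (thY xi Y' w))) μH ∧
    ∫ w, (wOf Gam w : ℂ) * (thY xi Y w * conj (thY xi Y' w)) ∂μH =
      V0 * ((((Y * Y') ^ (4 / 3 : ℝ) / (Y + Y') ^ 2 : ℝ) : ℂ) + k1 * Phi1 (Y * Y')) := by
  have hx : XiOK xi := xis_one ▸ xiOK_xis 1
  have hint := tn1_integrable_seed hY hY'
  obtain ⟨h1, h2⟩ := (isWt_wOf Gam).inner_unfold (μ := μH)
    (fun γ => measurePreserving_smul_SL (γ : SL2)) (fun γ : Gam => kap γ)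
    (continuous_thY hx hY).measurable (measurable_seed 9 Y')
    (fun γ w => thY_aut γ.2 w) hint (fun w => (thY_eq_tsum (N := 9) (by norm_num) hY' w).1)
  have h3 : ∀ w, thY xi Y' w = ∑' γ : Gam, conj (kap γ) * seed 9 Y' (γ • w) :=
    fun w => (thY_eq_tsum (N := 9) (by norm_num) hY' w).2
  simp only [← h3] at h1 h2
  refine ⟨h1, ?_⟩
  rw [h2, integral_μH hint, ← tn1_radial hY hY', ← integral_const_mul]
  refine setIntegral_congr_fun measurableSet_Ioi (fun y hy0 => ?_)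
  have hy0 : (0 : ℝ) < y := hy0
  have e : ∀ z : ℂ, thY xi Y (hp z y) * conj (seed 9 Y' (hp z y)) =
      (wt 9 z : ℂ) * thY xi Y (hp z y) * ((Y' ^ (4 / 3 : ℝ) * Real.exp (-Y' / y) : ℝ) : ℂ) := by
    intro z
    unfold seed
    rw [Complex.conj_ofReal, hy_hp z hy0, hp_fst, Complex.ofReal_mul]
    ring
  simp only [e]
  rw [integral_mul_const, tn1_mean hY hy0]
  ring

theorem tn1_N2_eq {f : H → ℂ}
    (hf : Integrable (fun w => (wOf Gam w : ℂ) * (f w * conj (f w))) μH) :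
    N2 Gam f = ENNReal.ofReal ‖∫ w, (wOf Gam w : ℂ) * (f w * conj (f w)) ∂μH‖ := by
  have h0 : ∀ w, 0 ≤ wOf Gam w := (isWt_wOf Gam).nonneg
  have e : ∀ w, (wOf Gam w : ℂ) * (f w * conj (f w)) = ((wOf Gam w * ‖f w‖ ^ 2 : ℝ) : ℂ) := by
    intro w
    rw [Complex.mul_conj, Complex.normSq_eq_norm_sq]
    push_cast
    ring
  simp only [e] at hf ⊢
  have hn : ∀ w, 0 ≤ wOf Gam w * ‖f w‖ ^ 2 := fun w => mul_nonneg (h0 w) (by positivity)
  have hf' : Integrable (fun w => wOf Gam w * ‖f w‖ ^ 2) μH := by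
    refine hf.norm.congr (Eventually.of_forall fun w => ?_)
    simp only
    rw [Complex.norm_real, Real.norm_of_nonneg (hn w)]
  rw [integral_complex_ofReal, Complex.norm_real, Real.norm_of_nonneg (integral_nonneg hn),
    ofReal_integral_eq_lintegral_ofReal hf' (Eventually.of_forall hn)]
  unfold N2
  refine lintegral_congr fun w => ?_
  rw [ENNReal.ofReal_mul (h0 w), ENNReal.ofReal_pow (norm_nonneg _), ofReal_norm]

theorem tn1_close : ∃ L : ℂ, ∀ η : ℝ, 0 < η → ∃ δ : ℝ, 0 < δ ∧ ∀ Y ∈ Set.Ioo 0 δ,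
    ∀ Y' ∈ Set.Ioo 0 δ,
      ‖∫ w, (wOf Gam w : ℂ) * (thY xi Y w * conj (thY xi Y' w)) ∂μH - L‖ ≤ η := by
  obtain ⟨ρ, hρ⟩ := phi1_tendsto
  refine ⟨V0 * (k1 * ρ), fun η hη => ?_⟩
  have t1 : Tendsto (fun p : ℝ => p ^ (1 / 3 : ℝ)) (𝓝[>] 0) (𝓝 0) := by
    have := (Real.continuousAt_rpow_const 0 (1 / 3) (Or.inr (by norm_num))).tendsto
    rw [Real.zero_rpow (by norm_num)] at this
    exact this.mono_left nhdsWithin_le_nhds
  have t2 : Tendsto (fun p : ℝ => ‖Phi1 p - ρ‖) (𝓝[>] 0) (𝓝 0) :=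
    tendsto_iff_norm_sub_tendsto_zero.1 hρ
  have t3 : Tendsto (fun p : ℝ => V0 * (p ^ (1 / 3 : ℝ) + k1 * ‖Phi1 p - ρ‖)) (𝓝[>] 0) (𝓝 0) := by
    have := (t1.add (t2.const_mul k1)).const_mul V0
    simpa using this
  obtain ⟨δ, hδ, hsub⟩ := (mem_nhdsGT_iff_exists_Ioo_subset).1 (t3.eventually (gt_mem_nhds hη))
  have hδ : 0 < δ := hδ
  refine ⟨min δ 1, lt_min hδ one_pos, fun Y hY Y' hY' => ?_⟩
  have hp0 : 0 < Y * Y' := mul_pos hY.1 hY'.1
  have hpδ : Y * Y' < δ := by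
    have a1 : Y < δ := hY.2.trans_le (min_le_left _ _)
    have a2 : Y' < 1 := hY'.2.trans_le (min_le_right _ _)
    nlinarith [hY.1]
  have hlt : V0 * ((Y * Y') ^ (1 / 3 : ℝ) + k1 * ‖Phi1 (Y * Y') - ρ‖) < η := hsub ⟨hp0, hpδ⟩
  refine le_trans ?_ hlt.le
  rw [(inner_thY hY.1 hY'.1).2, ← mul_sub, norm_mul, Complex.norm_real,
    Real.norm_of_nonneg V0_pos.le, add_sub_assoc, ← mul_sub]
  refine mul_le_mul_of_nonneg_left ((norm_add_le _ _).trans (add_le_add ?_ ?_)) V0_pos.le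
  · have hA : 0 < Y + Y' := add_pos hY.1 hY'.1
    rw [Complex.norm_real, Real.norm_of_nonneg (by positivity), div_le_iff₀ (by positivity),
      show (4 / 3 : ℝ) = 1 / 3 + 1 by norm_num, Real.rpow_add hp0, Real.rpow_one]
    refine mul_le_mul_of_nonneg_left ?_ (by positivity)
    nlinarith [sq_nonneg (Y - Y')]
  · rw [norm_mul, Complex.norm_real, Real.norm_of_nonneg k1_pos.le]

theorem N2_thY_le : ∃ C δ : ℝ, 0 < δ ∧ ∀ Y ∈ Set.Ioo 0 δ, N2 Gam (thY xi Y) ≤ ENNReal.ofReal C := by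
  obtain ⟨L, hL⟩ := tn1_close
  obtain ⟨δ, hδ, h⟩ := hL 1 one_pos
  refine ⟨‖L‖ + 1, δ, hδ, fun Y hY => ?_⟩
  rw [tn1_N2_eq (inner_thY hY.1 hY.1).1]
  refine ENNReal.ofReal_le_ofReal ?_
  have := h Y hY Y hY
  have h2 := norm_sub_norm_le (∫ w, (wOf Gam w : ℂ) * (thY xi Y w * conj (thY xi Y w)) ∂μH) L
  linarith

theorem N2_cauchy {ε : ℝ≥0∞} (hε : 0 < ε) : ∃ δ : ℝ, 0 < δ ∧ ∀ Y ∈ Set.Ioo 0 δ, ∀ Y' ∈ Set.Ioo 0 δ,
    N2 Gam (thY xi Y - thY xi Y') ≤ ε := by
  obtain ⟨L, hL⟩ := tn1_close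
  obtain ⟨η, -, hη, hηε⟩ := ENNReal.lt_iff_exists_real_btwn.1 hε
  have hη0 : 0 < η := ENNReal.ofReal_pos.1 hη
  obtain ⟨δ, hδ, h⟩ := hL (η / 4) (by positivity)
  refine ⟨δ, hδ, fun Y hY Y' hY' => le_trans ?_ hηε.le⟩
  have i1 := (inner_thY hY.1 hY.1).1
  have i2 := (inner_thY hY.1 hY'.1).1
  have i3 := (inner_thY hY'.1 hY.1).1
  have i4 := (inner_thY hY'.1 hY'.1).1
  have e : ∀ w, (wOf Gam w : ℂ) * ((thY xi Y - thY xi Y') w * conj ((thY xi Y - thY xi Y') w)) =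
      ((wOf Gam w : ℂ) * (thY xi Y w * conj (thY xi Y w)) -
        (wOf Gam w : ℂ) * (thY xi Y w * conj (thY xi Y' w))) -
      ((wOf Gam w : ℂ) * (thY xi Y' w * conj (thY xi Y w)) -
        (wOf Gam w : ℂ) * (thY xi Y' w * conj (thY xi Y' w))) := by
    intro w
    simp only [Pi.sub_apply, map_sub]
    ring
  have i5 : Integrable (fun w => (wOf Gam w : ℂ) *
      ((thY xi Y - thY xi Y') w * conj ((thY xi Y - thY xi Y') w))) μH := by
    simp only [e]
    exact (i1.sub i2).sub (i3.sub i4)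
  rw [tn1_N2_eq i5]
  refine ENNReal.ofReal_le_ofReal ?_
  simp only [e]
  have j := integral_sub (i1.sub i2) (i3.sub i4)
  simp only [Pi.sub_apply] at j
  rw [j, integral_sub i1 i2, integral_sub i3 i4]
  have b1 := h Y hY Y hY
  have b2 := h Y hY Y' hY'
  have b3 := h Y' hY' Y hY
  have b4 := h Y' hY' Y' hY'
  generalize ∫ w, (wOf Gam w : ℂ) * (thY xi Y w * conj (thY xi Y w)) ∂μH = A at b1 ⊢
  generalize ∫ w, (wOf Gam w : ℂ) * (thY xi Y w * conj (thY xi Y' w)) ∂μH = B at b2 ⊢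
  generalize ∫ w, (wOf Gam w : ℂ) * (thY xi Y' w * conj (thY xi Y w)) ∂μH = C at b3 ⊢
  generalize ∫ w, (wOf Gam w : ℂ) * (thY xi Y' w * conj (thY xi Y' w)) ∂μH = D at b4 ⊢
  rw [show A - B - (C - D) = ((A - L) - (B - L)) - ((C - L) - (D - L)) by ring]
  have c1 := norm_sub_le ((A - L) - (B - L)) ((C - L) - (D - L))
  have c2 := norm_sub_le (A - L) (B - L)
  have c3 := norm_sub_le (C - L) (D - L)
  linarith

/-- The norm on a strip in terms of the coefficients. -/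
theorem NormF2.lintegral_strip {g : H → ℂ} {A : O → ℝ → ℂ} (hg : Measurable g)
    (hA : ∀ r, Measurable (A r))
    (hF : ∀ y, 0 < y → (Summable fun r => ‖A r y‖) ∧
      ∀ z, g (hp z y) = ∑' r, A r y * eC (ι r * z / 9))
    {S : Set ℝ} (hS : MeasurableSet S) (hS0 : S ⊆ Set.Ioi 0) {m : ℕ} (hm : m ≠ 0) (t : ℂ) :
    ∫⁻ w, (hy ⁻¹' S).indicator (fun w : H => ENNReal.ofReal (wt (9 * m) (w.1 - t))) w *
        ‖g w‖ₑ ^ 2 ∂μH =
      ENNReal.ofReal V0 * ∑' r, ∫⁻ y in S, ‖A r y‖ₑ ^ 2 * ENNReal.ofReal (y ^ 3)⁻¹ := by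
  have hm1 : Measurable fun w : H => ENNReal.ofReal (wt (9 * m) (w.1 - t)) :=
    ((measurable_wt _).comp (measurable_fst.sub_const t)).ennreal_ofReal
  have hm2 : Measurable fun y : ℝ => ENNReal.ofReal (y ^ 3)⁻¹ := by fun_prop
  have hm3 : Measurable fun w : H => (hy ⁻¹' S).indicator
      (fun w : H => ENNReal.ofReal (wt (9 * m) (w.1 - t))) w * ‖g w‖ₑ ^ 2 :=
    (hm1.indicator (continuous_hy.measurable hS)).mul (hg.enorm.pow_const 2)
  have hm4 : ∀ r, AEMeasurable (fun y : ℝ => ‖A r y‖ₑ ^ 2 * ENNReal.ofReal (y ^ 3)⁻¹)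
      (volume.restrict S) := fun r => (((hA r).enorm.pow_const 2).mul hm2).aemeasurable
  rw [lintegral_μH hm3, ← lintegral_tsum hm4,
    ← lintegral_const_mul' _ _ ENNReal.ofReal_ne_top]
  have h1 : ∫⁻ y in S, ENNReal.ofReal V0 * ∑' r, ‖A r y‖ₑ ^ 2 * ENNReal.ofReal (y ^ 3)⁻¹ =
      ∫⁻ y in Set.Ioi (0 : ℝ), S.indicator (fun y =>
        ENNReal.ofReal V0 * ∑' r, ‖A r y‖ₑ ^ 2 * ENNReal.ofReal (y ^ 3)⁻¹) y := by
    rw [lintegral_indicator hS, Measure.restrict_restrict hS, Set.inter_eq_left.2 hS0]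
  rw [h1]
  refine setLIntegral_congr_fun measurableSet_Ioi fun y hy0 => ?_
  have hy0' : 0 < y := hy0
  by_cases hyS : y ∈ S
  · have h2 : ∀ z : ℂ, (hy ⁻¹' S).indicator
        (fun w : H => ENNReal.ofReal (wt (9 * m) (w.1 - t))) (hp z y) =
        ENNReal.ofReal (wt (9 * m) (z - t)) := fun z =>
      Set.indicator_of_mem (by simpa [hy_hp z hy0'] using hyS) _
    simp only [h2, (hF y hy0').2, Set.indicator_of_mem hyS]
    rw [parseval hm t (hF y hy0').1, ENNReal.tsum_mul_right, mul_assoc]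
  · have h2 : ∀ z : ℂ, (hy ⁻¹' S).indicator
        (fun w : H => ENNReal.ofReal (wt (9 * m) (w.1 - t))) (hp z y) = 0 := fun z =>
      Set.indicator_of_notMem (by simpa [hy_hp z hy0'] using hyS) _
    simp [h2, Set.indicator_of_notMem hyS]

/-- Passing from the global norm to the Fourier coefficients at the cusp `σ ∞`
(`parseval`, `lintegral_μH`, `IsWt.lintegral_le`, `tsum_strip_le`). -/
theorem strip_le_N2 : ∃ C : ℝ, 0 < C ∧ ∀ (f : H → ℂ) (σ : SL2) (A : O → ℝ → ℂ) (a : ℝ),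
    Measurable f → (∀ γ ∈ Gam, ∀ w, ‖f (γ • w)‖ = ‖f w‖) → (∀ r, Measurable (A r)) →
    (∀ y, 0 < y → (Summable fun r => ‖A r y‖) ∧
      ∀ z, f (σ • hp z y) = ∑' r, A r y * eC (ι r * z / 9)) → 0 < a →
    ∑' r, ∫⁻ y in Set.Ioi a, ‖A r y‖ₑ ^ 2 * ENNReal.ofReal (y ^ 3)⁻¹ ≤
      ENNReal.ofReal (C * (1 + (a ^ 2)⁻¹)) * N2 Gam f := by
  obtain ⟨C, hC, h⟩ := tsum_strip_le
  refine ⟨V0⁻¹ * C, mul_pos (inv_pos.2 V0_pos) hC, fun f σ A a hf hinv hA hF ha => ?_⟩
  have hσ : Measurable fun w : H => σ • w := (continuous_smul_SL σ).measurable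
  have hσ' : Measurable fun w : H => σ⁻¹ • w := (continuous_smul_SL σ⁻¹).measurable
  have key := NormF2.lintegral_strip (g := fun w => f (σ • w)) (hf.comp hσ) hA hF
    (S := Set.Ioi a) measurableSet_Ioi (Set.Ioi_subset_Ioi ha.le) one_ne_zero 0
  set φ : H → ℝ≥0∞ := (hy ⁻¹' Set.Ioi a).indicator
    (fun w : H => ENNReal.ofReal (wt (9 * 1) (w.1 - 0))) with hφ
  have hφm : Measurable φ :=
    (((measurable_wt _).comp (measurable_fst.sub_const 0)).ennreal_ofReal).indicator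
      (continuous_hy.measurable measurableSet_Ioi)
  have hFm : Measurable fun w => ‖f w‖ₑ ^ 2 := hf.enorm.pow_const 2
  have h1 := (isWt_wOf Gam).lintegral_le (μ := μH)
    (fun γ => measurePreserving_smul_SL (γ : SL2)) (φ := fun w => φ (σ⁻¹ • w))
    (F := fun w => ‖f w‖ₑ ^ 2) (hφm.comp hσ') hFm
    (fun γ w => by
      have := hinv γ γ.2 w
      simp only [← ofReal_norm]
      exact congrArg (fun x => ENNReal.ofReal x ^ 2) this)
    (m := ENNReal.ofReal (C * (1 + (a ^ 2)⁻¹))) (fun w => by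
      refine le_trans (le_of_eq (tsum_congr fun δ => ?_)) (h Gam σ (9 * 1) 0 a w (by norm_num) ha)
      by_cases h1 : a < hy (σ⁻¹ • δ • w)
      · rw [if_pos h1, hφ, Set.indicator_of_mem (by exact h1)]
      · rw [if_neg h1, hφ, Set.indicator_of_notMem (by exact h1)])
  have h2 := (measurePreserving_smul_SL σ).lintegral_comp
    (f := fun w => φ (σ⁻¹ • w) * ‖f w‖ₑ ^ 2) ((hφm.comp hσ').mul hFm)
  simp only [inv_smul_smul] at h2
  rw [← h2, key] at h1
  have hV : ENNReal.ofReal V0⁻¹ * ENNReal.ofReal V0 = 1 := by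
    rw [← ENNReal.ofReal_mul (inv_pos.2 V0_pos).le, inv_mul_cancel₀ V0_pos.ne', ENNReal.ofReal_one]
  calc _ = ENNReal.ofReal V0⁻¹ * (ENNReal.ofReal V0 *
        ∑' r, ∫⁻ y in Set.Ioi a, ‖A r y‖ₑ ^ 2 * ENNReal.ofReal (y ^ 3)⁻¹) := by
        rw [← mul_assoc, hV, one_mul]
    _ ≤ ENNReal.ofReal V0⁻¹ * (ENNReal.ofReal (C * (1 + (a ^ 2)⁻¹)) * N2 Gam f) := by
        exact mul_le_mul_right h1 _
    _ = _ := by rw [← mul_assoc, ← ENNReal.ofReal_mul (inv_pos.2 V0_pos).le, mul_assoc]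

/-- Conversely, the norm on a compact set is dominated by the coefficients. -/
theorem compact_le_strip {K : Set H} (hK : IsCompact K) : ∃ (C a a' : ℝ), 0 < a ∧
    ∀ (f : H → ℂ) (A : O → ℝ → ℂ), Measurable f → (∀ r, Measurable (A r)) →
    (∀ y, 0 < y → (Summable fun r => ‖A r y‖) ∧
      ∀ z, f (hp z y) = ∑' r, A r y * eC (ι r * z / 9)) →
    ∫⁻ w in K, ‖f w‖ₑ ^ 2 ∂μH ≤
      ENNReal.ofReal C * ∑' r, ∫⁻ y in Set.Ioo a a', ‖A r y‖ₑ ^ 2 := by
  obtain ⟨R, hR⟩ := hK.isBounded.exists_norm_le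
  obtain ⟨m, t, hm, hw⟩ := exists_wt_ge R
  have hN : (0 : ℝ) < ((9 * m : ℕ) : ℝ) ^ 2 := by positivity
  refine ⟨((9 * m : ℕ) : ℝ) ^ 2 * V0 * (Real.exp (-R - 1) ^ 3)⁻¹, Real.exp (-R - 1),
    Real.exp (R + 1), Real.exp_pos _, fun f A hf hA hF => ?_⟩
  set a := Real.exp (-R - 1) with ha
  set a' := Real.exp (R + 1) with ha'
  have ha0 : 0 < a := Real.exp_pos _
  have key := NormF2.lintegral_strip hf hA hF (S := Set.Ioo a a') measurableSet_Ioo
    (fun y hy => ha0.trans hy.1) hm t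
  calc ∫⁻ w in K, ‖f w‖ₑ ^ 2 ∂μH
      ≤ ∫⁻ w in K, ENNReal.ofReal (((9 * m : ℕ) : ℝ) ^ 2) * ((hy ⁻¹' Set.Ioo a a').indicator
          (fun w : H => ENNReal.ofReal (wt (9 * m) (w.1 - t))) w * ‖f w‖ₑ ^ 2) ∂μH := by
        refine setLIntegral_mono' hK.measurableSet fun w hwK => le_of_eq ?_
        have h1 : ‖w.1‖ ≤ R := (norm_fst_le w).trans (hR w hwK)
        have h2 : |w.2| ≤ R := (norm_snd_le w).trans (hR w hwK)
        have h3 : w ∈ hy ⁻¹' Set.Ioo a a' :=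
          ⟨Real.exp_lt_exp.2 (by linarith [(abs_le.1 h2).1]),
            Real.exp_lt_exp.2 (by linarith [(abs_le.1 h2).2])⟩
        rw [Set.indicator_of_mem h3, hw _ h1, ← mul_assoc, ← ENNReal.ofReal_mul hN.le,
          mul_inv_cancel₀ hN.ne', ENNReal.ofReal_one, one_mul]
    _ ≤ ∫⁻ w, ENNReal.ofReal (((9 * m : ℕ) : ℝ) ^ 2) * ((hy ⁻¹' Set.Ioo a a').indicator
          (fun w : H => ENNReal.ofReal (wt (9 * m) (w.1 - t))) w * ‖f w‖ₑ ^ 2) ∂μH :=
        setLIntegral_le_lintegral _ _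
    _ = ENNReal.ofReal (((9 * m : ℕ) : ℝ) ^ 2) * (ENNReal.ofReal V0 *
          ∑' r, ∫⁻ y in Set.Ioo a a', ‖A r y‖ₑ ^ 2 * ENNReal.ofReal (y ^ 3)⁻¹) := by
        rw [lintegral_const_mul' _ _ ENNReal.ofReal_ne_top, key]
    _ ≤ ENNReal.ofReal (((9 * m : ℕ) : ℝ) ^ 2) * (ENNReal.ofReal V0 *
          ∑' r, ENNReal.ofReal (a ^ 3)⁻¹ * ∫⁻ y in Set.Ioo a a', ‖A r y‖ₑ ^ 2) := by
        gcongr with r
        rw [← lintegral_const_mul' _ _ ENNReal.ofReal_ne_top]
        refine setLIntegral_mono' measurableSet_Ioo fun y hy => ?_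
        rw [mul_comm]
        gcongr
        exact hy.1.le
    _ = _ := by
        rw [ENNReal.tsum_mul_left, ENNReal.ofReal_mul (mul_pos hN V0_pos).le,
          ENNReal.ofReal_mul hN.le, mul_assoc, mul_assoc]

end Crest.Agent.R17
end
end

-- ▼ part PVc/R17/ThetaLimAuxB
section

/-!
# Row 17, theta module H: auxiliary measure theory for parts H2, H3 of `ThetaLim`
-/

set_option autoImplicit false

noncomputable section

namespace Crest.Agent.R17.LimB

open scoped ComplexConjugate ENNReal Topology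
open MeasureTheory Filter

theorem enorm_sq_le (x y z : ℂ) : ‖x - z‖ₑ ^ 2 ≤ 2 * ‖x - y‖ₑ ^ 2 + 2 * ‖y - z‖ₑ ^ 2 := by
  have h1 : ‖x - z‖ ≤ ‖x - y‖ + ‖y - z‖ := norm_sub_le_norm_sub_add_norm_sub x y z
  have h2 : ‖x - z‖ ^ 2 ≤ 2 * ‖x - y‖ ^ 2 + 2 * ‖y - z‖ ^ 2 := by
    nlinarith [norm_nonneg (x - z), norm_nonneg (x - y), norm_nonneg (y - z),
      sq_nonneg (‖x - y‖ - ‖y - z‖)]
  have e : ∀ u : ℂ, ‖u‖ₑ ^ 2 = ENNReal.ofReal (‖u‖ ^ 2) := fun u => by
    rw [← ofReal_norm, ENNReal.ofReal_pow (norm_nonneg _)]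
  rw [e, e, e]
  calc ENNReal.ofReal (‖x - z‖ ^ 2) ≤ ENNReal.ofReal (2 * ‖x - y‖ ^ 2 + 2 * ‖y - z‖ ^ 2) :=
        ENNReal.ofReal_le_ofReal h2
    _ = _ := by
        rw [ENNReal.ofReal_add (by positivity) (by positivity), ENNReal.ofReal_mul (by norm_num),
          ENNReal.ofReal_mul (by norm_num)]
        simp

theorem lint_tri {α : Type*} [MeasurableSpace α] (μ : Measure α) {ϖ : α → ℝ≥0∞}
    (hϖ : Measurable ϖ) {f g : α → ℂ} (h : α → ℂ) (hf : Measurable f) (hg : Measurable g) :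
    ∫⁻ x, ϖ x * ‖f x - h x‖ₑ ^ 2 ∂μ ≤
      2 * ∫⁻ x, ϖ x * ‖f x - g x‖ₑ ^ 2 ∂μ + 2 * ∫⁻ x, ϖ x * ‖g x - h x‖ₑ ^ 2 ∂μ := by
  have hm : Measurable fun x => ϖ x * ‖f x - g x‖ₑ ^ 2 :=
    hϖ.mul ((hf.sub hg).enorm.pow_const 2)
  rw [← lintegral_const_mul' _ _ (by simp), ← lintegral_const_mul' _ _ (by simp),
    ← lintegral_add_left (hm.const_mul 2)]
  refine lintegral_mono fun x => ?_
  calc ϖ x * ‖f x - h x‖ₑ ^ 2 ≤ ϖ x * (2 * ‖f x - g x‖ₑ ^ 2 + 2 * ‖g x - h x‖ₑ ^ 2) := by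
        gcongr; exact enorm_sq_le _ _ _
    _ = _ := by ring

theorem lint_tri' {α : Type*} [MeasurableSpace α] (μ : Measure α)
    {f g : α → ℂ} (h : α → ℂ) (hf : Measurable f) (hg : Measurable g) :
    ∫⁻ x, ‖f x - h x‖ₑ ^ 2 ∂μ ≤
      2 * ∫⁻ x, ‖f x - g x‖ₑ ^ 2 ∂μ + 2 * ∫⁻ x, ‖g x - h x‖ₑ ^ 2 ∂μ := by
  simpa using lint_tri μ (ϖ := fun _ => 1) measurable_const h hf hg

theorem tendsto_two_mul {α : Type*} {l : Filter α} {f : α → ℝ≥0∞} (h : Tendsto f l (𝓝 0)) :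
    Tendsto (fun x => 2 * f x) l (𝓝 0) := by
  simpa using ENNReal.Tendsto.const_mul (a := 2) h (Or.inr (by simp))

/-- Local `L²` limits which are continuous are unique. -/
theorem eq_of_local {F : ℝ → H → ℂ} {G G' : H → ℂ} (hF : ∀ Y, 0 < Y → Measurable (F Y))
    (hG : Continuous G) (hG' : Continuous G')
    (h : ∀ K : Set H, IsCompact K →
      Tendsto (fun Y => ∫⁻ w in K, ‖F Y w - G w‖ₑ ^ 2 ∂μH) (𝓝[>] 0) (𝓝 0))
    (h' : ∀ K : Set H, IsCompact K →
      Tendsto (fun Y => ∫⁻ w in K, ‖F Y w - G' w‖ₑ ^ 2 ∂μH) (𝓝[>] 0) (𝓝 0)) (w : H) :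
    G w = G' w := by
  have hK : IsCompact (Metric.closedBall w 1) := isCompact_closedBall w 1
  have h0 : ∫⁻ x in Metric.closedBall w 1, ‖G x - G' x‖ₑ ^ 2 ∂μH = 0 := by
    have ht := (tendsto_two_mul (h _ hK)).add (tendsto_two_mul (h' _ hK))
    rw [add_zero] at ht
    refine le_antisymm (ge_of_tendsto ht ?_) zero_le
    filter_upwards [self_mem_nhdsWithin] with Y hY
    have := lint_tri' (μH.restrict (Metric.closedBall w 1)) G' hG.measurable (hF Y hY)
    refine this.trans (le_of_eq ?_)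
    congr 2
    refine lintegral_congr fun x => ?_
    rw [← enorm_neg, neg_sub]
  have hm : Measurable fun x => ‖G x - G' x‖ₑ ^ 2 :=
    (hG.measurable.sub hG'.measurable).enorm.pow_const 2
  rw [lintegral_eq_zero_iff hm] at h0
  have h1 : G =ᵐ[μH.restrict (Metric.ball w 1)] G' := by
    refine ae_restrict_of_ae_restrict_of_subset Metric.ball_subset_closedBall ?_
    filter_upwards [h0] with x hx
    have : ‖G x - G' x‖ₑ = 0 := by simpa using hx
    exact sub_eq_zero.1 (enorm_eq_zero.1 this)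
  exact Measure.eqOn_open_of_ae_eq h1 Metric.isOpen_ball hG.continuousOn hG'.continuousOn
    (Metric.mem_ball_self one_pos)

theorem continuous_Mk {b : ℝ} (hb : 0 ≤ b) : Continuous fun y => Mk y b := by
  unfold Mk
  refine (Real.continuous_rpow_const (by norm_num)).mul ?_
  exact continuousOn_W0.comp_continuous (by fun_prop) fun y => by
    simp only [Set.mem_Ici]; positivity

theorem b1_nr_nonneg (r : O) : 0 ≤ b1 * nr r := mul_nonneg b1_pos.le (Nat.cast_nonneg _)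

theorem summable_mul_eC {a : O → ℂ} (ha : Summable fun r => ‖a r‖) (ξ : O → ℂ) :
    Summable fun r => a r * eC (ξ r) :=
  Summable.of_norm (by simpa [norm_eC] using ha)

/-- The coefficients of `θ_Y` are Cauchy in `ℓ²(L²(a, a'))`. -/
theorem strip_cauchy (σ : SL2) {a : ℝ} (ha : 0 < a) (a' : ℝ) {ε : ℝ≥0∞} (hε : 0 < ε) :
    ∃ δ : ℝ, 0 < δ ∧ ∀ Y ∈ Set.Ioo 0 δ, ∀ Y' ∈ Set.Ioo 0 δ,
      ∑' r : O, ∫⁻ y in Set.Ioo a a',
        ‖Acoef (xis σ) Y r y - Acoef (xis σ) Y' r y‖ₑ ^ 2 ≤ ε := by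
  obtain ⟨C, hC, hs⟩ := strip_le_N2
  set D : ℝ≥0∞ := ENNReal.ofReal (a' ^ 3) * ENNReal.ofReal (C * (1 + (a ^ 2)⁻¹)) with hD
  have hDt : D ≠ ⊤ := ENNReal.mul_ne_top ENNReal.ofReal_ne_top ENNReal.ofReal_ne_top
  obtain ⟨δ, hδ, hc⟩ := N2_cauchy (ε := ε / D) (ENNReal.div_pos hε.ne' hDt)
  refine ⟨δ, hδ, fun Y hY Y' hY' => ?_⟩
  have hx : XiOK xi := xis_one ▸ xiOK_xis 1
  have hm : ∀ r, Measurable fun y => Acoef (xis σ) Y r y - Acoef (xis σ) Y' r y := fun r =>
    (measurable_Acoef _ _ _).sub (measurable_Acoef _ _ _)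
  have key := hs (thY xi Y - thY xi Y') σ
    (fun r y => Acoef (xis σ) Y r y - Acoef (xis σ) Y' r y) a
    ((continuous_thY hx hY.1).sub (continuous_thY hx hY'.1)).measurable
    (fun γ hγ w => by
      simp only [Pi.sub_apply]
      rw [thY_aut hγ, thY_aut hγ, ← mul_sub, norm_mul, norm_kap hγ, one_mul])
    hm
    (fun y hy0 => by
      obtain ⟨s1, e1⟩ := thY_fourier (xiOK_xis σ) hY.1 hy0
      obtain ⟨s2, e2⟩ := thY_fourier (xiOK_xis σ) hY'.1 hy0
      refine ⟨(s1.add s2).of_nonneg_of_le (fun _ => norm_nonneg _) fun r => norm_sub_le _ _,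
        fun z => ?_⟩
      simp only [Pi.sub_apply]
      rw [thY_smul, thY_smul, e1, e2, ← (summable_mul_eC s1 _).tsum_sub (summable_mul_eC s2 _)]
      exact tsum_congr fun r => by ring) ha
  calc ∑' r : O, ∫⁻ y in Set.Ioo a a', ‖Acoef (xis σ) Y r y - Acoef (xis σ) Y' r y‖ₑ ^ 2
      ≤ ∑' r : O, ENNReal.ofReal (a' ^ 3) * ∫⁻ y in Set.Ioi a,
          ‖Acoef (xis σ) Y r y - Acoef (xis σ) Y' r y‖ₑ ^ 2 * ENNReal.ofReal (y ^ 3)⁻¹ := by
        refine ENNReal.tsum_le_tsum fun r => ?_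
        rw [← lintegral_const_mul' _ _ ENNReal.ofReal_ne_top]
        refine le_trans (setLIntegral_mono' measurableSet_Ioo fun y hy => ?_)
          (lintegral_mono_set Set.Ioo_subset_Ioi_self)
        have hy0 : 0 < y := ha.trans hy.1
        have h1 : (1 : ℝ≥0∞) ≤ ENNReal.ofReal (a' ^ 3) * ENNReal.ofReal (y ^ 3)⁻¹ := by
          have ha' : 0 < a' := hy0.trans hy.2
          rw [← ENNReal.ofReal_mul (by positivity), ENNReal.one_le_ofReal, ← div_eq_mul_inv,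
            one_le_div (by positivity)]
          exact pow_le_pow_left₀ hy0.le hy.2.le 3
        calc _ = ‖Acoef (xis σ) Y r y - Acoef (xis σ) Y' r y‖ₑ ^ 2 * 1 := (mul_one _).symm
          _ ≤ ‖Acoef (xis σ) Y r y - Acoef (xis σ) Y' r y‖ₑ ^ 2 *
              (ENNReal.ofReal (a' ^ 3) * ENNReal.ofReal (y ^ 3)⁻¹) := by gcongr
          _ = _ := by ring
    _ ≤ ENNReal.ofReal (a' ^ 3) * (ENNReal.ofReal (C * (1 + (a ^ 2)⁻¹)) * (ε / D)) := by
        rw [ENNReal.tsum_mul_left]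
        gcongr
        exact key.trans (by gcongr; exact hc Y hY Y' hY')
    _ = D * (ε / D) := by rw [hD, mul_assoc]
    _ ≤ ε := ENNReal.mul_div_le

/-- Exhaustion by compact sets. -/
theorem lintegral_le_of_compact {f : H → ℝ≥0∞} {c : ℝ≥0∞}
    (h : ∀ K : Set H, IsCompact K → ∫⁻ w in K, f w ∂μH ≤ c) : ∫⁻ w, f w ∂μH ≤ c := by
  have hU : (⋃ n : ℕ, Metric.closedBall (0 : H) n) = Set.univ := Metric.iUnion_closedBall_nat 0
  have hd : Directed (· ⊆ ·) fun n : ℕ => Metric.closedBall (0 : H) n :=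
    Monotone.directed_le fun m n hmn =>
      Metric.closedBall_subset_closedBall (by exact_mod_cast hmn)
  rw [← setLIntegral_univ, ← hU, setLIntegral_iUnion_of_directed _ hd]
  exact iSup_le fun n => h _ (isCompact_closedBall _ _)

theorem setLIntegral_smul_le (σ : SL2) {K : Set H} (hK : IsCompact K) {f : H → ℝ≥0∞}
    (hf : Measurable f) :
    ∫⁻ w in K, f (σ • w) ∂μH ≤ ∫⁻ w in (fun w : H => σ • w) '' K, f w ∂μH := by
  have hK' : IsCompact ((fun w : H => σ • w) '' K) := hK.image (continuous_smul_SL σ)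
  rw [← (measurePreserving_smul_SL σ).setLIntegral_comp_preimage hK'.measurableSet hf]
  exact lintegral_mono_set (Set.subset_preimage_image _ _)

theorem ι_nine : ι (9 : O) = 9 := map_ofNat ι 9

end Crest.Agent.R17.LimB
end
end

-- ▼ part PVc/R17/ThetaLim

/-!
# Row 17, theta module H: the cubic theta function `Th 1` and its expansions `Th σ` at the cusps
-/

set_option autoImplicit false

noncomputable section

namespace Crest.Agent.R17

open scoped ComplexConjugate ENNReal Topology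
open MeasureTheory Filter

/-- The coefficients at the cusp `σ ∞`. -/
def tt (σ : SL2) (r : O) : ℂ := (k1 : ℂ) * Classical.epsilon (WD (Gx (xis σ) r))

/-- The expansion at the cusp `σ ∞`. -/
def Th (σ : SL2) (w : H) : ℂ :=
  ∑' r : O, tt σ r * (Mk (hy w) (b1 * nr r) : ℂ) * eC (ι r * w.1 / 9)

/-! ## part H1: the coefficients -/

namespace LimH1

theorem enorm_add_sq (u v : ℂ) : ‖u + v‖ₑ ^ 2 ≤ 2 * ‖u‖ₑ ^ 2 + 2 * ‖v‖ₑ ^ 2 := by
  have h : ‖u + v‖₊ ^ 2 ≤ 2 * ‖u‖₊ ^ 2 + 2 * ‖v‖₊ ^ 2 := by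
    rw [← NNReal.coe_le_coe]
    push_cast
    have h1 := norm_add_le u v
    have h2 := norm_nonneg (u + v)
    nlinarith [sq_nonneg (‖u‖ - ‖v‖)]
  simp only [enorm_eq_nnnorm]
  exact_mod_cast h

/-- Splitting off a bounded term. -/
theorem lintegral_add_le {u v w : ℝ → ℂ} {S : Set ℝ} (hS : MeasurableSet S) {c : ℂ} {e : ℝ}
    (h : ∀ y ∈ S, u y = v y + c * w y) (hv : ∀ y ∈ S, ‖v y‖ ≤ e) :
    ∫⁻ y in S, ‖u y‖ₑ ^ 2 ≤
      2 * volume S * ENNReal.ofReal e ^ 2 + 2 * ‖c‖ₑ ^ 2 * ∫⁻ y in S, ‖w y‖ₑ ^ 2 := by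
  calc ∫⁻ y in S, ‖u y‖ₑ ^ 2
      ≤ ∫⁻ y in S, (2 * ENNReal.ofReal e ^ 2 + 2 * ‖c‖ₑ ^ 2 * ‖w y‖ₑ ^ 2) := by
        refine setLIntegral_mono' hS fun y hy => ?_
        rw [h y hy]
        refine (enorm_add_sq _ _).trans ?_
        rw [enorm_mul, mul_pow, ← mul_assoc]
        gcongr
        rw [← ofReal_norm]
        exact ENNReal.ofReal_le_ofReal (hv y hy)
    _ = _ := by
        rw [lintegral_add_left measurable_const, setLIntegral_const,
          lintegral_const_mul' _ _ (by finiteness)]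
        ring

/-- The contribution of `c = 0`. -/
def E0 (ξ : O → O → ℂ) (Y : ℝ) (r : O) (y : ℝ) : ℂ :=
  Acoef ξ Y r y - (k1 : ℂ) * Sk (Gx ξ r) (Fk y (b1 * nr r)) Y

theorem norm_E0_le {ξ : O → O → ℂ} (h : XiOK ξ) {Y y : ℝ} (hY : 0 < Y) (hy0 : 0 < y) (r : O) :
    ‖E0 ξ Y r y‖ ≤ 6 * Y ^ (4 / 3 : ℝ) := by
  have h0 : 0 ≤ Y ^ (4 / 3 : ℝ) := by positivity
  unfold E0 Acoef
  rw [add_sub_cancel_right]
  split_ifs
  · rw [norm_mul, Complex.norm_real, Real.norm_of_nonneg (by positivity)]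
    refine mul_le_mul (norm_tsum_xi_zero_le h) ?_ (by positivity) (by norm_num)
    refine mul_le_of_le_one_right h0 (Real.exp_le_one_iff.2 ?_)
    exact div_nonpos_of_nonpos_of_nonneg (by linarith) hy0.le
  · rw [norm_zero]; positivity

theorem lintegral_Ioo_le {u : ℝ → ℝ≥0∞} {a a' : ℝ} (ha : 0 < a) :
    ∫⁻ y in Set.Ioo a a', u y ≤
      ENNReal.ofReal (a' ^ 3) * ∫⁻ y in Set.Ioi a, u y * ENNReal.ofReal (y ^ 3)⁻¹ := by
  calc ∫⁻ y in Set.Ioo a a', u y
      ≤ ∫⁻ y in Set.Ioo a a', ENNReal.ofReal (a' ^ 3) * (u y * ENNReal.ofReal (y ^ 3)⁻¹) := by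
        refine setLIntegral_mono' measurableSet_Ioo fun y hy => ?_
        have hy0 : 0 < y := ha.trans hy.1
        have ha' : 0 < a' := hy0.trans hy.2
        rw [mul_left_comm, ← ENNReal.ofReal_mul (by positivity)]
        refine le_mul_of_one_le_right' (ENNReal.one_le_ofReal.2 ?_)
        rw [← div_eq_mul_inv, one_le_div (by positivity)]
        exact pow_le_pow_left₀ hy0.le hy.2.le 3
    _ ≤ ∫⁻ y in Set.Ioi a, ENNReal.ofReal (a' ^ 3) * (u y * ENNReal.ofReal (y ^ 3)⁻¹) :=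
        lintegral_mono_set Set.Ioo_subset_Ioi_self
    _ = _ := lintegral_const_mul' _ _ ENNReal.ofReal_ne_top

theorem xiOK_xi : XiOK xi := xis_one ▸ xiOK_xis 1

theorem norm_thY_aut {Y : ℝ} {γ : SL2} (h : γ ∈ Gam) (w : H) :
    ‖thY xi Y (γ • w)‖ = ‖thY xi Y w‖ := by
  rw [thY_aut h, norm_mul, norm_kap h, one_mul]

/-- The strips of `θ_Y`. -/
theorem strip_one : ∃ C : ℝ, 0 < C ∧ ∀ (σ : SL2) (a : ℝ), 0 < a → ∀ Y : ℝ, 0 < Y →
    ∑' r, ∫⁻ y in Set.Ioi a, ‖Acoef (xis σ) Y r y‖ₑ ^ 2 * ENNReal.ofReal (y ^ 3)⁻¹ ≤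
      ENNReal.ofReal (C * (1 + (a ^ 2)⁻¹)) * N2 Gam (thY xi Y) := by
  obtain ⟨C, hC, h⟩ := strip_le_N2
  refine ⟨C, hC, fun σ a ha Y hY => h _ σ _ a (continuous_thY xiOK_xi hY).measurable
    (fun γ hγ w => norm_thY_aut hγ w) (fun r => measurable_Acoef _ _ _) (fun y hy0 => ?_) ha⟩
  refine ⟨(thY_fourier (xiOK_xis σ) hY hy0).1, fun z => ?_⟩
  rw [thY_smul, (thY_fourier (xiOK_xis σ) hY hy0).2]

/-- The strips of `θ_Y - θ_{Y'}`. -/
theorem strip_two : ∃ C : ℝ, 0 < C ∧ ∀ (σ : SL2) (a : ℝ), 0 < a → ∀ Y Y' : ℝ, 0 < Y → 0 < Y' →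
    ∑' r, ∫⁻ y in Set.Ioi a, ‖Acoef (xis σ) Y r y - Acoef (xis σ) Y' r y‖ₑ ^ 2 *
        ENNReal.ofReal (y ^ 3)⁻¹ ≤
      ENNReal.ofReal (C * (1 + (a ^ 2)⁻¹)) * N2 Gam (thY xi Y - thY xi Y') := by
  obtain ⟨C, hC, h⟩ := strip_le_N2
  refine ⟨C, hC, fun σ a ha Y Y' hY hY' => h _ σ
    (fun r y => Acoef (xis σ) Y r y - Acoef (xis σ) Y' r y) a
    ((continuous_thY xiOK_xi hY).sub (continuous_thY xiOK_xi hY')).measurable
    (fun γ hγ w => ?_) (fun r => (measurable_Acoef _ _ _).sub (measurable_Acoef _ _ _))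
    (fun y hy0 => ?_) ha⟩
  · simp only [Pi.sub_apply]
    rw [thY_aut hγ, thY_aut hγ, ← mul_sub, norm_mul, norm_kap hγ, one_mul]
  · obtain ⟨h1, h2⟩ := thY_fourier (xiOK_xis σ) hY hy0
    obtain ⟨h3, h4⟩ := thY_fourier (xiOK_xis σ) hY' hy0
    refine ⟨(h1.add h3).of_nonneg_of_le (fun _ => norm_nonneg _) fun r => norm_sub_le _ _,
      fun z => ?_⟩
    have h5 : ∀ {A : O → ℂ}, (Summable fun r => ‖A r‖) →
        Summable fun r => A r * eC (ι r * z / 9) := fun hA =>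
      Summable.of_norm (by simpa only [norm_mul, norm_eC, mul_one] using hA)
    simp only [Pi.sub_apply]
    rw [thY_smul, thY_smul, h2, h4, ← (h5 h1).tsum_sub (h5 h3)]
    simp only [sub_mul]

theorem tendsto_N2_pair : Tendsto (fun p : ℝ × ℝ => N2 Gam (thY xi p.1 - thY xi p.2))
    (𝓝[>] 0 ×ˢ 𝓝[>] 0) (𝓝 0) := by
  rw [ENNReal.tendsto_nhds_zero]
  intro ε hε
  obtain ⟨δ, hδ, h⟩ := N2_cauchy hε
  filter_upwards [prod_mem_prod (Ioo_mem_nhdsGT hδ) (Ioo_mem_nhdsGT hδ)] with p hp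
  exact h _ hp.1 _ hp.2

theorem cauchy_of_tendsto {Φ : ℝ → ℝ → ℝ≥0∞}
    (h : Tendsto (fun p : ℝ × ℝ => Φ p.1 p.2) (𝓝[>] 0 ×ˢ 𝓝[>] 0) (𝓝 0)) {ε : ℝ≥0∞} (hε : 0 < ε) :
    ∃ δ : ℝ, 0 < δ ∧ ∀ Y ∈ Set.Ioo 0 δ, ∀ Y' ∈ Set.Ioo 0 δ, Φ Y Y' ≤ ε := by
  obtain ⟨s, hs, h1⟩ := Filter.mem_prod_self_iff.1 (ENNReal.tendsto_nhds_zero.1 h ε hε)
  obtain ⟨δ, hδ, h2⟩ := mem_nhdsGT_iff_exists_Ioo_subset.1 hs
  exact ⟨δ, hδ, fun Y hY Y' hY' => h1 (Set.mk_mem_prod (h2 hY) (h2 hY'))⟩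

theorem tendsto_rpow : Tendsto (fun Y : ℝ => 6 * Y ^ (4 / 3 : ℝ)) (𝓝[>] 0) (𝓝 0) := by
  have h : Continuous fun Y : ℝ => 6 * Y ^ (4 / 3 : ℝ) :=
    continuous_const.mul (Real.continuous_rpow_const (by norm_num))
  have h1 := (h.tendsto 0).mono_left (nhdsWithin_le_nhds (s := Set.Ioi 0))
  simpa using h1

theorem tendsto_comb {α : Type*} {l : Filter α} {e : α → ℝ} {u : α → ℝ≥0∞} {c d : ℝ≥0∞}
    (hc : c ≠ ⊤) (hd : d ≠ ⊤) (he : Tendsto e l (𝓝 0)) (hu : Tendsto u l (𝓝 0)) :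
    Tendsto (fun x => c * ENNReal.ofReal (e x) ^ 2 + d * u x) l (𝓝 0) := by
  have h1 : Tendsto (fun x => ENNReal.ofReal (e x) ^ 2) l (𝓝 0) := by
    simpa using ENNReal.Tendsto.pow (n := 2) (ENNReal.tendsto_ofReal he)
  simpa using (ENNReal.Tendsto.const_mul h1 (Or.inr hc)).add
    (ENNReal.Tendsto.const_mul hu (Or.inr hd))

theorem k1_ne : (k1 : ℂ) ≠ 0 := Complex.ofReal_ne_zero.2 k1_pos.ne'

theorem b_nonneg (r : O) : 0 ≤ b1 * nr r := mul_nonneg b1_pos.le (Nat.cast_nonneg _)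

theorem cauchy_Sk (σ : SL2) (r : O) {a : ℝ} (a' : ℝ) (ha : 0 < a) :
    Tendsto (fun p : ℝ × ℝ => ∫⁻ y in Set.Ioo a a',
      ‖Sk (Gx (xis σ) r) (Fk y (b1 * nr r)) p.1 - Sk (Gx (xis σ) r) (Fk y (b1 * nr r)) p.2‖ₑ ^ 2)
      (𝓝[>] 0 ×ˢ 𝓝[>] 0) (𝓝 0) := by
  obtain ⟨C, -, h⟩ := strip_two
  have he : Tendsto (fun p : ℝ × ℝ => k1⁻¹ * (6 * p.1 ^ (4 / 3 : ℝ) + 6 * p.2 ^ (4 / 3 : ℝ)))
      (𝓝[>] 0 ×ˢ 𝓝[>] 0) (𝓝 0) := by
    simpa using ((tendsto_rpow.comp tendsto_fst).add (tendsto_rpow.comp tendsto_snd)).const_mul k1⁻¹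
  have hv : volume (Set.Ioo a a') ≠ ⊤ := by simp
  have h1 := tendsto_comb (c := 2 * volume (Set.Ioo a a'))
    (d := 2 * ‖(k1 : ℂ)⁻¹‖ₑ ^ 2 * (ENNReal.ofReal (a' ^ 3) * ENNReal.ofReal (C * (1 + (a ^ 2)⁻¹))))
    (by finiteness) (by finiteness) he tendsto_N2_pair
  refine tendsto_of_tendsto_of_tendsto_of_le_of_le' tendsto_const_nhds h1
    (Eventually.of_forall fun _ => zero_le) ?_
  filter_upwards [prod_mem_prod self_mem_nhdsWithin self_mem_nhdsWithin] with p hp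
  have hY : 0 < p.1 := hp.1
  have hY' : 0 < p.2 := hp.2
  refine (lintegral_add_le measurableSet_Ioo (c := (k1 : ℂ)⁻¹)
    (v := fun y => (k1 : ℂ)⁻¹ * (E0 (xis σ) p.2 r y - E0 (xis σ) p.1 r y))
    (w := fun y => Acoef (xis σ) p.1 r y - Acoef (xis σ) p.2 r y)
    (e := k1⁻¹ * (6 * p.1 ^ (4 / 3 : ℝ) + 6 * p.2 ^ (4 / 3 : ℝ))) (fun y _ => ?_)
    (fun y hy => ?_)).trans ?_
  · have := k1_ne
    simp only [E0]
    field_simp
    ring
  · have hy0 : 0 < y := ha.trans hy.1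
    rw [norm_mul, norm_inv, Complex.norm_real, Real.norm_of_nonneg k1_pos.le]
    refine mul_le_mul_of_nonneg_left ((norm_sub_le _ _).trans ?_) (inv_pos.2 k1_pos).le
    linarith [norm_E0_le (xiOK_xis σ) hY hy0 r, norm_E0_le (xiOK_xis σ) hY' hy0 r]
  · rw [mul_assoc (2 * ‖(k1 : ℂ)⁻¹‖ₑ ^ 2), mul_assoc (ENNReal.ofReal (a' ^ 3))]
    refine add_le_add le_rfl (mul_le_mul_right ((lintegral_Ioo_le ha).trans
      (mul_le_mul_right (le_trans ?_ (h σ a ha p.1 p.2 hY hY')) _)) _)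
    exact ENNReal.le_tsum (f := fun r => ∫⁻ y in Set.Ioi a,
      ‖Acoef (xis σ) p.1 r y - Acoef (xis σ) p.2 r y‖ₑ ^ 2 * ENNReal.ofReal (y ^ 3)⁻¹) r

end LimH1

/-- From `N2_cauchy`, `strip_le_N2`, `exists_wd_of_cauchy`, `WD.unique`. -/
theorem tt_spec (σ : SL2) (r : O) : WD (Gx (xis σ) r) (tt σ r / k1) ∧ ∀ a a' : ℝ, 0 < a →
    Tendsto (fun Y => ∫⁻ y in Set.Ioo a a',
      ‖Acoef (xis σ) Y r y - tt σ r * (Mk y (b1 * nr r) : ℂ)‖ₑ ^ 2) (𝓝[>] 0) (𝓝 0) := by
  have hg := polyG_Gx (xiOK_xis σ) r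
  obtain ⟨t, ht, h⟩ := exists_wd_of_cauchy hg (LimH1.b_nonneg r) fun a a' ha ε hε =>
    LimH1.cauchy_of_tendsto (LimH1.cauchy_Sk σ r a' ha) hε
  have h1 : tt σ r = k1 * t := by
    rw [tt, WD.unique hg (Classical.epsilon_spec ⟨t, ht⟩) ht]
  refine ⟨by rwa [h1, mul_div_cancel_left₀ _ LimH1.k1_ne], fun a a' ha => ?_⟩
  have hv : volume (Set.Ioo a a') ≠ ⊤ := by simp
  have h2 := LimH1.tendsto_comb (c := 2 * volume (Set.Ioo a a')) (d := 2 * ‖(k1 : ℂ)‖ₑ ^ 2)
    (by finiteness) (by finiteness) LimH1.tendsto_rpow (h a a' ha)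
  refine tendsto_of_tendsto_of_tendsto_of_le_of_le' tendsto_const_nhds h2
    (Eventually.of_forall fun _ => zero_le) ?_
  filter_upwards [self_mem_nhdsWithin] with Y hY
  refine LimH1.lintegral_add_le measurableSet_Ioo (v := LimH1.E0 (xis σ) Y r) (fun y _ => ?_)
    fun y hy => LimH1.norm_E0_le (xiOK_xis σ) hY (ha.trans hy.1) r
  rw [h1, LimH1.E0]
  ring

theorem tt_one_zero_ne : tt 1 0 ≠ 0 := by
  obtain ⟨t, ht, h⟩ := wd_xi_zero
  have h1 := (tt_spec 1 0).1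
  rw [xis_one] at h1
  have h2 := WD.unique (polyG_Gx LimH1.xiOK_xi 0) h1 h
  intro h3
  rw [h3, zero_div] at h2
  exact ht h2.symm

/-- The `L²` bound (take `a = 1 / |r|` in `strip_le_N2`). -/
theorem norm_tt_le : ∃ C : ℝ, 0 < C ∧ ∀ (σ : SL2) (r : O), r ≠ 0 →
    ‖tt σ r‖ ≤ C * nr r ^ (1 / 3 : ℝ) := by
  obtain ⟨C, hC, h⟩ := LimH1.strip_one
  obtain ⟨D, δ, hδ, hD⟩ := N2_thY_le
  have hW : 0 < W0 (4 * b1) := W0_pos (by have := b1_pos; positivity)
  set D' := max D 1 with hD'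
  have hD0 : 0 < D' := lt_max_of_lt_right one_pos
  refine ⟨Real.sqrt (32 * C * D') / W0 (4 * b1), by positivity, fun σ r hr => ?_⟩
  have hn1 := one_le_nr hr
  have hn0 : 0 < nr r := nr_pos hr
  -- `s = N(r)^{-1/6}`, `a = s³`
  set s : ℝ := nr r ^ (-(1 / 6) : ℝ) with hs
  have hs0 : 0 < s := by positivity
  have hs1 : s ≤ 1 := Real.rpow_le_one_of_one_le_of_nonpos hn1 (by norm_num)
  have hs6 : s ^ 6 * nr r = 1 := by
    rw [hs, ← Real.rpow_natCast, ← Real.rpow_mul hn0.le, ← Real.rpow_add_one hn0.ne']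
    norm_num
  have hs2 : s ^ 2 * nr r ^ (1 / 3 : ℝ) = 1 := by
    rw [hs, ← Real.rpow_natCast, ← Real.rpow_mul hn0.le, ← Real.rpow_add hn0]
    norm_num
  have ha : 0 < s ^ 3 := by positivity
  have hlow : ∀ y ∈ Set.Ioo (s ^ 3) (2 * s ^ 3), s ^ 2 * W0 (4 * b1) ≤ Mk y (b1 * nr r) := by
    intro y hy
    have hy0 : 0 < y := ha.trans hy.1
    have hb := b1_pos
    refine mul_le_mul ?_ (W0_antitoneOn (Set.mem_Ici.2 (by positivity))
      (Set.mem_Ici.2 (by positivity)) ?_) hW.le (by positivity)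
    · have h1 : s ^ 2 = (s ^ 3) ^ (2 / 3 : ℝ) := by
        rw [← Real.rpow_natCast s 3, ← Real.rpow_mul hs0.le, ← Real.rpow_natCast]
        norm_num
      rw [h1]
      exact Real.rpow_le_rpow ha.le hy.1.le (by norm_num)
    · have h1 : y ^ 2 ≤ (2 * s ^ 3) ^ 2 := pow_le_pow_left₀ hy0.le hy.2.le 2
      calc y ^ 2 * (b1 * nr r) ≤ (2 * s ^ 3) ^ 2 * (b1 * nr r) := by gcongr
        _ = 4 * b1 * (s ^ 6 * nr r) := by ring
        _ = 4 * b1 := by rw [hs6, mul_one]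
  have key : ENNReal.ofReal ((‖tt σ r‖ * (s ^ 2 * W0 (4 * b1))) ^ 2 * s ^ 3) ≤
      ENNReal.ofReal (32 * C * D' * s ^ 3) := by
    have h1 := ((ENNReal.Tendsto.const_mul (a := 2)
      ((tt_spec σ r).2 (s ^ 3) (2 * s ^ 3) ha) (Or.inr (by simp))).const_add
        (ENNReal.ofReal (32 * C * D' * s ^ 3)))
    rw [mul_zero, add_zero] at h1
    refine ge_of_tendsto h1 ?_
    filter_upwards [Ioo_mem_nhdsGT hδ] with Y hY
    have hm : Measurable fun y => 2 * ‖Acoef (xis σ) Y r y‖ₑ ^ 2 :=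
      ((measurable_Acoef _ _ _).enorm.pow_const 2).const_mul 2
    calc ENNReal.ofReal ((‖tt σ r‖ * (s ^ 2 * W0 (4 * b1))) ^ 2 * s ^ 3)
        = ∫⁻ _ in Set.Ioo (s ^ 3) (2 * s ^ 3),
            ENNReal.ofReal ((‖tt σ r‖ * (s ^ 2 * W0 (4 * b1))) ^ 2) := by
          rw [setLIntegral_const, Real.volume_Ioo, ← ENNReal.ofReal_mul (by positivity)]
          congr 2
          ring
      _ ≤ ∫⁻ y in Set.Ioo (s ^ 3) (2 * s ^ 3), (2 * ‖Acoef (xis σ) Y r y‖ₑ ^ 2 +
            2 * ‖Acoef (xis σ) Y r y - tt σ r * (Mk y (b1 * nr r) : ℂ)‖ₑ ^ 2) := by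
          refine setLIntegral_mono' measurableSet_Ioo fun y hy => ?_
          have h2 := LimH1.enorm_add_sq (Acoef (xis σ) Y r y)
            (-(Acoef (xis σ) Y r y - tt σ r * (Mk y (b1 * nr r) : ℂ)))
          rw [enorm_neg, ← sub_eq_add_neg, sub_sub_cancel] at h2
          refine le_trans ?_ h2
          rw [← ofReal_norm, ← ENNReal.ofReal_pow (norm_nonneg _)]
          refine ENNReal.ofReal_le_ofReal (pow_le_pow_left₀ (by positivity) ?_ 2)
          rw [norm_mul, Complex.norm_real]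
          exact mul_le_mul_of_nonneg_left ((hlow y hy).trans (le_abs_self _)) (norm_nonneg _)
      _ = 2 * (∫⁻ y in Set.Ioo (s ^ 3) (2 * s ^ 3), ‖Acoef (xis σ) Y r y‖ₑ ^ 2) +
            2 * ∫⁻ y in Set.Ioo (s ^ 3) (2 * s ^ 3),
              ‖Acoef (xis σ) Y r y - tt σ r * (Mk y (b1 * nr r) : ℂ)‖ₑ ^ 2 := by
          rw [lintegral_add_left hm, lintegral_const_mul' _ _ (by simp),
            lintegral_const_mul' _ _ (by simp)]
      _ ≤ _ := by
          refine add_le_add ?_ le_rfl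
          have h2 : ∫⁻ y in Set.Ioi (s ^ 3),
              ‖Acoef (xis σ) Y r y‖ₑ ^ 2 * ENNReal.ofReal (y ^ 3)⁻¹ ≤
              ENNReal.ofReal (C * (1 + ((s ^ 3) ^ 2)⁻¹)) * ENNReal.ofReal D' :=
            (ENNReal.le_tsum (f := fun r => ∫⁻ y in Set.Ioi (s ^ 3),
              ‖Acoef (xis σ) Y r y‖ₑ ^ 2 * ENNReal.ofReal (y ^ 3)⁻¹) r).trans
              ((h σ _ ha Y hY.1).trans (mul_le_mul_right ((hD Y hY).trans
                (ENNReal.ofReal_le_ofReal (le_max_left _ _))) _))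
          refine (mul_le_mul_right ((LimH1.lintegral_Ioo_le ha).trans
            (mul_le_mul_right h2 _)) _).trans ?_
          rw [← ENNReal.ofReal_mul (by positivity), ← ENNReal.ofReal_mul (by positivity),
            ← ENNReal.ofReal_ofNat 2, ← ENNReal.ofReal_mul (by positivity)]
          refine ENNReal.ofReal_le_ofReal ?_
          have h3 : s ^ 6 ≤ 1 := pow_le_one₀ hs0.le hs1
          have h4 : 2 * ((2 * s ^ 3) ^ 3 * (C * (1 + ((s ^ 3) ^ 2)⁻¹) * D')) =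
              16 * C * D' * s ^ 3 * (s ^ 6 + 1) := by
            field_simp
            ring
          rw [h4]
          have h5 : 0 < C * D' * s ^ 3 := by positivity
          nlinarith
  rw [ENNReal.ofReal_le_ofReal_iff (by positivity)] at key
  have h1 : ‖tt σ r‖ * (s ^ 2 * W0 (4 * b1)) ≤ Real.sqrt (32 * C * D') :=
    Real.le_sqrt_of_sq_le (le_of_mul_le_mul_right key ha)
  rw [div_mul_eq_mul_div, le_div_iff₀ hW]
  calc ‖tt σ r‖ * W0 (4 * b1) = ‖tt σ r‖ * W0 (4 * b1) * (s ^ 2 * nr r ^ (1 / 3 : ℝ)) := by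
        rw [hs2, mul_one]
    _ = ‖tt σ r‖ * (s ^ 2 * W0 (4 * b1)) * nr r ^ (1 / 3 : ℝ) := by ring
    _ ≤ _ := by gcongr

theorem LimH1.term_le : ∃ C : ℝ, 0 < C ∧ ∀ (σ : SL2) (r : O), r ≠ 0 → ∀ y : ℝ, 0 < y →
    ‖tt σ r * (Mk y (b1 * nr r) : ℂ)‖ ≤ C * y ^ (-(10 / 3) : ℝ) * nr r ^ (-(5 / 3) : ℝ) := by
  obtain ⟨C, hC, h⟩ := norm_tt_le
  obtain ⟨D, hD, h'⟩ := W0_le_rpow (A := 2) (by norm_num)
  have hb := b1_pos
  refine ⟨C * D * b1 ^ (-2 : ℝ), by positivity, fun σ r hr y hy0 => ?_⟩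
  have hn0 : 0 < nr r := nr_pos hr
  rw [norm_mul, Complex.norm_real, Real.norm_of_nonneg (Mk_pos hy0 (LimH1.b_nonneg r)).le, Mk]
  have h1 := h' (y ^ 2 * (b1 * nr r)) (by positivity)
  have h2 : 0 < W0 (y ^ 2 * (b1 * nr r)) := W0_pos (by positivity)
  have h3 := h σ r hr
  have e1 : y ^ (-(10 / 3) : ℝ) = y ^ (2 / 3 : ℝ) * (y ^ 2) ^ (-2 : ℝ) := by
    rw [← Real.rpow_natCast y 2, ← Real.rpow_mul hy0.le, ← Real.rpow_add hy0]
    norm_num
  have e2 : nr r ^ (-(5 / 3) : ℝ) = nr r ^ (1 / 3 : ℝ) * nr r ^ (-2 : ℝ) := by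
    rw [← Real.rpow_add hn0]
    norm_num
  calc ‖tt σ r‖ * (y ^ (2 / 3 : ℝ) * W0 (y ^ 2 * (b1 * nr r)))
      ≤ C * nr r ^ (1 / 3 : ℝ) * (y ^ (2 / 3 : ℝ) * (D * (y ^ 2 * (b1 * nr r)) ^ (-2 : ℝ))) := by
        gcongr
    _ = _ := by
        rw [Real.mul_rpow (by positivity) (by positivity), Real.mul_rpow hb.le hn0.le, e1, e2]
        ring

theorem summable_Th (σ : SL2) {y : ℝ} (hy0 : 0 < y) :
    Summable fun r : O => ‖tt σ r * (Mk y (b1 * nr r) : ℂ)‖ := by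
  obtain ⟨C, -, h⟩ := LimH1.term_le
  refine Summable.of_norm_bounded_eventually ((summable_nr_rpow (σ := 5 / 3) (by norm_num)).mul_left
    (C * y ^ (-(10 / 3) : ℝ))) ?_
  filter_upwards [eventually_cofinite_ne (0 : O)] with r hr
  rw [norm_norm]
  exact h σ r hr y hy0

theorem continuous_Th (σ : SL2) : Continuous (Th σ) := by
  rw [continuous_iff_continuousAt]
  intro w₀
  have h0 := hy_pos w₀
  set y := hy w₀ / 2 with hy'
  have hy0 : 0 < y := by positivity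
  have hs : hy ⁻¹' Set.Ioo y (4 * y) ∈ 𝓝 w₀ :=
    (isOpen_Ioo.preimage continuous_hy).mem_nhds ⟨by linarith, by linarith⟩
  refine ContinuousOn.continuousAt ?_ hs
  refine continuousOn_tsum (u := fun r => (4 : ℝ) ^ (2 / 3 : ℝ) * ‖tt σ r * (Mk y (b1 * nr r) : ℂ)‖)
    (fun r => Continuous.continuousOn ?_) ((summable_Th σ hy0).mul_left _) fun r w hw => ?_
  · have h1 : Continuous fun w : H => Mk (hy w) (b1 * nr r) :=
      (continuousOn_Mk (LimH1.b_nonneg r)).comp_continuous continuous_hy fun w => hy_pos w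
    exact (continuous_const.mul (Complex.continuous_ofReal.comp h1)).mul
      (continuous_eC.comp (by fun_prop))
  · have hb := LimH1.b_nonneg r
    have hw0 := hy_pos w
    rw [norm_mul, norm_eC, mul_one, norm_mul, norm_mul, Complex.norm_real, Complex.norm_real,
      Real.norm_of_nonneg (Mk_pos hw0 hb).le, Real.norm_of_nonneg (Mk_pos hy0 hb).le,
      mul_left_comm]
    refine mul_le_mul_of_nonneg_left ?_ (norm_nonneg _)
    rw [Mk, Mk, ← mul_assoc ((4 : ℝ) ^ (2 / 3 : ℝ)), ← Real.mul_rpow (by norm_num) hy0.le]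
    refine mul_le_mul (Real.rpow_le_rpow hw0.le hw.2.le (by norm_num))
      (W0_antitoneOn (Set.mem_Ici.2 (by positivity)) (Set.mem_Ici.2 (by positivity)) ?_)
      (W0_pos (by positivity)).le (by positivity)
    have := hw.1.le
    gcongr

theorem norm_Th_le (σ : SL2) : ∃ C : ℝ, ∀ w, ‖Th σ w‖ ≤ C * (hy w + hy w ^ (-(4 : ℝ)) + 1) := by
  classical
  obtain ⟨C, hC, h⟩ := LimH1.term_le
  have hZ := summable_nr_rpow (σ := 5 / 3) (by norm_num)
  have hZ0 : 0 ≤ ∑' r : O, nr r ^ (-(5 / 3) : ℝ) := tsum_nonneg fun _ => by positivity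
  have hW := W0_pos le_rfl
  refine ⟨‖tt σ 0‖ * W0 0 + C * ∑' r : O, nr r ^ (-(5 / 3) : ℝ), fun w => ?_⟩
  have hy0 := hy_pos w
  set y := hy w with hy'
  have h4 : 0 < y ^ (-(4 : ℝ)) := by positivity
  have h1 : y ^ (2 / 3 : ℝ) ≤ y + y ^ (-(4 : ℝ)) + 1 := by
    rcases le_total y 1 with h1 | h1
    · linarith [Real.rpow_le_one hy0.le h1 (show (0 : ℝ) ≤ 2 / 3 by norm_num)]
    · have := Real.rpow_le_rpow_of_exponent_le h1 (show (2 / 3 : ℝ) ≤ 1 by norm_num)
      rw [Real.rpow_one] at this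
      linarith
  have h2 : y ^ (-(10 / 3) : ℝ) ≤ y + y ^ (-(4 : ℝ)) + 1 := by
    rcases le_total y 1 with h1 | h1
    · linarith [Real.rpow_le_rpow_of_exponent_ge hy0 h1 (show (-(4 : ℝ)) ≤ -(10 / 3) by norm_num)]
    · linarith [Real.rpow_le_one_of_one_le_of_nonpos h1 (show (-(10 / 3) : ℝ) ≤ 0 by norm_num)]
  have hS : HasSum (fun r : O => (if r = 0 then ‖tt σ 0‖ * W0 0 * y ^ (2 / 3 : ℝ) else 0) +
      C * y ^ (-(10 / 3) : ℝ) * nr r ^ (-(5 / 3) : ℝ))
      (‖tt σ 0‖ * W0 0 * y ^ (2 / 3 : ℝ) +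
        C * y ^ (-(10 / 3) : ℝ) * ∑' r : O, nr r ^ (-(5 / 3) : ℝ)) :=
    (hasSum_ite_eq (0 : O) _).add (hZ.hasSum.mul_left _)
  refine (tsum_of_norm_bounded hS fun r => ?_).trans ?_
  · rw [norm_mul, norm_eC, mul_one]
    by_cases hr : r = 0
    · subst hr
      rw [if_pos rfl, norm_mul, Complex.norm_real,
        Real.norm_of_nonneg (Mk_pos hy0 (LimH1.b_nonneg 0)).le, Mk]
      have e : y ^ 2 * (b1 * nr 0) = 0 := by simp
      rw [e]
      have : 0 ≤ C * y ^ (-(10 / 3) : ℝ) * nr 0 ^ (-(5 / 3) : ℝ) := by positivity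
      linarith
    · rw [if_neg hr, zero_add]
      exact h σ r hr y hy0
  · rw [add_mul, mul_right_comm C]
    gcongr

/-! ## part H2: convergence and automorphy -/

theorem tendsto_strip (σ : SL2) {a : ℝ} (ha : 0 < a) (a' : ℝ) :
    Tendsto (fun Y => ∑' r : O, ∫⁻ y in Set.Ioo a a',
      ‖Acoef (xis σ) Y r y - tt σ r * (Mk y (b1 * nr r) : ℂ)‖ₑ ^ 2) (𝓝[>] 0) (𝓝 0) := by
  rw [ENNReal.tendsto_nhds_zero]
  intro ε hε
  obtain ⟨δ, hδ, hc⟩ := LimB.strip_cauchy σ ha a' (ENNReal.half_pos hε.ne')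
  filter_upwards [Ioo_mem_nhdsGT hδ] with Y hY
  rw [ENNReal.tsum_eq_iSup_sum]
  refine iSup_le fun S => ?_
  have ht : Tendsto (fun Y' => ε + ∑ r ∈ S, 2 * ∫⁻ y in Set.Ioo a a',
      ‖Acoef (xis σ) Y' r y - tt σ r * (Mk y (b1 * nr r) : ℂ)‖ₑ ^ 2) (𝓝[>] 0)
      (𝓝 (ε + ∑ r ∈ S, 0)) :=
    tendsto_const_nhds.add (tendsto_finsetSum _ fun r _ =>
      LimB.tendsto_two_mul ((tt_spec σ r).2 a a' ha))
  rw [Finset.sum_const_zero, add_zero] at ht
  refine ge_of_tendsto ht ?_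
  filter_upwards [Ioo_mem_nhdsGT hδ] with Y' hY'
  calc _ ≤ ∑ r ∈ S, (2 * (∫⁻ y in Set.Ioo a a',
          ‖Acoef (xis σ) Y r y - Acoef (xis σ) Y' r y‖ₑ ^ 2) + 2 * ∫⁻ y in Set.Ioo a a',
          ‖Acoef (xis σ) Y' r y - tt σ r * (Mk y (b1 * nr r) : ℂ)‖ₑ ^ 2) :=
        Finset.sum_le_sum fun r _ =>
          LimB.lint_tri' _ _ (measurable_Acoef _ _ _) (measurable_Acoef _ _ _)
    _ ≤ _ := by
        rw [Finset.sum_add_distrib, ← Finset.mul_sum]
        gcongr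
        calc _ ≤ 2 * (ε / 2) := by
              gcongr
              exact (ENNReal.sum_le_tsum S).trans (hc Y hY Y' hY')
          _ ≤ ε := ENNReal.mul_div_le

theorem LimB.Th_hp (σ : SL2) (z : ℂ) {y : ℝ} (hy0 : 0 < y) :
    Th σ (hp z y) = ∑' r : O, tt σ r * (Mk y (b1 * nr r) : ℂ) * eC (ι r * z / 9) := by
  unfold Th; rw [hy_hp z hy0, hp_fst]

theorem LimB.measurable_thY {Y : ℝ} (hY : 0 < Y) : Measurable (thY xi Y) :=
  (continuous_thY (xis_one ▸ xiOK_xis 1) hY).measurable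

theorem tendsto_local (σ : SL2) {K : Set H} (hK : IsCompact K) :
    Tendsto (fun Y => ∫⁻ w in K, ‖thY xi Y (σ • w) - Th σ w‖ₑ ^ 2 ∂μH) (𝓝[>] 0) (𝓝 0) := by
  obtain ⟨C, a, a', ha, h⟩ := compact_le_strip hK
  have ht := ENNReal.Tendsto.const_mul (a := ENNReal.ofReal C) (tendsto_strip σ ha a')
    (Or.inr ENNReal.ofReal_ne_top)
  rw [mul_zero] at ht
  refine tendsto_of_tendsto_of_tendsto_of_le_of_le' tendsto_const_nhds ht
    (Eventually.of_forall fun _ => zero_le) ?_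
  filter_upwards [self_mem_nhdsWithin] with Y hY
  refine h (fun w => thY xi Y (σ • w) - Th σ w)
    (fun r y => Acoef (xis σ) Y r y - tt σ r * (Mk y (b1 * nr r) : ℂ))
    (((LimB.measurable_thY hY).comp (continuous_smul_SL σ).measurable).sub
      (continuous_Th σ).measurable)
    (fun r => (measurable_Acoef _ _ _).sub (Continuous.measurable (continuous_const.mul
      (Complex.continuous_ofReal.comp (LimB.continuous_Mk (LimB.b1_nr_nonneg r))))))
    fun y hy0 => ?_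
  obtain ⟨s1, e1⟩ := thY_fourier (xiOK_xis σ) hY hy0
  have s2 := summable_Th σ hy0
  refine ⟨(s1.add s2).of_nonneg_of_le (fun _ => norm_nonneg _) fun r => norm_sub_le _ _,
    fun z => ?_⟩
  rw [thY_smul, e1, LimB.Th_hp σ z hy0,
    ← (LimB.summable_mul_eC s1 _).tsum_sub (LimB.summable_mul_eC s2 _)]
  exact tsum_congr fun r => by ring

theorem LimB.tendsto_local_one {K : Set H} (hK : IsCompact K) :
    Tendsto (fun Y => ∫⁻ w in K, ‖thY xi Y w - Th 1 w‖ₑ ^ 2 ∂μH) (𝓝[>] 0) (𝓝 0) := by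
  simpa only [one_smul] using tendsto_local 1 hK

theorem Th_smul (σ : SL2) (w : H) : Th 1 (σ • w) = Th σ w := by
  refine LimB.eq_of_local (F := fun Y w => thY xi Y (σ • w)) (G := fun w => Th 1 (σ • w))
    (fun Y hY => (LimB.measurable_thY hY).comp (continuous_smul_SL σ).measurable)
    ((continuous_Th 1).comp (continuous_smul_SL σ)) (continuous_Th σ) (fun K hK => ?_)
    (fun K hK => tendsto_local σ hK) w
  refine tendsto_of_tendsto_of_tendsto_of_le_of_le' tendsto_const_nhds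
    (LimB.tendsto_local_one (hK.image (continuous_smul_SL σ)))
    (Eventually.of_forall fun _ => zero_le) ?_
  filter_upwards [self_mem_nhdsWithin] with Y hY
  exact LimB.setLIntegral_smul_le σ hK (f := fun w => ‖thY xi Y w - Th 1 w‖ₑ ^ 2)
    (((LimB.measurable_thY hY).sub (continuous_Th 1).measurable).enorm.pow_const 2)

theorem Th_aut {γ : SL2} (h : γ ∈ Gam) (w : H) : Th 1 (γ • w) = kap γ * Th 1 w := by
  rw [Th_smul]
  refine LimB.eq_of_local (F := fun Y w => thY xi Y (γ • w)) (G' := fun w => kap γ * Th 1 w)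
    (fun Y hY => (LimB.measurable_thY hY).comp (continuous_smul_SL γ).measurable)
    (continuous_Th γ) (continuous_const.mul (continuous_Th 1)) (fun K hK => tendsto_local γ hK)
    (fun K hK => ?_) w
  refine (LimB.tendsto_local_one hK).congr fun Y => lintegral_congr fun x => ?_
  rw [thY_aut h, ← mul_sub, enorm_mul, ← ofReal_norm (kap γ), norm_kap h, ENNReal.ofReal_one,
    one_mul]

theorem tendsto_N2 : Tendsto (fun Y => N2 Gam (thY xi Y - Th 1)) (𝓝[>] 0) (𝓝 0) := by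
  rw [ENNReal.tendsto_nhds_zero]
  intro ε hε
  obtain ⟨δ, hδ, hc⟩ := N2_cauchy (ENNReal.half_pos hε.ne')
  filter_upwards [Ioo_mem_nhdsGT hδ] with Y hY
  refine LimB.lintegral_le_of_compact fun K hK => ?_
  have ht := (tendsto_const_nhds (x := ε)).add (LimB.tendsto_two_mul (LimB.tendsto_local_one hK))
  rw [add_zero] at ht
  refine ge_of_tendsto ht ?_
  filter_upwards [Ioo_mem_nhdsGT hδ] with Y' hY'
  have hw : Measurable fun w => ENNReal.ofReal (wOf Gam w) := (isWt_wOf Gam).meas.ennreal_ofReal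
  refine (LimB.lint_tri (μH.restrict K) hw (Th 1) (LimB.measurable_thY hY.1)
    (LimB.measurable_thY hY'.1)).trans (add_le_add ?_ ?_)
  · calc _ ≤ 2 * (ε / 2) := by
          gcongr
          exact (setLIntegral_le_lintegral _ _).trans (hc Y hY Y' hY')
      _ ≤ ε := ENNReal.mul_div_le
  · gcongr with w
    exact mul_le_of_le_one_left' (ENNReal.ofReal_le_one.2 ((isWt_wOf Gam).le_one w))

theorem N2_Th_lt_top : N2 Gam (Th 1) < ⊤ := by
  obtain ⟨C, δ, hδ, hC⟩ := N2_thY_le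
  have h1 := (ENNReal.tendsto_nhds_zero.1 tendsto_N2) 1 one_pos
  obtain ⟨Y, hY1, hY⟩ := (h1.and (Ioo_mem_nhdsGT hδ)).exists
  have hw : Measurable fun w => ENNReal.ofReal (wOf Gam w) := (isWt_wOf Gam).meas.ennreal_ofReal
  have h2 := LimB.lint_tri μH hw (fun _ => 0) (continuous_Th 1).measurable
    (LimB.measurable_thY hY.1)
  simp only [sub_zero] at h2
  have h3 : ∫⁻ w, ENNReal.ofReal (wOf Gam w) * ‖Th 1 w - thY xi Y w‖ₑ ^ 2 ∂μH ≤ 1 := by
    refine le_trans (le_of_eq (lintegral_congr fun w => ?_)) hY1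
    rw [← enorm_neg, neg_sub]; rfl
  refine lt_of_le_of_lt h2 (lt_of_le_of_lt (add_le_add (mul_le_mul_right h3 2)
    (mul_le_mul_right (hC Y hY) 2)) ?_)
  exact ENNReal.add_lt_top.2 ⟨by simp, ENNReal.mul_lt_top (by simp) ENNReal.ofReal_lt_top⟩

/-! ## part H3: relations between the coefficients (`coeff_unique`) -/

theorem LimB.tt_eq (σ : SL2) {c : O → ℂ}
    (hc : Summable fun r => ‖c r * (Mk 1 (b1 * nr r) : ℂ)‖)
    (h : ∀ z, Th σ (hp z 1) = ∑' r, c r * (Mk 1 (b1 * nr r) : ℂ) * eC (ι r * z / 9)) (r : O) :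
    tt σ r = c r := by
  have h9 : (9 : O) ≠ 0 := fun h0 => by
    have := congrArg ι h0
    rw [LimB.ι_nine, map_zero] at this
    norm_num at this
  have := coeff_unique h9 (summable_Th σ one_pos) hc fun z => by
    rw [LimB.ι_nine, ← h, LimB.Th_hp σ z one_pos]
  have hM : (Mk 1 (b1 * nr r) : ℂ) ≠ 0 :=
    Complex.ofReal_ne_zero.2 (Mk_pos one_pos (LimB.b1_nr_nonneg r)).ne'
  exact mul_right_cancel₀ hM (congrFun this r)

theorem LimB.Th_mul (σ τ : SL2) (w : H) : Th (σ * τ) w = Th σ (τ • w) := by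
  rw [← Th_smul, mul_smul, Th_smul]

theorem LimB.Th_Gam {γ : SL2} (h : γ ∈ Gam) (σ : SL2) (w : H) :
    Th (γ * σ) w = kap γ * Th σ w := by
  rw [← Th_smul, mul_smul, Th_aut h, Th_smul]

theorem tt_eq_of_Th {σ τ : SL2} {c : ℂ} (h : ∀ w, Th σ w = c * Th τ w) (r : O) :
    tt σ r = c * tt τ r := by
  refine LimB.tt_eq σ (c := fun r => c * tt τ r) ?_ (fun z => ?_) r
  · simpa only [mul_assoc, norm_mul] using (summable_Th τ one_pos).mul_left ‖c‖
  · rw [h, LimB.Th_hp τ z one_pos, ← tsum_mul_left]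
    exact tsum_congr fun r => by ring

theorem tt_mul_Gam {γ : SL2} (h : γ ∈ Gam) (σ : SL2) (r : O) :
    tt (γ * σ) r = kap γ * tt σ r := tt_eq_of_Th (LimB.Th_Gam h σ) r

theorem tt_mul_nT (σ : SL2) (t r : O) : tt (σ * nT t) r = tt σ r * eq (r * t) 9 := by
  refine LimB.tt_eq _ (c := fun r => tt σ r * eq (r * t) 9) ?_ (fun z => ?_) r
  · simpa only [norm_mul, norm_eq, mul_one] using summable_Th σ one_pos
  · have e : nT t • hp z 1 = hp (z + ι t) 1 := nT_smul t _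
    rw [LimB.Th_mul, e, LimB.Th_hp σ _ one_pos]
    refine tsum_congr fun r => ?_
    have : ι r * (z + ι t) / 9 = ι (r * t) / ι 9 + ι r * z / 9 := by
      rw [LimB.ι_nine, map_mul]; ring
    rw [this, eC_add, eq]; ring

theorem tt_mul_diag (σ : SL2) {u v : O} (h : u * v = 1) (r : O) :
    tt (σ * mkSL u 0 0 v (by rw [h]; ring)) (u ^ 2 * r) = tt σ r := by
  have hu : IsUnit u := IsUnit.of_mul_eq_one v h
  have hv : IsUnit v := IsUnit.of_mul_eq_one u (by rw [mul_comm, h])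
  have hu1 : nr u = 1 := by simp [nr, isUnit_iff_nm.1 hu]
  have hv1 : nr v = 1 := by simp [nr, isUnit_iff_nm.1 hv]
  have huv : ∀ s : O, v ^ 2 * (u ^ 2 * s) = s := fun s => by
    rw [← mul_assoc, ← mul_pow, mul_comm v u, h, one_pow, one_mul]
  have huv' : ∀ s : O, u ^ 2 * (v ^ 2 * s) = s := fun s => by
    rw [← mul_assoc, ← mul_pow, h, one_pow, one_mul]
  have hn : ∀ s : O, nr (u ^ 2 * s) = nr s := fun s => by rw [nr_mul, nr_pow, hu1]; ring
  let E : O ≃ O := ⟨fun s => u ^ 2 * s, fun s => v ^ 2 * s, huv, huv'⟩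
  have key := LimB.tt_eq (σ * mkSL u 0 0 v (by rw [h]; ring)) (c := fun s => tt σ (v ^ 2 * s))
    ?_ (fun z => ?_) (u ^ 2 * r)
  · rw [key, huv]
  · rw [← E.summable_iff]
    refine (summable_Th σ one_pos).congr fun s => ?_
    simp only [E, Function.comp, Equiv.coe_fn_mk, huv, hn]
  · have hι : ι u * ι v = 1 := by rw [← map_mul, h, map_one]
    have hιv : ι v ≠ 0 := right_ne_zero_of_mul_eq_one hι
    have e : mkSL u 0 0 v (by rw [h]; ring) • hp z 1 = hp (ι u ^ 2 * z) 1 := by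
      have := act_upper hu.ne_zero hv.ne_zero 0 z one_pos
      rw [norm_ι, norm_ι, hu1, hv1, map_zero, add_zero, div_self (by simp), one_mul] at this
      refine Eq.trans this ?_
      congr 1
      field_simp
      linear_combination (-ι u * z) * hι
    rw [LimB.Th_mul, e, LimB.Th_hp σ _ one_pos]
    refine Eq.trans (tsum_congr fun s => ?_) (E.tsum_eq _)
    simp only [E, Equiv.coe_fn_mk, huv, hn, map_mul, map_pow]
    congr 2
    ring

theorem tt_one_eq_zero {r : O} (h : ¬ (9 : O) ∣ r) : tt 1 r = 0 := by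
  by_contra h0
  have key : ∀ t, eq (r * t) 9 = 1 := fun t => by
    have h1 := tt_mul_Gam (nT_mem t) 1 r
    have h2 := tt_mul_nT 1 t r
    rw [mul_one, kap_nT, one_mul] at h1
    rw [one_mul, h1] at h2
    exact (mul_left_cancel₀ h0 (h2.symm.trans (mul_one _).symm))
  have h9 : (9 : O) ≠ 0 := fun h0 => by
    have := congrArg ι h0
    rw [LimB.ι_nine, map_zero] at this
    norm_num at this
  exact h (dvd_of_eq_eq_one h9 (by simpa using key 1) (key om))

/-- Congruent matrices. -/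
theorem Th_cong {σ τ : SL2} (h : Cong 9 σ τ) (hJ : Jc (σ 0 0) (σ 1 0) = Jc (τ 0 0) (τ 1 0)) :
    Th σ = Th τ := by
  have hc : IsCoprime (τ 0 0) (τ 1 0) :=
    ⟨τ 1 1, -τ 0 1, by linear_combination SL2.det_eq τ⟩
  have hJ0 : Jc (τ 0 0) (τ 1 0) ≠ 0 := by
    rw [← norm_ne_zero_iff, norm_Jc hc]; exact one_ne_zero
  have hk : kap (σ * τ⁻¹) = 1 := by
    have := kap_mul_Jc h
    rw [hJ] at this
    exact mul_right_cancel₀ hJ0 (this.trans (one_mul _).symm)
  funext w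
  have := LimB.Th_Gam h.mul_inv_mem τ w
  rwa [inv_mul_cancel_right, hk, one_mul] at this


/-- The theta function is not reduced to its constant term. -/
theorem exists_tt_one_ne : ∃ r : O, r ≠ 0 ∧ tt 1 (9 * r) ≠ 0 := by
  by_contra hne
  push Not at hne
  have h0 : ∀ r : O, r ≠ 0 → tt 1 r = 0 := fun r hr => by
    by_cases h9 : (9 : O) ∣ r
    · obtain ⟨s, rfl⟩ := h9
      exact hne s (right_ne_zero_of_mul hr)
    · exact tt_one_eq_zero h9
  have hTh : ∀ w, ‖Th 1 w‖ = ‖tt 1 0‖ * (hy w ^ (2 / 3 : ℝ) * W0 0) := fun w => by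
    unfold Th
    rw [tsum_eq_single 0 fun r hr => by rw [h0 r hr]; ring, norm_mul, norm_eC, mul_one, norm_mul,
      Complex.norm_real, Real.norm_of_nonneg (Mk_pos (hy_pos w) (LimB.b1_nr_nonneg 0)).le]
    simp [Mk, nr]
  let γ : SL2 := mkSL 1 0 9 1 (by ring)
  have hγ : γ ∈ Gam := mem_Gam.2 ⟨dvd_rfl, by simp [γ, Primary]⟩
  have h1 := congrArg norm (Th_aut hγ (hp 0 1))
  rw [norm_mul, norm_kap hγ, one_mul, hTh, hTh, hy_smul, hy_hp 0 one_pos] at h1
  have h2 := mul_right_cancel₀ (W0_pos le_rfl).ne'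
    (mul_left_cancel₀ (norm_ne_zero_iff.2 tt_one_zero_ne) h1)
  have h3 : Qo (hp 0 1) (γ 1 0) (γ 1 1) = 82 := by
    change Qf (hp 0 1) (ι 9) (ι 1) = 82
    rw [Qf_hp 0 one_pos, LimB.ι_nine, map_one]
    norm_num
  rw [h3, Real.one_rpow] at h2
  exact absurd h2 (Real.rpow_lt_one (by norm_num) (by norm_num) (by norm_num)).ne

end Crest.Agent.R17
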