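import Crest.Agent.PVc.R17.ThetaUnf
import Crest.Agent.PVc.R17.ThetaCusp
import Crest.Agent.PVc.R17.ThetaLim
import Crest.Agent.PVc.R17.ReflMel

-- ▼ part PVc/R17/ThetaVanAuxJ1
section

/-!
# Row 17, theta module J, part 1: lemmas for the abstract orthogonality lemma
-/

set_option autoImplicit false

noncomputable section

namespace Crest.Agent.R17.J1

open scoped ComplexConjugate ENNReal Topology
open MeasureTheory Filter

/-- Left coset representatives of the image of an injective homomorphism. -/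
theorem exists_reps {Γ Δ : Type*} [Group Γ] [Group Δ] (ψ : Δ →* Γ) (hψ : Function.Injective ψ) :
    ∃ e : Δ × (Γ ⧸ ψ.range) ≃ Γ, ∀ p, e p = p.2.out * ψ p.1 := by
  refine ⟨Equiv.ofBijective (fun p => p.2.out * ψ p.1) ⟨?_, fun γ => ?_⟩, fun _ => rfl⟩
  · rintro ⟨δ, q⟩ ⟨δ', q'⟩ h
    simp only at h
    have h1 : q = q' := by
      rw [← q.out_eq', ← q'.out_eq', QuotientGroup.eq]
      refine ⟨δ * δ'⁻¹, ?_⟩
      rw [map_mul, map_inv, mul_inv_eq_iff_eq_mul, mul_assoc, ← h, inv_mul_cancel_left]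
    subst h1
    rw [hψ (mul_left_cancel h)]
  · obtain ⟨⟨_, δ, rfl⟩, h⟩ := QuotientGroup.mk_out_eq_mul ψ.range γ
    refine ⟨(δ⁻¹, QuotientGroup.mk γ), ?_⟩
    simp only [h, map_inv, mul_inv_cancel_right]

theorem cs {X : Type*} [MeasurableSpace X] (ν : Measure X) {u v : X → ℂ} (hu : Measurable u)
    (hv : Measurable v) :
    ∫⁻ x, ‖u x * conj (v x)‖ₑ ∂ν ≤
      (∫⁻ x, ‖u x‖ₑ ^ 2 ∂ν) ^ (1 / 2 : ℝ) * (∫⁻ x, ‖v x‖ₑ ^ 2 ∂ν) ^ (1 / 2 : ℝ) := by
  have h := ENNReal.lintegral_mul_le_Lp_mul_Lq ν Real.HolderConjugate.two_two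
    hu.enorm.aemeasurable hv.enorm.aemeasurable
  simp only [Pi.mul_apply, ENNReal.rpow_two] at h
  simpa only [enorm_mul, RCLike.enorm_conj] using h

theorem integrable_mul_conj {X : Type*} [MeasurableSpace X] {ν : Measure X} {u v : X → ℂ}
    (hu : Measurable u) (hv : Measurable v) (hu2 : ∫⁻ x, ‖u x‖ₑ ^ 2 ∂ν < ⊤)
    (hv2 : ∫⁻ x, ‖v x‖ₑ ^ 2 ∂ν < ⊤) : Integrable (fun x => u x * conj (v x)) ν :=
  ⟨(hu.mul (Complex.continuous_conj.measurable.comp hv)).aestronglyMeasurable,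
    (cs ν hu hv).trans_lt (ENNReal.mul_lt_top (ENNReal.rpow_lt_top_of_nonneg (by norm_num) hu2.ne)
      (ENNReal.rpow_lt_top_of_nonneg (by norm_num) hv2.ne))⟩

/-- Orthogonality passes to `L²` limits. -/
theorem orth_lim {X : Type*} [MeasurableSpace X] {ν : Measure X} {u v : X → ℂ} {w : ℕ → X → ℂ}
    (hu : Measurable u) (hv : Measurable v) (hw : ∀ n, Measurable (w n))
    (hu2 : ∫⁻ x, ‖u x‖ₑ ^ 2 ∂ν < ⊤) (hv2 : ∫⁻ x, ‖v x‖ₑ ^ 2 ∂ν < ⊤)
    (hlim : Tendsto (fun n => ∫⁻ x, ‖w n x - v x‖ₑ ^ 2 ∂ν) atTop (𝓝 0))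
    (h : ∀ n, Integrable (fun x => u x * conj (w n x)) ν ∧ ∫ x, u x * conj (w n x) ∂ν = 0) :
    ∫ x, u x * conj (v x) ∂ν = 0 := by
  have h1 := integrable_mul_conj hu hv hu2 hv2
  have h2 : ∀ n, ‖∫ x, u x * conj (v x) ∂ν‖ₑ ≤ (∫⁻ x, ‖u x‖ₑ ^ 2 ∂ν) ^ (1 / 2 : ℝ) *
      (∫⁻ x, ‖w n x - v x‖ₑ ^ 2 ∂ν) ^ (1 / 2 : ℝ) := by
    intro n
    rw [← enorm_neg, ← zero_sub, ← (h n).2, ← integral_sub (h n).1 h1]
    refine (enorm_integral_le_lintegral_enorm _).trans (le_trans (le_of_eq ?_)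
      (cs ν hu ((hw n).sub hv)))
    simp only [map_sub, mul_sub]
  have h3 : Tendsto (fun n => (∫⁻ x, ‖u x‖ₑ ^ 2 ∂ν) ^ (1 / 2 : ℝ) *
      (∫⁻ x, ‖w n x - v x‖ₑ ^ 2 ∂ν) ^ (1 / 2 : ℝ)) atTop (𝓝 0) := by
    have h4 := ENNReal.Tendsto.const_mul (a := (∫⁻ x, ‖u x‖ₑ ^ 2 ∂ν) ^ (1 / 2 : ℝ))
      (((ENNReal.continuous_rpow_const (y := 1 / 2)).tendsto 0).comp hlim)
      (Or.inr (ENNReal.rpow_lt_top_of_nonneg (by norm_num) hu2.ne).ne)
    rwa [ENNReal.zero_rpow_of_pos (by norm_num), mul_zero] at h4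
  exact enorm_eq_zero.1 (le_antisymm (ge_of_tendsto' h3 h2) zero_le)

theorem sq_sum_lt_top {X J : Type*} [MeasurableSpace X] [Fintype J] {ν : Measure X}
    {v : J → X → ℂ} (hv : ∀ j, Measurable (v j)) (hv2 : ∀ j, ∫⁻ x, ‖v j x‖ₑ ^ 2 ∂ν < ⊤)
    (a : J → ℂ) : ∫⁻ x, ‖∑ j, a j * v j x‖ₑ ^ 2 ∂ν < ⊤ := by
  have h1 : Integrable (fun x => (∑ j, a j * v j x) * conj (∑ j, a j * v j x)) ν := by
    simp only [map_sum, map_mul, Finset.sum_mul_sum]
    refine integrable_finsetSum _ fun i _ => integrable_finsetSum _ fun j _ => ?_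
    exact ((integrable_mul_conj (hv i) (hv j) (hv2 i) (hv2 j)).const_mul (a i * conj (a j))).congr
      (Eventually.of_forall fun x => mul_mul_mul_comm _ _ _ _)
  simpa only [HasFiniteIntegral, enorm_mul, RCLike.enorm_conj, ← sq] using h1.2

section

variable {Γ Δ X : Type*} [Group Γ] [Countable Γ] [Group Δ] [Countable Δ] [MulAction Γ X]
  [MulAction Δ X] [MeasurableSpace X] {μ : Measure X} {ϖ ϖ' : X → ℝ}

omit [Countable Δ] in
/-- Comparison of the norms for the two groups. -/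
theorem norm_le (hΓ : ∀ γ : Γ, MeasurePreserving (fun x : X => γ • x) μ μ) (hϖ : IsWt Γ ϖ)
    (hϖ' : IsWt Δ ϖ') {g g' : X → X} (hg : MeasurePreserving g μ μ)
    (hg' : MeasurePreserving g' μ μ) (hgg' : ∀ x, g' (g x) = x ∧ g (g' x) = x) (ψ : Δ →* Γ)
    (hψ : Function.Injective ψ) [ψ.range.FiniteIndex] (hint : ∀ δ x, g (δ • x) = ψ δ • g x)
    {F : X → ℝ≥0∞} (hF : Measurable F) (hinv : ∀ (γ : Γ) x, F (γ • x) = F x) :
    ∫⁻ x, ENNReal.ofReal (ϖ' x) * F (g x) ∂μ ≤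
      Nat.card (Γ ⧸ ψ.range) * ∫⁻ x, ENNReal.ofReal (ϖ x) * F x ∂μ := by
  rw [← hg'.lintegral_comp (f := fun x => ENNReal.ofReal (ϖ' x) * F (g x))
    (hϖ'.meas.ennreal_ofReal.mul (hF.comp hg.measurable))]
  simp only [(hgg' _).2]
  refine hϖ.lintegral_le hΓ (φ := fun x => ENNReal.ofReal (ϖ' (g' x)))
    (hϖ'.meas.comp hg'.measurable).ennreal_ofReal hF hinv fun x => le_of_eq ?_
  obtain ⟨e, he⟩ := exists_reps ψ hψ
  have h1 : ∀ δ y, g' (ψ δ • y) = δ • g' y := fun δ y => by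
    conv_lhs => rw [← (hgg' y).2, ← hint, (hgg' _).1]
  have h2 : ∀ y, ∑' δ : Δ, ENNReal.ofReal (ϖ' (δ⁻¹ • y)) = 1 := fun y => by
    refine ((Equiv.inv Δ).tsum_eq fun δ => ENNReal.ofReal (ϖ' (δ • y))).trans ?_
    rw [← ENNReal.ofReal_tsum_of_nonneg (fun _ => hϖ'.nonneg _) (hϖ'.sum y).summable,
      (hϖ'.sum y).tsum_eq, ENNReal.ofReal_one]
  rw [← (e.trans (Equiv.inv Γ)).tsum_eq, ENNReal.tsum_prod', ENNReal.tsum_comm]
  simp only [Equiv.trans_apply, Equiv.inv_apply, he, mul_inv_rev, mul_smul, ← map_inv, h1, h2]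
  have := Fintype.ofFinite (Γ ⧸ ψ.range)
  rw [tsum_fintype, Finset.sum_const, Finset.card_univ, Nat.card_eq_fintype_card, nsmul_one]

omit [Countable Γ] in
/-- Unfolding the pairing with a translated Poincaré series. -/
theorem pair_eq_zero (hΓ : ∀ γ : Γ, MeasurePreserving (fun x : X => γ • x) μ μ)
    (hΔ : ∀ δ : Δ, MeasurePreserving (fun x : X => δ • x) μ μ) (hϖ' : IsWt Δ ϖ') (κ : Γ →* ℂ)
    {g g' : X → X} (hg : MeasurePreserving g μ μ) (hgg' : ∀ x, g' (g x) = x) (ψ : Δ →* Γ)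
    (hψ : Function.Injective ψ) [ψ.range.FiniteIndex] (hκψ : ∀ δ, κ (ψ δ) = 1)
    (hint : ∀ δ x, g (δ • x) = ψ δ • g x) {f θ φ : X → ℂ} (hf : Measurable f) (hφ : Measurable φ)
    (hinv : ∀ (δ : Δ) x, f (δ • x) = f x)
    (hser : ∀ x, (Summable fun γ : Γ => conj (κ γ) * φ (γ • x)) ∧
      θ x = ∑' γ : Γ, conj (κ γ) * φ (γ • x))
    (horth : ∀ γ : Γ, Integrable (fun x => f (g' (γ • x)) * conj (φ x)) μ ∧
      ∫ x, f (g' (γ • x)) * conj (φ x) ∂μ = 0) :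
    Integrable (fun x => (ϖ' x : ℂ) * (f x * conj (θ (g x)))) μ ∧
      ∫ x, (ϖ' x : ℂ) * (f x * conj (θ (g x))) ∂μ = 0 := by
  have := Fintype.ofFinite (Γ ⧸ ψ.range)
  obtain ⟨e, he⟩ := exists_reps ψ hψ
  set Φ : X → ℂ := fun x => ∑ q : Γ ⧸ ψ.range, conj (κ q.out) * φ (q.out • g x) with hΦ
  have h1 : ∀ x, HasSum (fun δ : Δ => conj (1 : ℂ) * Φ (δ • x)) (θ (g x)) := by
    intro x
    have h2 := (e.hasSum_iff.2 (hser (g x)).1.hasSum).prod_fiberwise fun δ => hasSum_fintype _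
    rw [← (hser (g x)).2] at h2
    simpa only [Function.comp_apply, he, map_mul, hκψ, mul_one, map_one, one_mul, mul_smul, hΦ,
      hint] using h2
  have h3 : ∀ γ : Γ, Integrable (fun x => f x * conj (φ (γ • g x))) μ ∧
      ∫ x, f x * conj (φ (γ • g x)) ∂μ = 0 := by
    intro γ
    have hT := (hΓ γ).comp hg
    have h4 := hT.integrable_comp_of_integrable (horth γ⁻¹).1
    have h5 := integral_map hT.measurable.aemeasurable
      (f := fun x => f (g' (γ⁻¹ • x)) * conj (φ x)) (by rw [hT.map_eq]; exact (horth γ⁻¹).1.1)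
    rw [hT.map_eq, (horth γ⁻¹).2] at h5
    simp only [Function.comp_def, inv_smul_smul, hgg'] at h4 h5
    exact ⟨h4, h5.symm⟩
  have h6 : ∀ x, f x * conj (Φ x) = ∑ q : Γ ⧸ ψ.range, κ q.out * (f x * conj (φ (q.out • g x))) :=
    fun x => by simp only [hΦ, map_sum, map_mul, Complex.conj_conj, Finset.mul_sum, mul_left_comm]
  have h7 := hϖ'.inner_unfold hΔ (fun _ => 1) (φ := Φ) hf
    (Finset.measurable_sum _ fun q _ => (hφ.comp ((hΓ q.out).comp hg).measurable).const_mul _)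
    (fun δ x => by rw [hinv, one_mul])
    (by
      simp only [h6]
      exact integrable_finsetSum _ fun q _ => (h3 _).1.const_mul _) fun x => (h1 x).summable
  simp only [(h1 _).tsum_eq, h6] at h7
  refine ⟨h7.1, h7.2.trans ?_⟩
  rw [integral_finsetSum _ fun q _ => (h3 _).1.const_mul _]
  exact Finset.sum_eq_zero fun q _ => by rw [integral_const_mul, (h3 _).2, mul_zero]

end

theorem vanish {Γ Δ X J : Type*} [Group Γ] [Countable Γ] [Group Δ] [Countable Δ]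
    [MulAction Γ X] [MulAction Δ X] [MeasurableSpace X] [Fintype J] {μ : Measure X}
    (hΓ : ∀ γ : Γ, MeasurePreserving (fun x : X => γ • x) μ μ)
    (hΔ : ∀ δ : Δ, MeasurePreserving (fun x : X => δ • x) μ μ)
    {ϖ ϖ' : X → ℝ} (hϖ : IsWt Γ ϖ) (hϖ' : IsWt Δ ϖ') (κ : Γ →* ℂ) (hκ : ∀ γ, ‖κ γ‖ = 1)
    (g g' : J → X → X) (hg : ∀ j, MeasurePreserving (g j) μ μ)
    (hg' : ∀ j, MeasurePreserving (g' j) μ μ) (hgg' : ∀ j x, g' j (g j x) = x ∧ g j (g' j x) = x)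
    (ψ : J → Δ →* Γ) (hψ : ∀ j, Function.Injective (ψ j)) (hfin : ∀ j, (ψ j).range.FiniteIndex)
    (hκψ : ∀ j δ, κ (ψ j δ) = 1) (hint : ∀ j δ x, g j (δ • x) = ψ j δ • g j x)
    {Θ : X → ℂ} {θ φ : ℕ → X → ℂ} (hΘm : Measurable Θ) (hθm : ∀ n, Measurable (θ n))
    (hφm : ∀ n, Measurable (φ n)) (hΘ : ∀ (γ : Γ) x, Θ (γ • x) = κ γ * Θ x)
    (hθ : ∀ n (γ : Γ) x, θ n (γ • x) = κ γ * θ n x)
    (hser : ∀ n x, (Summable fun γ : Γ => conj (κ γ) * φ n (γ • x)) ∧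
      θ n x = ∑' γ : Γ, conj (κ γ) * φ n (γ • x))
    (hL2 : ∫⁻ x, ENNReal.ofReal (ϖ x) * ‖Θ x‖ₑ ^ 2 ∂μ < ⊤)
    (hlim : Tendsto (fun n => ∫⁻ x, ENNReal.ofReal (ϖ x) * ‖θ n x - Θ x‖ₑ ^ 2 ∂μ) atTop (𝓝 0))
    (a : J → ℂ)
    (horth : ∀ n i (γ : Γ),
      Integrable (fun x => (∑ j, a j * Θ (g j (g' i (γ • x)))) * conj (φ n x)) μ ∧
      ∫ x, (∑ j, a j * Θ (g j (g' i (γ • x)))) * conj (φ n x) ∂μ = 0) :
    ∀ᵐ x ∂μ, ∑ j, a j * Θ (g j x) = 0 := by
  set f : X → ℂ := fun x => ∑ j, a j * Θ (g j x) with hf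
  have hW : Measurable fun x => ENNReal.ofReal (ϖ' x) := hϖ'.meas.ennreal_ofReal
  have hW' : ∀ᵐ x ∂μ, ENNReal.ofReal (ϖ' x) < ⊤ := Eventually.of_forall fun _ =>
    ENNReal.ofReal_lt_top
  set ν : Measure X := μ.withDensity fun x => ENNReal.ofReal (ϖ' x) with hν
  have hκ' : ∀ γ, ‖κ γ‖ₑ = 1 := fun γ => by rw [← ofReal_norm, hκ, ENNReal.ofReal_one]
  have hm : ∀ j, Measurable fun x => Θ (g j x) := fun j => hΘm.comp (hg j).measurable
  have hfm : Measurable f := Finset.measurable_sum _ fun j _ => (hm j).const_mul _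
  have hinv : ∀ (δ : Δ) x, f (δ • x) = f x := fun δ x => by
    simp only [hf, hint, hΘ, hκψ, one_mul]
  have h1 : ∀ j {u : X → ℂ}, Measurable u → (∀ (γ : Γ) x, u (γ • x) = κ γ * u x) →
      ∫⁻ x, ‖u (g j x)‖ₑ ^ 2 ∂ν ≤
        Nat.card (Γ ⧸ (ψ j).range) * ∫⁻ x, ENNReal.ofReal (ϖ x) * ‖u x‖ₑ ^ 2 ∂μ := by
    intro j u hu hu'
    have := hfin j
    rw [hν, lintegral_withDensity_eq_lintegral_mul _ hW (g := fun x => ‖u (g j x)‖ₑ ^ 2)
      ((hu.comp (hg j).measurable).enorm.pow_const 2)]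
    exact norm_le hΓ hϖ hϖ' (hg j) (hg' j) (hgg' j) (ψ j) (hψ j) (hint j)
      (F := fun x => ‖u x‖ₑ ^ 2) (hu.enorm.pow_const 2) fun γ x => by
        simp only [hu', enorm_mul, hκ', one_mul]
  have h2 : ∀ j, ∫⁻ x, ‖Θ (g j x)‖ₑ ^ 2 ∂ν < ⊤ := fun j =>
    (h1 j hΘm hΘ).trans_lt (ENNReal.mul_lt_top (ENNReal.natCast_lt_top _) hL2)
  have h3 : ∫⁻ x, ‖f x‖ₑ ^ 2 ∂ν < ⊤ := sq_sum_lt_top hm h2 a
  have h4 : ∀ i, ∫ x, f x * conj (Θ (g i x)) ∂ν = 0 := by
    intro i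
    have := hfin i
    refine orth_lim (w := fun n x => θ n (g i x)) hfm (hm i)
      (fun n => (hθm n).comp (hg i).measurable) h3 (h2 i) ?_ fun n => ?_
    · have h5 := ENNReal.Tendsto.const_mul (a := Nat.card (Γ ⧸ (ψ i).range)) hlim
        (Or.inr (ENNReal.natCast_ne_top _))
      rw [mul_zero] at h5
      exact tendsto_of_tendsto_of_tendsto_of_le_of_le tendsto_const_nhds h5 (fun _ => zero_le)
        fun n => h1 i (u := fun x => θ n x - Θ x) ((hθm n).sub hΘm) fun γ x => by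
          rw [hθ, hΘ, mul_sub]
    · rw [hν, integrable_withDensity_iff_integrable_smul' hW hW',
        integral_withDensity_eq_integral_toReal_smul hW hW']
      simp only [ENNReal.toReal_ofReal (hϖ'.nonneg _), Complex.real_smul]
      exact pair_eq_zero hΓ hΔ hϖ' κ (hg i) (fun x => (hgg' i x).1) (ψ i) (hψ i) (hκψ i) (hint i)
        hfm (hφm n) hinv (hser n) (horth n i)
  have h5 : ∫ x, f x * conj (f x) ∂ν = 0 := by
    have h6 : ∀ x, f x * conj (f x) = ∑ i, conj (a i) * (f x * conj (Θ (g i x))) := fun x => by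
      conv_lhs => rw [show conj (f x) = ∑ i, conj (a i) * conj (Θ (g i x)) by
        simp only [hf, map_sum, map_mul]]
      simp only [Finset.mul_sum, mul_left_comm]
    simp only [h6]
    rw [integral_finsetSum _ fun i _ => (integrable_mul_conj hfm (hm i) h3 (h2 i)).const_mul _]
    exact Finset.sum_eq_zero fun i _ => by rw [integral_const_mul, h4, mul_zero]
  have h6 := integrable_mul_conj hfm hfm h3 h3
  simp only [Complex.mul_conj', ← Complex.ofReal_pow] at h5 h6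
  rw [integral_complex_ofReal, Complex.ofReal_eq_zero, integral_eq_zero_iff_of_nonneg
    (fun x => sq_nonneg _) (by simpa using h6.norm), hν, EventuallyEq, ae_withDensity_iff hW] at h5
  have h7 : ∀ᵐ x ∂μ, ∀ δ : Δ, ENNReal.ofReal (ϖ' (δ • x)) ≠ 0 → ‖f (δ • x)‖ ^ 2 = 0 :=
    ae_all_iff.2 fun δ => (hΔ δ).quasiMeasurePreserving.ae h5
  filter_upwards [h7] with x hx
  by_contra h
  have h8 : ∀ δ : Δ, ϖ' (δ • x) = 0 := fun δ => by
    by_contra h'
    have h9 := hx δ (ENNReal.ofReal_pos.2 ((hϖ'.nonneg _).lt_of_ne' h')).ne'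
    rw [hinv, pow_eq_zero_iff two_ne_zero, norm_eq_zero] at h9
    exact h h9
  have h9 := hϖ'.sum x
  simp only [h8] at h9
  exact zero_ne_one (hasSum_zero.unique h9)

end Crest.Agent.R17.J1
end
end

-- ▼ part PVc/R17/ThetaVan
section

/-!
# Row 17, theta module J: a combination of translates of `θ` without constant terms vanishes
-/

set_option autoImplicit false

noncomputable section

namespace Crest.Agent.R17

open scoped ComplexConjugate ENNReal Topology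
open MeasureTheory Filter

/-- **Abstract orthogonality lemma.**  `Γ` acts on `X`; `g j` are measure preserving bijections
intertwining a group `Δ` (acting on `X`) with finite-index subgroups `ψ j Δ ⊆ ker κ` of `Γ`.
If `θ n → Θ` in `L²(Γ \ X)`, every `θ n` is a Poincaré series with seed `φ n`, and the translates of
`f = ∑ a j • Θ ∘ g j` are orthogonal to the seeds, then `f = 0` almost everywhere. -/
theorem vanish_abstract {Γ Δ X J : Type*} [Group Γ] [Countable Γ] [Group Δ] [Countable Δ]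
    [MulAction Γ X] [MulAction Δ X] [MeasurableSpace X] [Fintype J] {μ : Measure X}
    (hΓ : ∀ γ : Γ, MeasurePreserving (fun x : X => γ • x) μ μ)
    (hΔ : ∀ δ : Δ, MeasurePreserving (fun x : X => δ • x) μ μ)
    {ϖ ϖ' : X → ℝ} (hϖ : IsWt Γ ϖ) (hϖ' : IsWt Δ ϖ') (κ : Γ →* ℂ) (hκ : ∀ γ, ‖κ γ‖ = 1)
    (g g' : J → X → X) (hg : ∀ j, MeasurePreserving (g j) μ μ)
    (hg' : ∀ j, MeasurePreserving (g' j) μ μ) (hgg' : ∀ j x, g' j (g j x) = x ∧ g j (g' j x) = x)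
    (ψ : J → Δ →* Γ) (hψ : ∀ j, Function.Injective (ψ j)) (hfin : ∀ j, (ψ j).range.FiniteIndex)
    (hκψ : ∀ j δ, κ (ψ j δ) = 1) (hint : ∀ j δ x, g j (δ • x) = ψ j δ • g j x)
    {Θ : X → ℂ} {θ φ : ℕ → X → ℂ} (hΘm : Measurable Θ) (hθm : ∀ n, Measurable (θ n))
    (hφm : ∀ n, Measurable (φ n)) (hΘ : ∀ (γ : Γ) x, Θ (γ • x) = κ γ * Θ x)
    (hθ : ∀ n (γ : Γ) x, θ n (γ • x) = κ γ * θ n x)
    (hser : ∀ n x, (Summable fun γ : Γ => conj (κ γ) * φ n (γ • x)) ∧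
      θ n x = ∑' γ : Γ, conj (κ γ) * φ n (γ • x))
    (hL2 : ∫⁻ x, ENNReal.ofReal (ϖ x) * ‖Θ x‖ₑ ^ 2 ∂μ < ⊤)
    (hlim : Tendsto (fun n => ∫⁻ x, ENNReal.ofReal (ϖ x) * ‖θ n x - Θ x‖ₑ ^ 2 ∂μ) atTop (𝓝 0))
    (a : J → ℂ)
    (horth : ∀ n i (γ : Γ),
      Integrable (fun x => (∑ j, a j * Θ (g j (g' i (γ • x)))) * conj (φ n x)) μ ∧
      ∫ x, (∑ j, a j * Θ (g j (g' i (γ • x)))) * conj (φ n x) ∂μ = 0) :
    ∀ᵐ x ∂μ, ∑ j, a j * Θ (g j x) = 0 :=
  J1.vanish hΓ hΔ hϖ hϖ' κ hκ g g' hg hg' hgg' ψ hψ hfin hκψ hint hΘm hθm hφm hΘ hθ hser hL2 hlim a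
    horth

theorem ThV_finiteIndex {G F : Type*} [Group G] [Finite F] (K : Subgroup G) (f : G → F)
    (h : ∀ x y, f x = f y → x⁻¹ * y ∈ K) : K.FiniteIndex := by
  have : Finite (G ⧸ K) := by
    refine Finite.of_surjective (fun t : Set.range f => (t.2.choose : G ⧸ K)) fun q => ?_
    obtain ⟨x, rfl⟩ := QuotientGroup.mk_surjective q
    exact ⟨⟨f x, x, rfl⟩,
      QuotientGroup.eq.2 (h _ _ (Exists.choose_spec (⟨x, rfl⟩ : ∃ y, f y = f x)))⟩
  exact Subgroup.finiteIndex_of_finite_quotient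

theorem ThV_cancel_right {g A B : Mat} (hg : g.det ≠ 0) (h : A * g = B * g) : A = B := by
  have h1 := congrArg (· * g.adjugate) h
  simp only [Matrix.mul_assoc, Matrix.mul_adjugate, Matrix.mul_smul, Matrix.mul_one] at h1
  exact smul_right_injective _ hg h1

theorem ThV_cancel_left {g A B : Mat} (hg : g.det ≠ 0) (h : g * A = g * B) : A = B := by
  have h1 := congrArg (g.adjugate * ·) h
  simp only [← Matrix.mul_assoc, Matrix.adjugate_mul, Matrix.smul_mul, Matrix.one_mul] at h1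
  exact smul_right_injective _ hg h1

theorem ThV_cong_iff {N : O} {σ : SL2} : Cong N σ 1 ↔ ∃ m : Mat, (σ : Mat) = 1 + N • m := by
  constructor
  · intro h
    choose m hm using h
    refine ⟨Matrix.of m, Matrix.ext fun i j => ?_⟩
    rw [Matrix.add_apply, Matrix.smul_apply, Matrix.of_apply, smul_eq_mul, ← hm i j]
    simp
  · rintro ⟨m, hm⟩ i j
    refine ⟨m i j, ?_⟩
    have := congrFun (congrFun hm i) j
    rw [Matrix.add_apply, Matrix.smul_apply, smul_eq_mul] at this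
    rw [this]
    simp

theorem ThV_conj_right {g : Mat} (hg : g.det ≠ 0) {N : O} {δ : SL2} (h : Cong (N * g.det) δ 1) :
    ∃ γ : SL2, Cong N γ 1 ∧ g * (δ : Mat) = (γ : Mat) * g := by
  obtain ⟨m, hm⟩ := ThV_cong_iff.1 h
  have e : g * (δ : Mat) = (1 + N • (g * m * g.adjugate)) * g := by
    rw [hm, Matrix.mul_add, Matrix.add_mul, Matrix.smul_mul, Matrix.mul_assoc _ g.adjugate,
      Matrix.adjugate_mul, Matrix.mul_smul, Matrix.mul_smul, Matrix.mul_one, Matrix.mul_one,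
      Matrix.one_mul, smul_smul]
  have hd : (1 + N • (g * m * g.adjugate)).det = 1 := by
    have := congrArg Matrix.det e
    rw [Matrix.det_mul, Matrix.det_mul, δ.det_coe, mul_comm] at this
    exact (mul_right_cancel₀ hg this).symm
  exact ⟨⟨_, hd⟩, ThV_cong_iff.2 ⟨_, rfl⟩, e⟩

theorem ThV_conj_left {g : Mat} (hg : g.det ≠ 0) {N : O} {γ : SL2} (h : Cong (N * g.det) γ 1) :
    ∃ δ : SL2, Cong N δ 1 ∧ g * (δ : Mat) = (γ : Mat) * g := by
  obtain ⟨m, hm⟩ := ThV_cong_iff.1 h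
  have e : g * (1 + N • (g.adjugate * m * g)) = (γ : Mat) * g := by
    rw [hm, Matrix.mul_add, Matrix.add_mul, Matrix.mul_smul, ← Matrix.mul_assoc,
      ← Matrix.mul_assoc, Matrix.mul_adjugate, Matrix.smul_mul, Matrix.smul_mul, Matrix.smul_mul,
      Matrix.mul_one, Matrix.one_mul, Matrix.one_mul, smul_smul]
  have hd : (1 + N • (g.adjugate * m * g)).det = 1 := by
    have := congrArg Matrix.det e
    rw [Matrix.det_mul, Matrix.det_mul, γ.det_coe, mul_comm] at this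
    exact mul_right_cancel₀ hg this
  exact ⟨⟨_, hd⟩, ThV_cong_iff.2 ⟨_, rfl⟩, e⟩

theorem ThV_cong_mono {M N : O} (h : M ∣ N) {σ τ : SL2} (hc : Cong N σ τ) : Cong M σ τ :=
  fun i j => h.trans (hc i j)

/-- The elements of `SL₂(O)` which are conjugated into `Gam` by all the `g j`. -/
def ThV_D0 {J : Type} (g : J → Mat) : Subgroup SL2 where
  carrier := {δ | ∀ j, ∃ γ : Gam, g j * (δ : Mat) = ((γ : SL2) : Mat) * g j}
  one_mem' j := ⟨1, by simp⟩
  mul_mem' := by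
    intro δ δ' h h' j
    obtain ⟨γ, hγ⟩ := h j
    obtain ⟨γ', hγ'⟩ := h' j
    refine ⟨γ * γ', ?_⟩
    rw [Matrix.SpecialLinearGroup.coe_mul, ← Matrix.mul_assoc, hγ, Matrix.mul_assoc, hγ',
      ← Matrix.mul_assoc]
    rfl
  inv_mem' := by
    intro δ h j
    obtain ⟨γ, hγ⟩ := h j
    refine ⟨γ⁻¹, ?_⟩
    have h1 : (((γ⁻¹ : Gam) : SL2) : Mat) * ((γ : SL2) : Mat) = 1 := by
      rw [← Matrix.SpecialLinearGroup.coe_mul, ← Subgroup.coe_mul, inv_mul_cancel]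
      rfl
    have h2 : (δ : Mat) * ((δ⁻¹ : SL2) : Mat) = 1 := by
      rw [← Matrix.SpecialLinearGroup.coe_mul, mul_inv_cancel]
      rfl
    calc g j * ((δ⁻¹ : SL2) : Mat)
        = (((γ⁻¹ : Gam) : SL2) : Mat) * (((γ : SL2) : Mat) * g j) * ((δ⁻¹ : SL2) : Mat) := by
          rw [← Matrix.mul_assoc, h1, Matrix.one_mul]
      _ = _ := by rw [← hγ, Matrix.mul_assoc, Matrix.mul_assoc, h2, Matrix.mul_one]

theorem ThV_exists_psi {J : Type} (g : J → Mat) (hg : ∀ j, (g j).det ≠ 0) (j : J) :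
    ∃ ψ : ThV_D0 g →* Gam, ∀ δ : ThV_D0 g,
      g j * ((δ : SL2) : Mat) = (((ψ δ : Gam) : SL2) : Mat) * g j := by
  choose f hf using fun δ : ThV_D0 g => δ.2 j
  refine ⟨MonoidHom.mk' f fun δ δ' => ?_, hf⟩
  refine Subtype.ext (Subtype.ext (ThV_cancel_right (hg j) ?_))
  rw [← hf]
  rw [Subgroup.coe_mul, Matrix.SpecialLinearGroup.coe_mul, ← Matrix.mul_assoc, hf,
    Matrix.mul_assoc, hf, ← Matrix.mul_assoc]
  rfl

/-- Growth and constant term of a translate of `θ` by an integral matrix. -/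
theorem Th_act_ct {g : Mat} (hg : g.det ≠ 0) :
    (∃ C : ℝ, ∀ w, ‖Th 1 (act g w)‖ ≤ C * (hy w + hy w ^ (-(4 : ℝ)) + 1)) ∧
    ∀ N : ℕ, N ≠ 0 → 9 * g.det ∣ (N : O) → ∀ y : ℝ, 0 < y →
      ∫ z, (wt N z : ℂ) * Th 1 (act g (hp z y)) =
        ((V0 * Mk y 0 * nr g.det ^ (-(1 / 3 : ℝ)) : ℝ) : ℂ) * Cv (g 0 0) (g 1 0) := by
  obtain ⟨σ, ρ, b, e, hρ, he, hgU⟩ := exists_hermite hg
  have hU : (!![ρ, b; 0, e] : Mat).det = ρ * e := by simp [Matrix.det_fin_two_of]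
  have hdet : g.det = ρ * e := by
    rw [hgU, Matrix.det_mul, σ.det_coe, one_mul, hU]
  have hρ' : ι ρ ≠ 0 := (map_ne_zero_iff ι ι_injective).2 hρ
  have he' : ι e ≠ 0 := (map_ne_zero_iff ι ι_injective).2 he
  have ha : 0 < ‖ι ρ‖ / ‖ι e‖ := div_pos (norm_pos_iff.2 hρ') (norm_pos_iff.2 he')
  have key : ∀ (z : ℂ) (y : ℝ), 0 < y → Th 1 (act g (hp z y)) =
      Th σ (hp ((ι ρ * z + ι b) / ι e) (‖ι ρ‖ / ‖ι e‖ * y)) := by
    intro z y hy0
    rw [hgU, act_mul σ.det_ne (by rw [hU]; exact mul_ne_zero hρ he), ← smul_def, Th_smul,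
      act_upper hρ he b z hy0]
  have ha2 : (‖ι ρ‖ / ‖ι e‖) ^ 2 = nr ρ / nr e := by rw [div_pow, norm_ι_sq, norm_ι_sq]
  generalize ‖ι ρ‖ / ‖ι e‖ = a at ha key ha2
  constructor
  · obtain ⟨C, hC⟩ := norm_Th_le σ
    refine ⟨|C| * (a + a ^ (-(4 : ℝ)) + 1), fun w => ?_⟩
    have hy0 := hy_pos w
    rw [← hp_hy w, key _ _ hy0, hp_hy]
    refine (hC _).trans ?_
    rw [hy_hp _ (mul_pos ha hy0), Real.mul_rpow ha.le hy0.le, mul_assoc]
    have h1 : 0 < a ^ (-(4 : ℝ)) := Real.rpow_pos_of_pos ha _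
    have h2 : 0 < hy w ^ (-(4 : ℝ)) := Real.rpow_pos_of_pos hy0 _
    refine mul_le_mul (le_abs_self C) ?_ (by positivity) (abs_nonneg C)
    have h3 := mul_pos ha h2
    have h4 := mul_pos h1 hy0
    nlinarith
  · intro N hN hdvd y hy0
    have hay := mul_pos ha hy0
    simp only [key _ _ hy0]
    simp only [Th, hy_hp _ hay, hp_fst]
    have e1 : ∀ (r : O) (z : ℂ), tt σ r * (Mk (a * y) (b1 * nr r) : ℂ) *
        eC (ι r * ((ι ρ * z + ι b) / ι e) / 9) =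
        tt σ r * (Mk (a * y) (b1 * nr r) : ℂ) * eC (ι r * ι b / (9 * ι e)) *
          eC (ι r * ι ρ / (9 * ι e) * z) := by
      intro r z
      rw [mul_assoc _ (eC _), ← eC_add]
      congr 2
      field_simp
      ring
    simp only [e1]
    rw [integral_wt_tsum hN (ξ := fun r => ι r * ι ρ / (9 * ι e))
      (a := fun r => tt σ r * (Mk (a * y) (b1 * nr r) : ℂ) * eC (ι r * ι b / (9 * ι e)))]
    · have h00 : g 0 0 = ρ * σ 0 0 := by
        simp [hgU, Matrix.mul_apply, Fin.sum_univ_two, mul_comm]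
      have h10 : g 1 0 = ρ * σ 1 0 := by
        simp [hgU, Matrix.mul_apply, Fin.sum_univ_two, mul_comm]
      have h3 : a ^ (2 / 3 : ℝ) = nr (ρ * e) ^ (-(1 / 3 : ℝ)) * nr ρ ^ (2 / 3 : ℝ) := by
        have hρ0 := nr_pos hρ
        have he0 := nr_pos he
        rw [show (2 / 3 : ℝ) = (2 : ℕ) * (1 / 3) by norm_num, Real.rpow_natCast_mul ha.le, ha2,
          Real.rpow_natCast_mul hρ0.le, nr_mul, Real.rpow_neg (mul_pos hρ0 he0).le,
          ← Real.inv_rpow (mul_pos hρ0 he0).le, ← Real.mul_rpow (by positivity) (by positivity)]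
        congr 1
        field_simp
      rw [h00, h10, Cv_spec hρ, hdet]
      simp only [nr, nm_zero, Nat.cast_zero, mul_zero, map_zero, zero_mul, zero_div, eC_zero,
        mul_one]
      rw [Mk_mul hy0 ha, mul_zero, h3]
      push_cast
      ring
    · intro r
      simp [hρ', he', map_eq_zero_iff ι ι_injective]
    · intro r
      obtain ⟨k, hk⟩ := hdvd
      refine ⟨ρ * k * r * ρ, ?_⟩
      rw [← map_natCast ι N, hk, hdet]
      simp only [map_mul, map_ofNat]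
      field_simp
    · simp only [norm_mul _ (eC _), norm_eC, mul_one]
      exact summable_Th σ hay

/-- A common subgroup on which all the translates are invariant. -/
theorem exists_common_subgroup {J : Type} [Fintype J] (g : J → Mat) (hg : ∀ j, (g j).det ≠ 0) :
    ∃ (Δ : Subgroup SL2) (ψ : J → Δ →* Gam), (∀ j, Function.Injective (ψ j)) ∧
      (∀ j, (ψ j).range.FiniteIndex) ∧ (∀ j δ, kap (ψ j δ : Gam) = 1) ∧
      ∀ j (δ : Δ), g j * ((δ : SL2) : Mat) = (((ψ j δ : Gam) : SL2) : Mat) * g j := by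
  classical
  choose ψ hψ using ThV_exists_psi g hg
  have hinj : ∀ j, Function.Injective (ψ j) := by
    intro j δ δ' h
    refine Subtype.ext (Subtype.ext (ThV_cancel_left (hg j) ?_))
    rw [hψ, hψ, h]
  have hD : ∏ j, (g j).det ≠ 0 := Finset.prod_ne_zero_iff.2 fun j _ => hg j
  have hdvd : ∀ j, (g j).det ∣ ∏ j, (g j).det := fun j =>
    Finset.dvd_prod_of_mem _ (Finset.mem_univ j)
  have hfin : ∀ j, (ψ j).range.FiniteIndex := by
    intro j
    have h1 : ((ψ j).range.map Gam.subtype).FiniteIndex := by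
      refine finiteIndex_of_cong (N := 9 * (∏ j, (g j).det) * (g j).det)
        (mul_ne_zero (mul_ne_zero (by norm_num) hD) (hg j)) fun γ hγ => ?_
      obtain ⟨δ, hδ, e⟩ := ThV_conj_left (hg j) hγ
      have hδ0 : δ ∈ ThV_D0 g := by
        intro i
        obtain ⟨γ', hγ', e'⟩ := ThV_conj_right (hg i) (N := 9)
          (ThV_cong_mono (mul_dvd_mul_left _ (hdvd i)) hδ)
        exact ⟨⟨γ', by simpa using hγ'.mul_inv_mem⟩, e'⟩
      refine ⟨ψ j ⟨δ, hδ0⟩, ⟨_, rfl⟩, Subtype.ext (ThV_cancel_right (hg j) ?_)⟩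
      exact (hψ j ⟨δ, hδ0⟩).symm.trans e
    have h2 := h1.index_ne_zero
    rw [Subgroup.index_map_of_injective _ Gam.subtype_injective] at h2
    exact ⟨left_ne_zero_of_mul h2⟩
  let K : Subgroup (ThV_D0 g) :=
    { carrier := {δ | ∀ j, kap (ψ j δ : Gam) = 1}
      one_mem' := fun j => by rw [map_one]; exact kap_one
      mul_mem' := fun {δ δ'} h h' j => by
        rw [map_mul, Subgroup.coe_mul, kap_mul (ψ j δ).2 (ψ j δ').2, h j, h' j, mul_one]
      inv_mem' := fun {δ} h j => by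
        rw [map_inv, Subgroup.coe_inv, kap_inv (ψ j δ).2, h j, map_one] }
  have hK : K.FiniteIndex := by
    have : Finite {x : ℂ // x ^ 3 = 1} := by
      refine Set.Finite.to_subtype ((Polynomial.nthRoots 3 (1 : ℂ)).finite_toSet.subset ?_)
      intro x hx
      exact (Polynomial.mem_nthRoots (by norm_num)).2 hx
    refine ThV_finiteIndex K (F := J → {x : ℂ // x ^ 3 = 1})
      (fun δ j => ⟨kap (ψ j δ : Gam), kap_pow_three (ψ j δ).2⟩) fun x y h j => ?_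
    have h1 : kap (ψ j x : Gam) = kap (ψ j y : Gam) := congrArg Subtype.val (congrFun h j)
    rw [map_mul, map_inv, Subgroup.coe_mul, kap_mul (ψ j x)⁻¹.2 (ψ j y).2, Subgroup.coe_inv,
      kap_inv (ψ j x).2, ← h1, Complex.conj_mul', norm_kap (ψ j x).2]
    simp
  refine ⟨K.map (ThV_D0 g).subtype,
    fun j => (ψ j).comp (Subgroup.inclusion (Subgroup.map_subtype_le K)),
    fun j => (hinj j).comp (Subgroup.inclusion_injective _), fun j => ?_, fun j δ => ?_,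
    fun j δ => hψ j (Subgroup.inclusion (Subgroup.map_subtype_le K) δ)⟩
  · rw [MonoidHom.range_comp, Subgroup.inclusion_range, Subgroup.subgroupOf,
      Subgroup.comap_map_eq_self_of_injective (ThV_D0 g).subtype_injective]
    refine ⟨?_⟩
    rw [Subgroup.index_map_of_injective _ (hinj j)]
    exact mul_ne_zero hK.index_ne_zero (hfin j).index_ne_zero
  · obtain ⟨_, δ', hδ', rfl⟩ := δ
    exact hδ' j

/-- **Vanishing criterion.** -/
theorem vanish_of_ct {J : Type} [Fintype J] (g : J → Mat) (hg : ∀ j, (g j).det ≠ 0) (a : J → ℂ)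
    (h : ∀ α β : O, ∑ j, a j * ((nr (g j).det ^ (-(1 / 3 : ℝ)) : ℝ) : ℂ) *
      Cv (g j 0 0 * α + g j 0 1 * β) (g j 1 0 * α + g j 1 1 * β) = 0) (w : H) :
    ∑ j, a j * Th 1 (act (g j) w) = 0 := by
  classical
  obtain ⟨Δ, ψ, hinj, hfin, hκψ, hint⟩ := exists_common_subgroup g hg
  have hD : ∏ j, (g j).det ≠ 0 := Finset.prod_ne_zero_iff.2 fun j _ => hg j
  have hdvd : ∀ j, (g j).det ∣ ∏ j, (g j).det := fun j =>
    Finset.dvd_prod_of_mem _ (Finset.mem_univ j)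
  set q : O := 9 * ((∏ j, (g j).det) * ∏ j, (g j).det) with hq
  have hq0 : q ≠ 0 := mul_ne_zero (by norm_num) (mul_ne_zero hD hD)
  have hN : nm q ≠ 0 := fun h => hq0 (nm_eq_zero.1 h)
  have hY : ∀ n : ℕ, (0 : ℝ) < 1 / (n + 1) := fun n => by positivity
  have hadj : ∀ j, (g j).adjugate.det = (g j).det := fun j => by
    rw [Matrix.det_adjugate, Fintype.card_fin, pow_one]
  have hadj' : ∀ j, (g j).adjugate.det ≠ 0 := fun j => by rw [hadj]; exact hg j
  have hxi : XiOK xi := xis_one ▸ xiOK_xis 1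
  let κ : Gam →* ℂ :=
    { toFun := fun γ => kap γ
      map_one' := kap_one
      map_mul' := fun γ γ' => kap_mul γ.2 γ'.2 }
  have hae := vanish_abstract (Γ := Gam) (Δ := Δ) (μ := μH)
    (fun γ => measurePreserving_smul_SL γ) (fun δ => measurePreserving_smul_SL δ)
    (isWt_wOf Gam) (isWt_wOf Δ) κ (fun γ => norm_kap γ.2) (fun j => act (g j))
    (fun j => act (g j).adjugate) (fun j => measurePreserving_act (hg j))
    (fun j => measurePreserving_act (hadj' j)) (fun j x => act_adjugate (hg j) x) ψ hinj hfin hκψ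
    (fun j δ x => by
      change act (g j) (act ((δ : SL2) : Mat) x) = act (((ψ j δ : Gam) : SL2) : Mat) (act (g j) x)
      rw [← act_mul (hg j) (SL2.det_ne _), ← act_mul (SL2.det_ne _) (hg j), hint])
    (Θ := Th 1) (θ := fun n => thY xi (1 / (n + 1))) (φ := fun n => seed (nm q) (1 / (n + 1)))
    (continuous_Th 1).measurable (fun n => (continuous_thY hxi (hY n)).measurable)
    (fun n => measurable_seed _ _) (fun γ x => Th_aut γ.2 x) (fun n γ x => thY_aut γ.2 x)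
    (fun n x => thY_eq_tsum hN (hY n) x) N2_Th_lt_top
    (tendsto_N2.comp (tendsto_nhdsWithin_iff.2
      ⟨tendsto_one_div_add_atTop_nhds_zero_nat, Eventually.of_forall hY⟩)) a ?_
  · have hc : Continuous fun x => ∑ j, a j * Th 1 (act (g j) x) :=
      continuous_finsetSum _ fun j _ =>
        continuous_const.mul ((continuous_Th 1).comp (continuous_act (hg j)))
    exact congrFun ((Continuous.ae_eq_iff_eq μH hc continuous_const).1 hae) w
  intro n i γ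
  set A : Mat := (g i).adjugate * ((γ : SL2) : Mat) with hA
  have hAd : A.det = (g i).det := by rw [hA, Matrix.det_mul, hadj, (γ : SL2).det_coe, mul_one]
  have hG : ∀ j, (g j * A).det = (g j).det * (g i).det := fun j => by rw [Matrix.det_mul, hAd]
  have hG' : ∀ j, (g j * A).det ≠ 0 := fun j => by rw [hG]; exact mul_ne_zero (hg j) (hg i)
  have e : ∀ j x, act (g j) (act (g i).adjugate (γ • x)) = act (g j * A) x := by
    intro j x
    rw [act_mul (hg j) (by rw [hAd]; exact hg i), hA, act_mul (hadj' i) (SL2.det_ne _)]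
    rfl
  simp only [e]
  choose C hC using fun j => (Th_act_ct (hG' j)).1
  have hcont : ∀ j, Continuous fun x => Th 1 (act (g j * A) x) := fun j =>
    (continuous_Th 1).comp (continuous_act (hG' j))
  have hI : Integrable (fun x => (∑ j, a j * Th 1 (act (g j * A) x)) *
      conj (seed (nm q) (1 / (n + 1)) x)) μH := by
    refine integrable_mul_seed (F := fun x => ∑ j, a j * Th 1 (act (g j * A) x))
      (C := ∑ j, ‖a j‖ * C j)
      (continuous_finsetSum _ fun j _ => continuous_const.mul (hcont j)).measurable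
      (fun x => ?_) _ (hY n)
    rw [Finset.sum_mul]
    refine (norm_sum_le _ _).trans (Finset.sum_le_sum fun j _ => ?_)
    rw [norm_mul, mul_assoc]
    exact mul_le_mul_of_nonneg_left (hC j x) (norm_nonneg _)
  refine ⟨hI, ?_⟩
  rw [integral_μH hI]
  refine setIntegral_eq_zero_of_forall_eq_zero fun y hy0 => mul_eq_zero_of_left ?_ _
  have hy0' : 0 < y := hy0
  have e2 : ∀ z : ℂ, (∑ j, a j * Th 1 (act (g j * A) (hp z y))) *
      conj (seed (nm q) (1 / (n + 1)) (hp z y)) =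
      ∑ j, (((1 / (n + 1) : ℝ) ^ (4 / 3 : ℝ) * Real.exp (-(1 / (n + 1)) / y) : ℝ) : ℂ) * a j *
        ((wt (nm q) z : ℂ) * Th 1 (act (g j * A) (hp z y))) := by
    intro z
    rw [seed, Complex.conj_ofReal, hy_hp z hy0', hp_fst, Complex.ofReal_mul (wt _ _),
      Finset.sum_mul]
    refine Finset.sum_congr rfl fun j _ => ?_
    ring
  simp only [e2]
  rw [integral_finsetSum]
  · have e3 : ∀ j, ∫ z : ℂ, (wt (nm q) z : ℂ) * Th 1 (act (g j * A) (hp z y)) =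
        ((V0 * Mk y 0 * nr (g i).det ^ (-(1 / 3 : ℝ)) : ℝ) : ℂ) *
          (((nr (g j).det ^ (-(1 / 3 : ℝ)) : ℝ) : ℂ) *
            Cv (g j 0 0 * A 0 0 + g j 0 1 * A 1 0) (g j 1 0 * A 0 0 + g j 1 1 * A 1 0)) := by
      intro j
      rw [(Th_act_ct (hG' j)).2 (nm q) hN ?_ y hy0', hG, nr_mul,
        Real.mul_rpow (Nat.cast_nonneg _) (Nat.cast_nonneg _)]
      · simp only [Matrix.mul_apply, Fin.sum_univ_two]
        push_cast
        ring
      · rw [← mul_cj, hG]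
        exact (mul_dvd_mul_left _ (mul_dvd_mul (hdvd j) (hdvd i))).mul_right _
    simp only [integral_const_mul, e3]
    have h1 := h (A 0 0) (A 1 0)
    refine Eq.trans ?_ (mul_eq_zero_of_right
      ((((1 / (n + 1) : ℝ) ^ (4 / 3 : ℝ) * Real.exp (-(1 / (n + 1)) / y) : ℝ) : ℂ) *
        ((V0 * Mk y 0 * nr (g i).det ^ (-(1 / 3 : ℝ)) : ℝ) : ℂ)) h1)
    rw [Finset.mul_sum]
    refine Finset.sum_congr rfl fun j _ => ?_
    ring
  · intro j _
    refine Integrable.const_mul (Integrable.mul_bdd (c := C j * (y + y ^ (-(4 : ℝ)) + 1))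
      (integrable_wt _).ofReal ?_ (Eventually.of_forall fun z => ?_)) _
    · exact ((hcont j).comp (continuous_id.prodMk continuous_const)).aestronglyMeasurable
    · have := hC j (hp z y)
      rwa [hy_hp z hy0'] at this

end Crest.Agent.R17
end
end

-- ▼ part PVc/R17/ThetaLam
section

/-!
# Row 17, theta module L: the coefficients at `u λ^j` are bounded (periodicity in `j`)
-/

set_option autoImplicit false

noncomputable section

namespace Crest.Agent.R17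

open scoped ComplexConjugate

theorem Lam_four : lam ^ 4 = 9 := by
  rw [show lam ^ 4 = (lam ^ 2) ^ 2 by ring, lam_sq]
  norm_num

theorem Lam_periodic {ξ : O → O → ℂ} (h : XiOK ξ) (r c x y : O) (hxy : 9 * c ∣ x - y) :
    ξ c x * eq (r * x) (9 * c) = ξ c y * eq (r * y) (9 * c) := by
  obtain ⟨t, ht⟩ := hxy
  rw [show x = y + 9 * c * t by linear_combination ht, h.2.2,
    eq_congr (y := r * y) ⟨r * t, by ring⟩]

theorem Lam_decomp {c : O} {n : ℕ} (h : ¬ lam ^ n ∣ c) :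
    ∃ (u : O) (k : ℕ) (c₁ : O), IsUnit u ∧ Primary c₁ ∧ k < n ∧ c = u * lam ^ k * c₁ := by
  have hc : c ≠ 0 := fun h0 => h (h0 ▸ dvd_zero _)
  obtain ⟨u, k, hu, hk⟩ := exists_eq_unit_lam_primary hc
  refine ⟨u, k, _, hu, BasicB.primary_prod_pow (fun _ => BasicB.pf_sub) _, ?_, hk⟩
  by_contra hlt
  apply h
  rw [hk]
  exact ((pow_dvd_pow _ (not_lt.1 hlt)).mul_left _).mul_right _

/-- If the prime-to-`λ` part of `c` is `c₁` and `λ^4 c / c₁ ∣ r`, the Gauss sum does not see a factor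
`λ³` (substitute `d ↦ m³ d`, `m ≡ λ (mod c₁)`, `m ≡ 1 (mod 9)`; `xis_mul_cube`). -/
theorem Gx_lam_cube (σ : SL2) {u c₁ r : O} {k : ℕ} (hu : IsUnit u) (hc : Primary c₁)
    (hr : lam ^ (k + 4) ∣ r) :
    Gx (xis σ) (lam ^ 3 * r) (u * lam ^ k * c₁) = Gx (xis σ) r (u * lam ^ k * c₁) := by
  have hc0 : u * lam ^ k * c₁ ≠ 0 :=
    mul_ne_zero (mul_ne_zero hu.ne_zero (pow_ne_zero _ prime_lam.ne_zero)) hc.ne_zero
  have h9 : IsCoprime c₁ 9 := by
    have := hc.isCoprime_three.pow_right (n := 2)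
    rwa [show (3 : O) ^ 2 = 9 by norm_num] at this
  obtain ⟨a, b, hab⟩ := h9
  set m : O := a * c₁ + 9 * b * lam with hm
  have hm1 : (9 : O) ∣ m - 1 := ⟨b * lam - b, by rw [hm]; linear_combination hab⟩
  have hm2 : c₁ ∣ m - lam := ⟨a - lam * a, by rw [hm]; linear_combination lam * hab⟩
  have hm9 : IsCoprime m 9 := by
    obtain ⟨t, ht⟩ := hm1
    exact ⟨1, -t, by linear_combination ht⟩
  have hml : IsCoprime m lam := hm9.of_isCoprime_of_dvd_right ⟨lam ^ 3, by rw [← Lam_four]; ring⟩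
  have hmc : IsCoprime m c₁ := by
    obtain ⟨t, ht⟩ := hm2
    have h1 : IsCoprime lam c₁ := (prime_lam.irreducible.coprime_iff_not_dvd).2 hc.not_lam_dvd
    have h2 := h1.add_mul_left_left t
    rwa [show lam + c₁ * t = m by linear_combination -ht] at h2
  have hcop : IsCoprime m (u * lam ^ k * c₁) :=
    (((isCoprime_one_right (x := m)).of_isCoprime_of_dvd_right hu.dvd).mul_right
      hml.pow_right).mul_right hmc
  rw [Gx, Gx, if_neg hc0, if_neg hc0,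
    ← sum_res_affine (mul_ne_zero (by norm_num) hc0) _ (Lam_periodic (xiOK_xis σ) r _)
      (a := m ^ 3) (hm9.mul_right hcop).pow_left 0]
  refine Finset.sum_congr rfl fun d _ => ?_
  rw [add_zero, xis_mul_cube σ hm1 hcop]
  congr 1
  refine eq_congr ?_
  obtain ⟨r', rfl⟩ := hr
  obtain ⟨t, ht⟩ := hm2.trans (sub_dvd_pow_sub_pow m lam 3)
  obtain ⟨v, hv⟩ := hu.exists_right_inv
  refine ⟨-(v * r' * t * d), ?_⟩
  rw [← Lam_four]
  linear_combination (-(lam ^ (k + 4) * r' * d)) * ht + (lam ^ (k + 4) * r' * d * c₁ * t) * hv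
theorem Gx_eq_zero_of_dvd {σ : SL2} (h : ¬ (9 : O) ∣ σ 1 0) (r : O) {c : O} (hc : (9 : O) ∣ c) :
    Gx (xis σ) r c = 0 := by
  rw [Gx]
  split_ifs
  · rfl
  refine Finset.sum_eq_zero fun d _ => ?_
  rw [xis, xi, if_neg, zero_mul]
  rintro ⟨h1, t, ht⟩
  apply h
  obtain ⟨c', rfl⟩ := hc
  have h2 : (9 : O) ∣ d * σ 1 0 := by
    have := dvd_sub (dvd_mul_of_dvd_left (dvd_mul_right 9 c') (σ 1 1)) h1
    rwa [sub_sub_cancel] at this
  have h3 : IsCoprime (3 : O) d := ⟨-(3 * c' * σ 0 1) - t, σ 0 0, by linear_combination ht⟩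
  have h4 := h3.pow_left (m := 2)
  rw [show (3 : O) ^ 2 = 9 by norm_num] at h4
  exact h4.dvd_of_dvd_mul_left h2
theorem tt_lam_period {σ : SL2} (h : ¬ (9 : O) ∣ σ 1 0) {r : O} (hr : lam ^ 7 ∣ r) :
    tt σ (lam ^ 3 * r) = tt σ r := by
  have : Gx (xis σ) (lam ^ 3 * r) = Gx (xis σ) r := by
    funext c
    by_cases hc : (9 : O) ∣ c
    · rw [Gx_eq_zero_of_dvd h _ hc, Gx_eq_zero_of_dvd h _ hc]
    · rw [← Lam_four] at hc
      obtain ⟨u, k, c₁, hu, hc₁, hk, rfl⟩ := Lam_decomp hc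
      exact Gx_lam_cube σ hu hc₁ ((pow_dvd_pow _ (by omega)).trans hr)
  rw [tt, tt, this]
theorem Gx_xi_dilate (r : O) {c : O} (hc : (9 : O) ∣ c) :
    Gx xi (lam ^ 3 * r) (lam ^ 3 * c) = 27 * Gx xi r c := by
  by_cases hc0 : c = 0
  · simp [Gx, hc0]
  have hl : lam ^ 3 ≠ 0 := pow_ne_zero _ prime_lam.ne_zero
  have h9c : 9 * c ≠ 0 := mul_ne_zero (by norm_num) hc0
  have hper := Lam_periodic (xis_one ▸ xiOK_xis 1 : XiOK xi) r c
  rw [Gx, Gx, if_neg hc0, if_neg (mul_ne_zero hl hc0)]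
  have h1 : ∀ d, xi (lam ^ 3 * c) d * eq (lam ^ 3 * r * d) (9 * (lam ^ 3 * c)) =
      xi c d * eq (r * d) (9 * c) := by
    intro d
    rw [mul_assoc, mul_left_comm 9, eq_mul_mul hl]
    congr 1
    unfold xi
    by_cases hd : Primary d
    · rw [if_pos ⟨hc.mul_left _, hd⟩, if_pos ⟨hc, hd⟩, cub_mul_right, cub_pow_right,
        cub_pow_three hd ((prime_lam.irreducible.coprime_iff_not_dvd).2 hd.not_lam_dvd).symm,
        one_mul]
    · rw [if_neg fun h => hd h.2, if_neg fun h => hd h.2]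
  simp only [h1]
  rw [show 9 * (lam ^ 3 * c) = 9 * c * lam ^ 3 by ring, sum_res_mul h9c hl _
    fun x y h => hper x y ((dvd_mul_right _ _).trans h), Finset.mul_sum]
  refine Finset.sum_congr rfl fun x _ => ?_
  rw [Finset.sum_congr rfl fun y _ => hper (x + 9 * c * y) x ⟨y, by ring⟩, Finset.sum_const,
    card_res hl, nm_pow, nm_lam, nsmul_eq_mul]
  norm_num
/-- At `∞`: `t(λ³ r) - t(r) / 3` is the density of the sums with `v_λ(c) ≤ 6`, hence periodic. -/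
theorem tt_one_lam_rec {r : O} (hr : lam ^ 7 ∣ r) :
    tt 1 (lam ^ 6 * r) - tt 1 (lam ^ 3 * r) / 3 = tt 1 (lam ^ 3 * r) - tt 1 r / 3 := by
  classical
  have hl : lam ^ 3 ≠ 0 := pow_ne_zero _ prime_lam.ne_zero
  have hok : XiOK xi := xis_one ▸ xiOK_xis 1
  let dil : (O → ℂ) → O → ℂ := fun g c => if h : lam ^ 3 ∣ c then g h.choose else 0
  have d1 : ∀ g c, dil g (lam ^ 3 * c) = g c := by
    intro g c
    have h : lam ^ 3 ∣ lam ^ 3 * c := dvd_mul_right _ _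
    simp only [dil, dif_pos h]
    rw [← mul_left_cancel₀ hl h.choose_spec]
  have d2 : ∀ g c, ¬ lam ^ 3 ∣ c → dil g c = 0 := fun g c h => dif_neg h
  let hh : O → O → ℂ := fun s => Gx xi (lam ^ 3 * s) - fun c => 27 * dil (Gx xi s) c
  have hP : ∀ s, PolyG fun c => 27 * dil (Gx xi s) c := fun s =>
    ((polyG_Gx hok s).dilate hl (d1 _) (d2 _)).const_mul 27
  have hW : ∀ s, WD (hh s) ((tt 1 (lam ^ 3 * s) - tt 1 s / 3) / k1) := by
    intro s
    have a1 := (tt_spec 1 (lam ^ 3 * s)).1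
    have a2 := (tt_spec 1 s).1
    rw [xis_one] at a1 a2
    have a3 := WD.sub (polyG_Gx hok _) (hP s) a1 ((a2.dilate hl (d1 _) (d2 _)).const_mul 27)
    have e : nr (lam ^ 3) ^ (-(4 / 3 : ℝ)) = 1 / 81 := by
      rw [nr_pow, nr, nm_lam, ← Real.rpow_natCast, ← Real.rpow_mul (by norm_num)]
      norm_num
    rw [e] at a3
    convert a3 using 1
    push_cast
    ring
  have hval : ∀ s c, hh s c = if lam ^ 7 ∣ c then 0 else Gx xi (lam ^ 3 * s) c := by
    intro s c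
    simp only [hh, Pi.sub_apply]
    split_ifs with h
    · obtain ⟨c', rfl⟩ := h
      rw [show lam ^ 7 * c' = lam ^ 3 * (9 * c') by rw [← Lam_four]; ring, d1,
        Gx_xi_dilate _ (dvd_mul_right _ _), sub_self]
    · by_cases h3 : lam ^ 3 ∣ c
      · obtain ⟨c', rfl⟩ := h3
        have h4 : ¬ (9 : O) ∣ c' := by
          rintro ⟨t, rfl⟩
          exact h ⟨t, by rw [← Lam_four]; ring⟩
        have h5 : Gx xi s c' = 0 := by
          rw [Gx]
          split_ifs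
          · rfl
          · exact Finset.sum_eq_zero fun d _ => by rw [xi, if_neg fun h => h4 h.1, zero_mul]
        rw [d1, h5, mul_zero, sub_zero]
      · rw [d2 _ _ h3, mul_zero, sub_zero]
  have heq : hh (lam ^ 3 * r) = hh r := by
    funext c
    rw [hval, hval]
    split_ifs with h
    · rfl
    · obtain ⟨u, k, c₁, hu, hc₁, hk, rfl⟩ := Lam_decomp h
      have := Gx_lam_cube 1 hu hc₁ (r := lam ^ 3 * r) (k := k)
        ((pow_dvd_pow _ (by omega : k + 4 ≤ 3 + 7)).trans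
          (by rw [pow_add]; exact mul_dvd_mul_left _ hr))
      rwa [xis_one] at this
  have h1 := hW (lam ^ 3 * r)
  rw [heq] at h1
  have h2 := WD.unique ((polyG_Gx hok _).sub (hP r)) h1 (hW r)
  have hk : (k1 : ℂ) ≠ 0 := by exact_mod_cast k1_pos.ne'
  rw [div_left_inj' hk, ← mul_assoc, ← pow_add] at h2
  exact h2
theorem tt_lam_bound : ∃ C : ℝ, 0 < C ∧ ∀ (σ : SL2) (u : O) (j : ℕ), IsUnit u →
    ‖tt σ (u * lam ^ j)‖ ≤ C := by
  obtain ⟨C, hC, hb⟩ := norm_tt_le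
  have hsmall : ∀ (σ : SL2) (u : O) (j : ℕ), IsUnit u → j ≤ 12 → ‖tt σ (u * lam ^ j)‖ ≤ C * 81 := by
    intro σ u j hu hj
    refine (hb σ _ (mul_ne_zero hu.ne_zero (pow_ne_zero _ prime_lam.ne_zero))).trans
      (mul_le_mul_of_nonneg_left ?_ hC.le)
    rw [nr_mul, nr_pow, nr, nr, nm_lam, isUnit_iff_nm.1 hu, Nat.cast_one, one_mul]
    have h1 : ((3 : ℕ) : ℝ) ^ j ≤ 81 ^ 3 := by
      refine (pow_le_pow_right₀ (by norm_num) hj).trans ?_
      norm_num
    refine (Real.rpow_le_rpow (by positivity) h1 (by norm_num)).trans (le_of_eq ?_)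
    rw [← Real.rpow_natCast, ← Real.rpow_mul (by norm_num)]
    norm_num
  have hdvd : ∀ (u : O) (j : ℕ), 7 ≤ j → lam ^ 7 ∣ u * lam ^ j := fun u j hj =>
    (pow_dvd_pow _ hj).mul_left _
  have hone : ∀ (u : O), IsUnit u → ∀ j : ℕ, ‖tt 1 (u * lam ^ j)‖ ≤ 2 * (C * 81) := by
    intro u hu
    have hD : ∀ j : ℕ, ‖tt 1 (u * lam ^ (j + 3)) - tt 1 (u * lam ^ j) / 3‖ ≤ 4 / 3 * (C * 81) := by
      intro j
      induction j using Nat.strong_induction_on with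
      | _ j ih =>
        by_cases hj : j ≤ 9
        · have a1 := hsmall 1 u (j + 3) hu (by omega)
          have a2 := hsmall 1 u j hu (by omega)
          have a3 := norm_sub_le (tt 1 (u * lam ^ (j + 3))) (tt 1 (u * lam ^ j) / 3)
          rw [norm_div, Complex.norm_ofNat] at a3
          linarith
        · obtain ⟨i, rfl⟩ : ∃ i, j = i + 3 := ⟨j - 3, by omega⟩
          have a1 := tt_one_lam_rec (hdvd u i (by omega))
          rw [show lam ^ 6 * (u * lam ^ i) = u * lam ^ (i + 3 + 3) by ring,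
            show lam ^ 3 * (u * lam ^ i) = u * lam ^ (i + 3) by ring] at a1
          rw [a1]
          exact ih i (by omega)
    intro j
    induction j using Nat.strong_induction_on with
    | _ j ih =>
      by_cases hj : j ≤ 12
      · have := hsmall 1 u j hu hj
        linarith [mul_pos hC (show (0 : ℝ) < 81 by norm_num)]
      · obtain ⟨i, rfl⟩ : ∃ i, j = i + 3 := ⟨j - 3, by omega⟩
        have a1 := hD i
        have a2 := ih i (by omega)
        have a3 := norm_add_le (tt 1 (u * lam ^ (i + 3)) - tt 1 (u * lam ^ i) / 3)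
          (tt 1 (u * lam ^ i) / 3)
        rw [sub_add_cancel, norm_div, Complex.norm_ofNat] at a3
        linarith
  refine ⟨2 * (C * 81), by positivity, fun σ u j hu => ?_⟩
  by_cases h : (9 : O) ∣ σ 1 0
  · have h1 : ¬ lam ∣ σ 1 1 := by
      intro h1
      have h2 : lam ∣ σ 1 0 := (Dvd.intro (lam ^ 3) (by rw [← Lam_four]; ring)).trans h
      have h3 := dvd_sub (h1.mul_left (σ 0 0)) (h2.mul_left (σ 0 1))
      rw [SL2.det_eq] at h3
      exact prime_lam.not_dvd_one h3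
    obtain ⟨u₀, hu₀, hp⟩ := exists_unit_primary h1
    obtain ⟨v, hv⟩ := hu₀.exists_left_inv
    have hmem : σ * mkSL v 0 0 u₀ (by rw [hv]; ring) ∈ Gam := by
      rw [mem_Gam]
      simp only [Matrix.SpecialLinearGroup.coe_mul, Matrix.mul_apply, Fin.sum_univ_two, mkSL_00,
        mkSL_01, mkSL_10, mkSL_11, mul_zero, add_zero, zero_add]
      exact ⟨h.mul_right _, by rwa [mul_comm]⟩
    have h2 := tt_mul_Gam hmem 1 (v ^ 2 * (u * lam ^ j))
    rw [mul_one, tt_mul_diag σ hv] at h2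
    rw [h2, norm_mul, norm_kap hmem, one_mul, ← mul_assoc]
    exact hone _ (((IsUnit.of_mul_eq_one _ hv).pow 2).mul hu) j
  · induction j using Nat.strong_induction_on with
    | _ j ih =>
      by_cases hj : j ≤ 12
      · have := hsmall σ u j hu hj
        linarith [mul_pos hC (show (0 : ℝ) < 81 by norm_num)]
      · obtain ⟨i, rfl⟩ : ∃ i, j = i + 3 := ⟨j - 3, by omega⟩
        rw [show u * lam ^ (i + 3) = lam ^ 3 * (u * lam ^ i) by ring,
          tt_lam_period h (hdvd u i (by omega))]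
        exact ih i (by omega)

end Crest.Agent.R17
end
end

-- ▼ part PVc/R17/ThetaHeckeAux
section

/-!
# Row 17, theta module K, auxiliary lemmas: moving matrices past a cusp, Fourier series of translates
-/

set_option autoImplicit false

noncomputable section

namespace Crest.Agent.R17.K1

open scoped ComplexConjugate

theorem det_ne {a d : O} (ha : a ≠ 0) (hd : d ≠ 0) (b : O) : (!![a, b; 0, d] : Mat).det ≠ 0 := by
  rw [Matrix.det_fin_two_of, mul_zero, sub_zero]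
  exact mul_ne_zero ha hd

theorem act_swap {g : Mat} (hg : g.det ≠ 0) {σ τ : SL2} (h : g * (σ : Mat) = (τ : Mat) * g)
    (w : H) : act g (σ • w) = τ • act g w := by
  rw [smul_def, smul_def, ← act_mul hg σ.det_ne, h, act_mul τ.det_ne hg]

theorem coprime (σ : SL2) : IsCoprime (σ 0 0) (σ 1 0) :=
  ⟨σ 1 1, -σ 0 1, by linear_combination σ.det_eq⟩

theorem eta (σ : SL2) : (σ : Mat) = !![σ 0 0, σ 0 1; σ 1 0, σ 1 1] := Matrix.eta_fin_two _

theorem cong {N : O} {σ τ : SL2} (h00 : N ∣ σ 0 0 - τ 0 0) (h01 : N ∣ σ 0 1 - τ 0 1)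
    (h10 : N ∣ σ 1 0 - τ 1 0) (h11 : N ∣ σ 1 1 - τ 1 1) : Cong N σ τ := by
  intro i j
  fin_cases i <;> fin_cases j <;> assumption

theorem Th_per {q p : O} (hq : q ≠ 0) (hp : p ≠ 0) (w : H) {x y : O} (h : p ∣ x - y) :
    Th 1 (act !![q, x; 0, p] w) = Th 1 (act !![q, y; 0, p] w) := by
  obtain ⟨t, ht⟩ := h
  have e : (!![q, x; 0, p] : Mat) = (nT t : Mat) * !![q, y; 0, p] := by
    change _ = !![1, t; 0, 1] * _
    rw [Matrix.mul_fin_two]
    congr <;> simp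
    linear_combination ht
  rw [e, act_mul (nT t).det_ne (det_ne hq hp y), ← smul_def, Th_aut (nT_mem t), kap_nT, one_mul]

theorem Th_upper {p : O} (hp : p ≠ 0) {τ : SL2} (h1 : p ^ 2 ∣ τ 1 0) (h2 : p ∣ τ 1 1 - τ 0 0)
    (a : O) (w : H) : Th 1 (act !![p, 9 * a; 0, p] (τ • w)) = Th τ (act !![p, 9 * a; 0, p] w) := by
  obtain ⟨γ, hγ⟩ := h1
  obtain ⟨ε, hε⟩ := h2
  let τ' := mkSL (τ 0 0 + 9 * a * p * γ) (τ 0 1 + 9 * a * ε - 81 * a ^ 2 * γ) (τ 1 0)
    (τ 1 1 - 9 * a * p * γ) (by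
      linear_combination τ.det_eq + 9 * a * p * γ * hε - (9 * a * ε - 81 * a ^ 2 * γ) * hγ)
  rw [act_swap (det_ne hp hp _) (τ := τ'), Th_smul, Th_cong (σ := τ') (τ := τ)]
  · exact cong ⟨a * p * γ, by simp only [τ', mkSL_00]; ring⟩
      ⟨a * ε - 9 * a ^ 2 * γ, by simp only [τ', mkSL_01]; ring⟩ (by simp [τ'])
      ⟨-(a * p * γ), by simp only [τ', mkSL_11]; ring⟩
  · change Jc (τ 0 0 + 9 * a * p * γ) (τ 1 0) = _
    rcases eq_or_ne γ 0 with rfl | h0
    · simp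
    have h3 : τ 1 0 ≠ 0 := by rw [hγ]; exact mul_ne_zero (pow_ne_zero _ hp) h0
    refine Jc_congr h3 (coprime τ') ⟨a * p * γ, by ring⟩ (Dvd.dvd.trans (b := p * γ) ?_
      ⟨9 * a, by ring⟩)
    refine BasicB.prod_dvd_of_subset (mul_ne_zero hp h0) fun q hq => ?_
    obtain ⟨a1, a2, a3⟩ := (mem_pf h3).1 hq
    refine (mem_pf (mul_ne_zero hp h0)).2 ⟨a1, a2, a1.dvd_of_dvd_pow (n := 2) (a3.trans ?_)⟩
    exact ⟨γ, by rw [hγ]; ring⟩
  · change _ = !![_, _; _, _] * _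
    rw [eta τ, Matrix.mul_fin_two, Matrix.mul_fin_two]
    congr 1
    simp
    exact ⟨⟨by linear_combination 9 * a * hγ, by linear_combination 9 * a * hε⟩,
      by ring, by linear_combination -9 * a * hγ⟩

theorem Th_cube {p : O} (hp : Primary p) {τ : SL2} (h1 : p ^ 3 ∣ τ 1 0) (w : H) :
    Th 1 (act !![p ^ 3, 0; 0, 1] (τ • w)) = Th τ (act !![p ^ 3, 0; 0, 1] w) := by
  obtain ⟨γ, hγ⟩ := h1
  let τ' := mkSL (τ 0 0) (p ^ 3 * τ 0 1) γ (τ 1 1) (by
    linear_combination τ.det_eq + τ 0 1 * hγ)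
  obtain ⟨k, hk⟩ := hp.nine_dvd_cube
  rw [act_swap (det_ne (pow_ne_zero _ hp.ne_zero) one_ne_zero _) (τ := τ'), Th_smul,
    Th_cong (σ := τ') (τ := τ)]
  · exact cong (by simp [τ']) ⟨k * τ 0 1, by simp only [τ', mkSL_01]; linear_combination τ 0 1 * hk⟩
      ⟨-(k * γ), by simp only [τ', mkSL_10]; linear_combination -hγ - γ * hk⟩ (by simp [τ'])
  · change Jc (τ 0 0) γ = _
    rw [hγ, Jc_mul_cube hp (hγ ▸ coprime τ)]
  · change _ = !![_, _; _, _] * _
    rw [eta τ, Matrix.mul_fin_two, Matrix.mul_fin_two]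
    congr 1
    simp [hγ, mul_comm]

/-- The coefficients of `Th τ` at height `|q|`. -/
def F (τ : SL2) (q r : O) : ℂ := tt τ r * ((nr q ^ (1 / 3 : ℝ) * Mk 1 (b1 * nr (q * r)) : ℝ) : ℂ)

theorem F_eq (τ : SL2) {q : O} (hq : q ≠ 0) (r : O) :
    F τ q r = tt τ r * (Mk (‖ι q‖ * 1) (b1 * nr r) : ℂ) := by
  have h0 : 0 < ‖ι q‖ := norm_pos_iff.2 ((map_ne_zero_iff ι ι_injective).2 hq)
  rw [Mk_mul one_pos h0, norm_ι_sq, F, nr_mul, mul_left_comm b1, ← norm_ι_sq q,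
    ← Real.rpow_natCast, ← Real.rpow_mul h0.le]
  norm_num

/-- A weighted sum of translates as a trigonometric series with frequencies `n / 9`. -/
theorem series (τ : SL2) {q p : O} (hq : q ≠ 0) (hp0 : p ≠ 0) (s : Finset O) (χ : O → ℂ) :
    ∃ d : O → ℂ, (Summable fun n => ‖d n‖) ∧ (∀ n, ¬ q ∣ n → d n = 0) ∧
      (∀ r, d (q * r) = F τ q r * ∑ a ∈ s, χ a * eq (r * a) p) ∧
      ∀ z, HasSum (fun n => d n * eC (ι n * z / ι 9))
        (∑ a ∈ s, χ a * Th τ (act !![q * p, 9 * a; 0, p] (hp z 1))) := by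
  have hι : ∀ {x : O}, x ≠ 0 → ι x ≠ 0 := fun h => (map_ne_zero_iff ι ι_injective).2 h
  have h0 : 0 < ‖ι q‖ * 1 := by simpa using hι hq
  have hi : Function.Injective fun r => q * r := mul_right_injective₀ hq
  have hF : Summable fun r => ‖F τ q r‖ := by simpa only [F_eq τ hq] using summable_Th τ h0
  let d := Function.extend (fun r => q * r) (fun r => F τ q r * ∑ a ∈ s, χ a * eq (r * a) p) 0
  have d0 : ∀ n, n ∉ Set.range (fun r => q * r) → d n = 0 := fun n hn =>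
    Function.extend_apply' _ _ _ hn
  have d1 : ∀ r, d (q * r) = _ := hi.extend_apply _ _
  refine ⟨d, (hi.summable_iff fun n hn => by rw [d0 n hn, norm_zero]).1 ?_,
    fun n hn => d0 n fun ⟨r, h⟩ => hn ⟨r, h.symm⟩, d1, fun z => ?_⟩
  · refine Summable.of_nonneg_of_le (fun _ => norm_nonneg _) (fun r => ?_)
      (hF.mul_right (∑ a ∈ s, ‖χ a‖))
    rw [Function.comp_apply, d1, norm_mul]
    refine mul_le_mul_of_nonneg_left ((norm_sum_le _ _).trans (le_of_eq ?_)) (norm_nonneg _)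
    simp only [norm_mul, norm_eq, mul_one]
  · refine (hi.hasSum_iff fun n hn => by rw [d0 n hn, zero_mul]).1 ?_
    have key : ∀ a, HasSum (fun r => χ a * (F τ q r * (eq (r * a) p * eC (ι (q * r) * z / ι 9))))
        (χ a * Th τ (act !![q * p, 9 * a; 0, p] (hp z 1))) := fun a => by
      refine HasSum.mul_left _ ?_
      have h1 : Summable fun r => F τ q r * (eq (r * a) p * eC (ι (q * r) * z / ι 9)) :=
        Summable.of_norm (by simpa only [norm_mul, norm_eq, norm_eC, mul_one] using hF)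
      refine Eq.subst (motive := HasSum _) (Eq.symm ?_) h1.hasSum
      rw [act_upper (mul_ne_zero hq hp0) hp0 _ _ one_pos, map_mul, norm_mul,
        mul_div_cancel_right₀ _ (norm_ne_zero_iff.2 (hι hp0)), Th, hy_hp _ h0]
      refine tsum_congr fun r => ?_
      rw [F_eq τ hq, eq, ← eC_add, hp_fst]
      congr 2
      have := hι hp0
      simp only [map_mul, map_ofNat]
      field_simp
      ring
    convert hasSum_sum (s := s) fun a _ => key a using 2 with r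
    rw [Function.comp_apply, d1, Finset.mul_sum, Finset.sum_mul]
    exact Finset.sum_congr rfl fun a _ => by ring

end Crest.Agent.R17.K1
end
end

-- ▼ part PVc/R17/ThetaHecke
section

/-!
# Row 17, theta module K: the Hecke identity and Patterson's relations
-/

set_option autoImplicit false

noncomputable section

namespace Crest.Agent.R17

open scoped ComplexConjugate

/-- The Hecke identity (`vanish_of_ct`, `hecke_ct`). -/
theorem hecke_id {p : O} (hp : Prime p) (hp' : Primary p) (w : H) :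
    ∑ a ∈ res p, Th 1 (act !![p, a; 0, p] w) =
      Th 1 (act !![p ^ 3, 0; 0, 1] w) + ∑ a ∈ res p, cub p a * Th 1 (act !![p ^ 2, a; 0, p] w) := by
  have h0 := hp.ne_zero
  have hP := nr_pos h0
  have e2 : nr (p * p) ^ (-(1 / 3 : ℝ)) = nr p ^ (-(2 / 3 : ℝ)) := by
    rw [← sq, nr_pow, ← Real.rpow_natCast, ← Real.rpow_mul hP.le]
    norm_num
  have e3 : nr (p ^ 3) ^ (-(1 / 3 : ℝ)) = (nr p)⁻¹ := by
    rw [nr_pow, ← Real.rpow_natCast, ← Real.rpow_mul hP.le, ← Real.rpow_neg_one]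
    norm_num
  have h := vanish_of_ct (J := res p ⊕ Unit ⊕ res p)
    (Sum.elim (fun a => !![p, a; 0, p]) (Sum.elim (fun _ => !![p ^ 3, 0; 0, 1])
      fun a => !![p ^ 2, a; 0, p]))
    (by
      rintro (a | _ | a)
      · exact K1.det_ne h0 h0 _
      · exact K1.det_ne (pow_ne_zero _ h0) one_ne_zero _
      · exact K1.det_ne (pow_ne_zero _ h0) h0 _)
    (Sum.elim (fun _ => 1) (Sum.elim (fun _ => -1) fun a => -cub p a)) (fun α β => by
      have h1 := hecke_ct hp hp' α β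
      rw [Finset.mul_sum, Finset.mul_sum, ← Finset.sum_coe_sort (res p),
        ← Finset.sum_coe_sort (res p)] at h1
      simp only [Fintype.sum_sum_type, Sum.elim_inl, Sum.elim_inr, Matrix.det_fin_two_of,
        Matrix.of_apply, Matrix.cons_val', Matrix.cons_val_zero, Matrix.cons_val_one,
        Matrix.cons_val_fin_one, mul_zero, zero_mul, sub_zero, zero_add, add_zero, one_mul,
        mul_one, ← pow_succ, e2, e3, Fintype.sum_unique, h1, neg_mul, Finset.sum_neg_distrib,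
        Nat.reduceAdd, mul_assoc, mul_left_comm (cub p _)]
      ring) w
  simp only [Fintype.sum_sum_type, Sum.elim_inl, Sum.elim_inr, one_mul, neg_mul,
    Fintype.sum_unique, Finset.sum_neg_distrib] at h
  rw [← Finset.sum_coe_sort (res p), ← Finset.sum_coe_sort (res p)]
  linear_combination h

/-- Transfer to the cusp `σ ∞`, `σ ≡ 1 (mod p³)`; `σ' = diag(p,1) σ diag(p,1)⁻¹`. -/
theorem hecke_id_cusp {p : O} (hp : Prime p) (hp' : Primary p) {σ σ' : SL2} (hσ : Cong (p ^ 3) σ 1)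
    (h00 : σ' 0 0 = σ 0 0) (h01 : σ' 0 1 = p * σ 0 1) (h10 : p * σ' 1 0 = σ 1 0)
    (h11 : σ' 1 1 = σ 1 1) (w : H) :
    ∑ a ∈ res p, Th σ (act !![p, 9 * a; 0, p] w) =
      Th σ (act !![p ^ 3, 0; 0, 1] w) +
        cub p 9 * ∑ a ∈ res p, cub p a * Th σ' (act !![p ^ 2, 9 * a; 0, p] w) := by
  have h0 := hp.ne_zero
  have h9 : IsCoprime 9 p := by
    rw [show (9 : O) = 3 ^ 2 by norm_num]
    exact hp'.isCoprime_three.symm.pow_left
  have c10 : p ^ 3 ∣ σ 1 0 := by simpa using hσ 1 0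
  have c11 : p ∣ σ 1 1 - σ 0 0 := (dvd_pow_self p three_ne_zero).trans (by
    simpa using dvd_sub (hσ 1 1) (hσ 0 0))
  have c10' : p ^ 2 ∣ σ' 1 0 := by
    rwa [← h10, pow_succ', mul_dvd_mul_iff_left h0] at c10
  have h := hecke_id hp hp' (σ • w)
  rw [← sum_res_affine h0 _ (fun x y => K1.Th_per h0 h0 _) h9 0,
    ← sum_res_affine h0 (fun a => cub p a * Th 1 (act !![p ^ 2, a; 0, p] (σ • w)))
      (fun x y hxy => by rw [K1.Th_per (pow_ne_zero _ h0) h0 _ hxy, Gauss_cub_per p x y hxy]) h9 0,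
    K1.Th_cube hp' c10] at h
  have e : ∀ a w, act !![p ^ 2, 9 * a; 0, p] w = act !![p, 9 * a; 0, p] (act !![p, 0; 0, 1] w) :=
    fun a w => by
      rw [← act_mul (K1.det_ne h0 h0 _) (K1.det_ne h0 one_ne_zero _), Matrix.mul_fin_two]
      simp [sq]
  have e' : act !![p, 0; 0, 1] (σ • w) = σ' • act !![p, 0; 0, 1] w :=
    K1.act_swap (K1.det_ne h0 one_ne_zero _) (by
      rw [K1.eta σ, K1.eta σ', Matrix.mul_fin_two, Matrix.mul_fin_two, h00, h01, ← h10, h11]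
      simp [mul_comm]) w
  simp only [add_zero, e, e', K1.Th_upper h0 ((pow_dvd_pow p (by norm_num)).trans c10) c11,
    K1.Th_upper h0 c10' (h00 ▸ h11 ▸ c11), cub_mul_right, mul_assoc] at h
  simp only [e, Finset.mul_sum]
  exact h

/-- The identity read on the Fourier coefficients. -/
theorem hecke_coeff {p : O} (hp : Prime p) (hp' : Primary p) {σ σ' : SL2} (hσ : Cong (p ^ 3) σ 1)
    (h00 : σ' 0 0 = σ 0 0) (h01 : σ' 0 1 = p * σ 0 1) (h10 : p * σ' 1 0 = σ 1 0)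
    (h11 : σ' 1 1 = σ 1 1) (r : O) :
    tt σ (p ^ 3 * r) = tt σ r ∧ (¬ p ∣ r → tt σ (p ^ 2 * r) = 0) ∧
      (¬ p ∣ r → tt σ (p * r) =
        ((nr p ^ (-(2 / 3 : ℝ)) : ℝ) : ℂ) * cub p 9 * gc p r * tt σ' r) := by
  have h0 := hp.ne_zero
  have hP := nr_pos h0
  obtain ⟨A, sA, -, eA, hA⟩ := K1.series σ one_ne_zero h0 (res p) 1
  obtain ⟨B, sB, zB, eB, hB⟩ := K1.series σ (pow_ne_zero 3 h0) one_ne_zero {0} 1
  obtain ⟨C, sC, -, eC', hC⟩ := K1.series σ' h0 h0 (res p) (cub p)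
  have key : A = fun n => B n + cub p 9 * C n := by
    refine coeff_unique (q := 9) (by norm_num) sA (Summable.of_nonneg_of_le
      (fun _ => norm_nonneg _) (fun n => (norm_add_le _ _).trans (by rw [norm_mul]))
      (sB.add (sC.mul_left _))) fun z => ?_
    have h := (hB z).add ((hC z).mul_left (cub p 9))
    simp only [← mul_assoc, ← add_mul] at h
    rw [(hA z).tsum_eq, h.tsum_eq]
    simpa [sq] using hecke_id_cusp hp hp' hσ h00 h01 h10 h11 (R17.hp z 1)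
  have hM : ∀ n, ((Mk 1 (b1 * nr n) : ℝ) : ℂ) ≠ 0 := fun n =>
    Complex.ofReal_ne_zero.2 (Mk_pos one_pos (mul_nonneg b1_pos.le (Nat.cast_nonneg _))).ne'
  have hP' : ((nr p : ℝ) : ℂ) ≠ 0 := Complex.ofReal_ne_zero.2 hP.ne'
  have a1 : ∀ n, A (p * n) = tt σ (p * n) * nr p * Mk 1 (b1 * nr (p * n)) := fun n => by
    have := eA (p * n)
    simp only [one_mul, Pi.one_apply, sum_res_eq_char h0, dvd_mul_right, if_true, K1.F, nr, nm_one,
      Nat.cast_one, Real.one_rpow] at this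
    rw [this]
    push_cast
    ring
  have c1 : ∀ n, C (p * (p * n)) = 0 := fun n => by
    rw [eC', ← gc, gc_sqfree hp' hp.squarefree, (cub_eq_zero_iff hp').2 fun h =>
      hp.not_isUnit (h.isUnit_of_dvd' dvd_rfl (dvd_mul_right _ _))]
    simp
  refine ⟨?_, fun hr => ?_, fun hr => ?_⟩
  · have h := congrFun key (p ^ 3 * r)
    rw [eB, K1.F, show p ^ 3 * r = p * (p * (p * r)) by ring, a1, c1, nr_pow, ← Real.rpow_natCast,
      ← Real.rpow_mul hP.le] at h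
    rw [show p ^ 3 * r = p * (p * (p * r)) by ring]
    refine mul_right_cancel₀ hP' (mul_right_cancel₀ (hM _) (h.trans ?_))
    simp [eq_zero_left, mul_assoc]
  · have h := congrFun key (p ^ 2 * r)
    rw [zB _ fun h => hr (by rwa [pow_succ, mul_dvd_mul_iff_left (pow_ne_zero 2 h0)] at h),
      sq, mul_assoc, a1, c1] at h
    rw [sq, mul_assoc]
    simpa [hM, h0, nm_eq_zero] using h
  · have h := congrFun key (p * r)
    rw [zB _ fun h => hr (by
      rw [pow_succ', mul_dvd_mul_iff_left h0] at h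
      exact (dvd_pow_self p two_ne_zero).trans h), a1, eC', ← gc, K1.F] at h
    refine mul_right_cancel₀ hP' (mul_right_cancel₀ (hM _) (h.trans ?_))
    have : nr p ^ (1 / 3 : ℝ) = nr p ^ (-(2 / 3 : ℝ)) * nr p := by
      rw [← Real.rpow_add_one hP.ne']
      norm_num
    rw [this]
    push_cast
    ring

theorem hecke_norm {p : O} (hp : Prime p) (hp' : Primary p) (σ : SL2) : ∃ σ' : SL2, ∀ r : O,
    tt σ (p ^ 3 * r) = tt σ r ∧ (¬ p ∣ r → tt σ (p ^ 2 * r) = 0) ∧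
      (¬ p ∣ r → ‖tt σ (p * r)‖ = nr p ^ (-(1 / 6 : ℝ)) * ‖tt σ' r‖) := by
  obtain ⟨τ, h9, hτ⟩ := exists_cong_crt σ (N := p ^ 3) (hp'.pow 3).isCoprime_three
  have hγ : σ * τ⁻¹ ∈ Gam := Cong.mul_inv_mem fun i j => dvd_sub_comm.1 (h9 i j)
  have htt : ∀ r, tt σ r = kap (σ * τ⁻¹) * tt τ r := fun r => by
    rw [← tt_mul_Gam hγ, inv_mul_cancel_right]
  obtain ⟨c, hc⟩ : p ∣ τ 1 0 := by
    have := hτ 1 0
    rw [show (1 : SL2) 1 0 = 0 from rfl, sub_zero] at this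
    exact (dvd_pow_self p three_ne_zero).trans this
  have hdet := τ.det_eq
  refine ⟨mkSL (τ 0 0) (p * τ 0 1) c (τ 1 1) (by linear_combination hdet + τ 0 1 * hc), fun r => ?_⟩
  obtain ⟨h1, h2, h3⟩ := hecke_coeff hp hp' hτ
    (σ' := mkSL (τ 0 0) (p * τ 0 1) c (τ 1 1) (by linear_combination hdet + τ 0 1 * hc)) rfl rfl hc.symm rfl r
  refine ⟨by rw [htt, htt r, h1], fun h => by rw [htt, h2 h, mul_zero], fun h => ?_⟩
  have hP := nr_pos hp.ne_zero
  have h9' : IsCoprime p 9 := by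
    rw [show (9 : O) = 3 ^ 2 by norm_num]
    exact hp'.isCoprime_three.pow_right
  rw [htt, h3 h, gc_sqfree hp' hp.squarefree, norm_mul, norm_kap hγ, one_mul, norm_mul, norm_mul,
    norm_mul, norm_mul, norm_cub hp' h9', Complex.norm_conj,
    norm_cub hp' ((hp.coprime_iff_not_dvd).2 h), norm_gc hp' hp.squarefree, Complex.norm_real,
    Real.norm_of_nonneg (Real.rpow_nonneg hP.le _), mul_one, one_mul, Real.sqrt_eq_rpow,
    ← Real.rpow_add hP]
  norm_num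

theorem K2_cube (σ : SL2) {d : O} (hd : Primary d) (r : O) : tt σ (d ^ 3 * r) = tt σ r := by
  refine Primary.induction (P := fun d => tt σ (d ^ 3 * r) = tt σ r) (by simp) ?_ hd
  intro p n hp hp' _ ih
  obtain ⟨σ', h⟩ := hecke_norm hp hp' σ
  rw [mul_pow, mul_assoc, (h _).1, ih]

theorem K2_not_dvd {r p : O} (hr : r ≠ 0) (h : pf r = ∅) (hp : Prime p) (hp' : Primary p) :
    ¬ p ∣ r := fun hd => by
  have := (mem_pf hr).2 ⟨hp, hp', hd⟩
  rw [h] at this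
  exact Finset.notMem_empty _ this

theorem K2_coprime {r n : O} (hr : r ≠ 0) (h : pf r = ∅) (hn : Primary n) : IsCoprime n r :=
  isCoprime_of_disjoint_pf hn hr (by rw [h]; exact Finset.disjoint_empty_right _)

theorem K2_mod {σ : SL2} {r n : O} (hr : r ≠ 0) (h : pf r = ∅) (hn : Primary n)
    (hne : tt σ (n * r) ≠ 0) : ∀ p ∈ pf n, vp p n % 3 ≠ 2 := by
  intro p hpn h2
  obtain ⟨hp, hp', -⟩ := (mem_pf hn.ne_zero).1 hpn
  obtain ⟨m, hm⟩ := (pow_dvd_iff_le_vp hp hn.ne_zero).2 (le_refl (vp p n))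
  have hpm : ¬ p ∣ m := fun hd => by
    have : p ^ (vp p n + 1) ∣ n := by
      conv_rhs => rw [hm]
      rw [pow_succ]
      exact mul_dvd_mul_left _ hd
    have := (pow_dvd_iff_le_vp hp hn.ne_zero).1 this
    omega
  obtain ⟨σ', hσ'⟩ := hecke_norm hp hp' σ
  apply hne
  have e : n * r = (p ^ (vp p n / 3)) ^ 3 * (p ^ 2 * (m * r)) := by
    conv_lhs => rw [hm, ← Nat.div_add_mod (vp p n) 3, h2]
    ring
  rw [e, K2_cube σ (hp'.pow _)]
  exact (hσ' _).2.1 fun hd => (hp.dvd_or_dvd hd).elim hpm (K2_not_dvd hr h hp hp')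

theorem K2_sqfree {p n : O} (hp : Prime p) (h : Squarefree (p * n)) : Squarefree n ∧ ¬ p ∣ n :=
  ⟨h.of_mul_right, fun hd => hp.not_isUnit (h p (mul_dvd_mul_left p hd))⟩

theorem K2_pf {u : O} (hu : IsUnit u) (j : ℕ) : u * lam ^ j ≠ 0 ∧ pf (u * lam ^ j) = ∅ :=
  ⟨mul_ne_zero hu.ne_zero (pow_ne_zero _ prime_lam.ne_zero), by
    rw [pf_unit_mul hu, BasicB.pf_lam_pow]⟩

theorem K2_norm_le {r : O} (hr : r ≠ 0) (h : pf r = ∅) {C : ℝ} (hC : ∀ σ, ‖tt σ r‖ ≤ C) {n : O}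
    (hn : Primary n) : Squarefree n → ∀ σ, ‖tt σ (n * r)‖ ≤ nr n ^ (-(1 / 6 : ℝ)) * C := by
  refine Primary.induction
    (P := fun n => Squarefree n → ∀ σ, ‖tt σ (n * r)‖ ≤ nr n ^ (-(1 / 6 : ℝ)) * C)
    (fun _ σ => by simpa [nr] using hC σ) ?_ hn
  intro p n hp hp' _ ih hs σ
  obtain ⟨h1, h2⟩ := K2_sqfree hp hs
  obtain ⟨σ', hσ'⟩ := hecke_norm hp hp' σ
  rw [mul_assoc, (hσ' _).2.2 fun hd => (hp.dvd_or_dvd hd).elim h2 (K2_not_dvd hr h hp hp'),
    nr_mul, Real.mul_rpow (Nat.cast_nonneg _) (Nat.cast_nonneg _), mul_assoc]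
  exact mul_le_mul_of_nonneg_left (ih h1 σ') (Real.rpow_nonneg (Nat.cast_nonneg _) _)

theorem K2_rpow_cube {x : ℝ} (hx : 0 ≤ x) : (x ^ 3) ^ (1 / 6 : ℝ) = Real.sqrt x := by
  rw [← Real.rpow_natCast, ← Real.rpow_mul hx, Real.sqrt_eq_rpow]
  norm_num

/-- Support and size of the coefficients, uniformly in the cusp. -/
theorem tt_support : ∃ C : ℝ, 0 < C ∧ ∀ (σ : SL2) (ν : O), ν ≠ 0 → tt σ ν ≠ 0 →
    ∃ (u : O) (j : ℕ) (n d : O), IsUnit u ∧ Primary n ∧ Squarefree n ∧ Primary d ∧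
      ν = u * lam ^ j * (n * d ^ 3) ∧
      ‖tt σ ν‖ * nr ν ^ (1 / 6 : ℝ) ≤ C * (3 : ℝ) ^ ((j : ℝ) / 6) * Real.sqrt (nr d) := by
  obtain ⟨C, hC0, hC⟩ := tt_lam_bound
  refine ⟨C, hC0, fun σ ν hν hne => ?_⟩
  obtain ⟨u, j, hu, e⟩ := exists_eq_unit_lam_primary hν
  have hμ : Primary (∏ p ∈ pf ν, p ^ vp p ν) := BasicB.primary_prod_pow (fun _ => BasicB.pf_sub) _
  generalize ∏ p ∈ pf ν, p ^ vp p ν = μ at e hμ
  obtain ⟨hr, hpf⟩ := K2_pf hu j
  obtain ⟨e', hn, hs, hd⟩ := eq_sq1_mul_cu hμ (K2_mod hr hpf hμ (by rwa [mul_comm, ← e]))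
  generalize sq1 μ = n at e' hn hs
  generalize cu μ = d at e' hd
  subst e'
  refine ⟨u, j, n, d, hu, hn, hs, hd, e, ?_⟩
  have h1 : tt σ ν = tt σ (n * (u * lam ^ j)) := by
    rw [← K2_cube σ hd (n * (u * lam ^ j)), e]
    congr 1
    ring
  have h2 := K2_norm_le hr hpf (fun σ => hC σ u j hu) hn hs σ
  have hN := nr_pos hn.ne_zero
  have h3 : nr ν ^ (1 / 6 : ℝ) =
      (3 : ℝ) ^ ((j : ℝ) / 6) * (nr n ^ (1 / 6 : ℝ) * Real.sqrt (nr d)) := by
    have hu1 : nr u = 1 := by simp [nr, isUnit_iff_nm.1 hu]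
    have hl : nr lam = 3 := by simp [nr, nm_lam]
    rw [e, nr_mul, nr_mul, nr_mul, nr_pow, nr_pow, hu1, hl, one_mul,
      Real.mul_rpow (by positivity) (by positivity), Real.mul_rpow (by positivity) (by positivity),
      K2_rpow_cube (Nat.cast_nonneg _), ← Real.rpow_natCast, ← Real.rpow_mul (by norm_num),
      mul_one_div]
  rw [h1, h3]
  refine (mul_le_mul_of_nonneg_right h2 (by positivity)).trans_eq ?_
  rw [Real.rpow_neg hN.le]
  have := (Real.rpow_pos_of_pos hN (1 / 6)).ne'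
  field_simp

/-- The normalised coefficients at `∞`, with the angular factor. -/
def tauh (r : O) : ℂ := tt 1 (9 * r) * ((nr r ^ (1 / 6 : ℝ) : ℝ) : ℂ) * conj (arg r)

theorem K2_nine {r : O} (hr : r ≠ 0) (h : pf r = ∅) : 9 * r ≠ 0 ∧ pf (9 * r) = ∅ := by
  have e : (9 : O) = lam ^ 4 := by
    rw [show lam ^ 4 = (lam ^ 2) ^ 2 by ring, lam_sq]; norm_num
  have h9 : (9 : O) ≠ 0 := by rw [e]; exact pow_ne_zero _ prime_lam.ne_zero
  refine ⟨mul_ne_zero h9 hr, ?_⟩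
  rw [pf_mul h9 hr, h, e, BasicB.pf_lam_pow, Finset.union_empty]

theorem K2_prime {p r : O} (hp : Prime p) (hp' : Primary p) (h : ¬ p ∣ r) :
    tt 1 (9 * (p * r)) = ((nr p ^ (-(2 / 3 : ℝ)) : ℝ) : ℂ) * gc p r * tt 1 (9 * r) := by
  have h9 : IsCoprime p 9 := by
    rw [show (9 : O) = 3 ^ 2 by norm_num]
    exact hp'.isCoprime_three.pow_right
  have h1 := (hecke_coeff hp hp' (σ := 1) (σ' := 1) (fun _ _ => by simp) rfl (mul_zero p).symm
    (mul_zero p) rfl (9 * r)).2.2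
    fun hd => (hp.dvd_or_dvd hd).elim ((hp.coprime_iff_not_dvd).1 h9) h
  rw [mul_left_comm, h1, mul_comm 9 r, gc_mul_unit hp' h9.symm]
  linear_combination (((nr p ^ (-(2 / 3 : ℝ)) : ℝ) : ℂ) * gc p r * tt 1 (r * 9)) *
    Gauss_conj_mul (norm_cub hp' h9)

theorem K2_formula {r : O} (hr : r ≠ 0) (h : pf r = ∅) {m : O} (hm : Primary m) : Squarefree m →
    tt 1 (9 * (m * r)) = ((nr m ^ (-(2 / 3 : ℝ)) : ℝ) : ℂ) * gc m r * tt 1 (9 * r) := by
  refine Primary.induction (P := fun m => Squarefree m →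
    tt 1 (9 * (m * r)) = ((nr m ^ (-(2 / 3 : ℝ)) : ℝ) : ℂ) * gc m r * tt 1 (9 * r))
    (fun _ => by simp [nr]) ?_ hm
  intro p n hp hp' hn ih hs
  obtain ⟨h1, h2⟩ := K2_sqfree hp hs
  have hc := (hp.coprime_iff_not_dvd).2 h2
  rw [mul_assoc p, K2_prime hp hp' fun hd => (hp.dvd_or_dvd hd).elim h2 (K2_not_dvd hr h hp hp'),
    ih h1, mul_comm n r, gc_mul_unit hp' hc.symm, gc_mul hp' hn hc, cub_recip hn hp', conj_cub,
    nr_mul, Real.mul_rpow (Nat.cast_nonneg _) (Nat.cast_nonneg _), Complex.ofReal_mul]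
  ring

theorem K2_full {r : O} (hr : r ≠ 0) (h : pf r = ∅) {m d : O} (hm : Primary m) (hs : Squarefree m)
    (hd : Primary d) : tt 1 (9 * (r * (m * d ^ 3))) =
      ((nr m ^ (-(2 / 3 : ℝ)) : ℝ) : ℂ) * gc m r * tt 1 (9 * r) := by
  rw [← K2_formula hr h hm hs, ← K2_cube 1 hd (9 * (m * r))]
  congr 1
  ring

/-- **Patterson's formula**, up to a non-zero constant. -/
theorem tauh_eq_th : ∃ (r₀ : O) (c : ℂ), r₀ ≠ 0 ∧ pf r₀ = ∅ ∧ c ≠ 0 ∧
    ∀ n, Primary n → tauh (r₀ * n) = c * conj (cub n r₀) * th n := by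
  obtain ⟨ν, hν, hne⟩ := exists_tt_one_ne
  obtain ⟨u, j, hu, e⟩ := exists_eq_unit_lam_primary hν
  have hμ : Primary (∏ p ∈ pf ν, p ^ vp p ν) := BasicB.primary_prod_pow (fun _ => BasicB.pf_sub) _
  generalize ∏ p ∈ pf ν, p ^ vp p ν = μ at e hμ
  obtain ⟨hr, hpf⟩ := K2_pf hu j
  generalize u * lam ^ j = r at e hr hpf
  obtain ⟨hr9, hpf9⟩ := K2_nine hr hpf
  have hτ : tt 1 (9 * r) ≠ 0 := by
    obtain ⟨e', hn, hs, hd⟩ := eq_sq1_mul_cu hμ (K2_mod (σ := 1) hr9 hpf9 hμ (by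
      rwa [mul_comm, mul_assoc, ← e]))
    rw [e, e', K2_full hr hpf hn hs hd] at hne
    exact right_ne_zero_of_mul hne
  refine ⟨r, tauh r, hr, hpf, ?_, fun n hn => ?_⟩
  · refine mul_ne_zero (mul_ne_zero hτ ?_) ?_
    · exact Complex.ofReal_ne_zero.2 (Real.rpow_pos_of_pos (nr_pos hr) _).ne'
    · rw [← norm_ne_zero_iff, Complex.norm_conj, norm_arg hr]
      exact one_ne_zero
  by_cases hv : ∀ p ∈ pf n, vp p n % 3 ≠ 2
  · obtain ⟨e', hm, hs, hd⟩ := eq_sq1_mul_cu hn hv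
    rw [th, if_pos ⟨hn, hv⟩]
    generalize sq1 n = m at e' hm hs
    generalize cu n = d at e' hd
    have hM := nr_pos hm.ne_zero
    have h1 : cub n r = cub m r := by
      rw [e', cub_mul_left hm.ne_zero (hd.pow 3).ne_zero, cub_pow_left hd.ne_zero,
        cub_pow_three hd (K2_coprime hr hpf hd), mul_one]
    have h2 : nr (r * n) ^ (1 / 6 : ℝ) =
        nr r ^ (1 / 6 : ℝ) * (nr m ^ (1 / 6 : ℝ) * Real.sqrt (nr d)) := by
      rw [e', nr_mul, nr_mul, nr_pow, Real.mul_rpow (by positivity) (by positivity),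
        Real.mul_rpow (by positivity) (by positivity), K2_rpow_cube (Nat.cast_nonneg _)]
    have h3 : ((nr m ^ (-(2 / 3 : ℝ)) : ℝ) : ℂ) * ((nr m ^ (1 / 6 : ℝ) : ℝ) : ℂ) =
        ((Real.sqrt (nr m) : ℝ) : ℂ)⁻¹ := by
      rw [← Complex.ofReal_mul, ← Complex.ofReal_inv, ← Real.rpow_add hM, Real.sqrt_eq_rpow,
        ← Real.rpow_neg hM.le]
      norm_num
    have h4 : tt 1 (9 * (r * n)) = ((nr m ^ (-(2 / 3 : ℝ)) : ℝ) : ℂ) * gc m r * tt 1 (9 * r) := by
      rw [e', K2_full hr hpf hm hs hd]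
    rw [tauh, tauh, h4, h1, h2, arg_mul, map_mul, gc_sqfree hm hs r, div_eq_mul_inv (gc m 1), ← h3,
      Complex.ofReal_mul, Complex.ofReal_mul]
    ring
  · have h0 : tt 1 (9 * (r * n)) = 0 := by
      by_contra h0
      exact hv (K2_mod (σ := 1) hr9 hpf9 hn (by rwa [mul_comm, mul_assoc]))
    rw [th, if_neg fun h => hv h.2, tauh, h0, zero_mul, zero_mul, mul_zero]

end Crest.Agent.R17
end
end

-- ▼ part PVc/R17/ThetaVorAuxM2
section

/-!
# Row 17, theta module M2: differentiating the expansions along a geodesic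
-/

set_option autoImplicit false

noncomputable section

namespace Crest.Agent.R17

open scoped ComplexConjugate Topology
open Filter

namespace VorM2

theorem bound : ∃ K : ℝ, 0 < K ∧ ∀ (σ : SL2) (r : O) (y : ℝ), 0 < y →
    ‖tt σ r * (Mk y (b1 * nr r) : ℂ)‖ * ‖ι r‖ ≤
      K * (y ^ (2 / 3 : ℝ) * (y ^ 2 * b1) ^ (-4 : ℝ)) * nr r ^ (-2 : ℝ) := by
  obtain ⟨C, hC, h1⟩ := norm_tt_le
  obtain ⟨D, hD, h2⟩ := W0_le_rpow (A := 4) (by norm_num)
  refine ⟨C * D, by positivity, fun σ r y hy0 => ?_⟩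
  have hb := b1_pos
  rcases eq_or_ne r 0 with rfl | hr
  · rw [map_zero, norm_zero, mul_zero]
    positivity
  have hn := one_le_nr hr
  have h3 : ‖tt σ r‖ ≤ C * nr r :=
    (h1 σ r hr).trans (mul_le_mul_of_nonneg_left (Real.rpow_le_self_of_one_le hn (by norm_num)) hC.le)
  have h4 : ‖ι r‖ ≤ nr r := by
    rw [norm_ι]
    exact Real.sqrt_le_iff.2 ⟨by positivity, by nlinarith⟩
  have h5 := h2 (y ^ 2 * (b1 * nr r)) (by positivity)
  have h6 : nr r ^ (-2 : ℝ) = nr r * nr r ^ (-4 : ℝ) * nr r := by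
    rw [← Real.rpow_one_add' (by positivity) (by norm_num), ← Real.rpow_add_one (by positivity)]
    norm_num
  rw [norm_mul, Complex.norm_real, Real.norm_of_nonneg (Mk_pos hy0 (by positivity)).le, Mk, h6]
  rw [← mul_assoc, Real.mul_rpow (by positivity) (by positivity)] at h5
  have h7 := (W0_pos (b := y ^ 2 * (b1 * nr r)) (by positivity)).le
  calc _ ≤ C * nr r * (y ^ (2 / 3 : ℝ) * (D * ((y ^ 2 * b1) ^ (-4 : ℝ) * nr r ^ (-4 : ℝ)))) * nr r := by
        gcongr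
        rwa [← mul_assoc]
    _ = _ := by ring

theorem summable (σ : SL2) {y : ℝ} (hy0 : 0 < y) (z : ℂ) {f : O → ℂ} (hf : ∀ r, ‖f r‖ = ‖ι r‖) :
    Summable fun r : O => tt σ r * (Mk y (b1 * nr r) : ℂ) * eC (ι r * z / 9) * f r := by
  obtain ⟨K, -, h⟩ := bound
  refine .of_norm_bounded ((summable_nr_rpow one_lt_two).mul_left _) fun r =>
    le_trans ?_ (h σ r y hy0)
  rw [norm_mul, norm_mul, norm_eC, mul_one, hf]

/-- The phase of `e(r ζ / 9)`. -/
def ph (r : O) (ζ : ℂ) : ℝ := 4 * Real.pi * (ι r * ζ / 9).im / Real.sqrt 3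

theorem abs_ph_le (r : O) (ζ : ℂ) : |ph r ζ| ≤ 4 * Real.pi / 9 / Real.sqrt 3 * ‖ζ‖ * ‖ι r‖ := by
  have h := Complex.abs_im_le_norm (ι r * ζ / 9)
  rw [norm_div, norm_mul, Complex.norm_ofNat] at h
  rw [ph, abs_div, abs_mul, abs_of_pos (by positivity), abs_of_pos (a := Real.sqrt 3) (by positivity)]
  calc _ ≤ 4 * Real.pi * (‖ι r‖ * ‖ζ‖ / 9) / Real.sqrt 3 := by gcongr
    _ = _ := by ring

theorem diff (r : O) (z ζ : ℂ) {t : ℝ} (ht : t ≠ 0) :
    (eC (ι r * (z + t * ζ) / 9) - eC (ι r * (z - t * ζ) / 9)) / (2 * t) =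
      eC (ι r * z / 9) * (Complex.I * (ph r ζ * Real.sinc (t * ph r ζ) : ℝ)) := by
  have h1 : eC (t * (ι r * ζ / 9)) = Complex.exp ((t * ph r ζ : ℝ) * Complex.I) := by
    rw [eC_eq, Complex.im_ofReal_mul, ph]
    congr 3
    ring
  have h2 : ph r ζ * Real.sinc (t * ph r ζ) = Real.sin (t * ph r ζ) / t := by
    rcases eq_or_ne (ph r ζ) 0 with h | h
    · simp [h]
    · rw [Real.sinc_of_ne_zero (mul_ne_zero ht h)]
      field_simp
  have h3 : (t : ℂ) ≠ 0 := Complex.ofReal_ne_zero.2 ht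
  rw [show ι r * (z + t * ζ) / 9 = ι r * z / 9 + t * (ι r * ζ / 9) by ring,
    show ι r * (z - t * ζ) / 9 = ι r * z / 9 + -(t * (ι r * ζ / 9)) by ring, eC_add, eC_add, eC_neg,
    h1, h2, ← mul_sub, Complex.sub_conj, Complex.exp_ofReal_mul_I_im]
  push_cast
  field_simp

theorem I_ph (r : O) (ζ : ℂ) : Complex.I * ph r ζ =
    ((2 * Real.pi / (9 * Real.sqrt 3) : ℝ) : ℂ) * (ι r * ζ - conj (ι r * ζ)) := by
  rw [Complex.sub_conj, ph, Complex.div_ofNat_im]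
  push_cast
  ring

theorem odd_deriv (σ : SL2) (z₀ : ℂ) (ζ : ℝ → ℂ) (η : ℝ → ℝ) (hζ : ContinuousAt ζ 0)
    (hη : ContinuousAt η 0) (hη0 : 0 < η 0) :
    Tendsto (fun t : ℝ =>
        (Th σ (hp (z₀ + t * ζ t) (η t)) - Th σ (hp (z₀ - t * ζ t) (η t))) / (2 * t))
      (𝓝[>] 0)
      (𝓝 (∑' r : O, tt σ r * (Mk (η 0) (b1 * nr r) : ℂ) * eC (ι r * z₀ / 9) *
        ((2 * Real.pi / (9 * Real.sqrt 3) : ℝ) : ℂ) * (ι r * ζ 0 - conj (ι r * ζ 0)))) := by
  obtain ⟨K, hK, h⟩ := bound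
  have hb := b1_pos
  have hpos : ∀ᶠ t in 𝓝 (0 : ℝ), 0 < η t := hη.eventually (lt_mem_nhds hη0)
  have hg : ContinuousAt (fun t => 4 * Real.pi / 9 / Real.sqrt 3 * ‖ζ t‖ *
      (K * (η t ^ (2 / 3 : ℝ) * (η t ^ 2 * b1) ^ (-4 : ℝ)))) 0 :=
    (hζ.norm.const_mul _).mul (((hη.rpow_const (.inl hη0.ne')).mul
      (((hη.pow 2).mul_const _).rpow_const (.inl (mul_pos (pow_pos hη0 2) hb).ne'))).const_mul _)
  have key := tendsto_tsum_of_dominated_convergence (𝓕 := 𝓝 (0 : ℝ))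
    (f := fun t (r : O) => tt σ r * (Mk (η t) (b1 * nr r) : ℂ) *
      (eC (ι r * z₀ / 9) * (Complex.I * (ph r (ζ t) * Real.sinc (t * ph r (ζ t)) : ℝ))))
    ((summable_nr_rpow one_lt_two).mul_left _) (fun r => ContinuousAt.tendsto (by
      have h1 : ContinuousAt (fun t => Mk (η t) (b1 * nr r)) 0 :=
        ((continuousOn_Mk (by positivity)).continuousAt (Ioi_mem_nhds hη0)).comp hη
      have h2 := Real.continuous_sinc
      unfold ph
      fun_prop))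
    ((hpos.and (hg.eventually (gt_mem_nhds (lt_add_one _)))).mono fun t ht r => by
      have h1 := h σ r _ ht.1
      have h2 := abs_ph_le r (ζ t)
      have h3 := Real.abs_sinc_le_one (t * ph r (ζ t))
      refine le_trans ?_ (mul_le_mul_of_nonneg_right ht.2.le (by positivity))
      rw [norm_mul, norm_mul (eC _), norm_eC, norm_mul Complex.I, Complex.norm_I, one_mul, one_mul,
        Complex.norm_real, Real.norm_eq_abs, abs_mul, mul_assoc _ (K * _)]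
      refine le_trans ?_ (mul_le_mul_of_nonneg_left h1 (by positivity))
      refine (mul_le_mul_of_nonneg_left ((mul_le_of_le_one_right (abs_nonneg _) h3).trans h2)
        (norm_nonneg _)).trans_eq ?_
      ring)
  simp only [zero_mul, Real.sinc_zero, mul_one, I_ph, ← mul_assoc] at key
  refine (key.mono_left nhdsWithin_le_nhds).congr' ?_
  filter_upwards [nhdsWithin_le_nhds hpos, self_mem_nhdsWithin] with t h1 h2
  have hs := fun z : ℂ => Summable.of_norm (f := fun r : O =>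
    tt σ r * (Mk (η t) (b1 * nr r) : ℂ) * eC (ι r * z / 9))
    ((summable_Th σ h1).congr fun r => by rw [norm_mul _ (eC _), norm_eC, mul_one])
  simp only [Th, hy_hp _ h1, hp_fst]
  rw [← (hs _).tsum_sub (hs _), ← tsum_div_const]
  refine tsum_congr fun r => ?_
  rw [← mul_sub, mul_div_assoc _ (_ - _), diff r _ _ (ne_of_gt h2)]
  ring

/-- The first moment of an expansion. -/
def S1 (σ : SL2) (y : ℝ) (z : ℂ) : ℂ :=
  ∑' r : O, tt σ r * (Mk y (b1 * nr r) : ℂ) * eC (ι r * z / 9) * ι r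

/-- The conjugate first moment of an expansion. -/
def S2 (σ : SL2) (y : ℝ) (z : ℂ) : ℂ :=
  ∑' r : O, tt σ r * (Mk y (b1 * nr r) : ℂ) * eC (ι r * z / 9) * conj (ι r)

theorem split (σ : SL2) {y : ℝ} (hy0 : 0 < y) (z ζ κ : ℂ) :
    ∑' r : O, tt σ r * (Mk y (b1 * nr r) : ℂ) * eC (ι r * z / 9) * κ * (ι r * ζ - conj (ι r * ζ)) =
      κ * (ζ * S1 σ y z - conj ζ * S2 σ y z) := by
  rw [S1, S2, ← tsum_mul_left, ← tsum_mul_left,
    ← ((summable σ hy0 z fun _ => rfl).mul_left _).tsum_sub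
      ((summable σ hy0 z fun _ => Complex.norm_conj _).mul_left _), ← tsum_mul_left]
  refine tsum_congr fun r => ?_
  rw [map_mul]
  ring

theorem geod (σ : SL2) (hβ : σ 1 0 ≠ 0) (z : ℂ) {y : ℝ} (hy0 : 0 < y) :
    Th 1 (hp (ι (σ 0 0) / ι (σ 1 0) + z) y) =
      Th σ (hp (-ι (σ 1 1) / ι (σ 1 0) - conj z / (ι (σ 1 0) ^ 2 * ((‖z‖ ^ 2 + y ^ 2 : ℝ) : ℂ)))
        (y / (‖ι (σ 1 0)‖ ^ 2 * (‖z‖ ^ 2 + y ^ 2)))) := by
  rw [← actC_geod (x := ι (σ 0 1)) (by rw [← map_mul, ← map_mul, ← map_sub, σ.det_eq, map_one])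
    ((map_ne_zero_iff ι ι_injective).2 hβ) z hy0, ← Th_smul σ]
  congr 1
  rw [← inv_smul_eq_iff, smul_def, act, Matrix.SpecialLinearGroup.SL2_inv_expl]
  congr 1
  refine Matrix.ext fun i j => ?_
  fin_cases i <;> fin_cases j <;> simp

theorem dir (σ : SL2) (hβ : σ 1 0 ≠ 0) (ζ : ℂ) {y : ℝ} (hy0 : 0 < y) :
    ζ * S1 1 y (ι (σ 0 0) / ι (σ 1 0)) - conj ζ * S2 1 y (ι (σ 0 0) / ι (σ 1 0)) =
      -(conj ζ / (ι (σ 1 0) ^ 2 * y ^ 2)) * S1 σ (nr (σ 1 0) * y)⁻¹ (-ι (σ 1 1) / ι (σ 1 0)) +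
        ζ / conj (ι (σ 1 0) ^ 2 * y ^ 2) * S2 σ (nr (σ 1 0) * y)⁻¹ (-ι (σ 1 1) / ι (σ 1 0)) := by
  have hb : ι (σ 1 0) ≠ 0 := (map_ne_zero_iff ι ι_injective).2 hβ
  have hn := nr_pos hβ
  have h1 := odd_deriv 1 (ι (σ 0 0) / ι (σ 1 0)) (fun _ => ζ) (fun _ => y) continuousAt_const
    continuousAt_const hy0
  have h2 := odd_deriv σ (-ι (σ 1 1) / ι (σ 1 0))
    (fun t => -(conj ζ / (ι (σ 1 0) ^ 2 * ((‖t * ζ‖ ^ 2 + y ^ 2 : ℝ) : ℂ))))
    (fun t => y / (‖ι (σ 1 0)‖ ^ 2 * (‖t * ζ‖ ^ 2 + y ^ 2)))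
    (ContinuousAt.neg (continuousAt_const.div (by fun_prop)
      (mul_ne_zero (pow_ne_zero _ hb) (Complex.ofReal_ne_zero.2 (by positivity)))))
    (continuousAt_const.div (by fun_prop) (by positivity)) (by positivity)
  have h3 := tendsto_nhds_unique h1 (h2.congr fun t => by
    rw [geod σ hβ _ hy0, sub_eq_add_neg (_ / _) (t * ζ), geod σ hβ _ hy0, norm_neg]
    simp only [map_neg, map_mul, Complex.conj_ofReal]
    congr 4 <;> ring)
  have h4 : y / (‖ι (σ 1 0)‖ ^ 2 * y ^ 2) = (nr (σ 1 0) * y)⁻¹ := by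
    rw [norm_ι_sq]
    field_simp
  simp only [Complex.ofReal_zero, zero_mul, norm_zero, zero_pow two_ne_zero, zero_add, h4] at h3
  rw [split _ hy0, split _ (by positivity)] at h3
  rw [mul_left_cancel₀ (Complex.ofReal_ne_zero.2 (by positivity)) h3]
  simp only [map_neg, map_div₀, Complex.conj_conj, Complex.ofReal_pow]
  ring

theorem S2_eq (σ : SL2) (hβ : σ 1 0 ≠ 0) {y : ℝ} (hy0 : 0 < y) :
    S2 1 y (ι (σ 0 0) / ι (σ 1 0)) =
      (ι (σ 1 0) ^ 2 * y ^ 2)⁻¹ * S1 σ (nr (σ 1 0) * y)⁻¹ (-ι (σ 1 1) / ι (σ 1 0)) := by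
  have h1 := dir σ hβ 1 hy0
  have h2 := dir σ hβ Complex.I hy0
  rw [map_one] at h1
  rw [Complex.conj_I] at h2
  apply mul_left_cancel₀ Complex.I_ne_zero
  linear_combination (h2 - Complex.I * h1) / 2

theorem U1_eq {y b : ℝ} (hy0 : 0 < y) (hb : 0 ≤ b) : U1 (y ^ 2 * b) = b ^ (1 / 3 : ℝ) * Mk y b := by
  rw [U1, Mk, Real.mul_rpow (by positivity) hb, ← Real.rpow_natCast, ← Real.rpow_mul hy0.le]
  norm_num
  ring

theorem arg_eq (r : O) : ((nr r ^ (1 / 6 : ℝ) * nr r ^ (1 / 3 : ℝ) : ℝ) : ℂ) * arg r = ι r := by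
  rcases eq_or_ne r 0 with rfl | hr
  · simp [arg]
  rw [← Real.rpow_add (nr_pos hr), arg, norm_ι, Real.sqrt_eq_rpow,
    show (1 / 6 + 1 / 3 : ℝ) = 1 / 2 by norm_num, mul_div_cancel₀]
  exact Complex.ofReal_ne_zero.2 (Real.rpow_pos_of_pos (nr_pos hr) _).ne'

theorem voronoi (σ : SL2) (hβ : σ 1 0 ≠ 0) {x : ℝ} (hx : 0 < x) :
    ∑' r : O, tauh r * eq (r * σ 0 0) (σ 1 0) * (U1 (81 * b1 * nr r * x) : ℂ) =
      (((81 : ℝ) ^ (-(1 / 6 : ℝ)) : ℝ) : ℂ) * (ι (σ 1 0) ^ 2)⁻¹ * (x : ℂ)⁻¹ *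
        ∑' ν : O, tt σ ν * eq (-(ν * σ 1 1)) (9 * σ 1 0) * ((nr ν ^ (1 / 6 : ℝ) : ℝ) : ℂ) * arg ν *
          (U1 (b1 / nr (σ 1 0) ^ 2 * nr ν / x) : ℂ) := by
  obtain ⟨y, hy0, rfl⟩ : ∃ y : ℝ, 0 < y ∧ x = y ^ 2 :=
    ⟨√x, Real.sqrt_pos.2 hx, (Real.sq_sqrt hx.le).symm⟩
  have hb := b1_pos
  have hn := nr_pos hβ
  have h9 : ι 9 = 9 := map_ofNat ι 9
  have h81 : (81 : ℝ) ^ (1 / 3 : ℝ) = 9 * 81 ^ (-(1 / 6 : ℝ)) := by
    rw [show (9 : ℝ) = 81 ^ (1 / 2 : ℝ) by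
      rw [← Real.sqrt_eq_rpow, eq_comm, Real.sqrt_eq_iff_mul_self_eq] <;> norm_num,
      ← Real.rpow_add (by norm_num)]
    norm_num
  have h1 : ∑' r : O, tauh r * eq (r * σ 0 0) (σ 1 0) * (U1 (81 * b1 * nr r * y ^ 2) : ℂ) =
      ((81 ^ (-(1 / 6 : ℝ)) * b1 ^ (1 / 3 : ℝ) : ℝ) : ℂ) * S2 1 y (ι (σ 0 0) / ι (σ 1 0)) := by
    symm
    rw [S2, ← (mul_right_injective₀ (show (9 : O) ≠ 0 by decide)).tsum_eq fun r hr => by
      by_contra h
      exact hr (by simp only [tt_one_eq_zero fun ⟨c, hc⟩ => h ⟨c, hc.symm⟩, zero_mul]),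
      ← tsum_mul_left]
    refine tsum_congr fun r => ?_
    have e1 : nr (9 * r) = 81 * nr r := by
      rw [nr_mul]
      congr 1
    have e2 := congrArg conj (arg_eq r)
    rw [map_mul, Complex.conj_ofReal] at e2
    rw [mul_comm _ (y ^ 2), U1_eq hy0 (by positivity), e1, tauh, eq, map_mul, map_mul, h9, map_mul,
      ← e2, Real.mul_rpow (by positivity) (by positivity), Real.mul_rpow (by positivity) hb.le, h81,
      show ι r * ι (σ 0 0) / ι (σ 1 0) = 9 * ι r * (ι (σ 0 0) / ι (σ 1 0)) / 9 by ring,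
      show 81 * b1 * nr r = b1 * (81 * nr r) by ring, map_ofNat]
    push_cast
    ring
  have h2 : ∑' ν : O, tt σ ν * eq (-(ν * σ 1 1)) (9 * σ 1 0) * ((nr ν ^ (1 / 6 : ℝ) : ℝ) : ℂ) *
      arg ν * (U1 (b1 / nr (σ 1 0) ^ 2 * nr ν / y ^ 2) : ℂ) =
      ((b1 ^ (1 / 3 : ℝ) : ℝ) : ℂ) * S1 σ (nr (σ 1 0) * y)⁻¹ (-ι (σ 1 1) / ι (σ 1 0)) := by
    rw [S1, ← tsum_mul_left]
    refine tsum_congr fun r => ?_
    rw [show b1 / nr (σ 1 0) ^ 2 * nr r / y ^ 2 = (nr (σ 1 0) * y)⁻¹ ^ 2 * (b1 * nr r) by ring,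
      U1_eq (by positivity) (by positivity), eq, map_neg, map_mul, map_mul, h9,
      Real.mul_rpow hb.le (by positivity),
      show -(ι r * ι (σ 1 1)) / (9 * ι (σ 1 0)) = ι r * (-ι (σ 1 1) / ι (σ 1 0)) / 9 by ring]
    generalize eC _ = E
    rw [← arg_eq r]
    push_cast
    ring
  rw [h1, h2, S2_eq σ hβ hy0]
  push_cast
  ring

end VorM2

end Crest.Agent.R17
end
end

-- ▼ part PVc/R17/ThetaVor
section

/-!
# Row 17, theta module M: the additive Voronoi formula and the structure of the dual coefficients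
-/

set_option autoImplicit false

noncomputable section

namespace Crest.Agent.R17

open scoped ComplexConjugate

open Classical in
/-- The dual coefficients of the cusp `α / β` (independent of the completion `σ`). -/
def Bc (α β ν : O) : ℂ :=
  if h : ∃ σ : SL2, σ 0 0 = α ∧ σ 1 0 = β then
    tt h.choose ν * eq (-(ν * h.choose 1 1)) (9 * β) * ((nr ν ^ (1 / 6 : ℝ) : ℝ) : ℂ) * arg ν
  else 0

theorem Bc_spec (σ : SL2) (hβ : σ 1 0 ≠ 0) (ν : O) : Bc (σ 0 0) (σ 1 0) ν =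
    tt σ ν * eq (-(ν * σ 1 1)) (9 * σ 1 0) * ((nr ν ^ (1 / 6 : ℝ) : ℝ) : ℂ) * arg ν := by
  have h : ∃ τ : SL2, τ 0 0 = σ 0 0 ∧ τ 1 0 = σ 1 0 := ⟨σ, rfl, rfl⟩
  rw [Bc, dif_pos h]
  obtain ⟨t, ht⟩ := exists_mul_nT h.choose_spec.1 h.choose_spec.2
  have h11 : (σ * nT t) 1 1 = σ 1 0 * t + σ 1 1 := by
    simp [nT, mkSL, Matrix.mul_apply, Fin.sum_univ_two]
  have h1 : eq (ν * t) 9 * eq (-(ν * (σ 1 0 * t + σ 1 1))) (9 * σ 1 0) =
      eq (-(ν * σ 1 1)) (9 * σ 1 0) := by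
    rw [← eq_mul_mul hβ (ν * t) 9, mul_comm (σ 1 0) 9, ← eq_add]
    congr 1
    ring
  rw [ht, tt_mul_nT, h11, mul_assoc (tt σ ν), h1]
theorem VorM1.arg_zero : arg 0 = 0 := by simp [arg]
theorem VorM1.norm_Bc {α β ν : O} (h : Bc α β ν ≠ 0) :
    ν ≠ 0 ∧ ∃ σ : SL2, tt σ ν ≠ 0 ∧ ‖Bc α β ν‖ = ‖tt σ ν‖ * nr ν ^ (1 / 6 : ℝ) := by
  unfold Bc at h ⊢
  split_ifs at h ⊢ with h'
  · have hν : ν ≠ 0 := by
      rintro rfl
      exact h (by rw [VorM1.arg_zero, mul_zero])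
    refine ⟨hν, h'.choose, fun h0 => h (by rw [h0, zero_mul, zero_mul, zero_mul]), ?_⟩
    rw [norm_mul, norm_mul, norm_mul, norm_eq, norm_arg hν, mul_one, mul_one, Complex.norm_real,
      Real.norm_of_nonneg (by positivity)]
  · exact absurd rfl h
theorem VorM1.rpow_le {r : O} (hr : r ≠ 0) :
    nr r ^ (1 / 3 : ℝ) * nr r ^ (1 / 6 : ℝ) ≤ nr r ^ (1 : ℝ) := by
  rw [← Real.rpow_add (nr_pos hr)]
  exact Real.rpow_le_rpow_of_exponent_le (one_le_nr hr) (by norm_num)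
theorem Bc_support : ∃ C : ℝ, 0 < C ∧ ∀ α β ν : O, Bc α β ν ≠ 0 →
    ∃ (u : O) (j : ℕ) (n d : O), IsUnit u ∧ Primary n ∧ Squarefree n ∧ Primary d ∧
      ν = u * lam ^ j * (n * d ^ 3) ∧
      ‖Bc α β ν‖ ≤ C * (3 : ℝ) ^ ((j : ℝ) / 6) * Real.sqrt (nr d) := by
  obtain ⟨C, hC, H⟩ := tt_support
  refine ⟨C, hC, fun α β ν h => ?_⟩
  obtain ⟨hν, σ, h0, h1⟩ := VorM1.norm_Bc h
  rw [h1]
  exact H σ ν hν h0
theorem polyB_Bc : ∃ C : ℝ, ∀ α β : O, PolyB (Bc α β) C 1 := by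
  obtain ⟨C, hC, H⟩ := norm_tt_le
  refine ⟨C, fun α β => ⟨?_, fun ν => ?_⟩⟩
  · by_contra h
    exact (VorM1.norm_Bc h).1 rfl
  · by_cases h : Bc α β ν = 0
    · rw [h, norm_zero]
      positivity
    · obtain ⟨hν, σ, -, h1⟩ := VorM1.norm_Bc h
      rw [h1]
      calc ‖tt σ ν‖ * nr ν ^ (1 / 6 : ℝ) ≤ C * nr ν ^ (1 / 3 : ℝ) * nr ν ^ (1 / 6 : ℝ) :=
            mul_le_mul_of_nonneg_right (H σ ν hν) (by positivity)
        _ ≤ C * nr ν ^ (1 : ℝ) := by
            rw [mul_assoc]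
            exact mul_le_mul_of_nonneg_left (VorM1.rpow_le hν) hC.le
theorem polyB_tauh : ∃ C : ℝ, PolyB tauh C 1 := by
  obtain ⟨C, hC, H⟩ := norm_tt_le
  have h0 : tauh 0 = 0 := by rw [tauh, VorM1.arg_zero, map_zero, mul_zero]
  refine ⟨C * nr 9 ^ (1 / 3 : ℝ), h0, fun r => ?_⟩
  by_cases hr : r = 0
  · rw [hr, h0, norm_zero]
    positivity
  · have h9 : (9 : O) ≠ 0 := by
      rw [show (9 : O) = lam ^ 2 * lam ^ 2 by rw [lam_sq]; norm_num]
      exact mul_ne_zero (pow_ne_zero _ prime_lam.ne_zero) (pow_ne_zero _ prime_lam.ne_zero)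
    have h1 := H 1 (9 * r) (mul_ne_zero h9 hr)
    rw [nr_mul, Real.mul_rpow (by positivity) (by positivity)] at h1
    rw [tauh, norm_mul, norm_mul, RCLike.norm_conj, norm_arg hr, mul_one, Complex.norm_real,
      Real.norm_of_nonneg (by positivity)]
    calc ‖tt 1 (9 * r)‖ * nr r ^ (1 / 6 : ℝ)
        ≤ C * (nr 9 ^ (1 / 3 : ℝ) * nr r ^ (1 / 3 : ℝ)) * nr r ^ (1 / 6 : ℝ) :=
          mul_le_mul_of_nonneg_right h1 (by positivity)
      _ = C * nr 9 ^ (1 / 3 : ℝ) * (nr r ^ (1 / 3 : ℝ) * nr r ^ (1 / 6 : ℝ)) := by ring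
      _ ≤ C * nr 9 ^ (1 / 3 : ℝ) * nr r ^ (1 : ℝ) :=
          mul_le_mul_of_nonneg_left (VorM1.rpow_le hr) (by positivity)

/-- Dependence on the generic part `D` of the denominator: the cusp is `b / β₀ + a / D`. -/
theorem Bc_struct {β₀ D a b a' b' : O} (hβ : β₀ ≠ 0) (hD : Primary D) (hDβ : IsCoprime D β₀)
    (hb : IsCoprime b β₀) (ha' : D ∣ a' * (9 * β₀ ^ 2 * a) - 1) (hb' : β₀ ∣ b' - b * D ^ 2)
    (ν : O) :
    Bc (b * D + a * β₀) (β₀ * D) ν = conj (cub D a) * eq (-(ν * a')) D * Bc b' β₀ ν := by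
  obtain ⟨s, hs⟩ := hb'
  obtain ⟨m, hm⟩ := ha'
  have hb'' : IsCoprime b' β₀ := by
    rw [show b' = b * D ^ 2 + β₀ * s by linear_combination hs]
    exact (hb.mul_left hDβ.pow_left).add_mul_left_left s
  obtain ⟨δ, y, hdet⟩ := hb''
  -- `σ₁ = (b' -y; β₀ δ)`
  have h1 : β₀ * D ∣ (b * D + a * β₀) * (D * δ + 9 * β₀ * a') - 1 := by
    refine hDβ.symm.mul_dvd ⟨-y - δ * s + 9 * a' * b * D + a * (D * δ + 9 * β₀ * a'), ?_⟩
      ⟨m + b * (D * δ + 9 * β₀ * a') + a * β₀ * δ, ?_⟩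
    · linear_combination hdet - δ * hs
    · linear_combination hm
  obtain ⟨x, hx⟩ := h1
  set σ₁ : SL2 := mkSL b' (-y) β₀ δ (by linear_combination hdet) with hσ₁
  set τ : SL2 := mkSL δ y (-β₀) b' (by linear_combination hdet) with hτ
  set σ : SL2 := mkSL (b * D + a * β₀) x (β₀ * D) (D * δ + 9 * β₀ * a')
    (by linear_combination hx) with hσ
  have hτσ : τ * σ₁ = 1 := by
    refine Matrix.SpecialLinearGroup.ext _ _ fun i j => ?_
    fin_cases i <;> fin_cases j <;>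
      simp [hτ, hσ₁, mkSL, Matrix.mul_apply, Fin.sum_univ_two]
    · linear_combination hdet
    · ring
    · ring
    · linear_combination hdet
  have hc : (σ * τ) 1 0 = -1 * (9 * β₀ * a' * β₀) := by
    simp [hτ, hσ, mkSL, Matrix.mul_apply, Fin.sum_univ_two]
    ring
  have hd : (σ * τ) 1 1 = D + 9 * β₀ * a' * b' := by
    simp [hτ, hσ, mkSL, Matrix.mul_apply, Fin.sum_univ_two]
    linear_combination D * hdet
  have hpr : Primary (D + 9 * β₀ * a' * b') := by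
    obtain ⟨k, hk⟩ := hD
    exact ⟨k + 3 * β₀ * a' * b', by linear_combination hk⟩
  have hmem : σ * τ ∈ Gam := mem_Gam.2
    ⟨by rw [hc]; exact ⟨-(β₀ * a' * β₀), by ring⟩, by rw [hd]; exact hpr⟩
  have h9 : (9 : O) ∣ D + 9 * β₀ * a' * b' - D := ⟨β₀ * a' * b', by ring⟩
  have hkap : kap (σ * τ) = conj (cub D a) := by
    have hDa : IsCoprime D a := ⟨-m, a' * (9 * β₀ ^ 2), by linear_combination hm⟩
    have e1 : cub D (9 * β₀ * a' * β₀) * cub D a = 1 := by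
      rw [← cub_mul_right, cub_congr (b := 1) ((rad_dvd D).trans ⟨m, by linear_combination hm⟩),
        cub_one_right]
    rw [kap, hc, hd, cub_mul_right, cub_neg_one, one_mul, cub_mul_right,
      cub_congr9' hpr hD h9 ⟨b', by ring⟩, cub_congr9' hpr hD h9 ⟨9 * a' * b', by ring⟩,
      ← cub_mul_right]
    have e2 := Gauss_conj_mul (norm_cub hD hDa)
    linear_combination conj (cub D a) * e1 - cub D (9 * β₀ * a' * β₀) * e2
  have e3 : tt σ ν = conj (cub D a) * tt σ₁ ν := by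
    rw [← hkap, ← tt_mul_Gam hmem, mul_assoc, hτσ, mul_one]
  have e4 := Bc_spec σ (mul_ne_zero hβ hD.ne_zero) ν
  have e5 := Bc_spec σ₁ hβ ν
  simp only [hσ, hσ₁, mkSL_00, mkSL_10, mkSL_11] at e4 e5
  have h9β : 9 * β₀ ≠ 0 := by
    refine mul_ne_zero ?_ hβ
    rw [show (9 : O) = lam ^ 2 * lam ^ 2 by rw [lam_sq]; norm_num]
    exact mul_ne_zero (pow_ne_zero _ prime_lam.ne_zero) (pow_ne_zero _ prime_lam.ne_zero)
  have e6 : eq (-(ν * (D * δ + 9 * β₀ * a'))) (9 * (β₀ * D)) =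
      eq (-(ν * a')) D * eq (-(ν * δ)) (9 * β₀) := by
    rw [← eq_mul_mul h9β (-(ν * a')) D, ← eq_mul_mul hD.ne_zero (-(ν * δ)) (9 * β₀),
      show D * (9 * β₀) = 9 * β₀ * D by ring, ← eq_add, mul_assoc 9 β₀ D]
    congr 1
    ring
  rw [e4, e5, e6, ← hσ, ← hσ₁, e3]
  ring


/-- **Additive Voronoi formula.** -/
theorem voronoi_add {α β : O} (h : IsCoprime α β) (hβ : β ≠ 0) {x : ℝ} (hx : 0 < x) :
    ∑' r : O, tauh r * eq (r * α) β * (U1 (81 * b1 * nr r * x) : ℂ) =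
      (((81 : ℝ) ^ (-(1 / 6 : ℝ)) : ℝ) : ℂ) * (ι β ^ 2)⁻¹ * (x : ℂ)⁻¹ *
        ∑' ν : O, Bc α β ν * (U1 (b1 / nr β ^ 2 * nr ν / x) : ℂ) := by
  obtain ⟨σ, rfl, rfl⟩ := exists_SL_col h
  simp only [Bc_spec σ hβ]
  exact VorM2.voronoi σ hβ hx

end Crest.Agent.R17
end
end

-- ▼ part PVc/R17/ReflAux

/-!
# Row 17, reflection module O: twisted Voronoi formula and the local computations
-/

set_option autoImplicit false

noncomputable section

namespace Crest.Agent.R17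

open scoped ComplexConjugate

/-- Constants. -/
def c1 : ℝ := (81 : ℝ) ^ (5 / 6 : ℝ) * b1
def c2 : ℝ := 81 * b1 ^ 2

theorem c1_pos : 0 < c1 := by unfold c1; have := b1_pos; positivity
theorem c2_pos : 0 < c2 := by unfold c2; have := b1_pos; positivity

/-! ## part O1 -/

theorem O1_polyB_mul {a : O → ℂ} {H B : ℝ} (ha : PolyB a H B) {e : O → ℂ}
    (he : ∀ n, ‖e n‖ ≤ 1) : PolyB (fun n => a n * e n) H B := by
  refine ⟨by simp [ha.1], fun n => ?_⟩
  rw [norm_mul]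
  exact (mul_le_of_le_one_right (norm_nonneg _) (he n)).trans (ha.2 n)

theorem voronoi_W {α β : O} (h : IsCoprime α β) (hβ : β ≠ 0) {X : ℝ} (hX : 0 < X) (s : ℂ) :
    ∑' r : O, tauh r * eq (r * α) β * Wc (nr r / X) s =
      (ι β ^ 2)⁻¹ * ((c1 * X : ℝ) : ℂ) *
        ∑' ν : O, Bc α β ν * Vr (c2 * X / nr β ^ 2 * nr ν) s := by
  obtain ⟨C, hC⟩ := polyB_tauh
  obtain ⟨C', hC'⟩ := polyB_Bc
  have hb := b1_pos
  have hn := nr_pos hβ
  have h1 := mellin_transfer (O1_polyB_mul hC fun r => (norm_eq (r * α) β).le) (hC' α β)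
    (A := 81 * b1) (B := b1 / nr β ^ 2) (by positivity) (by positivity)
    (fun x hx => voronoi_add h hβ hx) hX s
  have e1 : 81 * b1 * (b1 / nr β ^ 2) * X = c2 * X / nr β ^ 2 := by
    unfold c2
    ring
  have e2 : (81 : ℝ) ^ (-(1 / 6 : ℝ)) * (81 * b1 * X) = c1 * X := by
    have : (81 : ℝ) ^ (5 / 6 : ℝ) = (81 : ℝ) ^ (-(1 / 6 : ℝ)) * 81 := by
      rw [← Real.rpow_add_one (by norm_num)]
      norm_num
    unfold c1
    rw [this]
    ring
  rw [h1, e1, ← e2, Complex.ofReal_mul _ (81 * b1 * X)]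
  ring

/-- Characters modulo `D` as functions on `O`. -/
structure IsChr (D : O) (ψ : O → ℂ) : Prop where
  mul : ∀ x y, ψ (x * y) = ψ x * ψ y
  per : ∀ x y, D ∣ x - y → ψ x = ψ y
  zero : ∀ x, ¬ IsCoprime x D → ψ x = 0
  norm : ∀ x, IsCoprime x D → ‖ψ x‖ = 1

/-- The dual character. -/
def dualChr (D : O) (ψ : O → ℂ) (x : O) : ℂ := conj (ψ x) * cub D x

theorem IsChr.dual {D : O} (hD : Primary D) {ψ : O → ℂ} (h : IsChr D ψ) :
    IsChr D (dualChr D ψ) := by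
  refine ⟨fun x y => ?_, fun x y hxy => ?_, fun x hx => ?_, fun x hx => ?_⟩
  · unfold dualChr
    rw [h.mul, map_mul, cub_mul_right]
    ring
  · unfold dualChr
    rw [h.per x y hxy, cub_congr ((rad_dvd D).trans hxy)]
  · unfold dualChr
    rw [h.zero x hx, map_zero, zero_mul]
  · unfold dualChr
    rw [norm_mul, Complex.norm_conj, h.norm x hx, norm_cub hD hx.symm, one_mul]
theorem IsChr.mul_mul {D E : O} {ψ χ : O → ℂ} (h : IsChr D ψ) (h' : IsChr E χ) :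
    IsChr (D * E) fun x => ψ x * χ x := by
  refine ⟨fun x y => ?_, fun x y hxy => ?_, fun x hx => ?_, fun x hx => ?_⟩
  · rw [h.mul, h'.mul]
    ring
  · rw [h.per x y ((dvd_mul_right D E).trans hxy), h'.per x y ((dvd_mul_left E D).trans hxy)]
  · rw [IsCoprime.mul_right_iff, not_and_or] at hx
    rcases hx with hx | hx
    · rw [h.zero x hx, zero_mul]
    · rw [h'.zero x hx, mul_zero]
  · rw [IsCoprime.mul_right_iff] at hx
    rw [norm_mul, h.norm x hx.1, h'.norm x hx.2, one_mul]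
theorem IsChr.ft_mul {D E : O} (hD : D ≠ 0) (hE : E ≠ 0) (hDE : IsCoprime D E) {ψ χ : O → ℂ}
    (h : IsChr D ψ) (h' : IsChr E χ) (k : O) :
    ft (D * E) (fun x => ψ x * χ x) k = ψ E * χ D * ft D ψ k * ft E χ k := by
  rw [Crest.Agent.R17.ft_mul hD hE hDE ψ χ h.per h'.per k]
  unfold ft
  simp only [h.mul, h'.mul, mul_assoc, ← Finset.mul_sum]
  ring

theorem IsChr.O1_one {D : O} {ψ : O → ℂ} (h : IsChr D ψ) : ψ 1 = 1 := by
  have h1 := h.norm 1 isCoprime_one_left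
  have h2 := h.mul 1 1
  rw [one_mul] at h2
  have h3 : ψ 1 ≠ 0 := fun h0 => by simp [h0] at h1
  exact mul_left_cancel₀ h3 (by rw [← h2, mul_one])

theorem IsChr.O1_conj {D : O} {ψ : O → ℂ} (h : IsChr D ψ) {x y : O} (hxy : D ∣ y * x - 1) :
    conj (ψ x) = ψ y := by
  have hx : IsCoprime x D := by
    obtain ⟨k, hk⟩ := hxy
    exact ⟨y, -k, by linear_combination hk⟩
  have h1 : ψ y * ψ x = 1 := by rw [← h.mul, h.per _ _ hxy, h.O1_one]
  have h2 : conj (ψ x) * ψ x = 1 := by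
    rw [Complex.conj_mul', h.norm x hx]
    simp
  have h3 : ψ x ≠ 0 := right_ne_zero_of_mul_eq_one h1
  exact mul_right_cancel₀ h3 (h2.trans h1.symm)

theorem O1_exists_inv {D c : O} (hD : D ≠ 0) (hc : IsCoprime c D) :
    ∃ inv : O → O, ∀ a, IsCoprime a D → inv a ∈ res D ∧ D ∣ inv a * (c * a) - 1 := by
  have : ∀ a, ∃ a', IsCoprime a D → a' ∈ res D ∧ D ∣ a' * (c * a) - 1 := by
    intro a
    by_cases ha : IsCoprime a D
    · obtain ⟨u, v, huv⟩ := hc.mul_left ha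
      obtain ⟨r, ⟨hr, k, hk⟩, -⟩ := exists_unique_res hD u
      exact ⟨r, fun _ => ⟨hr, -v - k * (c * a), by linear_combination huv - (c * a) * hk⟩⟩
    · exact ⟨0, fun h => absurd h ha⟩
  exact Classical.skolem.1 this

theorem O1_sum_inv {D c : O} (hD : D ≠ 0) {χ : O → ℂ} (h : IsChr D χ) {inv : O → O}
    (hinv : ∀ a, IsCoprime a D → inv a ∈ res D ∧ D ∣ inv a * (c * a) - 1) (g : O → ℂ) :
    ∑ a ∈ res D, conj (χ a) * g (inv a) = χ c * ∑ x ∈ res D, χ x * g x := by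
  classical
  have hcop : ∀ a, IsCoprime a D → IsCoprime (inv a) D := fun a ha => by
    obtain ⟨k, hk⟩ := (hinv a ha).2
    exact ⟨c * a, -k, by linear_combination hk⟩
  have hinv2 : ∀ a ∈ res D, IsCoprime a D → inv (inv a) = a := fun a ha hc => by
    obtain ⟨k, hk⟩ := (hinv a hc).2
    obtain ⟨h1, l, hl⟩ := hinv _ (hcop a hc)
    refine (exists_unique_res hD a).unique ⟨h1, ?_⟩ ⟨ha, by simp⟩
    exact ⟨inv (inv a) * k - a * l, by linear_combination inv (inv a) * hk - a * hl⟩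
  rw [Finset.mul_sum, ← Finset.sum_filter_of_ne (p := fun a => IsCoprime a D),
    ← Finset.sum_filter_of_ne (p := fun a => IsCoprime a D) (s := res D)
      (f := fun x => χ c * (χ x * g x))]
  · refine Finset.sum_nbij' inv inv ?_ ?_ ?_ ?_ ?_
    · intro a ha
      rw [Finset.mem_filter] at ha ⊢
      exact ⟨(hinv a ha.2).1, hcop a ha.2⟩
    · intro a ha
      rw [Finset.mem_filter] at ha ⊢
      exact ⟨(hinv a ha.2).1, hcop a ha.2⟩
    · intro a ha
      rw [Finset.mem_filter] at ha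
      exact hinv2 a ha.1 ha.2
    · intro a ha
      rw [Finset.mem_filter] at ha
      exact hinv2 a ha.1 ha.2
    · intro a ha
      rw [Finset.mem_filter] at ha
      have h1 : D ∣ c * inv a * a - 1 := by
        convert (hinv a ha.2).2 using 2
        ring
      rw [h.O1_conj h1, h.mul, mul_assoc]
  · intro x _ hx
    by_contra hn
    exact hx (by rw [h.zero x hn, zero_mul, mul_zero])
  · intro x _ hx
    by_contra hn
    exact hx (by rw [h.zero x hn, map_zero, zero_mul])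

/-- Voronoi formula twisted by the Gauss sums of a character modulo the generic modulus `D`. -/
theorem voronoi_twist {β₀ D b b' : O} (hβ : β₀ ≠ 0) (hD : Primary D) (hDβ : IsCoprime D β₀)
    (hb : IsCoprime b β₀) (hb' : β₀ ∣ b' - b * D ^ 2) {ψ : O → ℂ} (hψ : IsChr D ψ)
    {X : ℝ} (hX : 0 < X) (s : ℂ) :
    ∑' r : O, tauh r * eq (r * b) β₀ * ft D ψ r * Wc (nr r / X) s =
      (ι (β₀ * D) ^ 2)⁻¹ * ((c1 * X : ℝ) : ℂ) * dualChr D ψ (9 * β₀ ^ 2) *
        ∑' ν : O, Bc b' β₀ ν * ft D (dualChr D ψ) (-ν) *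
          Vr (c2 * X / nr (β₀ * D) ^ 2 * nr ν) s := by
  have hD0 := hD.ne_zero
  have hβD := mul_ne_zero hβ hD0
  have hc : IsCoprime (9 * β₀ ^ 2) D := by
    refine IsCoprime.mul_left ?_ hDβ.symm.pow_left
    rw [show (9 : O) = 3 ^ 2 by norm_num]
    exact hD.isCoprime_three.symm.pow_left
  obtain ⟨inv, hinv⟩ := O1_exists_inv hD0 hc
  obtain ⟨C, hC⟩ := polyB_tauh
  obtain ⟨C', hC'⟩ := polyB_Bc
  have hcX : 0 < c2 * X / nr (β₀ * D) ^ 2 := by
    have := c2_pos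
    have := nr_pos hβD
    positivity
  set Y := c2 * X / nr (β₀ * D) ^ 2 with hY
  set K := (ι (β₀ * D) ^ 2)⁻¹ * ((c1 * X : ℝ) : ℂ) with hK
  have hs1 : ∀ a : O, Summable fun r : O =>
      ψ a * (tauh r * eq (r * (b * D + a * β₀)) (β₀ * D) * Wc (nr r / X) s) := fun a =>
    (summable_Sm (O1_polyB_mul hC fun r => (norm_eq _ _).le) hX s).of_norm.mul_left _
  have hs2 : ∀ a : O, Summable fun ν : O => K * (conj (dualChr D ψ a) *
      (Bc b' β₀ ν * eq (-ν * inv a) D * Vr (Y * nr ν) s)) := fun a =>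
    ((summable_mul_Vr (O1_polyB_mul (hC' b' β₀) fun ν => (norm_eq _ _).le) hcX
      s).of_norm.mul_left _).mul_left _
  have e1 : ∀ r : O, tauh r * eq (r * b) β₀ * ft D ψ r * Wc (nr r / X) s = ∑ a ∈ res D,
      ψ a * (tauh r * eq (r * (b * D + a * β₀)) (β₀ * D) * Wc (nr r / X) s) := fun r => by
    unfold ft
    rw [Finset.mul_sum, Finset.sum_mul]
    refine Finset.sum_congr rfl fun a _ => ?_
    rw [show r * (b * D + a * β₀) = D * (r * b) + β₀ * (r * a) by ring, eq_crt hβ hD0]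
    ring
  have e2 : ∀ a : O, ∑' r : O,
      ψ a * (tauh r * eq (r * (b * D + a * β₀)) (β₀ * D) * Wc (nr r / X) s) =
      ∑' ν : O, K * (conj (dualChr D ψ a) *
        (Bc b' β₀ ν * eq (-ν * inv a) D * Vr (Y * nr ν) s)) := fun a => by
    by_cases ha : IsCoprime a D
    · have hcop : IsCoprime (b * D + a * β₀) (β₀ * D) := by
        refine IsCoprime.mul_right ?_ ?_
        · exact (hb.mul_left hDβ).add_mul_right_left a
        · rw [add_comm]
          exact (ha.mul_left hDβ.symm).add_mul_right_left b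
      rw [tsum_mul_left, voronoi_W hcop hβD hX s, tsum_mul_left, mul_left_comm, ← tsum_mul_left]
      congr 1
      refine tsum_congr fun ν => ?_
      rw [Bc_struct hβ hD hDβ hb (hinv a ha).2 hb' ν, dualChr, map_mul, Complex.conj_conj,
        neg_mul]
      ring
    · simp [dualChr, hψ.zero a ha]
  rw [tsum_congr e1, Summable.tsum_finsetSum fun a _ => hs1 a, Finset.sum_congr rfl fun a _ => e2 a,
    ← Summable.tsum_finsetSum fun a _ => hs2 a, ← tsum_mul_left]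
  refine tsum_congr fun ν => ?_
  have e3 := O1_sum_inv hD0 (hψ.dual hD) hinv fun x => eq (-ν * x) D
  unfold ft
  calc _ = K * (Bc b' β₀ ν * Vr (Y * nr ν) s) *
        ∑ a ∈ res D, conj (dualChr D ψ a) * eq (-ν * inv a) D := by
        rw [Finset.mul_sum]
        exact Finset.sum_congr rfl fun a _ => by ring
    _ = _ := by
        rw [e3]
        ring

/-! ## part O2: local expansions -/

/-- The character `∏_{p ∣ r} conj χ_p^{v_p(h)}` modulo `r`. -/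
def psiH (h r x : O) : ℂ := ∏ p ∈ pf r, sym p x ^ (5 * vp p h + 6)

theorem isChr_sym_pow {n : O} (hn : PO n) {j : ℕ} (hj : j ≠ 0) : IsChr n fun x => sym n x ^ j :=
  ⟨fun x y => by rw [sym_mul_right hn, mul_pow], Gauss_sym_per n j,
    fun x hx => by rw [(sym_eq_zero_iff hn.1).2 fun h => hx h.symm, zero_pow hj],
    fun x hx => by rw [norm_pow, norm_sym hn.1 hx.symm, one_pow]⟩

theorem O2_po {r p : O} (hr : PO r) (hp : p ∈ pf r) : PO p :=
  hr.of_dvd (BasicB.of_mem_pf hp).2.1 (BasicB.of_mem_pf hp).2.2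

theorem isChr_psiH (h : O) {r : O} (hr : PO r) : IsChr r (psiH h r) := by
  refine ⟨fun x y => ?_, fun x y hxy => ?_, fun x hx => ?_, fun x hx => ?_⟩
  · rw [psiH, psiH, psiH, ← Finset.prod_mul_distrib]
    exact Finset.prod_congr rfl fun p hp => by rw [sym_mul_right (O2_po hr hp), mul_pow]
  · exact Finset.prod_congr rfl fun p hp =>
      Gauss_sym_per p _ x y ((BasicB.of_mem_pf hp).2.2.trans hxy)
  · have h0 := (sym_eq_zero_iff hr.1).2 fun h' => hx h'.symm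
    rw [sym_eq_prod] at h0
    obtain ⟨p, hp, h1⟩ := Finset.prod_eq_zero_iff.1 h0
    exact Finset.prod_eq_zero hp (by rw [eq_zero_of_pow_eq_zero h1, zero_pow (by omega)])
  · rw [psiH, norm_prod]
    exact Finset.prod_eq_one fun p hp => by
      rw [norm_pow, norm_sym (O2_po hr hp).1
        (hx.symm.of_isCoprime_of_dvd_left (BasicB.of_mem_pf hp).2.2), one_pow]

theorem O2_ft_gs {n : O} {f : O → ℂ} {j : ℕ} (hf : ∀ x, f x = sym n x ^ (j + 6)) (k : O) :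
    ft n f k = gs j n k := Finset.sum_congr rfl fun x _ => by rw [hf]

theorem sym_eq_ft {n : O} (hn : PO n) (hs : Squarefree n) (x : O) :
    sym n x * gs 5 n 1 = ft n (fun a => sym n a ^ 5) x := by
  rw [O2_ft_gs (j := 5) fun a => (sym_pow_add_six hn.1 a (by omega)).symm,
    gs_sqfree (by omega) hn hs x, map_pow, conj_sym hn.1, ← pow_mul,
    Gauss_sym_pow hn.1 x one_ne_zero 4, pow_one]
theorem ft_dual_five {n : O} (hn : PO n) (hs : Squarefree n) (ν : O) :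
    ft n (dualChr n fun a => sym n a ^ 5) (-ν) = quad n (-1) * gs 3 n 1 * quad n ν := by
  rw [O2_ft_gs (j := 3) fun a => ?_, gs_sqfree (by omega) hn hs, sym_pow_three hn.1, conj_quad,
    ← neg_one_mul ν, quad_mul_right hn]
  · ring
  · rw [dualChr, map_pow, conj_sym hn.1, ← sym_sq hn.1, ← pow_mul, ← pow_add]
    exact Gauss_sym_pow hn.1 a (j := 3 + 6) (by omega) 3
theorem ft_dual_six {n : O} (hn : PO n) (hs : Squarefree n) (ν : O) :
    ft n (dualChr n fun a => sym n a ^ 6) (-ν) = gc n 1 * sym n ν ^ 4 := by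
  rw [O2_ft_gs (j := 2) fun a => ?_, gs_two hn.1, gc_sqfree hn.1 hs, ← neg_one_mul ν,
    cub_mul_right, cub_neg_one, one_mul, conj_cub, ← sym_sq hn.1, ← pow_mul, mul_comm]
  rw [dualChr, map_pow, conj_sym hn.1, ← sym_sq hn.1, ← pow_mul, ← pow_add]
  exact Gauss_sym_pow hn.1 a (j := 2 + 6) (by omega) 4

theorem O2_sum_pdiv {z : O} (hz : Primary z) (hs : Squarefree z) (F : O → ℂ) :
    ∑ d ∈ pdiv z, F d = ∑ S ∈ (pf z).powerset, F (∏ q ∈ S, q) := by
  have hn := hz.ne_zero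
  refine Finset.sum_nbij' pf (fun s => ∏ q ∈ s, q) (fun d hd => ?_) (fun s hs => ?_)
    (fun d hd => ?_) (fun s hs => ?_) fun d hd => ?_
  · refine Finset.mem_powerset.2 fun p hp => ?_
    obtain ⟨h3, h4, h5⟩ := BasicB.of_mem_pf hp
    exact (mem_pf hn).2 ⟨h3, h4, h5.trans ((mem_pdiv hn).1 hd).2⟩
  · have hs' := Finset.mem_powerset.1 hs
    have h2 := squarefree_prod_primes (s := s) fun q hq => BasicB.pf_sub (hs' hq)
    exact (mem_pdiv hn).2 ⟨h2.2.1, BasicB.prod_dvd_of_subset hn hs'⟩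
  · exact ((mem_pdiv hn).1 hd).1.eq_rad (hs.squarefree_of_dvd ((mem_pdiv hn).1 hd).2)
  · exact (squarefree_prod_primes fun q hq => BasicB.pf_sub (Finset.mem_powerset.1 hs hq)).2.2
  · exact congrArg F (((mem_pdiv hn).1 hd).1.eq_rad
      (hs.squarefree_of_dvd ((mem_pdiv hn).1 hd).2)).symm

theorem O2_coprime {S : Finset O} (hS : ∀ p ∈ S, Prime p ∧ PO p) {q : O} (hq : Prime q)
    (hq' : PO q) (h : q ∉ S) : IsCoprime q (∏ p ∈ S, p) :=
  IsCoprime.prod_right fun p hp => hq.coprime_iff_not_dvd.2 fun hd =>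
    h (BasicB.eq_of_dvd hq (hS p hp).1 hq'.1 (hS p hp).2.1 hd ▸ hp)

theorem O2_po_prod {S : Finset O} (hS : ∀ p ∈ S, Prime p ∧ PO p) : PO (∏ p ∈ S, p) :=
  ⟨Primary.prod fun p hp => (hS p hp).2.1, IsCoprime.prod_left fun p hp => (hS p hp).2.2⟩

/-- Gauss sums of a product of local characters factor up to a unimodular constant. -/
theorem O2_ft_prod (e : O → ℕ) (S : Finset O) : ∃ u : ℂ, (∀ p ∈ S, Prime p ∧ PO p) →
    ‖u‖ = 1 ∧ ∀ k, ft (∏ p ∈ S, p) (fun x => ∏ p ∈ S, sym p x ^ (e p + 6)) k =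
      u * ∏ p ∈ S, gs (e p) p k := by
  classical
  induction S using Finset.induction_on with
  | empty =>
    refine ⟨1, fun _ => ⟨norm_one, fun k => ?_⟩⟩
    simpa [ft] using sum_res_eq_char one_ne_zero k
  | insert q S hq ih =>
    obtain ⟨u, hu⟩ := ih
    refine ⟨sym q (∏ p ∈ S, p) ^ (e q + 6) * (∏ p ∈ S, sym p q ^ (e p + 6)) * u, fun hS => ?_⟩
    have hS' : ∀ p ∈ S, Prime p ∧ PO p := fun p hp => hS p (Finset.mem_insert_of_mem hp)
    obtain ⟨h1, h2⟩ := hS q (Finset.mem_insert_self _ _)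
    obtain ⟨hu1, hu2⟩ := hu hS'
    have hc := O2_coprime hS' h1 h2 hq
    refine ⟨?_, fun k => ?_⟩
    · rw [norm_mul, norm_mul, norm_pow, norm_sym h2.1 hc, hu1, norm_prod,
        Finset.prod_eq_one fun p hp => ?_]
      · simp
      · rw [norm_pow, norm_sym (hS' p hp).2.1
          (hc.symm.of_isCoprime_of_dvd_left (Finset.dvd_prod_of_mem _ hp)), one_pow]
    · simp only [Finset.prod_insert hq]
      have h3 := Gauss_crt (f := fun x => sym q x ^ (e q + 6))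
        (g := fun x => ∏ p ∈ S, sym p x ^ (e p + 6)) h1.ne_zero (O2_po_prod hS').1.ne_zero hc
        (Gauss_sym_per q _)
        (fun x y hxy => Finset.prod_congr rfl fun p hp =>
          Gauss_sym_per p _ x y ((Finset.dvd_prod_of_mem _ hp).trans hxy))
        (fun x y => by rw [sym_mul_right h2, mul_pow])
        (fun x y => by
          rw [← Finset.prod_mul_distrib]
          exact Finset.prod_congr rfl fun p hp => by rw [sym_mul_right (hS' p hp).2, mul_pow]) k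
      refine h3.trans ?_
      have h4 : Gauss_G (fun x => ∏ p ∈ S, sym p x ^ (e p + 6)) (∏ p ∈ S, p) k = _ := hu2 k
      rw [h4, show Gauss_G (fun x => sym q x ^ (e q + 6)) q k = gs (e q) q k from rfl]
      ring

theorem O2_gs_zero_prod {S : Finset O} (hS : ∀ p ∈ S, Prime p ∧ PO p) (k : O) :
    gs 0 (∏ p ∈ S, p) k = ∏ p ∈ S, gs 0 p k := by
  classical
  induction S using Finset.induction_on with
  | empty => simp
  | insert q S hq ih =>
    have hS' : ∀ p ∈ S, Prime p ∧ PO p := fun p hp => hS p (Finset.mem_insert_of_mem hp)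
    obtain ⟨h1, h2⟩ := hS q (Finset.mem_insert_self _ _)
    rw [Finset.prod_insert hq, Finset.prod_insert hq,
      gs_mul 0 h2 (O2_po_prod hS') (O2_coprime hS' h1 h2 hq), ih hS']
    simp

open Classical in
theorem mark_eq_sum {z : O} (hz : PO z) (hs : Squarefree z) (x : O) :
    (if z ∣ x then 1 else 0 : ℂ) =
      (((nr z)⁻¹ : ℝ) : ℂ) * ∑ za ∈ pdiv z, ft za (fun a => sym za a ^ 6) x := by
  have hP : ∀ p ∈ pf z, Prime p ∧ PO p := fun p hp => ⟨(BasicB.pf_sub hp).1, O2_po hz hp⟩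
  have hr : ∏ p ∈ pf z, p = z := hz.1.eq_rad hs
  have h1 : ∑ za ∈ pdiv z, ft za (fun a => sym za a ^ 6) x =
      ∏ p ∈ pf z, (1 + gs 0 p x) := by
    rw [O2_sum_pdiv hz.1 hs, Finset.prod_one_add]
    exact Finset.sum_congr rfl fun S hS =>
      O2_gs_zero_prod (fun p hp => hP p (Finset.mem_powerset.1 hS hp)) x
  have h2 : ∏ p ∈ pf z, (1 + gs 0 p x) = ∏ p ∈ pf z, if p ∣ x then (nm p : ℂ) else 0 :=
    Finset.prod_congr rfl fun p hp => by
      rw [gs_prime_zero (dvd_zero 6) (hP p hp).1 (hP p hp).2]; ring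
  rw [h1, h2]
  split_ifs with hx
  · rw [Finset.prod_congr rfl fun p hp => if_pos ((BasicB.of_mem_pf hp).2.2.trans hx),
      ← Nat.cast_prod, ← nm_prod, hr]
    have h3 : (nm z : ℂ) = ((nr z : ℝ) : ℂ) := by simp [nr]
    rw [h3, ← Complex.ofReal_mul, inv_mul_cancel₀ (nr_pos hz.1.ne_zero).ne', Complex.ofReal_one]
  · obtain ⟨p, hp, hpx⟩ : ∃ p ∈ pf z, ¬ p ∣ x := by
      by_contra! H
      refine hx (hr ▸ Finset.prod_dvd_of_coprime (fun p hp q hq hpq => ?_) H)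
      exact (hP p hp).1.coprime_iff_not_dvd.2 fun hd =>
        hpq (BasicB.eq_of_dvd (hP p hp).1 (hP q hq).1 (hP p hp).2.1 (hP q hq).2.1 hd)
    rw [Finset.prod_eq_zero hp (if_neg hpx), mul_zero]

/-- The local expansion at one prime. -/
theorem O2_local (p : O) (v : ℕ) : ∃ c0 c1 : ℂ, Prime p → PO p → v ≠ 0 →
    ‖c0‖ ≤ 1 ∧ ‖c1‖ ≤ (Real.sqrt (nr p))⁻¹ ∧ ∀ x, sym p x ^ v = c1 * gs (5 * v) p x + c0 := by
  classical
  by_cases h6 : 6 ∣ v
  · refine ⟨((1 - (nr p)⁻¹ : ℝ) : ℂ), ((-(nr p)⁻¹ : ℝ) : ℂ), fun hp hp' hv => ?_⟩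
    have h1 := one_le_nr hp.ne_zero
    have h2 : (nr p)⁻¹ ≤ 1 := inv_le_one_of_one_le₀ h1
    have h3 : 0 < (nr p)⁻¹ := by positivity
    refine ⟨?_, ?_, fun x => ?_⟩
    · rw [Complex.norm_real, Real.norm_of_nonneg (by linarith)]; linarith
    · rw [Complex.norm_real, norm_neg, Real.norm_of_nonneg h3.le]
      exact inv_anti₀ (by positivity) (Real.sqrt_le_iff.2 ⟨by linarith, by nlinarith⟩)
    · have h4 : (nm p : ℂ) = ((nr p : ℝ) : ℂ) := by simp [nr]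
      have h5 : ((nr p : ℝ) : ℂ) ≠ 0 := by exact_mod_cast (by linarith : nr p ≠ 0)
      rw [gs_prime_zero (h6.mul_left 5) hp hp', h4]
      generalize nr p = N at h5
      push_cast
      split_ifs with hx
      · rw [(sym_eq_zero_iff hp'.1).2 fun hc => hp.not_isUnit (hc.isUnit_of_dvd' dvd_rfl hx),
          zero_pow hv]
        field_simp
        ring
      · obtain ⟨v, rfl⟩ := h6
        rw [pow_mul, sym_pow_six hp'.1 (hp.coprime_iff_not_dvd.2 hx), one_pow]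
        ring
  · refine ⟨0, (gs (5 * v) p 1)⁻¹, fun hp hp' hv => ?_⟩
    have h1 := Gauss_norm_gs (j := 5 * v) (by omega) hp' hp.squarefree
    have h2 : gs (5 * v) p 1 ≠ 0 := by
      rw [← norm_ne_zero_iff, h1]
      exact (Real.sqrt_pos.2 (nr_pos hp.ne_zero)).ne'
    refine ⟨by simp, by rw [norm_inv, h1], fun x => ?_⟩
    rw [gs_sqfree (by omega) hp' hp.squarefree x, map_pow, conj_sym hp'.1, ← pow_mul,
      show 5 * (5 * v) = v + 6 * (4 * v) by ring, Gauss_sym_pow hp'.1 x hv]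
    field_simp
    ring

open Classical in
theorem O2_local_bound {p : O} (hp : Prime p) (hp' : PO p) (v : ℕ) (ν : O) :
    (Real.sqrt (nr p))⁻¹ * ‖gs (v + 2) p (-ν)‖ ≤ if v % 6 = 4 then
      (Real.sqrt (nr p))⁻¹ + if p ∣ ν then Real.sqrt (nr p) else 0 else 1 := by
  have h0 := nr_pos hp.ne_zero
  have h1 : 0 < Real.sqrt (nr p) := Real.sqrt_pos.2 h0
  by_cases h4 : v % 6 = 4
  · rw [if_pos h4, gs_prime_zero (by omega) hp hp']
    simp only [dvd_neg]
    split_ifs with hx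
    · have h2 : ‖(nm p : ℂ) - 1‖ ≤ 1 + nr p := by
        refine (norm_sub_le _ _).trans ?_
        simp [nr, add_comm]
      have h3 : (Real.sqrt (nr p))⁻¹ * nr p = Real.sqrt (nr p) := by
        rw [inv_mul_eq_iff_eq_mul₀ h1.ne', Real.mul_self_sqrt h0.le]
      calc _ ≤ (Real.sqrt (nr p))⁻¹ * (1 + nr p) := by gcongr
        _ = _ := by rw [mul_add, mul_one, h3]
    · simp
  · rw [if_neg h4, gs_sqfree (by omega) hp' hp.squarefree, norm_mul,
      Gauss_norm_gs (by omega) hp' hp.squarefree, Complex.norm_conj, norm_pow,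
      mul_left_comm, inv_mul_cancel₀ h1.ne', mul_one]
    exact pow_le_one₀ (norm_nonneg _) (norm_sym_le _ _)

open Classical in
theorem sym_eq_sum {h : O} (hh : PO h) : ∃ coef : O → ℂ,
    (∀ x, sym h x = ∑ r ∈ pdiv (rad h), coef r * ft r (psiH h r) x) ∧
    ∀ r ∈ pdiv (rad h), ∀ ν : O, ‖coef r * ft r (dualChr r (psiH h r)) (-ν)‖ ≤
      ∏ p ∈ (pf r).filter (fun p => vp p h % 6 = 4),
        ((Real.sqrt (nr p))⁻¹ + if p ∣ ν then Real.sqrt (nr p) else 0) := by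
  choose c0 c1 hc using fun p => O2_local p (vp p h)
  choose u hu using O2_ft_prod fun p => 5 * vp p h
  have hP : ∀ p ∈ pf h, Prime p ∧ PO p := fun p hp => ⟨(BasicB.pf_sub hp).1, O2_po hh hp⟩
  have hc' := fun p hp => hc p (hP p hp).1 (hP p hp).2 (BasicB.vp_ne_zero hp)
  refine ⟨fun r => (u (pf r))⁻¹ * (∏ p ∈ pf r, c1 p) * ∏ p ∈ pf h \ pf r, c0 p, fun x => ?_,
    fun r hr ν => ?_⟩
  · rw [O2_sum_pdiv (primary_rad h) (squarefree_rad h), pf_rad, sym_eq_prod,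
      Finset.prod_congr rfl fun p hp => (hc' p hp).2.2 x, Finset.prod_add]
    refine Finset.sum_congr rfl fun S hS => ?_
    have hS' : ∀ p ∈ S, Prime p ∧ PO p := fun p hp => hP p (Finset.mem_powerset.1 hS hp)
    have h1 := (squarefree_prod_primes (s := S) fun q hq => ⟨(hS' q hq).1, (hS' q hq).2.1⟩).2.2
    obtain ⟨h2, h3⟩ := hu S hS'
    have h4 : u S ≠ 0 := by rw [← norm_ne_zero_iff, h2]; exact one_ne_zero
    have h5 : psiH h (∏ q ∈ S, q) = fun x => ∏ p ∈ S, sym p x ^ (5 * vp p h + 6) := by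
      funext y; rw [psiH, h1]
    simp only [h5, h3, h1, Finset.prod_mul_distrib]
    field_simp
  · obtain ⟨hr1, hr2⟩ := (mem_pdiv (primary_rad h).ne_zero).1 hr
    have hsq := (squarefree_rad h).squarefree_of_dvd hr2
    have hsub : pf r ⊆ pf h := fun p hp => by
      obtain ⟨h3, h4, h5⟩ := BasicB.of_mem_pf hp
      exact (mem_pf hh.1.ne_zero).2 ⟨h3, h4, h5.trans (hr2.trans (rad_dvd h))⟩
    have hS' : ∀ p ∈ pf r, Prime p ∧ PO p := fun p hp => hP p (hsub hp)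
    have hrr : ∏ p ∈ pf r, p = r := hr1.eq_rad hsq
    obtain ⟨w, hw⟩ := O2_ft_prod (fun p => vp p h + 2) (pf r)
    obtain ⟨hw1, hw2⟩ := hw hS'
    have h5 : dualChr r (psiH h r) = fun x => ∏ p ∈ pf r, sym p x ^ (vp p h + 2 + 6) := by
      funext y
      rw [dualChr, psiH, map_prod, ← sym_sq hr1, sym_eq_prod, ← Finset.prod_pow,
        ← Finset.prod_mul_distrib]
      refine Finset.prod_congr rfl fun p hp => ?_
      have h6 : vp p r = 1 := le_antisymm (BasicB.vp_le_one hsq (hS' p hp).1)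
        (Nat.one_le_iff_ne_zero.2 (BasicB.vp_ne_zero hp))
      rw [h6, pow_one, map_pow, conj_sym (hS' p hp).2.1, ← pow_mul, ← pow_add,
        ← Gauss_sym_pow (hS' p hp).2.1 y (j := vp p h + 2 + 6) (by omega) (4 * vp p h + 4)]
      congr 1
      ring
    rw [hrr] at hw2
    rw [h5, hw2, Finset.prod_filter]
    simp only [norm_mul, norm_inv, (hu _ hS').1, hw1, norm_prod, inv_one, one_mul]
    have h7 : ∏ p ∈ pf h \ pf r, ‖c0 p‖ ≤ 1 :=
      Finset.prod_le_one (fun _ _ => norm_nonneg _) fun p hp => (hc' p (Finset.mem_sdiff.1 hp).1).1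
    calc _ ≤ (∏ p ∈ pf r, ‖c1 p‖) * 1 * ∏ p ∈ pf r, ‖gs (vp p h + 2) p (-ν)‖ := by gcongr
      _ = ∏ p ∈ pf r, ‖c1 p‖ * ‖gs (vp p h + 2) p (-ν)‖ := by
        rw [mul_one, Finset.prod_mul_distrib]
      _ ≤ _ := Finset.prod_le_prod (fun _ _ => by positivity) fun p hp =>
        (mul_le_mul_of_nonneg_right (hc' p (hsub hp)).2.1 (norm_nonneg _)).trans
          (O2_local_bound (hS' p hp).1 (hS' p hp).2 _ ν)

/-! ## part O3: separation of the variables -/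

theorem O3_norm_le {D : O} {ψ : O → ℂ} (h : IsChr D ψ) (x : O) : ‖ψ x‖ ≤ 1 := by
  by_cases hx : IsCoprime x D
  · exact (h.norm x hx).le
  · simp [h.zero x hx]

theorem O3_dual_mul {D E : O} (hD : D ≠ 0) (hE : E ≠ 0) (ψ χ : O → ℂ) :
    dualChr (D * E) (fun x => ψ x * χ x) = fun x => dualChr D ψ x * dualChr E χ x := by
  funext x
  simp only [dualChr, map_mul, cub_mul_left hD hE]
  ring

theorem O3_ft {a r z : O} (ha : a ≠ 0) (hr : r ≠ 0) (hz : z ≠ 0) (har : IsCoprime a r)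
    (haz : IsCoprime a z) (hrz : IsCoprime r z) {f g k : O → ℂ} (hf : IsChr a f) (hg : IsChr r g)
    (hk : IsChr z k) (x : O) : ft (a * r * z) (fun y => f y * g y * k y) x =
      f z * k a * (g z * k r) * (f r * g a) * (ft a f x * ft r g x * ft z k x) := by
  rw [(hf.mul_mul hg).ft_mul (mul_ne_zero ha hr) hz (haz.mul_left hrz) hk,
    hf.ft_mul ha hr har hg, hk.mul]
  ring

theorem O3_cross {a z : O} (ha : Primary a) (hz : Primary z) (haz : IsCoprime a z) :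
    dualChr a (fun x => sym a x ^ 5) z * dualChr z (fun x => sym z x ^ 6) a =
      sym a z ^ 5 * sym z a ^ 6 := by
  simp only [dualChr, sym_pow_six hz haz.symm, map_one, one_mul, mul_one, map_pow, conj_sym ha,
    cub_recip hz ha, ← sym_sq ha]
  have h := sym_pow_six ha haz
  calc (sym a z ^ 5) ^ 5 * sym a z ^ 2 * sym a z ^ 2 = sym a z ^ 5 * (sym a z ^ 6) ^ 4 := by ring
    _ = sym a z ^ 5 := by rw [h, one_pow, mul_one]

theorem O3_norm_arg {a : O} (ha : a ≠ 0) : ‖((nr a : ℝ) : ℂ) / ι a ^ 2‖ = 1 := by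
  rw [norm_div, norm_pow, norm_ι_sq, Complex.norm_real, Real.norm_of_nonneg (nr_pos ha).le,
    div_self (nr_pos ha).ne']

theorem O3_mul_le {x y : ℂ} (hx : ‖x‖ ≤ 1) (hy : ‖y‖ ≤ 1) : ‖x * y‖ ≤ 1 := by
  rw [norm_mul]
  exact mul_le_one₀ hx (norm_nonneg _) hy

theorem O3_div_le {x y : ℂ} (hx : ‖x‖ ≤ 1) (hy : ‖y‖ = 1) : ‖x / y‖ ≤ 1 := by
  rwa [norm_div, hy, div_one]

theorem O3_trunc (A : O → ℂ) : ∃ ρ : O → ℂ, (∀ x, ‖ρ x‖ ≤ 1) ∧ ∀ x, ‖A x‖ ≤ 1 → ρ x = A x := by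
  classical
  refine ⟨fun x => if ‖A x‖ ≤ 1 then A x else 0, fun x => ?_, fun x hx => if_pos hx⟩
  beta_reduce
  split_ifs with hx
  · exact hx
  · simp

theorem O3_alg {f g k l m n f' k' l' m' n' : O → ℂ}
    {u1 u2 u3 u4 u5 u6 v1 v2 v3 v4 e1 e2 e3 g5 g3 gz q sz ia ir iz ib na nr nz C : ℂ}
    (h1 : u1 ≠ 0) (h2 : u2 ≠ 0) (h3 : u3 ≠ 0) (h4 : u4 ≠ 0) (h5 : u5 ≠ 0) (h6 : u6 ≠ 0)
    (h7 : g5 ≠ 0) (h8 : sz ≠ 0) (j1 : na ≠ 0) (j2 : nr ≠ 0) (j3 : nz ≠ 0)
    (key : ∑' x, f x * g x * (u5 * u6 * (u3 * u4) * (u1 * u2) * (k x * g5 * l x * m x)) * n x =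
      ((ib * (ia * ir * iz)) ^ 2)⁻¹ * C * (e1 * e2 * e3) * ∑' x, f' x *
        (u5 * u6 * (v3 * v4) * (v1 * v2) * (q * g3 * k' x * l' x * (gz * m' x))) * n' x) :
    ∑' x, f x * g x * (k x * l x * m x) * n x =
      v1 / u1 * (v2 / u2) * e1 * q * (g3 / g5) * (na / ia ^ 2) *
        (v3 / u3 * (v4 / u4) * e3 * (gz / sz) * (nz / iz ^ 2)) * (e2 * (nr / ir ^ 2) * (ib ^ 2)⁻¹) *
        (C / (na * nr * nz) * sz) * ∑' x, f' x * l' x * k' x * m' x * n' x := by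
  have a1 : ∑' x, f x * g x * (u5 * u6 * (u3 * u4) * (u1 * u2) * (k x * g5 * l x * m x)) * n x =
      u5 * u6 * (u3 * u4) * (u1 * u2) * g5 * ∑' x, f x * g x * (k x * l x * m x) * n x := by
    rw [← tsum_mul_left]
    exact tsum_congr fun x => by ring
  have a2 : ∑' x, f' x *
      (u5 * u6 * (v3 * v4) * (v1 * v2) * (q * g3 * k' x * l' x * (gz * m' x))) * n' x =
      u5 * u6 * (v3 * v4) * (v1 * v2) * q * g3 * gz * ∑' x, f' x * l' x * k' x * m' x * n' x := by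
    rw [← tsum_mul_left]
    exact tsum_congr fun x => by ring
  rw [a1, a2] at key
  refine mul_left_cancel₀ (mul_ne_zero (mul_ne_zero (mul_ne_zero (mul_ne_zero h5 h6)
    (mul_ne_zero h3 h4)) (mul_ne_zero h1 h2)) h7) (key.trans ?_)
  generalize ∑' x, f' x * l' x * k' x * m' x * n' x = S
  have a3 : (1 : ℂ) = u1 * u1⁻¹ * (u2 * u2⁻¹) * (u3 * u3⁻¹) * (u4 * u4⁻¹) * (g5 * g5⁻¹) *
      (sz * sz⁻¹) * (na * na⁻¹) * (nr * nr⁻¹) * (nz * nz⁻¹) := by
    simp only [mul_inv_cancel₀, ne_eq, not_false_eq_true, h1, h2, h3, h4, h7, h8, j1, j2, j3,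
      mul_one]
  refine (one_mul _).symm.trans ?_
  rw [a3]
  ring

theorem refl_core {β₀ b h r : O} (hβ : β₀ ≠ 0) (hb : IsCoprime b β₀) (hr : PO r)
    (hrβ : IsCoprime r β₀) : ∃ (ρ ρ' : O → ℂ) (ω : ℂ), (∀ x, ‖ρ x‖ ≤ 1) ∧ (∀ x, ‖ρ' x‖ ≤ 1) ∧
    ‖ω‖ ≤ 1 ∧ ∀ r₁ za b' : O, PO r₁ → Squarefree r₁ → PO za → Squarefree za → IsCoprime r₁ r →
      IsCoprime r₁ za → IsCoprime r za → IsCoprime r₁ β₀ → IsCoprime za β₀ →
      β₀ ∣ b' - b * (r₁ * r * za) ^ 2 → ∀ X : ℝ, 0 < X → ∀ s : ℂ,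
      ∑' x : O, tauh x * eq (x * b) β₀ *
          (sym r₁ x * ft r (psiH h r) x * ft za (fun a => sym za a ^ 6) x) * Wc (nr x / X) s =
        ρ r₁ * ρ' za * ω * ((c1 * X / (nr r₁ * nr r * nr za) * Real.sqrt (nr za) : ℝ) : ℂ) *
          ∑' ν : O, Bc b' β₀ ν * ft r (dualChr r (psiH h r)) (-ν) * quad r₁ ν * sym za ν ^ 4 *
            Vr (c2 * X / (nr β₀ * (nr r₁ * nr r * nr za)) ^ 2 * nr ν) s := by
  have hr0 := hr.1.ne_zero
  have h2 := isChr_psiH h hr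
  have d2 := h2.dual hr.1
  obtain ⟨ρ, hρ, hρA⟩ := O3_trunc fun a =>
    dualChr a (fun x => sym a x ^ 5) r / sym a r ^ 5 *
      (dualChr r (psiH h r) a / psiH h r a) * dualChr a (fun x => sym a x ^ 5) (9 * β₀ ^ 2) *
      quad a (-1) * (gs 3 a 1 / gs 5 a 1) * (((nr a : ℝ) : ℂ) / ι a ^ 2)
  obtain ⟨ρ', hρ', hρA'⟩ := O3_trunc fun z =>
    dualChr r (psiH h r) z / psiH h r z * (dualChr z (fun x => sym z x ^ 6) r / sym z r ^ 6) *
      dualChr z (fun x => sym z x ^ 6) (9 * β₀ ^ 2) * (gc z 1 / ((Real.sqrt (nr z) : ℝ) : ℂ)) *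
      (((nr z : ℝ) : ℂ) / ι z ^ 2)
  refine ⟨ρ, ρ', dualChr r (psiH h r) (9 * β₀ ^ 2) * (((nr r : ℝ) : ℂ) / ι r ^ 2) *
    (ι β₀ ^ 2)⁻¹, hρ, hρ', ?_, ?_⟩
  · refine O3_mul_le (O3_mul_le (O3_norm_le d2 _) (O3_norm_arg hr0).le) ?_
    rw [norm_inv, norm_pow, norm_ι_sq]
    exact inv_le_one_of_one_le₀ (one_le_nr hβ)
  intro a z b' ha has hz hzs har haz hrz haβ hzβ hb' X hX s
  have ha0 := ha.1.ne_zero
  have hz0 := hz.1.ne_zero
  have h1 := isChr_sym_pow ha (j := 5) (by norm_num)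
  have h3 := isChr_sym_pow hz (j := 6) (by norm_num)
  have d1 := h1.dual ha.1
  have d3 := h3.dual hz.1
  have n1 : ‖sym a r ^ 5‖ = 1 := h1.norm r har.symm
  have n2 : ‖psiH h r a‖ = 1 := h2.norm a har
  have n3 : ‖psiH h r z‖ = 1 := h2.norm z hrz.symm
  have n4 : ‖sym z r ^ 6‖ = 1 := h3.norm r hrz
  have n5 : ‖sym a z ^ 5‖ = 1 := h1.norm z haz.symm
  have n6 : ‖sym z a ^ 6‖ = 1 := h3.norm a haz
  have sa : 0 < Real.sqrt (nr a) := Real.sqrt_pos.2 (nr_pos ha0)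
  have sz : 0 < Real.sqrt (nr z) := Real.sqrt_pos.2 (nr_pos hz0)
  have g3 := Gauss_norm_gs (j := 3) (by norm_num) ha has
  have g5 := Gauss_norm_gs (j := 5) (by norm_num) ha has
  rw [hρA a (O3_mul_le (O3_mul_le (O3_mul_le (O3_mul_le (O3_mul_le
      (O3_div_le (O3_norm_le d1 _) n1) (O3_div_le (O3_norm_le d2 _) n2)) (O3_norm_le d1 _))
      (norm_quad_le _ _)) (by rw [norm_div, g3, g5, div_self sa.ne'])) (O3_norm_arg ha0).le),
    hρA' z (O3_mul_le (O3_mul_le (O3_mul_le (O3_mul_le (O3_div_le (O3_norm_le d2 _) n3)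
      (O3_div_le (O3_norm_le d3 _) n4)) (O3_norm_le d3 _))
      (by rw [norm_div, norm_gc hz.1 hzs, Complex.norm_real, Real.norm_of_nonneg sz.le,
        div_self sz.ne'])) (O3_norm_arg hz0).le)]
  have key := voronoi_twist hβ ((ha.1.mul hr.1).mul hz.1) ((haβ.mul_left hrβ).mul_left hzβ) hb hb'
    ((h1.mul_mul h2).mul_mul h3) hX s
  rw [O3_dual_mul (mul_ne_zero ha0 hr0) hz0, O3_dual_mul ha0 hr0] at key
  simp only [O3_ft ha0 hr0 hz0 har haz hrz h1 h2 h3, O3_ft ha0 hr0 hz0 har haz hrz d1 d2 d3,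
    O3_cross ha.1 hz.1 haz, ← sym_eq_ft ha has, ft_dual_five ha has, ft_dual_six hz hzs, nr_mul,
    map_mul] at key
  have ne : ∀ {w : ℂ}, ‖w‖ = 1 → w ≠ 0 := fun hw => norm_ne_zero_iff.1 (hw ▸ one_ne_zero)
  have hn : ∀ {w : O}, w ≠ 0 → ((nr w : ℝ) : ℂ) ≠ 0 := fun hw =>
    Complex.ofReal_ne_zero.2 (nr_pos hw).ne'
  rw [Complex.ofReal_mul (c1 * X / _), Complex.ofReal_div, Complex.ofReal_mul (nr a * nr r),
    Complex.ofReal_mul (nr a)]
  exact O3_alg (ne n1) (ne n2) (ne n3) (ne n4) (ne n5) (ne n6)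
    (norm_ne_zero_iff.1 (g5 ▸ sa.ne')) (Complex.ofReal_ne_zero.2 sz.ne')
    (hn ha0) (hn hr0) (hn hz0) key

end Crest.Agent.R17
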