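import Crest.Agent.PVc.R17.LS2Defs
import Crest.Agent.PVc.R17.ReflAux
import Crest.Agent.PVc.R17.Rows

-- ▼ part PVc/R17/M4P1AuxB
section

/-!
# Row 17, module M4, part P1b: auxiliary lemmas (reindexing, Mellin separation, tails)
-/

set_option autoImplicit false

noncomputable section

namespace Crest.Agent.R17

open scoped ComplexConjugate

namespace P1b

open MeasureTheory

/-! ### Reindexing -/

theorem mem_sp_of_dvd {M n d : O} {R : ℝ} (hR : 0 ≤ R) (hn : n ∈ sp M R) (hd : Primary d)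
    (h : d ∣ n) : d ∈ sp M R := by
  rw [LS2.mem_sp hR] at hn ⊢
  refine ⟨LS2.SP_of_dvd hn.1 hd h, le_trans ?_ hn.2⟩
  exact_mod_cast nm_le_of_dvd h hn.1.1.ne_zero

theorem primary_of_mem {M n : O} {R : ℝ} (hR : 0 ≤ R) (hn : n ∈ sp M R) : Primary n :=
  ((LS2.mem_sp hR).1 hn).1.1

open Classical in
theorem sum_dvd {A : Type*} [AddCommMonoid A] {M h : O} {R : ℝ} (hR : 0 ≤ R) (hh : Primary h)
    (f : O → A) (hf : ∀ x, f x ≠ 0 → x ∈ sp M R) :
    ∑ x ∈ sp M R, (if h ∣ x then f x else 0) = ∑ a ∈ sp M R, f (h * a) := by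
  symm
  refine Finset.sum_bij_ne_zero (fun a _ _ => h * a) ?_ ?_ ?_ ?_
  · intro a _ ha; exact hf _ ha
  · intro a₁ _ _ a₂ _ _ e; exact mul_left_cancel₀ hh.ne_zero e
  · intro x hx hx0
    have hd : h ∣ x := by by_contra hn; exact hx0 (if_neg hn)
    rw [if_pos hd] at hx0
    obtain ⟨a, rfl⟩ := hd
    exact ⟨a, mem_sp_of_dvd hR hx (hh.of_mul (primary_of_mem hR hx)) (dvd_mul_left _ _), hx0, rfl⟩
  · intro a _ _; rw [if_pos (dvd_mul_right _ _)]

open Classical in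
theorem sum_dvd2 {A : Type*} [AddCommMonoid A] {M h : O} {R : ℝ} (hR : 0 ≤ R) (hh : Primary h)
    (G : O → O → A) (hG : ∀ x y, G x y ≠ 0 → x ∈ sp M R ∧ y ∈ sp M R) :
    ∑ x ∈ sp M R, ∑ y ∈ sp M R, (if h ∣ x ∧ h ∣ y then G x y else 0) =
      ∑ a ∈ sp M R, ∑ b ∈ sp M R, G (h * a) (h * b) := by
  have h1 : ∀ x, ∑ y ∈ sp M R, (if h ∣ x ∧ h ∣ y then G x y else 0) =
      if h ∣ x then ∑ b ∈ sp M R, G x (h * b) else 0 := by
    intro x
    by_cases hx : h ∣ x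
    · simp only [hx, true_and, if_true]
      exact sum_dvd hR hh (G x) fun y hy => (hG x y hy).2
    · simp [hx]
  simp only [h1]
  refine sum_dvd hR hh (fun x => ∑ b ∈ sp M R, G x (h * b)) fun x hx => ?_
  obtain ⟨b, -, hb⟩ := Finset.exists_ne_zero_of_sum_ne_zero hx
  exact (hG _ _ hb).1

open Classical in
/-- Reindexing of pairs by their gcd. -/
theorem sum_gcd {A : Type*} [AddCommMonoid A] {M : O} {R : ℝ} (hR : 0 ≤ R)
    (G : O → O → A) (hG : ∀ x y, G x y ≠ 0 → x ∈ sp M R ∧ y ∈ sp M R) :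
    ∑ x ∈ sp M R, ∑ y ∈ sp M R, G x y =
      ∑ g ∈ sp M R, ∑ a ∈ sp M R, ∑ b ∈ sp M R,
        if IsCoprime a b then G (g * a) (g * b) else 0 := by
  have h1 : ∀ x ∈ sp M R, ∀ y ∈ sp M R, G x y = ∑ g ∈ sp M R,
      if g ∣ x ∧ g ∣ y then (if pgcd x y = g then G x y else 0) else 0 := by
    intro x hx y hy
    have hx0 := (primary_of_mem hR hx).ne_zero
    have hy0 := (primary_of_mem hR hy).ne_zero
    have hd := (dvd_pgcd_iff hx0 hy0 (primary_pgcd x y)).1 dvd_rfl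
    rw [Finset.sum_eq_single (pgcd x y)]
    · rw [if_pos hd, if_pos rfl]
    · intro g _ hg
      rw [if_neg (Ne.symm hg), ite_self]
    · intro hn
      exact absurd (mem_sp_of_dvd hR hx (primary_pgcd x y) hd.1) hn
  rw [Finset.sum_congr rfl fun x hx => Finset.sum_congr rfl fun y hy => h1 x hx y hy]
  rw [Finset.sum_congr rfl fun x _ => Finset.sum_comm, Finset.sum_comm]
  refine Finset.sum_congr rfl fun g hg => ?_
  have hgp := primary_of_mem hR hg
  rw [sum_dvd2 hR hgp (fun x y => if pgcd x y = g then G x y else 0)]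
  · refine Finset.sum_congr rfl fun a ha => Finset.sum_congr rfl fun b hb => ?_
    have hap := primary_of_mem hR ha
    have hbp := primary_of_mem hR hb
    rw [pgcd_mul_left hgp hap.ne_zero hbp.ne_zero]
    refine if_congr ?_ rfl rfl
    rw [← pgcd_eq_one_iff hap hbp.ne_zero]
    exact mul_eq_left₀ hgp.ne_zero
  · intro x y h
    refine hG x y fun h0 => h ?_
    rw [h0, ite_self]

open Classical in
/-- Removing a coprimality condition. -/
theorem sum_cop {M : O} {R : ℝ} (hR : 0 ≤ R)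
    (H : O → O → ℂ) (hH : ∀ x y, H x y ≠ 0 → x ∈ sp M R ∧ y ∈ sp M R) :
    ∑ a ∈ sp M R, ∑ b ∈ sp M R, (if IsCoprime a b then H a b else 0) =
      ∑ h ∈ sp M R, mu h * ∑ a ∈ sp M R, ∑ b ∈ sp M R, H (h * a) (h * b) := by
  have h1 : ∀ a ∈ sp M R, ∀ b ∈ sp M R, (if IsCoprime a b then H a b else 0) =
      ∑ h ∈ sp M R, if h ∣ a ∧ h ∣ b then mu h * H a b else 0 := by
    intro a ha b hb
    have hap := primary_of_mem hR ha
    have hbp := primary_of_mem hR hb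
    have e1 : (pdiv a).filter (· ∣ b) = (sp M R).filter (fun h => h ∣ a ∧ h ∣ b) := by
      ext h
      simp only [Finset.mem_filter, mem_pdiv hap.ne_zero]
      constructor
      · rintro ⟨⟨h1, h2⟩, h3⟩
        exact ⟨mem_sp_of_dvd hR ha h1 h2, h2, h3⟩
      · rintro ⟨h1, h2, h3⟩
        exact ⟨⟨primary_of_mem hR h1, h2⟩, h3⟩
    have e2 := sum_mu_coprime hap hbp.ne_zero
    rw [← Finset.sum_filter, ← Finset.sum_mul, ← e1]
    convert_to _ = (if IsCoprime a b then (1 : ℂ) else 0) * H a b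
    · congr 1
    · split_ifs <;> simp
  rw [Finset.sum_congr rfl fun a ha => Finset.sum_congr rfl fun b hb => h1 a ha b hb]
  rw [Finset.sum_congr rfl fun x _ => Finset.sum_comm, Finset.sum_comm]
  refine Finset.sum_congr rfl fun h hh => ?_
  rw [sum_dvd2 hR (primary_of_mem hR hh) (fun x y => mu h * H x y)]
  · simp only [Finset.mul_sum]
  · intro x y h0
    exact hH x y (right_ne_zero_of_mul h0)

/-! ### Mellin separation -/

/-- A Dirichlet polynomial on a vertical line. -/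
def DP (S : Finset O) (p : O → ℂ) (σ u : ℝ) : ℂ :=
  ∑ a ∈ S, p a * (nr a : ℂ) ^ ((σ : ℂ) + u * Complex.I)

theorem continuous_cpow {x : ℝ} (hx : 0 < x) (σ : ℝ) :
    Continuous fun u : ℝ => (x : ℂ) ^ ((σ : ℂ) + u * Complex.I) :=
  Continuous.const_cpow (by fun_prop) (Or.inl (Complex.ofReal_ne_zero.2 hx.ne'))

theorem norm_cpow {x : ℝ} (hx : 0 < x) (σ u : ℝ) :
    ‖(x : ℂ) ^ ((σ : ℂ) + u * Complex.I)‖ = x ^ σ := by
  rw [Complex.norm_cpow_eq_rpow_re_of_pos hx]; simp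

theorem continuous_DP {S : Finset O} (hS : ∀ a ∈ S, a ≠ 0) (p : O → ℂ) (σ : ℝ) :
    Continuous (DP S p σ) :=
  continuous_finsetSum _ fun a ha => continuous_const.mul (continuous_cpow (nr_pos (hS a ha)) σ)

theorem norm_DP_le {S : Finset O} (hS : ∀ a ∈ S, a ≠ 0) (p : O → ℂ) (σ u : ℝ) :
    ‖DP S p σ u‖ ≤ ∑ a ∈ S, ‖p a‖ * nr a ^ σ := by
  refine (norm_sum_le _ _).trans (Finset.sum_le_sum fun a ha => ?_)
  rw [norm_mul, norm_cpow (nr_pos (hS a ha))]

theorem integrable_normGamma {σ : ℝ} (hσ : 0 < σ) :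
    Integrable fun u : ℝ => ‖Complex.Gamma (σ + u * Complex.I)‖ := by
  simpa using integrable_Gamma_mul_pow hσ 0

theorem integrable_Gamma {σ : ℝ} (hσ : 0 < σ) :
    Integrable fun u : ℝ => Complex.Gamma (σ + u * Complex.I) :=
  (integrable_norm_iff (WA.continuous_Gamma_line hσ).aestronglyMeasurable).1
    (integrable_normGamma hσ)

theorem integrable_DP {S : Finset O} (hS : ∀ a ∈ S, a ≠ 0) (p : O → ℂ) {σ : ℝ} (hσ : 0 < σ) :
    Integrable fun u : ℝ => ‖Complex.Gamma (σ + u * Complex.I)‖ * ‖DP S p σ u‖ ^ 2 := by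
  refine (integrable_normGamma hσ).mul_bdd (c := (∑ a ∈ S, ‖p a‖ * nr a ^ σ) ^ 2)
    ((continuous_DP hS p σ).norm.pow 2).aestronglyMeasurable (Filter.Eventually.of_forall fun u => ?_)
  rw [Real.norm_of_nonneg (by positivity)]
  exact pow_le_pow_left₀ (norm_nonneg _) (norm_DP_le hS p σ u) 2

theorem norm_Gamma_neg (σ u : ℝ) :
    ‖Complex.Gamma (σ + (-u : ℝ) * Complex.I)‖ = ‖Complex.Gamma (σ + u * Complex.I)‖ := by
  have : (σ + (-u : ℝ) * Complex.I : ℂ) = conj (σ + u * Complex.I : ℂ) := by simp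
  rw [this, Complex.Gamma_conj, Complex.norm_conj]

theorem conj_cpow {x : ℝ} (hx : 0 < x) (σ u : ℝ) :
    conj ((x : ℂ) ^ ((σ : ℂ) + (-u : ℝ) * Complex.I)) = (x : ℂ) ^ ((σ : ℂ) + u * Complex.I) := by
  rw [WA.cpow_eq hx, WA.cpow_eq hx, ← Complex.exp_conj]
  congr 1
  simp

theorem cpow_split {Z x y : ℝ} (hZ : 0 < Z) (hx : 0 < x) (hy : 0 < y) (s : ℂ) :
    ((Z / (x * y) : ℝ) : ℂ) ^ (-s) = (Z : ℂ) ^ (-s) * ((x : ℂ) ^ s * (y : ℂ) ^ s) := by
  rw [WA.cpow_eq (by positivity), WA.cpow_eq hZ, WA.cpow_eq hx, WA.cpow_eq hy, ← Complex.exp_add,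
    ← Complex.exp_add, Real.log_div hZ.ne' (by positivity), Real.log_mul hx.ne' hy.ne']
  congr 1
  push_cast
  ring

/-- Mellin separation of a bilinear form with kernel `gw (Z / (N a N b))`. -/
theorem mellin_bil {S : Finset O} (hS : ∀ a ∈ S, a ≠ 0) (p q : O → ℂ) {σ Z : ℝ} (hσ : 0 < σ)
    (hZ : 0 < Z) :
    ‖∑ a ∈ S, ∑ b ∈ S, (gw (Z / (nr a * nr b)) : ℂ) * (p a * conj (q b))‖ ≤
      Z ^ (-σ) * ((∫ u : ℝ, ‖Complex.Gamma (σ + u * Complex.I)‖ * ‖DP S p σ u‖ ^ 2) +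
        ∫ u : ℝ, ‖Complex.Gamma (σ + u * Complex.I)‖ * ‖DP S q σ u‖ ^ 2) := by
  set c : ℝ := 2 * Real.pi / Real.sqrt 3 with hc
  have hc3 : 3 ≤ c := pois_three_le
  have hcZ : 0 < c * Z := by positivity
  -- the summands of the integrand
  set T : O → O → ℝ → ℂ := fun a b u => Complex.Gamma (σ + u * Complex.I) *
    (((c * Z : ℝ) : ℂ) ^ (-((σ : ℂ) + u * Complex.I)) *
      ((p a * (nr a : ℂ) ^ ((σ : ℂ) + u * Complex.I)) *
        conj (q b * (nr b : ℂ) ^ ((σ : ℂ) + (-u : ℝ) * Complex.I)))) with hT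
  have hneg : ∀ u : ℝ, ‖((c * Z : ℝ) : ℂ) ^ (-((σ : ℂ) + u * Complex.I))‖ = (c * Z) ^ (-σ) := by
    intro u
    rw [Complex.norm_cpow_eq_rpow_re_of_pos hcZ]; simp
  have hcn : Continuous fun u : ℝ => ((c * Z : ℝ) : ℂ) ^ (-((σ : ℂ) + u * Complex.I)) :=
    Continuous.const_cpow (by fun_prop) (Or.inl (Complex.ofReal_ne_zero.2 hcZ.ne'))
  have hTi : ∀ a ∈ S, ∀ b ∈ S, Integrable (T a b) := by
    intro a ha b hb
    refine (integrable_Gamma hσ).mul_bdd
      (c := (c * Z) ^ (-σ) * ((‖p a‖ * nr a ^ σ) * (‖q b‖ * nr b ^ σ))) ?_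
      (Filter.Eventually.of_forall fun u => ?_)
    · refine (hcn.mul ((continuous_const.mul (continuous_cpow (nr_pos (hS a ha)) σ)).mul
        (Complex.continuous_conj.comp (continuous_const.mul
          ((continuous_cpow (nr_pos (hS b hb)) σ).comp continuous_neg))))).aestronglyMeasurable
    · rw [norm_mul, norm_mul, Complex.norm_conj, norm_mul, norm_mul, hneg,
        norm_cpow (nr_pos (hS a ha)), norm_cpow (nr_pos (hS b hb))]
  have h1 : ∀ a ∈ S, ∀ b ∈ S, (gw (Z / (nr a * nr b)) : ℂ) * (p a * conj (q b)) =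
      (1 / (2 * Real.pi) : ℂ) * ∫ u, T a b u := by
    intro a ha b hb
    have ha' := nr_pos (hS a ha)
    have hb' := nr_pos (hS b hb)
    rw [gw_eq_integral (by positivity) hσ, mul_assoc, ← integral_mul_const]
    congr 1
    refine integral_congr_ae (Filter.Eventually.of_forall fun u => ?_)
    simp only [hT]
    rw [← hc, ← mul_div_assoc, cpow_split hcZ ha' hb', map_mul, conj_cpow hb']
    ring
  rw [Finset.sum_congr rfl fun a ha => Finset.sum_congr rfl fun b hb => h1 a ha b hb]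
  simp only [← Finset.mul_sum]
  rw [Finset.sum_congr rfl fun a ha => (integral_finsetSum S fun b hb => hTi a ha b hb).symm,
    ← integral_finsetSum S fun a ha => integrable_finsetSum S fun b hb => hTi a ha b hb]
  have h2 : ∀ u : ℝ, ∑ a ∈ S, ∑ b ∈ S, T a b u = Complex.Gamma (σ + u * Complex.I) *
      (((c * Z : ℝ) : ℂ) ^ (-((σ : ℂ) + u * Complex.I)) * (DP S p σ u * conj (DP S q σ (-u)))) := by
    intro u
    rw [DP, DP, map_sum, Finset.sum_mul_sum]
    simp only [hT, Finset.mul_sum]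
  simp only [h2]
  have hq := integrable_DP hS q hσ
  have hq' : Integrable fun u : ℝ => ‖Complex.Gamma (σ + u * Complex.I)‖ * ‖DP S q σ (-u)‖ ^ 2 := by
    have := hq.comp_neg
    simpa only [norm_Gamma_neg] using this
  have hqe : ∫ u : ℝ, ‖Complex.Gamma (σ + u * Complex.I)‖ * ‖DP S q σ (-u)‖ ^ 2 =
      ∫ u : ℝ, ‖Complex.Gamma (σ + u * Complex.I)‖ * ‖DP S q σ u‖ ^ 2 := by
    rw [← integral_neg_eq_self
      (fun u : ℝ => ‖Complex.Gamma (σ + u * Complex.I)‖ * ‖DP S q σ u‖ ^ 2) volume]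
    simp only [norm_Gamma_neg]
  have hle : (c * Z) ^ (-σ) ≤ Z ^ (-σ) :=
    Real.rpow_le_rpow_of_nonpos hZ (by nlinarith) (by linarith)
  have hpi : ‖(1 / (2 * Real.pi) : ℂ)‖ ≤ 1 := by
    rw [norm_div, norm_one, norm_mul, Complex.norm_real, Real.norm_of_nonneg Real.pi_pos.le]
    have := Real.pi_gt_three
    rw [div_le_one (by simp; positivity)]
    simp; linarith
  rw [norm_mul, ← hqe, ← integral_add (integrable_DP hS p hσ) hq', ← integral_const_mul]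
  refine (mul_le_of_le_one_left (norm_nonneg _) hpi).trans ?_
  refine norm_integral_le_of_norm_le (((integrable_DP hS p hσ).add hq').const_mul _)
    (Filter.Eventually.of_forall fun u => ?_)
  rw [norm_mul, norm_mul, norm_mul, Complex.norm_conj, hneg]
  have hz : 0 ≤ Z ^ (-σ) := by positivity
  have hx := norm_nonneg (DP S p σ u)
  have hy := norm_nonneg (DP S q σ (-u))
  have hg := norm_nonneg (Complex.Gamma (σ + u * Complex.I))
  set x := ‖DP S p σ u‖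
  set y := ‖DP S q σ (-u)‖
  set g := ‖Complex.Gamma (σ + u * Complex.I)‖
  calc g * ((c * Z) ^ (-σ) * (x * y)) ≤ g * (Z ^ (-σ) * (x ^ 2 + y ^ 2)) := by
        gcongr
        nlinarith [sq_nonneg (x - y), mul_nonneg hx hy]
    _ = _ := by ring

/-! ### The diagonal factor, the expansion of the square, splitting of a series -/

theorem sum_pdiv {z : O} (hz : Primary z) (hs : Squarefree z) (F : O → ℂ) :
    ∑ d ∈ pdiv z, F d = ∑ S ∈ (pf z).powerset, F (∏ q ∈ S, q) := by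
  have hn := hz.ne_zero
  refine Finset.sum_nbij' pf (fun s => ∏ q ∈ s, q) (fun d hd => ?_) (fun s hs => ?_)
    (fun d hd => ?_) (fun s hs => ?_) fun d hd => ?_
  · refine Finset.mem_powerset.2 fun p hp => ?_
    obtain ⟨h3, h4, h5⟩ := BasicB.of_mem_pf hp
    exact (mem_pf hn).2 ⟨h3, h4, h5.trans ((mem_pdiv hn).1 hd).2⟩
  · have hs' := Finset.mem_powerset.1 hs
    have h2 := squarefree_prod_primes (s := s) fun q hq => BasicB.pf_sub (hs' hq)
    exact (mem_pdiv hn).2 ⟨h2.2.1, BasicB.prod_dvd_of_subset hn hs'⟩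
  · exact ((mem_pdiv hn).1 hd).1.eq_rad (hs.squarefree_of_dvd ((mem_pdiv hn).1 hd).2)
  · exact (squarefree_prod_primes fun q hq => BasicB.pf_sub (Finset.mem_powerset.1 hs hq)).2.2
  · exact congrArg F (((mem_pdiv hn).1 hd).1.eq_rad
      (hs.squarefree_of_dvd ((mem_pdiv hn).1 hd).2)).symm

theorem diag_factor {g : O} (hg : Primary g) (hs : Squarefree g) :
    ‖∑ e ∈ pdiv g, mu e * (((nr e)⁻¹ : ℝ) : ℂ)‖ ≤ 1 := by
  have h1 : ∑ e ∈ pdiv g, mu e * (((nr e)⁻¹ : ℝ) : ℂ) =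
      ∏ p ∈ pf g, (1 + (-(((nr p)⁻¹ : ℝ) : ℂ))) := by
    rw [sum_pdiv hg hs, Finset.prod_one_add]
    refine Finset.sum_congr rfl fun S hS => ?_
    have h2 := squarefree_prod_primes (s := S)
      fun q hq => BasicB.pf_sub (Finset.mem_powerset.1 hS hq)
    rw [BasicB.mu_of_squarefree h2.1, h2.2.2, LS2.nr_prod, LS2.nP, Finset.prod_neg,
      ← Finset.prod_inv_distrib, Complex.ofReal_prod]
  rw [h1, norm_prod]
  refine Finset.prod_le_one (fun _ _ => norm_nonneg _) fun p hp => ?_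
  have h3 : 1 ≤ nr p := one_le_nr (BasicB.pf_sub hp).1.ne_zero
  have h4 : (nr p)⁻¹ ≤ 1 := inv_le_one_of_one_le₀ h3
  have h5 : 0 ≤ (nr p)⁻¹ := by positivity
  have : (1 + (-(((nr p)⁻¹ : ℝ) : ℂ))) = ((1 - (nr p)⁻¹ : ℝ) : ℂ) := by push_cast; ring
  rw [this, Complex.norm_real, Real.norm_of_nonneg (by linarith)]
  linarith

theorem expand {X : ℝ} (hX : 0 < X) (S : Finset O) (β : O → ℂ) (f : O → O → ℂ)
    (hf : ∀ n m, ‖f n m‖ ≤ 1) :
    ((∑' m : O, gw (nr m / X) * ‖∑ n ∈ S, β n * f n m‖ ^ 2 : ℝ) : ℂ) =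
      ∑ x ∈ S, ∑ y ∈ S, β x * conj (β y) *
        ∑' m : O, (gw (nr m / X) : ℂ) * (f x m * conj (f y m)) := by
  have hs : ∀ x y, Summable fun m : O => (gw (nr m / X) : ℂ) * (f x m * conj (f y m)) := by
    intro x y
    refine Summable.of_norm_bounded (summable_gw' hX) fun m => ?_
    rw [norm_mul, norm_mul, Complex.norm_conj, Complex.norm_real,
      Real.norm_of_nonneg (gw_pos _).le]
    exact mul_le_of_le_one_right (gw_pos _).le
      (mul_le_one₀ (hf _ _) (norm_nonneg _) (hf _ _))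
  simp only [← tsum_mul_left]
  rw [Finset.sum_congr rfl fun x _ =>
      (Summable.tsum_finsetSum fun y _ => (hs x y).mul_left _).symm,
    ← Summable.tsum_finsetSum fun x _ => summable_sum fun y _ => (hs x y).mul_left _,
    Complex.ofReal_tsum]
  refine tsum_congr fun m => ?_
  rw [Complex.ofReal_mul, Complex.ofReal_pow, ← Complex.mul_conj', map_sum, Finset.sum_mul_sum,
    Finset.mul_sum]
  refine Finset.sum_congr rfl fun x _ => ?_
  rw [Finset.mul_sum]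
  refine Finset.sum_congr rfl fun y _ => ?_
  rw [map_mul]; ring

open Classical in
theorem tsum_split {F : O → ℂ} (hF : Summable F) {K : ℝ} (hK : 0 ≤ K) :
    ∑' k, F k = F 0 + ∑ k ∈ (ball ⌊K⌋₊).erase 0, F k + ∑' k, if K < nr k then F k else 0 := by
  have h0 : (0 : O) ∈ ball ⌊K⌋₊ := by rw [mem_ball, nm_eq_zero.2 rfl]; exact Nat.zero_le _
  rw [Finset.add_sum_erase _ _ h0, ← hF.sum_add_tsum_compl (s := ball ⌊K⌋₊), tsum_subtype]
  congr 1
  refine tsum_congr fun k => ?_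
  rw [Set.indicator_apply]
  refine if_congr ?_ rfl rfl
  rw [Set.mem_compl_iff, Finset.mem_coe, mem_ball, Nat.le_floor_iff hK, not_le]

/-! ### Norms of the reciprocity factor -/

theorem norm_Rs {m n : O} (hm : IsCoprime m 2) (hn : IsCoprime n 2) : ‖Rs m n‖ = 1 := by
  rw [Rs, norm_mul, norm_mul, Complex.norm_conj, Complex.norm_conj, norm_g4 (hm.mul_left hn),
    norm_g4 hm, norm_g4 hn]; simp

theorem odd_congr {x x' : O} (h : (4 : O) ∣ x - x') (hx : IsCoprime x 2) : IsCoprime x' 2 := by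
  obtain ⟨c, hc⟩ := h
  have : x' = x + 2 * (-(2 * c)) := by linear_combination -hc
  rw [this]
  exact hx.add_mul_left_left _

open Classical in
/-- The class factor, truncated to the odd classes. -/
def cls (h x y : O) : ℂ :=
  if IsCoprime x 2 ∧ IsCoprime y 2 then
    Rs (h * x) (h * y) * Rs (h * y) (h * y) * (Rs h x * conj (Rs h y)) else 0

theorem norm_cls_le {h : O} (hh : IsCoprime h 2) (x y : O) : ‖cls h x y‖ ≤ 1 := by
  unfold cls
  split_ifs with H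
  · rw [norm_mul, norm_mul, norm_mul, Complex.norm_conj, norm_Rs (hh.mul_left H.1) (hh.mul_left H.2),
      norm_Rs (hh.mul_left H.2) (hh.mul_left H.2), norm_Rs hh H.1, norm_Rs hh H.2]; simp
  · simp

open Classical in
theorem cls_congr (h x x' y y' : O) (hx : (4 : O) ∣ x - x') (hy : (4 : O) ∣ y - y') :
    cls h x y = cls h x' y' := by
  have hx' : (4 : O) ∣ h * x - h * x' := by rw [← mul_sub]; exact hx.mul_left _
  have hy' : (4 : O) ∣ h * y - h * y' := by rw [← mul_sub]; exact hy.mul_left _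
  have h0 : (4 : O) ∣ h - h := by simp
  unfold cls
  refine if_congr ⟨fun H => ⟨odd_congr hx H.1, odd_congr hy H.2⟩,
    fun H => ⟨odd_congr (dvd_sub_comm.1 hx) H.1, odd_congr (dvd_sub_comm.1 hy) H.2⟩⟩ ?_ rfl
  rw [Rs_congr hx' hy', Rs_congr hy' hy', Rs_congr h0 hx, Rs_congr h0 hy]

theorem cpow_neg_half {x : ℝ} (hx : 0 ≤ x) :
    (x : ℂ) ^ (-(1 / 2) : ℂ) = (((Real.sqrt x)⁻¹ : ℝ) : ℂ) := by
  rw [Complex.cpow_neg, WA.cpow_half hx, Complex.ofReal_inv]

end P1b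

end Crest.Agent.R17
end
end

-- ▼ part PVc/R17/M4P1AuxA
section

/-!
# Row 17, module M4, part P1: auxiliary lemmas (exact Poisson formula for a pair of columns)
-/

set_option autoImplicit false

noncomputable section

namespace Crest.Agent.R17

open scoped ComplexConjugate

namespace M4A

theorem conj_pow {j j' : ℕ} (hj : (j = 1 ∧ j' = 5) ∨ (j = 5 ∧ j' = 1)) {n : O} (hn : Primary n)
    (a : O) : conj (sym n a ^ j) = sym n a ^ j' := by
  rw [map_pow, conj_sym hn, ← pow_mul]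
  rcases hj with ⟨rfl, rfl⟩ | ⟨rfl, rfl⟩
  · rfl
  · exact Gauss_sym_pow hn a one_ne_zero 4

theorem gs_five_mul {j j' : ℕ} (hj : (j = 1 ∧ j' = 5) ∨ (j = 5 ∧ j' = 1)) {n : O}
    (hn : Primary n) (k : O) : gs (5 * j) n k = gs j' n k := by
  rcases hj with ⟨rfl, rfl⟩ | ⟨rfl, rfl⟩
  · rfl
  · rw [show 5 * 5 = 1 + 6 + 6 + 6 + 6 from rfl, gs_add_six _ hn, gs_add_six _ hn,
      gs_add_six _ hn, gs_add_six _ hn]

theorem odd_pow {j : ℕ} (hj : j = 1 ∨ j = 5) {z : ℂ} (hz : z ^ 2 = 1) : z ^ j = z := by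
  rcases hj with rfl | rfl
  · exact pow_one z
  · rw [show z ^ 5 = (z ^ 2) ^ 2 * z by ring, hz]; ring

open Classical in
theorem sum_mu {g : O} (hg : Primary g) (m : O) :
    ∑ e ∈ pdiv g, (if e ∣ m then mu e else 0) = if IsCoprime g m then 1 else 0 := by
  rw [← Finset.sum_filter]
  by_cases hm : m = 0
  · subst hm
    have h1 := sum_mu_coprime hg hg.ne_zero
    have h2 : (pdiv g).filter (· ∣ (0 : O)) = (pdiv g).filter (· ∣ g) := by
      refine Finset.filter_congr fun e he => ?_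
      exact ⟨fun _ => ((mem_pdiv hg.ne_zero).1 he).2, fun _ => dvd_zero e⟩
    have h3 : IsCoprime g 0 ↔ IsCoprime g g := by
      rw [isCoprime_zero_right, isCoprime_self]
    rw [h2]
    simp only [h3]
    convert h1
  · convert sum_mu_coprime hg hm

open Classical in
theorem sym_mul_conj {g : O} (hg : Primary g) {j : ℕ} (hj : j ≠ 0) (m : O) :
    sym g m ^ j * conj (sym g m ^ j) = if IsCoprime g m then 1 else 0 := by
  split_ifs with h
  · rw [mul_comm]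
    exact Gauss_conj_mul (by rw [norm_pow, norm_sym hg h, one_pow])
  · rw [(sym_eq_zero_iff hg).2 h, zero_pow hj, zero_mul]

open Classical in
theorem tsum_dvd {e : O} (he : e ≠ 0) (F : O → ℂ) :
    ∑' m : O, (if e ∣ m then F m else 0) = ∑' m : O, F (e * m) := by
  rw [← (mul_right_injective₀ he).tsum_eq (f := fun m => if e ∣ m then F m else 0)]
  · simp
  · intro m hm
    by_contra h
    apply hm
    have : ¬ e ∣ m := fun ⟨c, hc⟩ => h ⟨c, hc.symm⟩
    simp [this]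

theorem summable_bdd {X : ℝ} (hX : 0 < X) {F : O → ℂ} (hF : ∀ m, ‖F m‖ ≤ 1) :
    Summable fun m : O => (gw (nr m / X) : ℂ) * F m := by
  refine Summable.of_norm_bounded (summable_gw' hX) fun m => ?_
  rw [norm_mul, Complex.norm_real, Real.norm_of_nonneg (gw_pos _).le]
  exact mul_le_of_le_one_right (gw_pos _).le (hF m)

/-- The Fourier transform of `χ_{n₁}^j χ_{n₂}^{j'}`. -/
theorem ft_pair {j j' : ℕ} (hj : (j = 1 ∧ j' = 5) ∨ (j = 5 ∧ j' = 1)) {n₁ n₂ : O} (h1 : PO n₁)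
    (h1s : Squarefree n₁) (h2 : PO n₂) (h2s : Squarefree n₂) (hc : IsCoprime n₁ n₂) (k : O) :
    ft (n₁ * n₂) (fun x => sym n₁ x ^ j * sym n₂ x ^ j') k =
      (Real.sqrt (nr n₁) : ℂ) * (Real.sqrt (nr n₂) : ℂ) * (Rs n₁ n₂ * Rs n₂ n₂) *
        ((gam j n₁ * sym n₁ k ^ j') * conj (gam j n₂ * sym n₂ k ^ j')) := by
  have hj0 : j ≠ 0 := by omega
  have hj0' : j' ≠ 0 := by omega
  have hj6 : ¬ 6 ∣ j := by omega
  have hj6' : ¬ 6 ∣ j' := by omega
  have hjj : j + j' = 6 := by omega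
  have hjo : j = 1 ∨ j = 5 := by omega
  have hjo' : j' = 1 ∨ j' = 5 := by omega
  rw [IsChr.ft_mul h1.1.ne_zero h2.1.ne_zero hc (isChr_sym_pow h1 hj0) (isChr_sym_pow h2 hj0'),
    O2_ft_gs (j := j) (fun x => (sym_pow_add_six h1.1 x hj0).symm),
    O2_ft_gs (j := j') (fun x => (sym_pow_add_six h2.1 x hj0').symm),
    gs_sqfree hj6 h1 h1s, gs_sqfree hj6' h2 h2s, conj_pow hj h1.1, sym_recip h1 h2, mul_pow,
    odd_pow hjo (Rs_sq h1.2 h2.2), Rs_self h2]
  have e1 : sym n₂ n₁ ^ j * sym n₂ n₁ ^ j' = 1 := by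
    rw [← pow_add, hjj, sym_pow_six h2.1 hc.symm]
  have e2 : conj (gs j n₂ 1) = sym n₂ (-1) * gs j' n₂ 1 := by
    rw [conj_gs j h2, gs_five_mul hj h2.1, gs_sqfree hj6' h2 h2s,
      conj_pow (j' := j) (by omega) h2.1, odd_pow hjo (Gauss_neg_one h2)]
  have e3 := Gauss_neg_one h2
  have s1 : (Real.sqrt (nr n₁) : ℂ) ≠ 0 := by
    exact_mod_cast (Real.sqrt_pos.2 (nr_pos h1.1.ne_zero)).ne'
  have s2 : (Real.sqrt (nr n₂) : ℂ) ≠ 0 := by
    exact_mod_cast (Real.sqrt_pos.2 (nr_pos h2.1.ne_zero)).ne'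
  rw [map_mul, gam, gam, map_div₀, Complex.conj_ofReal, e2]
  field_simp
  linear_combination
    (Rs n₁ n₂ * sym n₁ k ^ j' * gs j n₁ 1 * conj (sym n₂ k ^ j') * gs j' n₂ 1) * e1 -
    (Rs n₁ n₂ * sym n₁ k ^ j' * gs j n₁ 1 * conj (sym n₂ k ^ j') * gs j' n₂ 1) * e3

theorem pair_poisson {j j' : ℕ} (hj : (j = 1 ∧ j' = 5) ∨ (j = 5 ∧ j' = 1)) {g n₁ n₂ : O}
    (h1 : PO (g * n₁)) (h1s : Squarefree (g * n₁)) (h2 : PO (g * n₂))
    (h2s : Squarefree (g * n₂)) (hg : Primary g) (hc : IsCoprime n₁ n₂) {X : ℝ} (hX : 0 < X) :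
    ∑' m : O, (gw (nr m / X) : ℂ) * (sym (g * n₁) m ^ j * conj (sym (g * n₂) m ^ j)) =
      ∑ e ∈ pdiv g, mu e * ((X / (nr e * Real.sqrt (nr n₁) * Real.sqrt (nr n₂)) : ℝ) : ℂ) *
        (Rs n₁ n₂ * Rs n₂ n₂) * ∑' k : O, (gw (X * nr k / (nr e * nr n₁ * nr n₂)) : ℂ) *
          ((gam j n₁ * sym n₁ e ^ j * sym n₁ k ^ j') *
            conj (gam j n₂ * sym n₂ e ^ j * sym n₂ k ^ j')) := by
  classical
  have hj0 : j ≠ 0 := by omega
  have p1 : PO n₁ := h1.of_dvd (hg.of_mul h1.1) (dvd_mul_left _ _)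
  have p2 : PO n₂ := h2.of_dvd (hg.of_mul h2.1) (dvd_mul_left _ _)
  have s1 : Squarefree n₁ := h1s.squarefree_of_dvd (dvd_mul_left _ _)
  have s2 : Squarefree n₂ := h2s.squarefree_of_dvd (dvd_mul_left _ _)
  have z1 := p1.1.ne_zero
  have z2 := p2.1.ne_zero
  set f : O → ℂ := fun x => sym n₁ x ^ j * sym n₂ x ^ j' with hf
  have hf1 : ∀ x, ‖f x‖ ≤ 1 := fun x => by
    rw [hf, norm_mul, norm_pow, norm_pow]
    exact mul_le_one₀ (pow_le_one₀ (norm_nonneg _) (norm_sym_le _ _)) (by positivity)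
      (pow_le_one₀ (norm_nonneg _) (norm_sym_le _ _))
  have hfp : ∀ x y, n₁ * n₂ ∣ x - y → f x = f y := fun x y h => by
    simp only [hf]
    rw [Gauss_sym_per n₁ j x y ((dvd_mul_right _ _).trans h),
      Gauss_sym_per n₂ j' x y ((dvd_mul_left _ _).trans h)]
  have step1 : ∀ m : O, (gw (nr m / X) : ℂ) * (sym (g * n₁) m ^ j * conj (sym (g * n₂) m ^ j)) =
      ∑ e ∈ pdiv g, mu e * (if e ∣ m then (gw (nr m / X) : ℂ) * f m else 0) := fun m => by
    have a1 : ∑ e ∈ pdiv g, mu e * (if e ∣ m then (gw (nr m / X) : ℂ) * f m else 0) =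
        (∑ e ∈ pdiv g, (if e ∣ m then mu e else 0)) * ((gw (nr m / X) : ℂ) * f m) := by
      rw [Finset.sum_mul]
      refine Finset.sum_congr rfl fun e _ => ?_
      split_ifs <;> simp
    rw [a1, sum_mu hg, ← sym_mul_conj hg hj0, sym_mul_left hg.ne_zero z1,
      sym_mul_left hg.ne_zero z2, mul_pow, mul_pow, map_mul, conj_pow hj p2.1]
    simp only [hf]
    ring
  simp only [step1]
  rw [Summable.tsum_finsetSum]
  · refine Finset.sum_congr rfl fun e he => ?_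
    have pe : Primary e := ((mem_pdiv hg.ne_zero).1 he).1
    have ze := pe.ne_zero
    have ne := nr_pos ze
    have n1 := nr_pos z1
    have n2 := nr_pos z2
    rw [tsum_mul_left, tsum_dvd ze]
    have a2 : ∀ m : O, (gw (nr (e * m) / X) : ℂ) * f (e * m) =
        f e * (f m * (gw (nr m / (X / nr e)) : ℂ)) := fun m => by
      have : nr (e * m) / X = nr m / (X / nr e) := by
        rw [nr_mul]; field_simp
      rw [this]
      simp only [hf]
      rw [sym_mul_right p1, sym_mul_right p2]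
      ring
    simp only [a2]
    rw [tsum_mul_left, poisson (mul_ne_zero z1 z2) f hfp (div_pos hX ne)]
    simp only [hf]
    simp only [ft_pair hj p1 s1 p2 s2 hc]
    rw [← tsum_mul_left, ← tsum_mul_left, ← tsum_mul_left, ← tsum_mul_left]
    refine tsum_congr fun k => ?_
    have a3 : X / nr e * nr k / nr (n₁ * n₂) = X * nr k / (nr e * nr n₁ * nr n₂) := by
      rw [nr_mul]; field_simp
    have a4 : X / nr e / nr (n₁ * n₂) * (Real.sqrt (nr n₁) * Real.sqrt (nr n₂)) =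
        X / (nr e * Real.sqrt (nr n₁) * Real.sqrt (nr n₂)) := by
      have b1 := Real.sqrt_pos.2 n1
      have b2 := Real.sqrt_pos.2 n2
      rw [nr_mul]
      nth_rewrite 1 [← Real.mul_self_sqrt n1.le, ← Real.mul_self_sqrt n2.le]
      field_simp
    rw [a3, ← a4]
    simp only [map_mul, conj_pow hj p2.1 e]
    push_cast
    ring
  · intro e _
    refine Summable.mul_left _ ?_
    refine Summable.of_norm_bounded (summable_bdd hX hf1).norm fun m => ?_
    split_ifs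
    · exact le_rfl
    · rw [norm_zero]; exact norm_nonneg _

theorem class_separate {M : O} (hM : Adm M) [Fintype (Chr M)] (F : O → O → ℂ)
    (hF : ∀ x y, ‖F x y‖ ≤ 1)
    (hper : ∀ x x' y y', (4 : O) ∣ x - x' → (4 : O) ∣ y - y' → F x y = F x' y') :
    ∃ b : Chr M → Chr M → ℂ, (∀ ψ ψ', ‖b ψ ψ'‖ ≤ 1) ∧ ∀ x y, IsCoprime x M → IsCoprime y M →
      F x y = ∑ ψ, ∑ ψ', b ψ ψ' * (ev ψ x * conj (ev ψ' y)) := by
  classical
  have : Fact (M ≠ 0) := ⟨hM.1⟩
  have h4 : (4 : O) ∣ M := Dvd.dvd.trans ⟨18, by norm_num⟩ hM.2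
  choose s hs using (Ideal.Quotient.mk_surjective (I := Ideal.span {M}))
  have hs4 : ∀ x : O, (4 : O) ∣ x - s (Ideal.Quotient.mk _ x) := fun x =>
    h4.trans (mk_eq_mk_iff.1 (hs _).symm)
  have A : ∀ q : O ⧸ Ideal.span {M}, ∃ b : Chr M → ℂ, (∀ χ, ‖b χ‖ ≤ 1) ∧
      ∀ a, (if IsUnit a then F (s a) (s q) else 0) = ∑ χ, b χ * χ a := fun q =>
    exists_mulChar_expansion _ (fun a => by split_ifs; exacts [hF _ _, by simp])
      (fun a ha => if_neg ha)
  choose b hb hb' using A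
  have B : ∀ ψ : Chr M, ∃ c : Chr M → ℂ, (∀ χ, ‖c χ‖ ≤ 1) ∧
      ∀ q, (if IsUnit q then conj (b q ψ) else 0) = ∑ χ, c χ * χ q := fun ψ =>
    exists_mulChar_expansion _
      (fun a => by split_ifs; exacts [by rw [Complex.norm_conj]; exact hb _ _, by simp])
      (fun a ha => if_neg ha)
  choose c hc hc' using B
  refine ⟨fun ψ ψ' => conj (c ψ ψ'), fun ψ ψ' => by rw [Complex.norm_conj]; exact hc _ _,
    fun x y hx hy => ?_⟩
  have e1 := hb' (Ideal.Quotient.mk _ y) (Ideal.Quotient.mk _ x)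
  rw [if_pos (isUnit_mk_iff.2 hx)] at e1
  rw [hper _ _ _ _ (hs4 x) (hs4 y), e1]
  refine Finset.sum_congr rfl fun ψ _ => ?_
  have e2 := congrArg conj (hc' ψ (Ideal.Quotient.mk _ y))
  rw [if_pos (isUnit_mk_iff.2 hy), Complex.conj_conj, map_sum] at e2
  rw [e2, Finset.sum_mul]
  refine Finset.sum_congr rfl fun ψ' _ => ?_
  rw [map_mul, ev, ev]
  ring

theorem gam_mul' {j : ℕ} (hj : j = 1 ∨ j = 5) {m n : O} (hm : PO m) (hn : PO n)
    (h : IsCoprime m n) :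
    gam j (m * n) = Rs m n * sym n (m ^ 2) ^ j * gam j m * gam j n := by
  rw [gam, gam, gam, gs_mul j hm hn h, sym_recip hm hn, mul_pow, odd_pow hj (Rs_sq hm.2 hn.2),
    sym_pow_right hn, nr_mul, Real.sqrt_mul (nr_pos hm.1.ne_zero).le]
  push_cast
  ring

open MeasureTheory in
/-- A weighted sum of integrals of non-negative functions below an integrable majorant. -/
theorem sum_integral_le {I : Type} (s : Finset I) (w : I → ℝ) (f : I → ℝ → ℝ) (G : ℝ → ℝ)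
    (hw : ∀ i ∈ s, 0 ≤ w i) (hf : ∀ i ∈ s, ∀ u, 0 ≤ f i u) (hG : Integrable G)
    (h : ∀ u, ∑ i ∈ s, w i * f i u ≤ G u) : ∑ i ∈ s, w i * ∫ u, f i u ≤ ∫ u, G u := by
  classical
  have e1 : ∑ i ∈ s, w i * ∫ u, f i u =
      ∑ i ∈ s.filter (fun i => Integrable (f i)), ∫ u, w i * f i u := by
    rw [Finset.sum_filter]
    refine Finset.sum_congr rfl fun i _ => ?_
    split_ifs with hi
    · rw [integral_const_mul]
    · rw [integral_undef hi, mul_zero]
  have hint : ∀ i ∈ s.filter (fun i => Integrable (f i)), Integrable fun u => w i * f i u :=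
    fun i hi => (Finset.mem_filter.1 hi).2.const_mul _
  rw [e1, ← integral_finsetSum _ hint]
  refine integral_mono (integrable_finsetSum _ hint) hG fun u => le_trans ?_ (h u)
  exact Finset.sum_le_sum_of_subset_of_nonneg (Finset.filter_subset _ _)
    fun i hi _ => mul_nonneg (hw i hi) (hf i hi u)

end M4A

end Crest.Agent.R17
end
end

-- ▼ part PVc/R17/M4P1

/-!
# Row 17, module M4 (owner helper42), part P1: one Poisson step for a mean square over all rows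

For `β` supported on squarefree primary `n` coprime to `M`, `N n ≤ L`, and `j ∈ {1, 5}`:
`∑_m gw(N m / X) |∑_n β(n) χ_n(m)^j|²` is the diagonal plus dual mean squares over the rows
`0 < N k ≤ Λ N e (L / N g)² / X` of the coefficients `β(g h n) γ_j(n) χ_n(e h²)^j N(n)^{-1/2}`.
-/

set_option autoImplicit false

noncomputable section

namespace Crest.Agent.R17

open scoped ComplexConjugate

/-- Support condition. -/
def Supp (M : O) (L : ℝ) (β : O → ℂ) : Prop := ∀ n, β n ≠ 0 → SP M n ∧ nr n ≤ L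

/-- The row sum `∑_n β(n) χ_n(m)^j`. -/
def rowS (M : O) (R : ℝ) (j : ℕ) (β : O → ℂ) (m : O) : ℂ := ∑ n ∈ sp M R, β n * sym n m ^ j

/-- The mean square over all rows. -/
def Dq (M : O) (R : ℝ) (j : ℕ) (β : O → ℂ) (X : ℝ) : ℝ :=
  ∑' m : O, gw (nr m / X) * ‖rowS M R j β m‖ ^ 2

/-- The dual coefficients. -/
def dualC {M : O} (j : ℕ) (β : O → ℂ) (g e h : O) (ψ : Chr M) (w : ℂ) (n : O) : ℂ :=
  β (g * h * n) * ev ψ n * gam j n * sym n (e * h ^ 2) ^ j * (nr n : ℂ) ^ w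

/-- The off-diagonal dual sum. -/
def OD (M : O) (R : ℝ) (j j' : ℕ) (β : O → ℂ) (X L Λ : ℝ) (ψ : Chr M) (w : ℂ) : ℝ :=
  ∑ g ∈ sp M R, ∑ e ∈ pdiv g, ∑ h ∈ sp M R, X / (nr e * nr h) *
    ∑ k ∈ rows (Λ * nr e * (L / nr g) ^ 2 / X), ‖rowS M R j' (dualC j β g e h ψ w) k‖ ^ 2

/-- The two orientations. -/
def JJ (j j' : ℕ) : Prop := (j = 1 ∧ j' = 5) ∨ (j = 5 ∧ j' = 1)

theorem Supp.comp_mul {M : O} {L : ℝ} {β : O → ℂ} (h : Supp M L β) {t : O} (ht : Primary t) :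
    Supp M (L / nr t) fun n => β (t * n) := by
  intro n hn
  obtain ⟨h1, h2⟩ := h _ hn
  refine ⟨LS2.SP_of_dvd h1 (ht.of_mul h1.1) (dvd_mul_left _ _), ?_⟩
  rw [le_div_iff₀ (nr_pos ht.ne_zero), mul_comm, ← nr_mul]
  exact h2
theorem Supp.dualC {M : O} {L : ℝ} {β : O → ℂ} (h : Supp M L β) (j : ℕ) {g k : O} (hg : Primary g)
    (hk : Primary k) (e : O) (ψ : Chr M) (w : ℂ) :
    Supp M (L / (nr g * nr k)) (dualC j β g e k ψ w) := by
  intro n hn
  rw [← nr_mul]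
  refine h.comp_mul (hg.mul hk) n fun h0 => hn ?_
  rw [Crest.Agent.R17.dualC, show β (g * k * n) = 0 from h0]
  simp

/-! ## P1a: the exact formula for a pair of columns -/

/-- Poisson summation for the pair `(g n₁, g n₂)` with `n₁, n₂` coprime. -/
theorem pair_poisson {j j' : ℕ} (hj : JJ j j') {g n₁ n₂ : O} (h1 : PO (g * n₁))
    (h1s : Squarefree (g * n₁)) (h2 : PO (g * n₂)) (h2s : Squarefree (g * n₂)) (hg : Primary g)
    (hc : IsCoprime n₁ n₂) {X : ℝ} (hX : 0 < X) :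
    ∑' m : O, (gw (nr m / X) : ℂ) * (sym (g * n₁) m ^ j * conj (sym (g * n₂) m ^ j)) =
      ∑ e ∈ pdiv g, mu e * ((X / (nr e * Real.sqrt (nr n₁) * Real.sqrt (nr n₂)) : ℝ) : ℂ) *
        (Rs n₁ n₂ * Rs n₂ n₂) * ∑' k : O, (gw (X * nr k / (nr e * nr n₁ * nr n₂)) : ℂ) *
          ((gam j n₁ * sym n₁ e ^ j * sym n₁ k ^ j') *
            conj (gam j n₂ * sym n₂ e ^ j * sym n₂ k ^ j')) :=
  M4A.pair_poisson hj h1 h1s h2 h2s hg hc hX

/-- A bounded function of two classes modulo `4` separates into characters modulo `M`. -/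
theorem class_separate {M : O} (hM : Adm M) [Fintype (Chr M)] (F : O → O → ℂ)
    (hF : ∀ x y, ‖F x y‖ ≤ 1)
    (hper : ∀ x x' y y', (4 : O) ∣ x - x' → (4 : O) ∣ y - y' → F x y = F x' y') :
    ∃ b : Chr M → Chr M → ℂ, (∀ ψ ψ', ‖b ψ ψ'‖ ≤ 1) ∧ ∀ x y, IsCoprime x M → IsCoprime y M →
      F x y = ∑ ψ, ∑ ψ', b ψ ψ' * (ev ψ x * conj (ev ψ' y)) :=
  M4A.class_separate hM F hF hper

/-- Multiplicativity of the normalised Gauss sums. -/
theorem gam_mul' {j : ℕ} (hj : j = 1 ∨ j = 5) {m n : O} (hm : PO m) (hn : PO n)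
    (h : IsCoprime m n) : gam j (m * n) = Rs m n * sym n (m ^ 2) ^ j * gam j m * gam j n :=
  M4A.gam_mul' hj hm hn h

/-! ## P1b: the inequality -/

namespace P1b

open MeasureTheory

/-- The arithmetic factor of a column. -/
def Aa (j j' : ℕ) (e k a : O) : ℂ := gam j a * sym a e ^ j * sym a k ^ j'

/-- The general term after Poisson summation. -/
def Tm (j j' : ℕ) (β : O → ℂ) (X : ℝ) (g e k a b : O) : ℂ :=
  β (g * a) * conj (β (g * b)) *
    (mu e * ((X / (nr e * Real.sqrt (nr a) * Real.sqrt (nr b)) : ℝ) : ℂ) * (Rs a b * Rs b b) *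
      ((gw (X * nr k / (nr e * nr a * nr b)) : ℂ) * (Aa j j' e k a * conj (Aa j j' e k b))))

theorem not_six {j j' : ℕ} (hj : JJ j j') : ¬ 6 ∣ j := by
  rcases hj with ⟨rfl, -⟩ | ⟨rfl, -⟩ <;> decide

theorem supp_mem {M : O} {L R : ℝ} {β : O → ℂ} (hβ : Supp M L β) (hL : L ≤ R) (hR : 0 ≤ R)
    {n : O} (h : β n ≠ 0) : n ∈ sp M R :=
  (LS2.mem_sp hR).2 ⟨(hβ n h).1, (hβ n h).2.trans hL⟩

theorem supp_cof {M : O} {L : ℝ} {β : O → ℂ} (hβ : Supp M L β) {g a : O} (hg : Primary g)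
    (h : β (g * a) ≠ 0) : SP M a :=
  LS2.SP_of_dvd (hβ _ h).1 (hg.of_mul (hβ _ h).1.1) (dvd_mul_left _ _)

theorem po_of_SP {M n : O} (hM : Adm M) (h : SP M n) : PO n := PO.of_adm hM h.1 h.2.2

theorem norm_sym_pow_le (n a : O) (j : ℕ) : ‖sym n a ^ j‖ ≤ 1 := by
  rw [norm_pow]; exact pow_le_one₀ (norm_nonneg _) (norm_sym_le n a)

theorem norm_Aa_le {j j' : ℕ} (hj : JJ j j') (e k : O) {a : O} (ha : PO a) (hs : Squarefree a) :
    ‖Aa j j' e k a‖ ≤ 1 := by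
  rw [Aa, norm_mul, norm_mul, norm_gam (not_six hj) ha hs, one_mul]
  exact mul_le_one₀ (norm_sym_pow_le _ _ _) (norm_nonneg _) (norm_sym_pow_le _ _ _)

theorem norm_Tm_le {M : O} (hM : Adm M) {j j' : ℕ} (hj : JJ j j') {L X : ℝ} {β : O → ℂ}
    (hβ : Supp M L β) (hX : 0 < X) {g : O} (hg : Primary g) (e k a b : O) :
    ‖Tm j j' β X g e k a b‖ ≤ ‖β (g * a)‖ * ‖β (g * b)‖ *
      (X / (nr e * Real.sqrt (nr a) * Real.sqrt (nr b))) * gw (X * nr k / (nr e * nr a * nr b)) := by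
  by_cases ha : β (g * a) = 0
  · simp [Tm, ha]
  by_cases hb : β (g * b) = 0
  · simp [Tm, hb]
  have ha' := supp_cof hβ hg ha
  have hb' := supp_cof hβ hg hb
  have pa := po_of_SP hM ha'
  have pb := po_of_SP hM hb'
  have h0 : 0 ≤ X / (nr e * Real.sqrt (nr a) * Real.sqrt (nr b)) := by positivity
  have h1 := gw_pos (X * nr k / (nr e * nr a * nr b))
  simp only [Tm, norm_mul, Complex.norm_conj, Complex.norm_real, Real.norm_of_nonneg h0,
    Real.norm_of_nonneg h1.le, norm_Rs pa.2 pb.2, norm_Rs pb.2 pb.2]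
  have h2 := norm_Aa_le hj e k pa ha'.2.1
  have h3 := norm_Aa_le hj e k pb hb'.2.1
  have h4 := norm_mu_le e
  calc _ ≤ ‖β (g * a)‖ * ‖β (g * b)‖ * (1 * (X / (nr e * Real.sqrt (nr a) * Real.sqrt (nr b))) *
        (1 * 1) * (gw (X * nr k / (nr e * nr a * nr b)) * (1 * 1))) := by gcongr
    _ = _ := by ring

theorem gw_arg (X W t : ℝ) : X * t / W = t / (W / X) := by
  rw [div_div_eq_mul_div, mul_comm]

theorem summable_Tm {M : O} (hM : Adm M) {j j' : ℕ} (hj : JJ j j') {L X : ℝ} {β : O → ℂ}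
    (hβ : Supp M L β) (hX : 0 < X) {g e a b : O} (hg : Primary g) (he : e ≠ 0) (ha : a ≠ 0)
    (hb : b ≠ 0) : Summable fun k => Tm j j' β X g e k a b := by
  have hY : 0 < nr e * nr a * nr b / X := by
    have := nr_pos he; have := nr_pos ha; have := nr_pos hb; positivity
  refine Summable.of_norm_bounded ((summable_gw' hY).mul_left (‖β (g * a)‖ * ‖β (g * b)‖ *
      (X / (nr e * Real.sqrt (nr a) * Real.sqrt (nr b))))) fun k => ?_
  rw [← gw_arg X]
  exact norm_Tm_le hM hj hβ hX hg e k a b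

open Classical in
theorem Dq_eq {M : O} (hM : Adm M) {j j' : ℕ} (hj : JJ j j') {R L X : ℝ} {β : O → ℂ}
    (hβ : Supp M L β) (hL : L ≤ R) (hR : 0 ≤ R) (hX : 0 < X) :
    (Dq M R j β X : ℂ) = ∑ g ∈ sp M R, ∑ a ∈ sp M R, ∑ b ∈ sp M R,
      if IsCoprime a b then ∑ e ∈ pdiv g, ∑' k, Tm j j' β X g e k a b else 0 := by
  rw [Dq]
  simp only [rowS]
  rw [expand hX (sp M R) β (fun n m => sym n m ^ j) fun n m => norm_sym_pow_le n m j,
    sum_gcd hR]
  · refine Finset.sum_congr rfl fun g hg => Finset.sum_congr rfl fun a _ =>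
      Finset.sum_congr rfl fun b _ => ?_
    split_ifs with hc
    · by_cases ha : β (g * a) = 0
      · simp [Tm, ha]
      by_cases hb : β (g * b) = 0
      · simp [Tm, hb]
      rw [pair_poisson hj (po_of_SP hM (hβ _ ha).1) (hβ _ ha).1.2.1 (po_of_SP hM (hβ _ hb).1)
        (hβ _ hb).1.2.1 (primary_of_mem hR hg) hc hX, Finset.mul_sum]
      refine Finset.sum_congr rfl fun e _ => ?_
      rw [← tsum_mul_left, ← tsum_mul_left]
      rfl
    · rfl
  · intro x y h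
    have h1 := left_ne_zero_of_mul h
    exact ⟨supp_mem hβ hL hR (left_ne_zero_of_mul h1), supp_mem hβ hL hR
      ((map_ne_zero _).1 (right_ne_zero_of_mul h1))⟩

/-! #### The diagonal -/

theorem Aa_zero {j j' : ℕ} (hj : JJ j j') (e : O) {a : O} (ha : Primary a) (h1 : a ≠ 1) :
    Aa j j' e 0 a = 0 := by
  have h0 : sym a 0 = 0 := (sym_eq_zero_iff ha).2 fun h =>
    h1 (ha.eq_one_of_isUnit (isCoprime_zero_right.1 h))
  have hj' : j' ≠ 0 := by rcases hj with ⟨-, rfl⟩ | ⟨-, rfl⟩ <;> decide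
  rw [Aa, h0, zero_pow hj', mul_zero]

theorem Tm_diag {j j' : ℕ} (hj : JJ j j') (β : O → ℂ) (X : ℝ) (g e : O) :
    Tm j j' β X g e 0 1 1 = ((X * ‖β g‖ ^ 2 : ℝ) : ℂ) * (mu e * (((nr e)⁻¹ : ℝ) : ℂ)) := by
  have p1 : PO 1 := ⟨primary_one, isCoprime_one_left⟩
  have h1 : gam j 1 * conj (gam j 1) = 1 := by
    rw [Complex.mul_conj', norm_gam (not_six hj) p1 squarefree_one]; simp
  have h2 : nr 1 = 1 := by simp
  have h3 : nr 0 = 0 := by simp
  have h4 : gw 0 = 1 := by simp [gw]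
  simp only [Tm, Aa, mul_one, sym_one_left, one_pow, h1, h2, h3, Real.sqrt_one,
    Rs_one_left p1.2, mul_zero, zero_div, h4, Complex.mul_conj']
  push_cast
  ring

open Classical in
theorem diag_le {M : O} {j j' : ℕ} (hj : JJ j j') {R X : ℝ} (β : O → ℂ) (hR : 1 ≤ R)
    (hX : 0 < X) :
    ‖∑ g ∈ sp M R, ∑ a ∈ sp M R, ∑ b ∈ sp M R,
      if IsCoprime a b then ∑ e ∈ pdiv g, Tm j j' β X g e 0 a b else 0‖ ≤
      X * ∑ n ∈ sp M R, ‖β n‖ ^ 2 := by
  have hR0 : 0 ≤ R := by linarith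
  have h1 : (1 : O) ∈ sp M R :=
    (LS2.mem_sp hR0).2 ⟨⟨primary_one, squarefree_one, isCoprime_one_left⟩, by simpa [nr] using hR⟩
  rw [Finset.mul_sum]
  refine (norm_sum_le _ _).trans (Finset.sum_le_sum fun g hg => ?_)
  rw [Finset.sum_eq_single_of_mem 1 h1, Finset.sum_eq_single_of_mem 1 h1,
    if_pos isCoprime_one_left]
  · simp only [Tm_diag hj]
    rw [← Finset.mul_sum, norm_mul, Complex.norm_real, Real.norm_of_nonneg (by positivity)]
    have hg' := ((LS2.mem_sp hR0).1 hg).1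
    exact mul_le_of_le_one_right (by positivity) (diag_factor hg'.1 hg'.2.1)
  · intro b hb hb1
    simp [Tm, Aa_zero hj _ (primary_of_mem hR0 hb) hb1]
  · intro a ha ha1
    simp [Tm, Aa_zero hj _ (primary_of_mem hR0 ha) ha1]

/-! #### The tail -/

open Classical in
theorem card_pdiv_le' {g : O} (hg : g ≠ 0) : ((pdiv g).card : ℝ) ≤ 8 * nr g := by
  have h1 : (pdiv g).card ≤ 7 * nm g + 1 :=
    (Finset.card_filter_le _ _).trans (card_ball_le _)
  have h2 : ((pdiv g).card : ℝ) ≤ 7 * nr g + 1 := by exact_mod_cast h1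
  have := one_le_nr hg
  linarith

open Classical in
theorem tail_one {M : O} (hM : Adm M) (B : ℝ) : ∃ C : ℝ, 0 < C ∧ ∀ {j j' : ℕ} {β : O → ℂ}
    {R X L Λ : ℝ} {g e a b : O}, JJ j j' → 1 ≤ R → 1 ≤ Λ → Supp M L β → L ≤ R → 0 < X →
    X ≤ R ^ 2 → Primary g → e ≠ 0 →
    ‖∑' k, if Λ * nr e * (L / nr g) ^ 2 / X < nr k then Tm j j' β X g e k a b else 0‖ ≤
      C * R ^ 2 * Λ ^ (-B) * (‖β (g * a)‖ * ‖β (g * b)‖) := by
  obtain ⟨C, hC, H⟩ := tsum_gw_tail_le B 0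
  refine ⟨2 * C, by positivity, ?_⟩
  intro j j' β R X L Λ g e a b hj hR hΛ hβ hL hX hXR hg he
  by_cases ha : β (g * a) = 0
  · simp [Tm, ha]
  by_cases hb : β (g * b) = 0
  · simp [Tm, hb]
  have ha' := supp_cof hβ hg ha
  have hb' := supp_cof hβ hg hb
  have na := one_le_nr ha'.1.ne_zero
  have nb := one_le_nr hb'.1.ne_zero
  have ne := one_le_nr he
  have ng := one_le_nr hg.ne_zero
  have la : nr a ≤ L / nr g := by
    rw [le_div_iff₀ (by linarith), mul_comm, ← nr_mul]; exact (hβ _ ha).2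
  have lb : nr b ≤ L / nr g := by
    rw [le_div_iff₀ (by linarith), mul_comm, ← nr_mul]; exact (hβ _ hb).2
  have lR : L / nr g ≤ R := by
    rw [div_le_iff₀ (by linarith)]; nlinarith
  set Y := nr e * nr a * nr b / X with hY
  have hY0 : 0 < Y := by positivity
  have hYK : Y * Λ ≤ Λ * nr e * (L / nr g) ^ 2 / X := by
    have : nr a * nr b ≤ (L / nr g) ^ 2 := by
      rw [sq]; exact mul_le_mul la lb (by linarith) (by linarith)
    calc Y * Λ = Λ * nr e * (nr a * nr b) / X := by rw [hY]; ring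
      _ ≤ _ := by gcongr
  set c := ‖β (g * a)‖ * ‖β (g * b)‖ * (X / (nr e * Real.sqrt (nr a) * Real.sqrt (nr b))) with hc
  have hc0 : 0 ≤ c := by positivity
  have hs : Summable fun k : O => if Y * Λ ≤ nr k then gw (nr k / Y) * (1 + nr k) ^ (0 : ℝ)
      else 0 := by
    refine Summable.of_nonneg_of_le (fun k => ?_) (fun k => ?_) (summable_gw' hY0)
    · split_ifs
      · exact mul_nonneg (gw_pos _).le (by positivity)
      · rfl
    · split_ifs
      · simp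
      · exact (gw_pos _).le
  have h1 := tsum_of_norm_bounded (f := fun k : O =>
      if Λ * nr e * (L / nr g) ^ 2 / X < nr k then Tm j j' β X g e k a b else 0)
    (hs.mul_left c).hasSum fun k => by
      split_ifs with h h'
      · rw [Real.rpow_zero, mul_one, ← gw_arg X]
        exact norm_Tm_le hM hj hβ hX hg e k a b
      · exact absurd (hYK.trans h.le) h'
      · rw [norm_zero]; exact mul_nonneg hc0 (mul_nonneg (gw_pos _).le (by positivity))
      · simp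
  refine h1.trans ?_
  rw [tsum_mul_left]
  have h2 := H Y Λ hY0 hΛ
  rw [abs_zero, zero_add, Real.rpow_one] at h2
  have sa : 1 ≤ Real.sqrt (nr a) := Real.one_le_sqrt.2 na
  have sb : 1 ≤ Real.sqrt (nr b) := Real.one_le_sqrt.2 nb
  have h3 : X / (nr e * Real.sqrt (nr a) * Real.sqrt (nr b)) * (1 + Y) ≤ 2 * R ^ 2 := by
    have e1 : X / (nr e * Real.sqrt (nr a) * Real.sqrt (nr b)) * Y =
        Real.sqrt (nr a) * Real.sqrt (nr b) := by
      rw [hY]
      nth_rewrite 2 [← Real.mul_self_sqrt (show 0 ≤ nr a by linarith),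
        ← Real.mul_self_sqrt (show 0 ≤ nr b by linarith)]
      field_simp
    have e2 : X / (nr e * Real.sqrt (nr a) * Real.sqrt (nr b)) ≤ X :=
      div_le_self hX.le (one_le_mul_of_one_le_of_one_le (one_le_mul_of_one_le_of_one_le ne sa) sb)
    have e3 : Real.sqrt (nr a) ≤ R := (Real.sqrt_le_self_iff.2 (Or.inr na)).trans (la.trans lR)
    have e4 : Real.sqrt (nr b) ≤ R := (Real.sqrt_le_self_iff.2 (Or.inr nb)).trans (lb.trans lR)
    have e5 : Real.sqrt (nr a) * Real.sqrt (nr b) ≤ R * R := by gcongr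
    rw [mul_add, e1]; nlinarith
  have hΛ' : 0 ≤ Λ ^ (-B) := by positivity
  calc _ ≤ c * (C * (1 + Y) * Λ ^ (-B)) := by gcongr
    _ = C * (X / (nr e * Real.sqrt (nr a) * Real.sqrt (nr b)) * (1 + Y)) * Λ ^ (-B) *
        (‖β (g * a)‖ * ‖β (g * b)‖) := by rw [hc]; ring
    _ ≤ C * (2 * R ^ 2) * Λ ^ (-B) * (‖β (g * a)‖ * ‖β (g * b)‖) := by gcongr
    _ = _ := by ring

open Classical in
theorem tail_le {M : O} (hM : Adm M) (B : ℝ) : ∃ C : ℝ, 0 < C ∧ ∀ {j j' : ℕ} {β : O → ℂ}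
    {R X L Λ : ℝ}, JJ j j' → 1 ≤ R → 1 ≤ Λ → Supp M L β → L ≤ R → 0 < X → X ≤ R ^ 2 →
    ‖∑ g ∈ sp M R, ∑ a ∈ sp M R, ∑ b ∈ sp M R, if IsCoprime a b then ∑ e ∈ pdiv g,
      ∑' k, (if Λ * nr e * (L / nr g) ^ 2 / X < nr k then Tm j j' β X g e k a b else 0) else 0‖ ≤
      C * R ^ (7 : ℝ) * Λ ^ (-B) * (∑ n ∈ sp M R, ‖β n‖) ^ 2 := by
  obtain ⟨C, hC, H⟩ := tail_one hM B
  refine ⟨8 * C, by positivity, ?_⟩
  intro j j' β R X L Λ hj hR hΛ hβ hL hX hXR
  have hR0 : 0 ≤ R := by linarith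
  have hΛ' : 0 ≤ Λ ^ (-B) := by positivity
  rw [sq, Finset.sum_mul_sum, sum_gcd hR0 (fun x y => ‖β x‖ * ‖β y‖), Finset.mul_sum]
  · refine (norm_sum_le _ _).trans (Finset.sum_le_sum fun g hg => ?_)
    rw [Finset.mul_sum]
    refine (norm_sum_le _ _).trans (Finset.sum_le_sum fun a _ => ?_)
    rw [Finset.mul_sum]
    refine (norm_sum_le _ _).trans (Finset.sum_le_sum fun b _ => ?_)
    have hgp := primary_of_mem hR0 hg
    have hgR := ((LS2.mem_sp hR0).1 hg).2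
    split_ifs
    · refine (norm_sum_le _ _).trans ((Finset.sum_le_card_nsmul _ _ _ fun e he =>
        H hj hR hΛ hβ hL hX hXR hgp ((mem_pdiv hgp.ne_zero).1 he).1.ne_zero).trans ?_)
      rw [nsmul_eq_mul]
      have h1 := card_pdiv_le' hgp.ne_zero
      have h2 : R * R ^ 2 ≤ R ^ (7 : ℝ) := by
        rw [show (7 : ℝ) = ((7 : ℕ) : ℝ) by norm_num, Real.rpow_natCast, ← pow_succ']
        exact pow_le_pow_right₀ hR (by norm_num)
      calc _ ≤ (8 * R) * (C * R ^ 2 * Λ ^ (-B) * (‖β (g * a)‖ * ‖β (g * b)‖)) := by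
            gcongr; linarith
        _ = 8 * C * (R * R ^ 2) * Λ ^ (-B) * (‖β (g * a)‖ * ‖β (g * b)‖) := by ring
        _ ≤ _ := by gcongr
    · simp
  · intro x y h
    exact ⟨supp_mem hβ hL hR0 (norm_ne_zero_iff.1 (left_ne_zero_of_mul h)),
      supp_mem hβ hL hR0 (norm_ne_zero_iff.1 (right_ne_zero_of_mul h))⟩

/-! #### The main part -/

theorem DP_eq {M : O} {R : ℝ} (hR : 0 ≤ R) (j j' : ℕ) (β : O → ℂ) (g e h k : O) (ψ : Chr M)
    (σ u : ℝ) : DP (sp M R) (fun a => dualC j β g e h ψ (-(1 / 2)) a * sym a k ^ j') σ u =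
      rowS M R j' (dualC j β g e h ψ (-(1 / 2) + σ + u * Complex.I)) k := by
  refine Finset.sum_congr rfl fun a ha => ?_
  have h0 : (nr a : ℂ) ≠ 0 :=
    Complex.ofReal_ne_zero.2 (nr_pos (primary_of_mem hR ha).ne_zero).ne'
  simp only [dualC]
  rw [add_assoc, Complex.cpow_add (-(1 / 2)) _ h0]
  ring

theorem Aa_mul {j j' : ℕ} (hj : JJ j j') (e k : O) {h a : O} (hh : PO h) (ha : PO a)
    (hc : IsCoprime h a) : Aa j j' e k (h * a) =
      Aa j j' e k h * Rs h a * (gam j a * sym a (e * h ^ 2) ^ j * sym a k ^ j') := by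
  have hj' : j = 1 ∨ j = 5 := hj.imp And.left And.left
  simp only [Aa]
  rw [gam_mul' hj' hh ha hc, sym_mul_left hh.1.ne_zero ha.1.ne_zero,
    sym_mul_left hh.1.ne_zero ha.1.ne_zero, sym_mul_right ha e]
  ring

theorem Tm_mul {M : O} (hM : Adm M) [Fintype (Chr M)] {j j' : ℕ} (hj : JJ j j') {L X : ℝ}
    {β : O → ℂ} (hβ : Supp M L β) {g h : O} (hg : Primary g) (hh : PO h) (e k : O)
    {bb : Chr M → Chr M → ℂ} (hbb : ∀ x y, IsCoprime x M → IsCoprime y M →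
      cls h x y = ∑ ψ, ∑ ψ', bb ψ ψ' * (ev ψ x * conj (ev ψ' y))) (a b : O) :
    Tm j j' β X g e k (h * a) (h * b) =
      mu e * ((X / (nr e * nr h) : ℝ) : ℂ) * (Aa j j' e k h * conj (Aa j j' e k h)) *
        ∑ ψ, ∑ ψ', bb ψ ψ' * ((gw (X * nr k / (nr e * nr h ^ 2) / (nr a * nr b)) : ℂ) *
          ((dualC j β g e h ψ (-(1 / 2)) a * sym a k ^ j') *
            conj (dualC j β g e h ψ' (-(1 / 2)) b * sym b k ^ j'))) := by
  by_cases ha : β (g * h * a) = 0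
  · simp [Tm, dualC, ha, ← mul_assoc]
  by_cases hb : β (g * h * b) = 0
  · simp [Tm, dualC, hb, ← mul_assoc]
  have ha' := supp_cof hβ (hg.mul hh.1) ha
  have hb' := supp_cof hβ (hg.mul hh.1) hb
  have pa := po_of_SP hM ha'
  have pb := po_of_SP hM hb'
  have cop : ∀ {x : O}, β (g * h * x) ≠ 0 → IsCoprime h x := fun {x} hx => by
    have h1 : Squarefree (h * x) :=
      (hβ _ hx).1.2.1.squarefree_of_dvd ⟨g, by ring⟩
    exact isRelPrime_iff_isCoprime.1 (IsRelPrime.of_squarefree_mul h1)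
  have hcl := hbb a b ha'.2.2 hb'.2.2
  rw [cls, if_pos ⟨pa.2, pb.2⟩] at hcl
  have nh := nr_pos hh.1.ne_zero
  have e1 : X * nr k / (nr e * nr (h * a) * nr (h * b)) =
      X * nr k / (nr e * nr h ^ 2) / (nr a * nr b) := by
    rw [nr_mul, nr_mul, div_div]; ring
  have e2 : X / (nr e * Real.sqrt (nr (h * a)) * Real.sqrt (nr (h * b))) =
      X / (nr e * nr h) * (Real.sqrt (nr a))⁻¹ * (Real.sqrt (nr b))⁻¹ := by
    rw [nr_mul, nr_mul, Real.sqrt_mul nh.le, Real.sqrt_mul nh.le]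
    nth_rewrite 3 [← Real.mul_self_sqrt nh.le]
    simp only [div_eq_mul_inv, mul_inv]
    ring
  have e3 : ∑ ψ, ∑ ψ', bb ψ ψ' * ((gw (X * nr k / (nr e * nr h ^ 2) / (nr a * nr b)) : ℂ) *
          ((dualC j β g e h ψ (-(1 / 2)) a * sym a k ^ j') *
            conj (dualC j β g e h ψ' (-(1 / 2)) b * sym b k ^ j'))) =
      (∑ ψ, ∑ ψ', bb ψ ψ' * (ev ψ a * conj (ev ψ' b))) *
        ((gw (X * nr k / (nr e * nr h ^ 2) / (nr a * nr b)) : ℂ) *
          ((β (g * h * a) * (gam j a * sym a (e * h ^ 2) ^ j * sym a k ^ j') *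
            (((Real.sqrt (nr a))⁻¹ : ℝ) : ℂ)) *
          (conj (β (g * h * b)) * conj (gam j b * sym b (e * h ^ 2) ^ j * sym b k ^ j') *
            (((Real.sqrt (nr b))⁻¹ : ℝ) : ℂ)))) := by
    simp only [Finset.sum_mul]
    refine Finset.sum_congr rfl fun ψ _ => Finset.sum_congr rfl fun ψ' _ => ?_
    simp only [dualC, cpow_neg_half (Nat.cast_nonneg _), map_mul, Complex.conj_ofReal]
    ring
  rw [e3, ← hcl, Tm, e1, e2, Aa_mul hj e k hh pa (cop ha), Aa_mul hj e k hh pb (cop hb),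
    ← mul_assoc g h a, ← mul_assoc g h b]
  simp only [map_mul]
  push_cast
  ring

/-- The integral attached to one dual row. -/
def II (M : O) (R : ℝ) (j j' : ℕ) (β : O → ℂ) (σ : ℝ) (g e h k : O) (ψ : Chr M) (u : ℝ) : ℝ :=
  ‖Complex.Gamma (σ + u * Complex.I)‖ *
    ‖rowS M R j' (dualC j β g e h ψ (-(1 / 2) + σ + u * Complex.I)) k‖ ^ 2

theorem integrable_II {M : O} {R : ℝ} (hR : 0 ≤ R) (j j' : ℕ) (β : O → ℂ) {σ : ℝ} (hσ : 0 < σ)
    (g e h k : O) (ψ : Chr M) : Integrable (II M R j j' β σ g e h k ψ) := by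
  have := integrable_DP (S := sp M R) (fun a ha => (primary_of_mem hR ha).ne_zero)
    (fun a => dualC j β g e h ψ (-(1 / 2)) a * sym a k ^ j') hσ
  simp only [DP_eq hR] at this
  exact this

theorem main_one {M : O} (hM : Adm M) [Fintype (Chr M)] {σ : ℝ} (hσ : 0 < σ) {j j' : ℕ}
    (hj : JJ j j') {R L X : ℝ} {β : O → ℂ} (hβ : Supp M L β) (hR : 1 ≤ R) (hX : R⁻¹ ≤ X)
    {g e h k : O} (hg : g ∈ sp M R) (he : e ∈ pdiv g) (hh : h ∈ sp M R) (hk : k ≠ 0) :
    ‖mu h * ∑ a ∈ sp M R, ∑ b ∈ sp M R, Tm j j' β X g e k (h * a) (h * b)‖ ≤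
      2 * Fintype.card (Chr M) * R ^ (4 * σ) *
        ∑ ψ : Chr M, X / (nr e * nr h) * ∫ u, II M R j j' β σ g e h k ψ u := by
  have hR0 : 0 ≤ R := by linarith
  have hX0 : 0 < X := lt_of_lt_of_le (by positivity) hX
  obtain ⟨hg1, hg2⟩ := (LS2.mem_sp hR0).1 hg
  obtain ⟨hh1, hh2⟩ := (LS2.mem_sp hR0).1 hh
  obtain ⟨he1, he2⟩ := (mem_pdiv hg1.1.ne_zero).1 he
  have ph := po_of_SP hM hh1
  obtain ⟨bb, hb1, hbb⟩ := class_separate hM (cls h) (norm_cls_le ph.2) (cls_congr h)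
  have ne := one_le_nr he1.ne_zero
  have nh := one_le_nr hh1.1.ne_zero
  have nk := one_le_nr hk
  have le : nr e ≤ R := le_trans (by exact_mod_cast nm_le_of_dvd he2 hg1.1.ne_zero) hg2
  set Z := X * nr k / (nr e * nr h ^ 2) with hZ
  have hZ0 : 0 < Z := by positivity
  have hZR : Z ^ (-σ) ≤ R ^ (4 * σ) := by
    have h1 : (R ^ 4)⁻¹ ≤ Z := by
      calc (R ^ 4)⁻¹ = R⁻¹ * 1 / (R * R ^ 2) := by field_simp
        _ ≤ _ := by rw [hZ]; gcongr
    calc Z ^ (-σ) ≤ ((R ^ 4)⁻¹) ^ (-σ) :=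
          Real.rpow_le_rpow_of_nonpos (by positivity) h1 (by linarith)
      _ = R ^ (4 * σ) := by
          rw [Real.inv_rpow (by positivity), Real.rpow_neg (by positivity), inv_inv,
            ← Real.rpow_natCast, ← Real.rpow_mul hR0]; norm_num
  set p : Chr M → O → ℂ := fun ψ a => dualC j β g e h ψ (-(1 / 2)) a * sym a k ^ j' with hp
  set J : Chr M → ℝ := fun ψ => ∫ u, II M R j j' β σ g e h k ψ u with hJ
  have hJ0 : ∀ ψ, 0 ≤ J ψ := fun ψ => integral_nonneg fun u => by unfold II; positivity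
  have e1 : ∑ a ∈ sp M R, ∑ b ∈ sp M R, Tm j j' β X g e k (h * a) (h * b) =
      mu e * ((X / (nr e * nr h) : ℝ) : ℂ) * (Aa j j' e k h * conj (Aa j j' e k h)) *
        ∑ ψ, ∑ ψ', bb ψ ψ' * ∑ a ∈ sp M R, ∑ b ∈ sp M R,
          (gw (Z / (nr a * nr b)) : ℂ) * (p ψ a * conj (p ψ' b)) := by
    simp only [Tm_mul hM hj hβ hg1.1 ph e k hbb, ← Finset.mul_sum]
    congr 1
    simp only [Finset.mul_sum]
    rw [Finset.sum_congr rfl fun a _ => Finset.sum_comm, Finset.sum_comm]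
    refine Finset.sum_congr rfl fun ψ _ => ?_
    rw [Finset.sum_congr rfl fun a _ => Finset.sum_comm, Finset.sum_comm]
  have e2 : ∀ ψ ψ', ‖bb ψ ψ' * ∑ a ∈ sp M R, ∑ b ∈ sp M R,
      (gw (Z / (nr a * nr b)) : ℂ) * (p ψ a * conj (p ψ' b))‖ ≤ R ^ (4 * σ) * (J ψ + J ψ') := by
    intro ψ ψ'
    have h1 := mellin_bil (S := sp M R) (fun a ha => (primary_of_mem hR0 ha).ne_zero) (p ψ) (p ψ')
      hσ hZ0
    simp only [hp, DP_eq hR0] at h1
    rw [norm_mul]
    refine (mul_le_of_le_one_left (norm_nonneg _) (hb1 ψ ψ')).trans (h1.trans ?_)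
    exact mul_le_mul_of_nonneg_right hZR (add_nonneg (hJ0 ψ) (hJ0 ψ'))
  have e3 : ‖∑ ψ, ∑ ψ', bb ψ ψ' * ∑ a ∈ sp M R, ∑ b ∈ sp M R,
      (gw (Z / (nr a * nr b)) : ℂ) * (p ψ a * conj (p ψ' b))‖ ≤
      2 * Fintype.card (Chr M) * R ^ (4 * σ) * ∑ ψ, J ψ := by
    refine (norm_sum_le _ _).trans ((Finset.sum_le_sum fun ψ _ => (norm_sum_le _ _).trans
      (Finset.sum_le_sum fun ψ' _ => e2 ψ ψ')).trans (le_of_eq ?_))
    simp only [← Finset.mul_sum, Finset.sum_add_distrib, Finset.sum_const, Finset.card_univ,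
      nsmul_eq_mul]
    ring
  have h0 : 0 ≤ X / (nr e * nr h) := by positivity
  have hA := norm_Aa_le hj e k ph hh1.2.1
  rw [e1, ← Finset.mul_sum]
  simp only [norm_mul, Complex.norm_conj, Complex.norm_real, Real.norm_of_nonneg h0]
  have h4 := norm_mu_le e
  have h5 := norm_mu_le h
  have h6 : 0 ≤ ∑ ψ, J ψ := Finset.sum_nonneg fun ψ _ => hJ0 ψ
  calc _ ≤ 1 * (1 * (X / (nr e * nr h)) * (1 * 1) *
        (2 * Fintype.card (Chr M) * R ^ (4 * σ) * ∑ ψ, J ψ)) := by gcongr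
    _ = _ := by ring

theorem integral_OD {M : O} [Fintype (Chr M)] {σ : ℝ} (hσ : 0 < σ) (j j' : ℕ) (β : O → ℂ)
    {R : ℝ} (hR : 0 ≤ R) (X L Λ : ℝ) :
    (∫ u : ℝ, ‖Complex.Gamma (σ + u * Complex.I)‖ *
      ∑ ψ : Chr M, OD M R j j' β X L Λ ψ (-(1 / 2) + σ + u * Complex.I)) =
      ∑ ψ : Chr M, ∑ g ∈ sp M R, ∑ e ∈ pdiv g, ∑ h ∈ sp M R,
        ∑ k ∈ rows (Λ * nr e * (L / nr g) ^ 2 / X),
          X / (nr e * nr h) * ∫ u, II M R j j' β σ g e h k ψ u := by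
  have h1 : ∀ u : ℝ, ‖Complex.Gamma (σ + u * Complex.I)‖ *
      ∑ ψ : Chr M, OD M R j j' β X L Λ ψ (-(1 / 2) + σ + u * Complex.I) =
      ∑ ψ : Chr M, ∑ g ∈ sp M R, ∑ e ∈ pdiv g, ∑ h ∈ sp M R,
        ∑ k ∈ rows (Λ * nr e * (L / nr g) ^ 2 / X),
          X / (nr e * nr h) * II M R j j' β σ g e h k ψ u := by
    intro u
    simp only [OD, II, Finset.mul_sum]
    refine Finset.sum_congr rfl fun ψ _ => Finset.sum_congr rfl fun g _ =>
      Finset.sum_congr rfl fun e _ => Finset.sum_congr rfl fun h _ =>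
      Finset.sum_congr rfl fun k _ => ?_
    ring
  have h2 : ∀ ψ g e h k, Integrable fun u =>
      X / (nr e * nr h) * II M R j j' β σ g e h k ψ u :=
    fun ψ g e h k => (integrable_II hR j j' β hσ g e h k ψ).const_mul _
  simp only [h1]
  rw [integral_finsetSum _ fun ψ _ => integrable_finsetSum _ fun g _ =>
    integrable_finsetSum _ fun e _ => integrable_finsetSum _ fun h _ =>
    integrable_finsetSum _ fun k _ => h2 ψ g e h k]
  refine Finset.sum_congr rfl fun ψ _ => ?_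
  rw [integral_finsetSum _ fun g _ =>
    integrable_finsetSum _ fun e _ => integrable_finsetSum _ fun h _ =>
    integrable_finsetSum _ fun k _ => h2 ψ g e h k]
  refine Finset.sum_congr rfl fun g _ => ?_
  rw [integral_finsetSum _ fun e _ => integrable_finsetSum _ fun h _ =>
    integrable_finsetSum _ fun k _ => h2 ψ g e h k]
  refine Finset.sum_congr rfl fun e _ => ?_
  rw [integral_finsetSum _ fun h _ => integrable_finsetSum _ fun k _ => h2 ψ g e h k]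
  refine Finset.sum_congr rfl fun h _ => ?_
  rw [integral_finsetSum _ fun k _ => h2 ψ g e h k]
  simp only [integral_const_mul]

theorem swap22 {α β γ δ : Type*} (s : Finset α) (t : Finset β) (u : Finset γ) (v : γ → Finset δ)
    (f : α → β → γ → δ → ℂ) : ∑ a ∈ s, ∑ b ∈ t, ∑ c ∈ u, ∑ d ∈ v c, f a b c d =
      ∑ c ∈ u, ∑ d ∈ v c, ∑ a ∈ s, ∑ b ∈ t, f a b c d := by
  rw [Finset.sum_congr rfl fun a _ => Finset.sum_comm, Finset.sum_comm]
  refine Finset.sum_congr rfl fun c _ => ?_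
  rw [Finset.sum_congr rfl fun a _ => Finset.sum_comm, Finset.sum_comm]

open Classical in
theorem main_le {M : O} (hM : Adm M) [Fintype (Chr M)] {σ : ℝ} (hσ : 0 < σ) {j j' : ℕ}
    (hj : JJ j j') {R L X Λ : ℝ} {β : O → ℂ} (hβ : Supp M L β) (hL : L ≤ R) (hR : 1 ≤ R)
    (hX : R⁻¹ ≤ X) :
    ‖∑ g ∈ sp M R, ∑ a ∈ sp M R, ∑ b ∈ sp M R, if IsCoprime a b then ∑ e ∈ pdiv g,
      ∑ k ∈ rows (Λ * nr e * (L / nr g) ^ 2 / X), Tm j j' β X g e k a b else 0‖ ≤
      2 * Fintype.card (Chr M) * R ^ (4 * σ) * ∫ u : ℝ, ‖Complex.Gamma (σ + u * Complex.I)‖ *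
        ∑ ψ : Chr M, OD M R j j' β X L Λ ψ (-(1 / 2) + σ + u * Complex.I) := by
  have hR0 : 0 ≤ R := by linarith
  rw [integral_OD hσ j j' β hR0, Finset.sum_comm (s := Finset.univ), Finset.mul_sum]
  refine (norm_sum_le _ _).trans (Finset.sum_le_sum fun g hg => ?_)
  have hgp := primary_of_mem hR0 hg
  have e1 : (∑ a ∈ sp M R, ∑ b ∈ sp M R, if IsCoprime a b then ∑ e ∈ pdiv g,
      ∑ k ∈ rows (Λ * nr e * (L / nr g) ^ 2 / X), Tm j j' β X g e k a b else 0) =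
      ∑ e ∈ pdiv g, ∑ h ∈ sp M R, ∑ k ∈ rows (Λ * nr e * (L / nr g) ^ 2 / X),
        mu h * ∑ a ∈ sp M R, ∑ b ∈ sp M R, Tm j j' β X g e k (h * a) (h * b) := by
    rw [sum_cop hR0 fun a b => ∑ e ∈ pdiv g,
      ∑ k ∈ rows (Λ * nr e * (L / nr g) ^ 2 / X), Tm j j' β X g e k a b,
      Finset.sum_comm (s := pdiv g)]
    · refine Finset.sum_congr rfl fun h _ => ?_
      rw [swap22 (sp M R) (sp M R) (pdiv g) (fun e => rows (Λ * nr e * (L / nr g) ^ 2 / X))
        fun a b e k => Tm j j' β X g e k (h * a) (h * b), Finset.mul_sum]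
      exact Finset.sum_congr rfl fun e _ => Finset.mul_sum _ _ _
    · intro x y h
      obtain ⟨e, -, h⟩ := Finset.exists_ne_zero_of_sum_ne_zero h
      obtain ⟨k, -, h⟩ := Finset.exists_ne_zero_of_sum_ne_zero h
      have h1 := left_ne_zero_of_mul h
      have hx := left_ne_zero_of_mul h1
      have hy := (map_ne_zero _).1 (right_ne_zero_of_mul h1)
      exact ⟨mem_sp_of_dvd hR0 (supp_mem hβ hL hR0 hx) (supp_cof hβ hgp hx).1 (dvd_mul_left _ _),
        mem_sp_of_dvd hR0 (supp_mem hβ hL hR0 hy) (supp_cof hβ hgp hy).1 (dvd_mul_left _ _)⟩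
  rw [e1, Finset.sum_comm (s := Finset.univ), Finset.mul_sum]
  refine (norm_sum_le _ _).trans (Finset.sum_le_sum fun e he => ?_)
  rw [Finset.sum_comm (s := Finset.univ), Finset.mul_sum]
  refine (norm_sum_le _ _).trans (Finset.sum_le_sum fun h hh => ?_)
  rw [Finset.sum_comm (s := Finset.univ), Finset.mul_sum]
  refine (norm_sum_le _ _).trans (Finset.sum_le_sum fun k hk => ?_)
  exact main_one hM hσ hj hβ hR hX hg he hh (Finset.ne_of_mem_erase hk)

end P1b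

/-- One Poisson step with the Mellin integral kept. -/
theorem poisson_step {M : O} (hM : Adm M) [Fintype (Chr M)] {σ : ℝ} (hσ : 0 < σ) (hσ1 : σ ≤ 1)
    (B : ℝ) : ∃ C : ℝ, 0 < C ∧ ∀ (j j' : ℕ) (β : O → ℂ) (R X L Λ : ℝ), JJ j j' → 1 ≤ R → 1 ≤ Λ →
      Supp M L β → L ≤ R → R⁻¹ ≤ X → X ≤ R ^ 2 →
      Dq M R j β X ≤ X * ∑ n ∈ sp M R, ‖β n‖ ^ 2 +
        C * R ^ (4 * σ) * (∫ u : ℝ, ‖Complex.Gamma (σ + u * Complex.I)‖ *
          ∑ ψ : Chr M, OD M R j j' β X L Λ ψ (-(1 / 2) + σ + u * Complex.I)) +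
        C * R ^ (7 : ℝ) * Λ ^ (-B) * (∑ n ∈ sp M R, ‖β n‖) ^ 2 := by
  classical
  obtain ⟨C, hC, H⟩ := P1b.tail_le hM B
  refine ⟨C + 2 * Fintype.card (Chr M), by positivity, ?_⟩
  intro j j' β R X L Λ hj hR hΛ hβ hL hX hXR
  have hR0 : 0 ≤ R := by linarith
  have hX0 : 0 < X := lt_of_lt_of_le (by positivity) hX
  have h0 := P1b.diag_le (M := M) hj β hR hX0
  have h1 := P1b.main_le (Λ := Λ) hM hσ hj hβ hL hR hX
  have h2 := H hj hR hΛ hβ hL hX0 hXR
  have hI : 0 ≤ ∫ u : ℝ, ‖Complex.Gamma (σ + u * Complex.I)‖ *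
      ∑ ψ : Chr M, OD M R j j' β X L Λ ψ (-(1 / 2) + σ + u * Complex.I) :=
    MeasureTheory.integral_nonneg fun u => by unfold OD; positivity
  have h3 := (norm_add₃_le).trans (add_le_add (add_le_add h0 h1) h2)
  simp only [← Finset.sum_add_distrib] at h3
  have h4 : Dq M R j β X ≤ ‖(Dq M R j β X : ℂ)‖ := by
    rw [Complex.norm_real]; exact Real.le_norm_self _
  rw [P1b.Dq_eq hM hj hβ hL hR0 hX0] at h4
  refine h4.trans ((le_of_eq_of_le (congrArg _ ?_) h3).trans ?_)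
  · refine Finset.sum_congr rfl fun g hg => Finset.sum_congr rfl fun a ha =>
      Finset.sum_congr rfl fun b hb => ?_
    have hgp := P1b.primary_of_mem hR0 hg
    split_ifs
    · simp only [← Finset.sum_add_distrib]
      refine Finset.sum_congr rfl fun e he => ?_
      exact P1b.tsum_split (P1b.summable_Tm hM hj hβ hX0 hgp
        ((mem_pdiv hgp.ne_zero).1 he).1.ne_zero (P1b.primary_of_mem hR0 ha).ne_zero
        (P1b.primary_of_mem hR0 hb).ne_zero) (by positivity)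
    · simp
  · have : (0 : ℝ) ≤ Fintype.card (Chr M) := by positivity
    gcongr <;> linarith

theorem m4a_OD_nonneg (M : O) (R : ℝ) (j j' : ℕ) (β : O → ℂ) {X : ℝ} (hX : 0 ≤ X) (L Λ : ℝ)
    (ψ : Chr M) (w : ℂ) : 0 ≤ OD M R j j' β X L Λ ψ w := by
  refine Finset.sum_nonneg fun g _ => Finset.sum_nonneg fun e _ => Finset.sum_nonneg fun h _ => ?_
  exact mul_nonneg (by positivity) (Finset.sum_nonneg fun k _ => by positivity)

/-- **P1, family version.** -/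
theorem poisson_family {M : O} (hM : Adm M) {σ : ℝ} (hσ : 0 < σ) (hσ1 : σ ≤ 1) (J : ℕ) (B : ℝ) :
    ∃ C : ℝ, 0 < C ∧ ∀ {I : Type} (s : Finset I) (w : I → ℝ) (β : I → O → ℂ) (X L : I → ℝ)
      (j j' : ℕ) (R Λ E : ℝ), JJ j j' → 1 ≤ R → 1 ≤ Λ → (∀ i ∈ s, 0 ≤ w i) →
      (∀ i ∈ s, Supp M (L i) (β i) ∧ L i ≤ R ∧ R⁻¹ ≤ X i ∧ X i ≤ R ^ 2) →
      (∀ (ψ : Chr M) (u : ℝ), ∑ i ∈ s, w i *
        OD M R j j' (β i) (X i) (L i) Λ ψ (-(1 / 2) + σ + u * Complex.I) ≤ E * (1 + |u|) ^ J) →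
      ∑ i ∈ s, w i * Dq M R j (β i) (X i) ≤
        ∑ i ∈ s, w i * (X i * ∑ n ∈ sp M R, ‖β i n‖ ^ 2) + C * R ^ (4 * σ) * E +
        C * R ^ (7 : ℝ) * Λ ^ (-B) * ∑ i ∈ s, w i * (∑ n ∈ sp M R, ‖β i n‖) ^ 2 := by
  have := finite_chr hM.1
  have : Fintype (Chr M) := Fintype.ofFinite _
  obtain ⟨C, hC, H⟩ := poisson_step hM hσ hσ1 B
  set K : ℝ := ∫ u : ℝ, ‖Complex.Gamma (σ + u * Complex.I)‖ * (1 + |u|) ^ J with hK
  have hK0 : 0 ≤ K := MeasureTheory.integral_nonneg fun u => by positivity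
  set N : ℝ := (Fintype.card (Chr M) : ℝ) with hN
  have hN0 : 0 ≤ N := by positivity
  refine ⟨C * (1 + N * K), by positivity, fun {I} s w β X L j j' R Λ E hj hR hΛ hw hs hE => ?_⟩
  have hX : ∀ i ∈ s, 0 ≤ X i := fun i hi => le_trans (by positivity) (hs i hi).2.2.1
  have hE0 : 0 ≤ E := by
    have h1 := hE 1 0
    rw [abs_zero, add_zero, one_pow, mul_one] at h1
    exact le_trans (Finset.sum_nonneg fun i hi =>
      mul_nonneg (hw i hi) (m4a_OD_nonneg _ _ _ _ _ (hX i hi) _ _ _ _)) h1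
  have key : ∑ i ∈ s, w i * (∫ u : ℝ, ‖Complex.Gamma (σ + u * Complex.I)‖ *
      ∑ ψ : Chr M, OD M R j j' (β i) (X i) (L i) Λ ψ (-(1 / 2) + σ + u * Complex.I)) ≤
        N * K * E := by
    refine (M4A.sum_integral_le s w _
      (fun u : ℝ => N * E * (‖Complex.Gamma (σ + u * Complex.I)‖ * (1 + |u|) ^ J)) hw
      (fun i hi u => mul_nonneg (norm_nonneg _) (Finset.sum_nonneg fun ψ _ =>
        m4a_OD_nonneg _ _ _ _ _ (hX i hi) _ _ _ _))
      ((integrable_Gamma_mul_pow hσ J).const_mul _) fun u => ?_).trans_eq ?_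
    · calc _ = ‖Complex.Gamma (σ + u * Complex.I)‖ * ∑ ψ : Chr M, ∑ i ∈ s, w i *
            OD M R j j' (β i) (X i) (L i) Λ ψ (-(1 / 2) + σ + u * Complex.I) := by
            rw [Finset.sum_comm, Finset.mul_sum]
            refine Finset.sum_congr rfl fun i _ => ?_
            rw [← Finset.mul_sum]; ring
        _ ≤ ‖Complex.Gamma (σ + u * Complex.I)‖ * ∑ _ψ : Chr M, E * (1 + |u|) ^ J :=
            mul_le_mul_of_nonneg_left (Finset.sum_le_sum fun ψ _ => hE ψ u) (norm_nonneg _)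
        _ = _ := by
            rw [Finset.sum_const, Finset.card_univ, nsmul_eq_mul, ← hN]; ring
    · rw [MeasureTheory.integral_const_mul, ← hK]; ring
  have hS : 0 ≤ ∑ i ∈ s, w i * (∑ n ∈ sp M R, ‖β i n‖) ^ 2 :=
    Finset.sum_nonneg fun i hi => mul_nonneg (hw i hi) (by positivity)
  have h1 : ∑ i ∈ s, w i * Dq M R j (β i) (X i) ≤
      ∑ i ∈ s, w i * (X i * ∑ n ∈ sp M R, ‖β i n‖ ^ 2) +
        C * R ^ (4 * σ) * ∑ i ∈ s, w i * (∫ u : ℝ, ‖Complex.Gamma (σ + u * Complex.I)‖ *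
          ∑ ψ : Chr M, OD M R j j' (β i) (X i) (L i) Λ ψ (-(1 / 2) + σ + u * Complex.I)) +
        C * R ^ (7 : ℝ) * Λ ^ (-B) * ∑ i ∈ s, w i * (∑ n ∈ sp M R, ‖β i n‖) ^ 2 := by
    rw [Finset.mul_sum, Finset.mul_sum, ← Finset.sum_add_distrib, ← Finset.sum_add_distrib]
    refine Finset.sum_le_sum fun i hi => ?_
    obtain ⟨a1, a2, a3, a4⟩ := hs i hi
    refine (mul_le_mul_of_nonneg_left (H j j' (β i) R (X i) (L i) Λ hj hR hΛ a1 a2 a3 a4)
      (hw i hi)).trans_eq ?_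
    ring
  have hR4 : 0 ≤ R ^ (4 * σ) := by positivity
  have hR7 : 0 ≤ R ^ (7 : ℝ) * Λ ^ (-B) := by positivity
  have h2 := mul_le_mul_of_nonneg_left key (mul_nonneg hC.le hR4)
  have h3 : 0 ≤ C * R ^ (4 * σ) * E := by positivity
  have h4 : 0 ≤ C * (N * K) * (R ^ (7 : ℝ) * Λ ^ (-B)) *
      ∑ i ∈ s, w i * (∑ n ∈ sp M R, ‖β i n‖) ^ 2 := by positivity
  refine h1.trans ?_
  linarith

end Crest.Agent.R17
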