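import Crest.Agent.PVc.R17.LS2Defs
import Crest.Agent.PVc.R17.LS2
import Crest.Agent.PVc.R17.LS2Avg
import Crest.Agent.PVc.R17.Count
import Crest.Agent.PVc.R17.Rows
import Crest.Agent.PVc.R17.M4P1

-- ▼ part PVc/R17/DPAuxA2
section

/-!
# Row 17, module M11: auxiliary file for `pair_back` and `norm_ft_frozen`
-/

set_option autoImplicit false

noncomputable section

namespace Crest.Agent.R17

open scoped ComplexConjugate

namespace DPA2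

theorem gam5_mul {m n : O} (hm : PO m) (hn : PO n) (h : IsCoprime m n) :
    gam 5 (m * n) = Rs m n * sym n m ^ 10 * gam 5 m * gam 5 n := by
  have e : Rs m n ^ 5 = Rs m n := by
    rw [show Rs m n ^ 5 = (Rs m n ^ 2) ^ 2 * Rs m n by ring, Rs_sq hm.2 hn.2]
    ring
  rw [gam, gam, gam, gs_mul 5 hm hn h, sym_recip hm hn, mul_pow, e, nr_mul,
    Real.sqrt_mul (nr_pos hm.1.ne_zero).le]
  push_cast
  ring

theorem conj_Rs {m n : O} (hm : IsCoprime m 2) (hn : IsCoprime n 2) : conj (Rs m n) = Rs m n := by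
  rcases sq_eq_one_iff.1 (Rs_sq hm hn) with h | h <;> rw [h] <;> simp

theorem ft_crt {f g : O → ℂ} {m n : O} (hm : m ≠ 0) (hn : n ≠ 0) (h : IsCoprime m n)
    (hf : ∀ x y, m ∣ x - y → f x = f y) (hg : ∀ x y, n ∣ x - y → g x = g y)
    (hf' : ∀ x y, f (x * y) = f x * f y) (hg' : ∀ x y, g (x * y) = g x * g y) (k : O) :
    ft (m * n) (fun x => f x * g x) k = f n * g m * ft m f k * ft n g k :=
  Gauss_crt hm hn h hf hg hf' hg' k

theorem ft_pow {n : O} (hn : Primary n) {j : ℕ} (hj : j ≠ 0) (k : O) :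
    ft n (fun x => sym n x ^ j) k = gs j n k :=
  Finset.sum_congr rfl fun x _ => by rw [sym_pow_add_six hn x hj]

theorem gs_eq_gam (j : ℕ) {n : O} (hn : n ≠ 0) : gs j n 1 = (Real.sqrt (nr n) : ℂ) * gam j n := by
  have s1 : (Real.sqrt (nr n) : ℂ) ≠ 0 := by
    exact_mod_cast (Real.sqrt_pos.2 (nr_pos hn)).ne'
  rw [gam]
  field_simp

theorem rad_dvd_of {e d ρ : O} (hρ : ρ ≠ 0) (he : e ∣ ρ) (hd : d ∣ ρ) : rad (e * d ^ 3) ∣ ρ := by
  refine BasicB.prod_dvd_of_subset hρ fun p hp => ?_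
  obtain ⟨h1, h2, h3⟩ := BasicB.of_mem_pf hp
  refine (mem_pf hρ).2 ⟨h1, h2, ?_⟩
  rcases h1.dvd_or_dvd h3 with h | h
  · exact h.trans he
  · exact (h1.dvd_of_dvd_pow h).trans hd

/-- The Fourier transform of `χ_{m₁} conj χ_{m₂}`. -/
theorem ft_pair {m₁ m₂ : O} (h₁ : PO m₁) (h₂ : PO m₂) (s₁ : Squarefree m₁) (s₂ : Squarefree m₂)
    (hc : IsCoprime m₁ m₂) (a : O) :
    ft (m₁ * m₂) (fun x => sym m₁ x ^ 1 * sym m₂ x ^ 5) a =
      (Real.sqrt (nr m₁ * nr m₂) : ℂ) * Rs m₁ m₂ * (gam 1 m₁ * gam 5 m₂) *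
        (sym m₁ a ^ 5 * sym m₂ a) := by
  rw [ft_crt h₁.1.ne_zero h₂.1.ne_zero hc (Gauss_sym_per m₁ 1) (Gauss_sym_per m₂ 5)
      (fun x y => by rw [sym_mul_right h₁, mul_pow]) (fun x y => by rw [sym_mul_right h₂, mul_pow]),
    ft_pow h₁.1 one_ne_zero, ft_pow h₂.1 (by norm_num), gs_sqfree (by norm_num) h₁ s₁,
    gs_sqfree (by norm_num) h₂ s₂, gs_eq_gam 1 h₁.1.ne_zero, gs_eq_gam 5 h₂.1.ne_zero, map_pow,
    map_pow, conj_sym h₁.1, conj_sym h₂.1, sym_recip h₁ h₂,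
    Real.sqrt_mul (nr_pos h₁.1.ne_zero).le]
  have e1 := sym_pow_six h₂.1 hc.symm
  have e2 : (sym m₂ a ^ 5) ^ 5 = sym m₂ a := by
    rw [← pow_mul]
    simpa using Gauss_sym_pow h₂.1 a one_ne_zero 4
  rw [e2]
  push_cast
  linear_combination (Rs m₁ m₂ * sym m₁ a ^ 5 * (Real.sqrt (nr m₁) : ℂ) * gam 1 m₁ * sym m₂ a *
    (Real.sqrt (nr m₂) : ℂ) * gam 5 m₂) * e1

theorem alg₁ {u v w r β : ℂ} (hu : u ^ 6 = 1) (hv : v ^ 6 = 1) (hr : r ^ 6 = 1)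
    (h : u * v ^ 3 * w = r * β) : u ^ 10 * (u * v ^ 3) * w ^ 5 * r = β ^ 5 := by
  have hβ : β = r ^ 5 * (u * v ^ 3 * w) := by rw [h]; linear_combination (-β) * hr
  calc u ^ 10 * (u * v ^ 3) * w ^ 5 * r = u ^ 6 * (u ^ 5 * v ^ 3 * w ^ 5 * r) := by ring
    _ = (r ^ 6) ^ 4 * (v ^ 6) ^ 2 * (u ^ 5 * v ^ 3 * w ^ 5 * r) := by rw [hu, hv, hr]; ring
    _ = β ^ 5 := by rw [hβ]; ring

theorem alg₂ {u v w r β : ℂ} (hu : u ^ 6 = 1) (hv : v ^ 6 = 1) (hr : r ^ 6 = 1)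
    (h : w * (u * v ^ 3) = r * β) : (u ^ 5) ^ 10 * w * (u * v ^ 3) ^ 5 * r ^ 5 = β := by
  have hβ : β = r ^ 5 * (w * (u * v ^ 3)) := by rw [h]; linear_combination (-β) * hr
  calc (u ^ 5) ^ 10 * w * (u * v ^ 3) ^ 5 * r ^ 5
      = (u ^ 6) ^ 9 * (v ^ 6) ^ 2 * (r ^ 5 * (w * (u * v ^ 3))) := by ring
    _ = β := by rw [hu, hv, hβ]; ring

theorem pair_back {ρ e₁ e₂ d₁ d₂ m₁ m₂ : O} (hρ : PO ρ) (h₁ : PO m₁) (h₂ : PO m₂)
    (hs : Squarefree (ρ * m₁ * m₂)) (he₁ : Primary e₁) (he₂ : Primary e₂) (hd₁ : Primary d₁)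
    (hd₂ : Primary d₂) (he₁' : e₁ ∣ ρ) (he₂' : e₂ ∣ ρ) (hd₁' : d₁ ∣ ρ) (hd₂' : d₂ ∣ ρ)
    {b : O} (hb : e₁ * d₁ ^ 3 * (e₂ * d₂ ^ 3) = ρ * b) {K : ℝ} (hK : 0 < K) :
    gam 5 (e₁ * m₁) * conj (gam 5 (e₂ * m₂)) *
      ∑' k : O, sym (e₁ * m₁ * d₁ ^ 3) k * conj (sym (e₂ * m₂ * d₂ ^ 3) k) * (gw (nr k / K) : ℂ) =
      gam 5 e₁ * conj (gam 5 e₂) * ((K / (nr ρ * Real.sqrt (nr m₁ * nr m₂)) : ℝ) : ℂ) *
        (Rs m₁ m₂ * (sym m₁ (-1) * Rs e₁ m₁ * Rs (ρ * b) m₁) * (Rs e₂ m₂ * Rs (ρ * b) m₂)) *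
        ∑' a : O, ft ρ (fun k => sym (e₁ * d₁ ^ 3) k * conj (sym (e₂ * d₂ ^ 3) k)) a *
          (conj (sym m₁ (a * b)) * sym m₂ (a * b)) *
          (gw (K * nr a / (nr ρ * nr m₁ * nr m₂)) : ℂ) := by
  have zρ := hρ.1.ne_zero
  have z₁ := h₁.1.ne_zero
  have z₂ := h₂.1.ne_zero
  obtain ⟨c₁, hs₁, s₂⟩ := squarefree_mul_iff.1 hs
  obtain ⟨c₂, sρ, s₁⟩ := squarefree_mul_iff.1 hs₁
  have k₁ : IsCoprime ρ m₁ := c₂.isCoprime
  have k₂ : IsCoprime ρ m₂ := c₁.isCoprime.of_mul_left_left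
  have k₃ : IsCoprime m₁ m₂ := c₁.isCoprime.of_mul_left_right
  have pe₁ := hρ.of_dvd he₁ he₁'
  have pe₂ := hρ.of_dvd he₂ he₂'
  have pf₁ : PO (e₁ * d₁ ^ 3) := ⟨he₁.mul (hd₁.pow 3), pe₁.2.mul_left (hρ.of_dvd hd₁ hd₁').2.pow_left⟩
  have pf₂ : PO (e₂ * d₂ ^ 3) := ⟨he₂.mul (hd₂.pow 3), pe₂.2.mul_left (hρ.of_dvd hd₂ hd₂').2.pow_left⟩
  set F : O → ℂ := fun k => sym (e₁ * d₁ ^ 3) k * conj (sym (e₂ * d₂ ^ 3) k) with hF
  set G : O → ℂ := fun k => sym m₁ k ^ 1 * sym m₂ k ^ 5 with hG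
  have Fp : ∀ x y, ρ ∣ x - y → F x = F y := fun x y h => by
    simp only [hF]
    rw [sym_congr ((rad_dvd_of zρ he₁' hd₁').trans h),
      sym_congr ((rad_dvd_of zρ he₂' hd₂').trans h)]
  have Gp : ∀ x y, m₁ * m₂ ∣ x - y → G x = G y := fun x y h => by
    simp only [hG]
    rw [Gauss_sym_per m₁ 1 x y ((dvd_mul_right _ _).trans h),
      Gauss_sym_per m₂ 5 x y ((dvd_mul_left _ _).trans h)]
  have Fm : ∀ x y, F (x * y) = F x * F y := fun x y => by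
    simp only [hF]
    rw [sym_mul_right pf₁, sym_mul_right pf₂, map_mul]
    ring
  have Gm : ∀ x y, G (x * y) = G x * G y := fun x y => by
    simp only [hG]
    rw [sym_mul_right h₁, sym_mul_right h₂]
    ring
  have hFG : ∀ k, sym (e₁ * m₁ * d₁ ^ 3) k * conj (sym (e₂ * m₂ * d₂ ^ 3) k) = F k * G k := by
    intro k
    simp only [hF, hG]
    rw [mul_right_comm e₁, mul_right_comm e₂, sym_mul_left pf₁.1.ne_zero z₁,
      sym_mul_left pf₂.1.ne_zero z₂, map_mul, conj_sym h₂.1]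
    ring
  have hP := poisson (mul_ne_zero zρ (mul_ne_zero z₁ z₂)) (fun k => F k * G k)
    (fun x y h => by
      rw [Fp x y ((dvd_mul_right _ _).trans h), Gp x y ((dvd_mul_left _ _).trans h)]) hK
  simp only [hFG]
  rw [hP, ← mul_assoc, ← tsum_mul_left, ← tsum_mul_left]
  refine tsum_congr fun a => ?_
  rw [ft_crt zρ (mul_ne_zero z₁ z₂) (k₁.mul_right k₂) Fp Gp Fm Gm, ft_pair h₁ h₂ s₁ s₂ k₃,
    nr_mul, nr_mul, ← mul_assoc (nr ρ)]
  have c1 : ∀ {x : O}, x ∣ ρ → sym m₁ x ^ 6 = 1 := fun h =>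
    sym_pow_six h₁.1 (k₁.symm.of_isCoprime_of_dvd_right h)
  have c2 : ∀ {x : O}, x ∣ ρ → sym m₂ x ^ 6 = 1 := fun h =>
    sym_pow_six h₂.1 (k₂.symm.of_isCoprime_of_dvd_right h)
  have a1 := alg₁ (w := sym m₁ (e₂ * d₂ ^ 3)) (β := sym m₁ b) (c1 he₁') (c1 hd₁') (c1 dvd_rfl) (by
    rw [← sym_pow_right h₁, ← sym_mul_right h₁, ← sym_mul_right h₁, hb, sym_mul_right h₁])
  have a2 := alg₂ (w := sym m₂ (e₁ * d₁ ^ 3)) (β := sym m₂ b) (c2 he₂') (c2 hd₂') (c2 dvd_rfl) (by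
    rw [← sym_pow_right h₂, ← sym_mul_right h₂, ← sym_mul_right h₂, hb, sym_mul_right h₂])
  have eF : F (m₁ * m₂) = Rs (ρ * b) m₁ * Rs (ρ * b) m₂ *
      (sym m₁ e₁ * sym m₁ d₁ ^ 3 * sym m₁ (e₂ * d₂ ^ 3) ^ 5) *
      (sym m₂ (e₁ * d₁ ^ 3) * (sym m₂ e₂ * sym m₂ d₂ ^ 3) ^ 5) := by
    simp only [hF]
    rw [← hb, Rs_mul_left pf₁.2 pf₂.2 h₁.2, Rs_mul_left pf₁.2 pf₂.2 h₂.2, sym_mul_right pf₁,
      sym_mul_right pf₂, sym_recip pf₁ h₁, sym_recip pf₁ h₂, sym_recip pf₂ h₁, sym_recip pf₂ h₂,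
      map_mul, map_mul, map_mul, conj_Rs pf₂.2 h₁.2, conj_Rs pf₂.2 h₂.2, conj_sym h₁.1,
      conj_sym h₂.1, sym_mul_right h₁ e₁, sym_pow_right h₁, sym_mul_right h₂ e₂, sym_pow_right h₂]
    ring
  have g1 := gam_mul_gam (j := 1) (by norm_num) h₁ s₁
  have g2 : conj (gam 5 m₂) * gam 5 m₂ = 1 := Gauss_conj_mul (norm_gam (by norm_num) h₂ s₂)
  have hN : (0 : ℝ) < nr m₁ * nr m₂ := mul_pos (nr_pos z₁) (nr_pos z₂)
  have eK : ((K / (nr ρ * nr m₁ * nr m₂) : ℝ) : ℂ) * (Real.sqrt (nr m₁ * nr m₂) : ℂ) =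
      ((K / (nr ρ * Real.sqrt (nr m₁ * nr m₂)) : ℝ) : ℂ) := by
    rw [← Complex.ofReal_mul]
    congr 1
    have h1 := Real.mul_self_sqrt hN.le
    have h2 := Real.sqrt_pos.2 hN
    have h3 := nr_pos zρ
    rw [mul_assoc (nr ρ)]
    generalize Real.sqrt (nr m₁ * nr m₂) = S at *
    rw [← h1]
    field_simp
  rw [gam5_mul pe₁ h₁ (k₁.of_isCoprime_of_dvd_left he₁'),
    gam5_mul pe₂ h₂ (k₂.of_isCoprime_of_dvd_left he₂'), eF, ← eK, sym_mul_right h₁ a,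
    sym_mul_right h₂ a, map_mul, map_mul, map_mul, map_mul, map_pow, conj_Rs pe₂.2 h₂.2,
    conj_sym h₂.1, conj_sym h₁.1, conj_sym h₁.1, ← a1, ← a2, ← pow_one (sym m₁ (-1)), ← g1]
  simp only [hG]
  linear_combination (Rs e₁ m₁ * sym m₁ e₁ ^ 10 * gam 5 e₁ * gam 5 m₁ *
    (Rs e₂ m₂ * (sym m₂ e₂ ^ 5) ^ 10 * conj (gam 5 e₂)) *
    ((K / (nr ρ * nr m₁ * nr m₂) : ℝ) : ℂ) * (Rs (ρ * b) m₁ * Rs (ρ * b) m₂ *
      (sym m₁ e₁ * sym m₁ d₁ ^ 3 * sym m₁ (e₂ * d₂ ^ 3) ^ 5) *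
      (sym m₂ (e₁ * d₁ ^ 3) * (sym m₂ e₂ * sym m₂ d₂ ^ 3) ^ 5)) *
    (sym m₁ ρ * sym m₂ ρ ^ 5) * ft ρ F a * (Real.sqrt (nr m₁ * nr m₂) : ℂ) * Rs m₁ m₂ * gam 1 m₁ *
    (sym m₁ a ^ 5 * sym m₂ a) * (gw (K * nr a / (nr ρ * nr m₁ * nr m₂)) : ℂ)) * g2

/-! ### the frozen Gauss sum -/

theorem norm_ft_prod (n : O → ℕ) (a : O) {S : Finset O} (hS : ∀ p ∈ S, Prime p ∧ PO p) :
    ‖ft (∏ p ∈ S, p) (fun k => ∏ p ∈ S, sym p k ^ n p) a‖ =
      ∏ p ∈ S, ‖ft p (fun k => sym p k ^ n p) a‖ := by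
  classical
  induction S using Finset.induction_on with
  | empty =>
    have := gs_one 0 a
    rw [gs] at this
    simp only [sym_one_left, one_pow] at this
    simp only [Finset.prod_empty, ft, this, norm_one]
  | insert q S hq ih =>
    have hS' : ∀ p ∈ S, Prime p ∧ PO p := fun p hp => hS p (Finset.mem_insert_of_mem hp)
    obtain ⟨h1, h2⟩ := hS q (Finset.mem_insert_self q S)
    have hc : ∀ p ∈ S, IsCoprime q p := fun p hp =>
      (h1.irreducible.isRelPrime_iff_not_dvd.2 fun h =>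
        hq (BasicB.eq_of_dvd h1 (hS' p hp).1 h2.1 (hS' p hp).2.1 h ▸ hp)).isCoprime
    simp only [Finset.prod_insert hq]
    rw [ft_crt (f := fun k => sym q k ^ n q) (g := fun k => ∏ p ∈ S, sym p k ^ n p) h1.ne_zero
      (Finset.prod_ne_zero_iff.2 fun p hp => (hS' p hp).1.ne_zero)
      (IsCoprime.prod_right hc) (Gauss_sym_per q _)
      (fun x y h => Finset.prod_congr rfl fun p hp =>
        Gauss_sym_per p _ x y ((Finset.dvd_prod_of_mem _ hp).trans h))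
      (fun x y => by rw [sym_mul_right h2, mul_pow])
      (fun x y => by
        rw [← Finset.prod_mul_distrib]
        exact Finset.prod_congr rfl fun p hp => by rw [sym_mul_right (hS' p hp).2, mul_pow]),
      norm_mul, norm_mul, norm_mul, ih hS', norm_pow, norm_sym h2.1 (IsCoprime.prod_right hc),
      norm_prod, Finset.prod_eq_one fun p hp => by
        rw [norm_pow, norm_sym (hS' p hp).2.1 (hc p hp).symm, one_pow]]
    simp

theorem norm_gs_ne {j : ℕ} (hj : ¬ 6 ∣ j) {p : O} (hp : Prime p) (h : PO p) (a : O) :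
    ‖gs j p a‖ ≤ Real.sqrt (nr p) := by
  rw [gs_sqfree hj h hp.squarefree, norm_mul, Gauss_norm_gs hj h hp.squarefree, Complex.norm_conj,
    norm_pow]
  exact mul_le_of_le_one_left (Real.sqrt_nonneg _) (pow_le_one₀ (norm_nonneg _) (norm_sym_le _ _))

theorem gs_zero_ne {j : ℕ} (hj : ¬ 6 ∣ j) {p : O} (hp : Prime p) (h : PO p) : gs j p 0 = 0 := by
  rw [gs_sqfree hj h hp.squarefree, (sym_eq_zero_iff h.1).2 fun hc =>
    hp.not_isUnit (isCoprime_zero_right.1 hc), zero_pow (by omega), map_zero, zero_mul]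

theorem norm_gs_dvd {j : ℕ} (hj : 6 ∣ j) {p : O} (hp : Prime p) (h : PO p) (a : O) :
    ‖gs j p a‖ ≤ nr p ∧ (¬ p ∣ a → ‖gs j p a‖ ≤ 1) := by
  have h1 := one_le_nr hp.ne_zero
  rw [gs_prime_zero hj hp h]
  split_ifs with ha
  · refine ⟨?_, fun h => absurd ha h⟩
    have : ((nm p : ℂ) - 1) = ((nr p - 1 : ℝ) : ℂ) := by push_cast; rfl
    rw [this, Complex.norm_real, Real.norm_of_nonneg (by linarith)]
    linarith
  · simpa using h1

open Classical in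
theorem local_le {p : O} (hp : Prime p) (h : PO p) {ε₁ ε₂ δ₁ δ₂ : ℕ} (h₁ : ε₁ ≤ 1) (h₂ : ε₂ ≤ 1)
    (h₃ : δ₁ ≤ 1) (h₄ : δ₂ ≤ 1) {b : O} {β : ℕ} (hβ : p ^ β ∣ b)
    (hβ' : ε₁ + 3 * δ₁ + (ε₂ + 3 * δ₂) = 1 + β) (a : O) :
    Real.sqrt (nr p ^ δ₁ * nr p ^ δ₂) * ‖gs (ε₁ + 3 * δ₁ + 5 * (ε₂ + 3 * δ₂)) p a‖ ≤
      nr p * if δ₁ = 1 ∧ δ₂ = 1 ∧ p ^ 6 ∣ a * b then nr p else 1 := by
  have h1 := one_le_nr hp.ne_zero
  have h0 : 0 ≤ nr p := by linarith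
  have hs := Real.mul_self_sqrt h0
  have hs0 := Real.sqrt_nonneg (nr p)
  have hs1 : 1 ≤ Real.sqrt (nr p) := Real.one_le_sqrt.2 h1
  have hif : 1 ≤ if δ₁ = 1 ∧ δ₂ = 1 ∧ p ^ 6 ∣ a * b then nr p else 1 := by
    split_ifs
    · exact h1
    · exact le_rfl
  by_cases hd : δ₁ = 1 ∧ δ₂ = 1
  · obtain ⟨rfl, rfl⟩ := hd
    rw [pow_one, Real.sqrt_mul_self h0]
    refine mul_le_mul_of_nonneg_left ?_ h0
    by_cases hj : 6 ∣ ε₁ + 3 * 1 + 5 * (ε₂ + 3 * 1)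
    · obtain ⟨k1, k2⟩ := norm_gs_dvd hj hp h a
      by_cases ha : p ∣ a
      · rw [if_pos ⟨rfl, rfl, by
          rw [pow_succ']
          exact mul_dvd_mul ha ((pow_dvd_pow p (by omega)).trans hβ)⟩]
        exact k1
      · exact (k2 ha).trans hif
    · have h6 : 6 ≤ β := by interval_cases ε₁ <;> interval_cases ε₂ <;> omega
      rw [if_pos ⟨rfl, rfl, ((pow_dvd_pow p h6).trans hβ).mul_left a⟩]
      refine (norm_gs_ne hj hp h a).trans ?_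
      nlinarith
  · refine le_trans ?_ (le_mul_of_one_le_right h0 hif)
    by_cases hj : 6 ∣ ε₁ + 3 * δ₁ + 5 * (ε₂ + 3 * δ₂)
    · obtain ⟨rfl, rfl⟩ : δ₁ = 0 ∧ δ₂ = 0 := by
        interval_cases ε₁ <;> interval_cases ε₂ <;> interval_cases δ₁ <;> interval_cases δ₂ <;>
          omega
      simpa using (norm_gs_dvd hj hp h a).1
    · have k1 : Real.sqrt (nr p ^ δ₁ * nr p ^ δ₂) ≤ Real.sqrt (nr p) := by
        refine Real.sqrt_le_sqrt ?_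
        rw [← pow_add]
        simpa using pow_le_pow_right₀ h1 (show δ₁ + δ₂ ≤ 1 by omega)
      exact (mul_le_mul k1 (norm_gs_ne hj hp h a) (norm_nonneg _) hs0).trans hs.le

theorem pf_subset {d ρ : O} (hρ : ρ ≠ 0) (h : d ∣ ρ) : pf d ⊆ pf ρ := fun _ hp =>
  (mem_pf hρ).2 ⟨(BasicB.of_mem_pf hp).1, (BasicB.of_mem_pf hp).2.1,
    (BasicB.of_mem_pf hp).2.2.trans h⟩

theorem prod_ext {M : Type*} [CommMonoid M] {d ρ : O} (hd : d ≠ 0) (h : pf d ⊆ pf ρ) (f : O → M) :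
    ∏ p ∈ pf d, f p ^ vp p d = ∏ p ∈ pf ρ, f p ^ vp p d :=
  Finset.prod_subset h fun p hp hp' => by
    rw [not_not.1 fun h0 => hp' ((BasicB.mem_pf_iff hd (BasicB.pf_sub hp).1
      (BasicB.pf_sub hp).2).2 h0), pow_zero]

theorem nr_eq_prod {d ρ : O} (hd : Primary d) (h : pf d ⊆ pf ρ) :
    nr d = ∏ p ∈ pf ρ, nr p ^ vp p d := by
  rw [← prod_ext hd.ne_zero h]
  conv_lhs => rw [hd.eq_prod]
  simp only [nr, nm_prod, nm_pow, Nat.cast_prod, Nat.cast_pow]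

open Classical in
theorem prod_ite_le {d ρ : O} (hd : d ≠ 0) (c : O) (P : O → Prop) [DecidablePred P]
    (hP : ∀ p ∈ pf ρ, P p → vp p d = 1 ∧ p ^ 6 ∣ c) :
    ∏ p ∈ pf ρ, (if P p then nr p else 1) ≤ ∏ p ∈ (pf d).filter (fun p => p ^ 6 ∣ c), nr p := by
  rw [← Finset.prod_filter]
  refine LS2.nP_mono (fun p hp => ?_) fun p hp => (BasicB.pf_sub (Finset.mem_filter.1 hp).1).1.ne_zero
  obtain ⟨h1, h2⟩ := Finset.mem_filter.1 hp
  obtain ⟨h3, h4⟩ := hP p h1 h2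
  exact Finset.mem_filter.2 ⟨(BasicB.mem_pf_iff hd (BasicB.pf_sub h1).1 (BasicB.pf_sub h1).2).2
    (by omega), h4⟩

open Classical in
theorem norm_ft_frozen {ρ e₁ e₂ d₁ d₂ : O} (hρ : PO ρ) (hs : Squarefree ρ) (he₁ : Primary e₁)
    (he₂ : Primary e₂) (hd₁ : Primary d₁) (hd₂ : Primary d₂) (he₁' : e₁ ∣ ρ) (he₂' : e₂ ∣ ρ)
    (hd₁' : d₁ ∣ ρ) (hd₂' : d₂ ∣ ρ) {b : O} (hb : e₁ * d₁ ^ 3 * (e₂ * d₂ ^ 3) = ρ * b)
    (hρb : ρ ∣ b) (a : O) :
    Real.sqrt (nr d₁ * nr d₂) *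
        ‖ft ρ (fun k => sym (e₁ * d₁ ^ 3) k * conj (sym (e₂ * d₂ ^ 3) k)) a‖ ≤
      nr ρ * min (∏ p ∈ (pf d₁).filter (fun p => p ^ 6 ∣ a * b), nr p)
        (∏ p ∈ (pf d₂).filter (fun p => p ^ 6 ∣ a * b), nr p) ∧
    (ft ρ (fun k => sym (e₁ * d₁ ^ 3) k * conj (sym (e₂ * d₂ ^ 3) k)) 0 ≠ 0 →
      e₁ = e₂ ∧ d₁ = d₂) := by
  have zρ := hρ.1.ne_zero
  have p₁ : Primary (e₁ * d₁ ^ 3) := he₁.mul (hd₁.pow 3)
  have p₂ : Primary (e₂ * d₂ ^ 3) := he₂.mul (hd₂.pow 3)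
  have zb : b ≠ 0 := by
    rintro rfl
    exact (p₁.mul p₂).ne_zero (by rw [hb, mul_zero])
  have hS : ∀ p ∈ pf ρ, Prime p ∧ PO p := fun p hp =>
    ⟨(BasicB.of_mem_pf hp).1, hρ.of_dvd (BasicB.of_mem_pf hp).2.1 (BasicB.of_mem_pf hp).2.2⟩
  have hv : ∀ {e d p : O}, Primary e → Primary d → Prime p →
      vp p (e * d ^ 3) = vp p e + 3 * vp p d := fun he hd hp => by
    rw [vp_mul hp he.ne_zero (pow_ne_zero _ hd.ne_zero), vp_pow hp hd.ne_zero]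
  have hsub : ∀ {e d : O}, e ∣ ρ → d ∣ ρ → pf (e * d ^ 3) ⊆ pf ρ := fun he hd => by
    rw [← pf_rad]
    exact pf_subset zρ (rad_dvd_of zρ he hd)
  set n : O → ℕ := fun p => vp p e₁ + 3 * vp p d₁ + 5 * (vp p e₂ + 3 * vp p d₂) with hn
  have hle : ∀ {e p : O}, e ∣ ρ → Prime p → vp p e ≤ 1 := fun he hp =>
    BasicB.vp_le_one (hs.squarefree_of_dvd he) hp
  have hsum : ∀ p ∈ pf ρ, vp p e₁ + 3 * vp p d₁ + (vp p e₂ + 3 * vp p d₂) = 1 + vp p b := by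
    intro p hp
    rw [← hv he₁ hd₁ (hS p hp).1, ← hv he₂ hd₂ (hS p hp).1,
      ← vp_mul (hS p hp).1 p₁.ne_zero p₂.ne_zero, hb, vp_mul (hS p hp).1 zρ zb,
      hρ.1.squarefree_iff.1 hs p hp]
  have hF : (fun k => sym (e₁ * d₁ ^ 3) k * conj (sym (e₂ * d₂ ^ 3) k)) =
      fun k => ∏ p ∈ pf ρ, sym p k ^ n p := by
    funext k
    rw [conj_sym p₂, sym_eq_prod, sym_eq_prod (e₂ * d₂ ^ 3),
      prod_ext p₁.ne_zero (hsub he₁' hd₁') fun p => sym p k,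
      prod_ext p₂.ne_zero (hsub he₂' hd₂') fun p => sym p k, ← Finset.prod_pow,
      ← Finset.prod_mul_distrib]
    refine Finset.prod_congr rfl fun p hp => ?_
    rw [hv he₁ hd₁ (hS p hp).1, hv he₂ hd₂ (hS p hp).1, ← pow_mul, ← pow_add, hn, mul_comm _ 5]
  have hft : ∀ a, ‖ft ρ (fun k => sym (e₁ * d₁ ^ 3) k * conj (sym (e₂ * d₂ ^ 3) k)) a‖ =
      ∏ p ∈ pf ρ, ‖gs (n p) p a‖ := fun a => by
    have h1 := norm_ft_prod n a hS
    rw [← rad, hρ.1.eq_rad hs] at h1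
    rw [hF, h1]
    refine Finset.prod_congr rfl fun p hp => ?_
    rw [ft_pow (hS p hp).2.1]
    have := hsum p hp
    simp only [hn]
    omega
  refine ⟨?_, fun h0 => ?_⟩
  · have h1 : Real.sqrt (nr d₁ * nr d₂) *
        ‖ft ρ (fun k => sym (e₁ * d₁ ^ 3) k * conj (sym (e₂ * d₂ ^ 3) k)) a‖ ≤
        nr ρ * ∏ p ∈ pf ρ, (if vp p d₁ = 1 ∧ vp p d₂ = 1 ∧ p ^ 6 ∣ a * b then nr p else 1) := by
      rw [hft, nr_eq_prod hd₁ (pf_subset zρ hd₁'), nr_eq_prod hd₂ (pf_subset zρ hd₂'),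
        ← Finset.prod_mul_distrib, Real.sqrt_prod _ fun p _ => by positivity,
        ← Finset.prod_mul_distrib, nr_eq_prod hρ.1 subset_rfl, ← Finset.prod_mul_distrib]
      refine Finset.prod_le_prod (fun p _ => by positivity) fun p hp => ?_
      obtain ⟨k1, k2⟩ := hS p hp
      rw [hρ.1.squarefree_iff.1 hs p hp, pow_one]
      exact local_le k1 k2 (hle he₁' k1) (hle he₂' k1) (hle hd₁' k1) (hle hd₂' k1)
        ((pow_dvd_iff_le_vp k1 zb).2 le_rfl) (hsum p hp) a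
    refine h1.trans (mul_le_mul_of_nonneg_left (le_min ?_ ?_) (Nat.cast_nonneg _))
    · exact prod_ite_le hd₁.ne_zero _ (fun p => vp p d₁ = 1 ∧ vp p d₂ = 1 ∧ p ^ 6 ∣ a * b)
        fun p _ h => ⟨h.1, h.2.2⟩
    · exact prod_ite_le hd₂.ne_zero _ (fun p => vp p d₁ = 1 ∧ vp p d₂ = 1 ∧ p ^ 6 ∣ a * b)
        fun p _ h => ⟨h.2.1, h.2.2⟩
  · have h1 : ∀ p, Prime p → Primary p → vp p e₁ = vp p e₂ ∧ vp p d₁ = vp p d₂ := by
      intro p hp hp'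
      by_cases hpρ : p ∈ pf ρ
      · have h2 := Finset.prod_ne_zero_iff.1 (hft 0 ▸ norm_ne_zero_iff.2 h0) p hpρ
        have h3 : 6 ∣ n p := by
          by_contra h3
          exact h2 (by rw [gs_zero_ne h3 hp (hS p hpρ).2, norm_zero])
        have k1 := hle he₁' hp
        have k2 := hle he₂' hp
        have k3 := hle hd₁' hp
        have k4 := hle hd₂' hp
        simp only [hn] at h3
        generalize vp p e₁ = x₁, vp p e₂ = x₂, vp p d₁ = y₁, vp p d₂ = y₂ at *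
        interval_cases x₁ <;> interval_cases x₂ <;> interval_cases y₁ <;> interval_cases y₂ <;>
          omega
      · have h2 : vp p ρ = 0 := not_not.1 fun h => hpρ ((BasicB.mem_pf_iff zρ hp hp').2 h)
        have k1 := BasicB.vp_le_of_dvd hp zρ he₁'
        have k2 := BasicB.vp_le_of_dvd hp zρ he₂'
        have k3 := BasicB.vp_le_of_dvd hp zρ hd₁'
        have k4 := BasicB.vp_le_of_dvd hp zρ hd₂'
        omega
    exact ⟨he₁.ext_vp he₂ fun p hp hp' => (h1 p hp hp').1,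
      hd₁.ext_vp hd₂ fun p hp hp' => (h1 p hp hp').2⟩

end DPA2

end Crest.Agent.R17
end
end

-- ▼ part PVc/R17/DPAuxA1
section

/-!
# Row 17, module M11: forward Poisson summation for a pair, expansion of `Rs` in characters
-/

set_option autoImplicit false

noncomputable section

namespace Crest.Agent.R17.DPA1

open scoped ComplexConjugate

theorem coprime_two {M m : O} (hM : Adm M) (h : IsCoprime m M) : IsCoprime m 2 :=
  h.of_isCoprime_of_dvd_right ((show (2 : O) ∣ 72 from ⟨36, by norm_num⟩).trans hM.2)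

theorem exists_chr_Rs {M : O} (hM : Adm M) {c : O} (hc : IsCoprime c 2) :
    ∃ ν : Chr M, ∀ m, IsCoprime m M → ev ν m = Rs c m := by
  refine exists_chr (fun m => Rs c m) ?_ (fun m n hm hn => ?_) (fun m n _ h => ?_)
  · show Rs c 1 = 1
    rw [Rs_comm, Rs_one_left hc]
  · show Rs c (m * n) = Rs c m * Rs c n
    rw [Rs_comm c (m * n), Rs_mul_left (coprime_two hM hm) (coprime_two hM hn) hc, Rs_comm m,
      Rs_comm n]
  · exact Rs_congr (by simp)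
      (((show (4 : O) ∣ 72 from ⟨18, by norm_num⟩).trans hM.2).trans h)

theorem Rs_expand {M : O} (hM : Adm M) [Fintype (Chr M)] : ∃ b : Chr M → Chr M → ℂ,
    (∀ ν ν', ‖b ν ν'‖ ≤ 1) ∧ ∀ m n, IsCoprime m M → IsCoprime n M →
      Rs m n = ∑ ν, ∑ ν', b ν ν' * ev ν m * conj (ev ν' n) := by
  classical
  have : Fact (M ≠ 0) := ⟨hM.1⟩
  choose s hs using (Ideal.Quotient.mk_surjective (I := Ideal.span {M}))
  have h1 : ∀ q : O ⧸ Ideal.span {M}, ∃ ν : Chr M, IsUnit q →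
      ∀ n, IsCoprime n M → Rs (s q) n = conj (ev ν n) := by
    intro q
    by_cases hq : IsUnit q
    · obtain ⟨ν, hν⟩ := exists_chr_Rs hM
        (coprime_two hM (isUnit_mk_iff.1 ((hs q).symm ▸ hq)))
      exact ⟨ν⁻¹, fun _ n hn => by rw [ev_inv hM.1, Complex.conj_conj, hν n hn]⟩
    · exact ⟨1, fun h => absurd h hq⟩
  choose χ hχ using h1
  have h2 : ∀ ν' : Chr M, ∃ b : Chr M → ℂ, (∀ ν, ‖b ν‖ ≤ 1) ∧
      ∀ q, (if IsUnit q ∧ χ q = ν' then (1 : ℂ) else 0) = ∑ ν, b ν * ν q := fun ν' =>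
    exists_mulChar_expansion _ (fun q => by split_ifs <;> simp)
      (fun q hq => if_neg fun h => hq h.1)
  choose b hb hb' using h2
  refine ⟨fun ν ν' => b ν' ν, fun ν ν' => hb ν' ν, fun m n hm hn => ?_⟩
  have hu := isUnit_mk_iff.2 hm
  have e1 : Rs m n = Rs (s (Ideal.Quotient.mk _ m)) n :=
    Rs_congr (((show (4 : O) ∣ 72 from ⟨18, by norm_num⟩).trans hM.2).trans
      (mk_eq_mk_iff.1 (hs _).symm)) (by simp)
  rw [e1, hχ _ hu n hn, Finset.sum_comm]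
  have e2 : ∀ ν' : Chr M, ∑ ν, b ν' ν * ev ν m * conj (ev ν' n) =
      if χ (Ideal.Quotient.mk _ m) = ν' then conj (ev ν' n) else 0 := by
    intro ν'
    rw [← Finset.sum_mul]
    have := hb' ν' (Ideal.Quotient.mk _ m)
    simp only [hu, true_and] at this
    unfold ev
    rw [← this]
    split_ifs <;> simp
  rw [Finset.sum_congr rfl fun ν' _ => e2 ν', Finset.sum_ite_eq]
  simp






end Crest.Agent.R17.DPA1
end
end

-- ▼ part PVc/R17/DPAuxG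
section

/-!
# Row 17, module M11: auxiliary lemmas for `gp` (separation of variables, re-indexing)
-/

set_option autoImplicit false

noncomputable section

namespace Crest.Agent.R17.GP

open scoped ComplexConjugate
open Classical MeasureTheory LS2

/-- A weighted sum of integrals of non-negative functions below an integrable majorant. -/
theorem sum_integral_le {I : Type} (s : Finset I) (w : I → ℝ) (f : I → ℝ → ℝ) (G : ℝ → ℝ)
    (hw : ∀ i ∈ s, 0 ≤ w i) (hf : ∀ i ∈ s, ∀ u, 0 ≤ f i u) (hG : Integrable G)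
    (h : ∀ u, ∑ i ∈ s, w i * f i u ≤ G u) : ∑ i ∈ s, w i * ∫ u, f i u ≤ ∫ u, G u := by
  have e1 : ∑ i ∈ s, w i * ∫ u, f i u =
      ∑ i ∈ s.filter (fun i => Integrable (f i)), ∫ u, w i * f i u := by
    rw [Finset.sum_filter]
    refine Finset.sum_congr rfl fun i _ => ?_
    split_ifs with hi
    · rw [integral_const_mul]
    · rw [integral_undef hi, mul_zero]
  have hint : ∀ i ∈ s.filter (fun i => Integrable (f i)), Integrable fun u => w i * f i u :=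
    fun i hi => (Finset.mem_filter.1 hi).2.const_mul _
  rw [e1, ← integral_finsetSum _ hint]
  refine integral_mono (integrable_finsetSum _ hint) hG fun u => le_trans ?_ (h u)
  exact Finset.sum_le_sum_of_subset_of_nonneg (Finset.filter_subset _ _)
    fun i hi _ => mul_nonneg (hw i hi) (hf i hi u)

theorem sep_one {σ : ℝ} (hσ : 0 < σ) {Λ : (ℝ → ℂ) → ℂ} (h : FC Λ) :
    ‖Λ (fun y => (gw y : ℂ))‖ ≤ ∫ u : ℝ, ‖Complex.Gamma (σ + u * Complex.I)‖ *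
      ‖Λ (fun y => (y : ℂ) ^ (-(σ + u * Complex.I)))‖ := by
  obtain ⟨μ, hs, hL⟩ := h
  simp only [hL]
  set κ : ℝ := 2 * Real.pi / Real.sqrt 3 with hκ
  have hκ1 : 1 ≤ κ := le_trans (by norm_num) pois_three_le
  have hκ0 : 0 < κ := lt_of_lt_of_le one_pos hκ1
  have hre : ∀ u : ℝ, (-((σ : ℂ) + u * Complex.I)).re = -σ := fun u => by simp
  have hG := integrable_Gamma_mul_pow hσ 0
  simp only [pow_zero, mul_one] at hG
  have hcont : Continuous fun u : ℝ => Complex.Gamma (σ + u * Complex.I) := by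
    refine continuous_iff_continuousAt.2 fun u => ?_
    refine ContinuousAt.comp (f := fun u : ℝ => (σ : ℂ) + u * Complex.I)
      (Complex.differentiableAt_Gamma _ fun m hm => ?_).continuousAt (by fun_prop)
    have := congrArg Complex.re hm
    simp at this
    have : (0 : ℝ) ≤ m := Nat.cast_nonneg m
    linarith
  have hint : ∀ r : ℝ, 0 < r → Integrable (fun u : ℝ =>
      Complex.Gamma (σ + u * Complex.I) * (r : ℂ) ^ (-((σ : ℂ) + u * Complex.I))) := by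
    intro r hr
    refine (hG.mul_const (r ^ (-σ))).mono' ?_ (Filter.Eventually.of_forall fun u => ?_)
    · refine (hcont.mul ?_).aestronglyMeasurable
      simp only [avg_cpow hr]
      fun_prop
    · rw [norm_mul, Complex.norm_cpow_eq_rpow_re_of_pos hr, hre]
  have e : ∑ y ∈ μ.support, μ y * (gw y : ℂ) = (1 / (2 * Real.pi) : ℂ) * ∫ u : ℝ,
      Complex.Gamma (σ + u * Complex.I) * ((κ : ℂ) ^ (-((σ : ℂ) + u * Complex.I)) *
        ∑ y ∈ μ.support, μ y * (y : ℂ) ^ (-((σ : ℂ) + u * Complex.I))) := by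
    have e1 : ∀ u : ℝ, Complex.Gamma (σ + u * Complex.I) *
        ((κ : ℂ) ^ (-((σ : ℂ) + u * Complex.I)) *
          ∑ y ∈ μ.support, μ y * (y : ℂ) ^ (-((σ : ℂ) + u * Complex.I))) =
        ∑ y ∈ μ.support, μ y * (Complex.Gamma (σ + u * Complex.I) *
          ((κ * y : ℝ) : ℂ) ^ (-((σ : ℂ) + u * Complex.I))) := by
      intro u
      rw [Finset.mul_sum, Finset.mul_sum]
      refine Finset.sum_congr rfl fun y hy => ?_
      rw [Complex.ofReal_mul, Complex.mul_cpow_ofReal_nonneg hκ0.le (hs y hy).le]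
      ring
    simp only [e1]
    rw [integral_finsetSum _ fun y hy => (hint _ (mul_pos hκ0 (hs y hy))).const_mul _,
      Finset.mul_sum]
    refine Finset.sum_congr rfl fun y hy => ?_
    rw [integral_const_mul, gw_eq_integral (hs y hy) hσ]
    ring
  have e2 : ‖(1 / (2 * Real.pi) : ℂ)‖ ≤ 1 := by
    rw [show (1 / (2 * Real.pi) : ℂ) = ((1 / (2 * Real.pi) : ℝ) : ℂ) by push_cast; ring,
      Complex.norm_real, Real.norm_of_nonneg (by positivity), div_le_one (by positivity)]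
    linarith [Real.pi_gt_three]
  rw [e, norm_mul]
  refine (mul_le_of_le_one_left (norm_nonneg _) e2).trans ?_
  refine (norm_integral_le_integral_norm _).trans ?_
  have hint2 : Integrable (fun u : ℝ => ‖Complex.Gamma (σ + u * Complex.I)‖ *
      ‖∑ y ∈ μ.support, μ y * (y : ℂ) ^ (-((σ : ℂ) + u * Complex.I))‖) := by
    have := (integrable_finsetSum μ.support fun y hy => (hint y (hs y hy)).const_mul (μ y)).norm
    refine this.congr (Filter.Eventually.of_forall fun u => ?_)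
    simp only
    rw [← norm_mul, Finset.mul_sum]
    congr 1
    exact Finset.sum_congr rfl fun y _ => by ring
  refine integral_mono_of_nonneg (Filter.Eventually.of_forall fun u => norm_nonneg _) hint2
    (Filter.Eventually.of_forall fun u => ?_)
  simp only
  rw [norm_mul, norm_mul, Complex.norm_cpow_eq_rpow_re_of_pos hκ0, hre]
  refine mul_le_mul_of_nonneg_left (mul_le_of_le_one_left (norm_nonneg _) ?_) (norm_nonneg _)
  exact Real.rpow_le_one_of_one_le_of_nonpos hκ1 (by linarith)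

/-- **Separation lemma**: a weighted family of finite functionals evaluated at the Gaussian is
controlled by the values at the powers `y ^ (-z)`, `Re z = σ`. -/
theorem sep {σ : ℝ} (hσ : 0 < σ) (J : ℕ) : ∃ C : ℝ, 0 < C ∧
    ∀ {I : Type} (S : Finset I) (w : I → ℝ) (Λ : I → (ℝ → ℂ) → ℂ) (B : ℝ),
      (∀ i ∈ S, 0 ≤ w i) → (∀ i ∈ S, FC (Λ i)) →
      (∀ z : ℂ, z.re = σ →
        ∑ i ∈ S, w i * ‖Λ i (fun y => (y : ℂ) ^ (-z))‖ ≤ B * (1 + |z.im|) ^ J) →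
      ∑ i ∈ S, w i * ‖Λ i (fun y => (gw y : ℂ))‖ ≤ C * B := by
  set K : ℝ := ∫ u : ℝ, ‖Complex.Gamma (σ + u * Complex.I)‖ * (1 + |u|) ^ J with hK
  have hK0 : 0 ≤ K := integral_nonneg fun u => by positivity
  refine ⟨K + 1, by positivity, fun {I} S w Λ B hw hΛ hB => ?_⟩
  have hB0 : 0 ≤ B := by
    have h1 := hB σ (by simp)
    rw [Complex.ofReal_im, abs_zero, add_zero, one_pow, mul_one] at h1
    exact le_trans (Finset.sum_nonneg fun i hi => mul_nonneg (hw i hi) (norm_nonneg _)) h1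
  calc _ ≤ ∑ i ∈ S, w i * ∫ u : ℝ, ‖Complex.Gamma (σ + u * Complex.I)‖ *
        ‖Λ i (fun y => (y : ℂ) ^ (-(σ + u * Complex.I)))‖ :=
        Finset.sum_le_sum fun i hi => mul_le_mul_of_nonneg_left (sep_one hσ (hΛ i hi)) (hw i hi)
    _ ≤ ∫ u : ℝ, B * (‖Complex.Gamma (σ + u * Complex.I)‖ * (1 + |u|) ^ J) := by
        refine sum_integral_le S w _ _ hw (fun i _ u => by positivity)
          ((integrable_Gamma_mul_pow hσ J).const_mul _) fun u => ?_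
        have h1 := hB (σ + u * Complex.I) (by simp)
        have h2 : ((σ : ℂ) + u * Complex.I).im = u := by simp
        rw [h2] at h1
        calc _ = ‖Complex.Gamma (σ + u * Complex.I)‖ * ∑ i ∈ S, w i *
              ‖Λ i (fun y => (y : ℂ) ^ (-(σ + u * Complex.I)))‖ := by
              rw [Finset.mul_sum]
              exact Finset.sum_congr rfl fun i _ => by ring
          _ ≤ _ := (mul_le_mul_of_nonneg_left h1 (norm_nonneg _)).trans_eq (by ring)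
    _ ≤ _ := by
        rw [integral_const_mul, ← hK]
        nlinarith

/-- Sums over the multiples of `e`. -/
theorem sum_dvd {α : Type*} [AddCommMonoid α] {M e : O} (he : SP M e) {X : ℝ} (hX : 0 ≤ X)
    (f : O → α) :
    ∑ n ∈ sp M X, (if e ∣ n then f n else 0) =
      ∑ m ∈ sp M (X / nr e), if IsCoprime m e then f (e * m) else 0 := by
  have he0 := he.1.ne_zero
  have hne := nr_pos he0
  have hX' : 0 ≤ X / nr e := div_nonneg hX hne.le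
  rw [← Finset.sum_filter, ← Finset.sum_filter]
  symm
  refine Finset.sum_bij (fun m _ => e * m) (fun m hm => ?_) (fun m _ m' _ h => ?_)
    (fun n hn => ?_) (fun m _ => rfl)
  · rw [Finset.mem_filter, LS2.mem_sp hX'] at hm
    obtain ⟨⟨h1, h2⟩, h3⟩ := hm
    rw [Finset.mem_filter, LS2.mem_sp hX]
    refine ⟨⟨⟨he.1.mul h1.1, ?_, he.2.2.mul_left h1.2.2⟩, ?_⟩, dvd_mul_right _ _⟩
    · exact (squarefree_mul_iff.2 ⟨h3.symm.isRelPrime, he.2.1, h1.2.1⟩)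
    · rw [nr_mul, mul_comm]; exact (le_div_iff₀ hne).1 h2
  · exact mul_left_cancel₀ he0 h
  · rw [Finset.mem_filter, LS2.mem_sp hX] at hn
    obtain ⟨⟨h1, h2⟩, m, rfl⟩ := hn
    refine ⟨m, ?_, rfl⟩
    rw [Finset.mem_filter, LS2.mem_sp hX']
    refine ⟨⟨SP_of_dvd h1 (he.1.of_mul h1.1) (dvd_mul_left _ _), ?_⟩,
      (IsRelPrime.of_squarefree_mul h1.2.1).isCoprime.symm⟩
    rw [le_div_iff₀ hne, mul_comm, ← nr_mul]; exact h2

/-- Removing the coprimality of two variables. -/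
theorem mob {M : O} {X₁ X₂ L : ℝ} (h₁ : 0 ≤ X₁) (h₂ : 0 ≤ X₂) (hL : X₁ ≤ L) (U V : O → ℂ) :
    ∑ m₁ ∈ sp M X₁, ∑ m₂ ∈ sp M X₂, (if IsCoprime m₁ m₂ then U m₁ * V m₂ else 0) =
      ∑ t ∈ sp M L, mu t * ((∑ m ∈ sp M (X₁ / nr t), if IsCoprime m t then U (t * m) else 0) *
        ∑ m ∈ sp M (X₂ / nr t), if IsCoprime m t then V (t * m) else 0) := by
  have hL0 : 0 ≤ L := h₁.trans hL
  have e1 : ∀ m₁ ∈ sp M X₁, ∀ m₂ ∈ sp M X₂, (if IsCoprime m₁ m₂ then U m₁ * V m₂ else 0) =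
      ∑ t ∈ sp M L, mu t * ((if t ∣ m₁ then U m₁ else 0) * if t ∣ m₂ then V m₂ else 0) := by
    intro m₁ hm₁ m₂ hm₂
    rw [LS2.mem_sp h₁] at hm₁
    rw [LS2.mem_sp h₂] at hm₂
    have := sum_mu_coprime hm₁.1.1 hm₂.1.1.ne_zero
    have e2 : (pdiv m₁).filter (· ∣ m₂) = (sp M L).filter fun t => t ∣ m₁ ∧ t ∣ m₂ := by
      ext t
      rw [Finset.mem_filter, Finset.mem_filter, mem_pdiv hm₁.1.1.ne_zero, LS2.mem_sp hL0]
      refine ⟨fun h => ⟨⟨SP_of_dvd hm₁.1 h.1.1 h.1.2, ?_⟩, h.1.2, h.2⟩,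
        fun h => ⟨⟨h.1.1.1, h.2.1⟩, h.2.2⟩⟩
      have : nr t ≤ nr m₁ := by exact_mod_cast nm_le_of_dvd h.1.2 hm₁.1.1.ne_zero
      linarith [hm₁.2]
    rw [e2, Finset.sum_filter] at this
    calc _ = (if IsCoprime m₁ m₂ then 1 else 0) * (U m₁ * V m₂) := by split_ifs <;> simp
      _ = _ := by
        rw [← this, Finset.sum_mul]
        refine Finset.sum_congr rfl fun t _ => ?_
        by_cases a1 : t ∣ m₁ <;> by_cases a2 : t ∣ m₂ <;> simp [a1, a2]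
  rw [Finset.sum_congr rfl fun m₁ hm₁ => Finset.sum_congr rfl fun m₂ hm₂ => e1 m₁ hm₁ m₂ hm₂]
  rw [Finset.sum_congr rfl fun m₁ _ => Finset.sum_comm, Finset.sum_comm]
  refine Finset.sum_congr rfl fun t ht => ?_
  have ht' := ((LS2.mem_sp hL0).1 ht).1
  rw [← sum_dvd ht' h₁, ← sum_dvd ht' h₂, Finset.sum_mul_sum, Finset.mul_sum]
  exact Finset.sum_congr rfl fun m₁ _ => by rw [Finset.mul_sum]

end Crest.Agent.R17.GP
end
end

-- ▼ part PVc/R17/DPAuxG2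
section

set_option autoImplicit false

noncomputable section

namespace Crest.Agent.R17.GP

open scoped ComplexConjugate
open Classical MeasureTheory LS2

/-- The frozen modulus. -/
def rho (d₁ d₂ e₁ e₂ : O) : O := rad (d₁ * d₂ * (e₁ * e₂))

/-- The frozen factor of the new row. -/
def bb (d₁ d₂ e₁ e₂ : O) : O := e₁ * d₁ ^ 3 * (e₂ * d₂ ^ 3) / rho d₁ d₂ e₁ e₂

/-- Valid frozen data. -/
def Val (d₁ d₂ e₁ e₂ : O) : Prop := pf e₁ \ (pf d₁ ∪ pf d₂) = pf e₂ \ (pf d₁ ∪ pf d₂)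

/-- Valid frozen data and free parts. -/
def Cop (d₁ d₂ e₁ e₂ m₁ m₂ : O) : Prop :=
  Val d₁ d₂ e₁ e₂ ∧ IsCoprime m₁ (rho d₁ d₂ e₁ e₂) ∧ IsCoprime m₂ (rho d₁ d₂ e₁ e₂) ∧
    IsCoprime m₁ m₂

theorem pf_rho {d₁ d₂ e₁ e₂ : O} (hd₁ : d₁ ≠ 0) (hd₂ : d₂ ≠ 0) (he₁ : e₁ ≠ 0) (he₂ : e₂ ≠ 0) :
    pf (rho d₁ d₂ e₁ e₂) = pf d₁ ∪ pf d₂ ∪ (pf e₁ ∪ pf e₂) := by
  rw [rho, pf_rad, pf_mul (mul_ne_zero hd₁ hd₂) (mul_ne_zero he₁ he₂), pf_mul hd₁ hd₂,
    pf_mul he₁ he₂]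

theorem coprime_iff {m n : O} (hm : Primary m) (hn : n ≠ 0) :
    IsCoprime m n ↔ Disjoint (pf m) (pf n) :=
  ⟨disjoint_pf, isCoprime_of_disjoint_pf hm hn⟩

theorem dvd_of_pf_subset {e n : O} (he : Primary e) (hs : Squarefree e) (hn : n ≠ 0)
    (h : pf e ⊆ pf n) : e ∣ n := by
  rw [← he.eq_rad hs, rad]
  exact BasicB.prod_dvd_of_subset hn h


theorem sum_pf_eq {α : Type*} [AddCommMonoid α] {M n : O} {L : ℝ} (hn : SP M n) (hL : nr n ≤ L)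
    {A : Finset O} (hA : A ⊆ pf n) (x : α) :
    ∑ e ∈ sp M L, (if pf e = A then x else 0) = x := by
  have hL0 : 0 ≤ L := le_trans (nr_pos hn.1.ne_zero).le hL
  rw [Finset.sum_eq_single (∏ p ∈ A, p), if_pos (pf_prod hA)]
  · intro e he hne
    refine if_neg fun h => hne ?_
    have he' := ((LS2.mem_sp hL0).1 he).1
    rw [← he'.1.eq_rad he'.2.1, rad, h]
  · intro h
    refine absurd ((LS2.mem_sp hL0).2 ⟨SP_prod hn hA, le_trans ?_ hL⟩) h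
    exact_mod_cast nm_le_of_dvd (BasicB.prod_dvd_of_subset hn.1.ne_zero hA) hn.1.ne_zero

theorem ite_sum {α β : Type*} [AddCommMonoid α] (P : Prop) [Decidable P] (s : Finset β)
    (f : β → α) : (if P then ∑ i ∈ s, f i else 0) = ∑ i ∈ s, if P then f i else 0 := by
  split_ifs <;> simp

theorem split_sets {α : Type*} [DecidableEq α] (D A₁ A₂ B₁ B₂ : Finset α) :
    (Disjoint B₁ A₁ ∧ Disjoint B₂ A₂) ∧
      A₁ = (A₁ ∪ B₁) ∩ (D ∪ (A₂ ∪ B₂)) ∧ A₂ = (A₂ ∪ B₂) ∩ (D ∪ (A₁ ∪ B₁)) ↔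
    A₁ \ D = A₂ \ D ∧ Disjoint B₁ (D ∪ (A₁ ∪ A₂)) ∧ Disjoint B₂ (D ∪ (A₁ ∪ A₂)) ∧
      Disjoint B₁ B₂ := by
  simp only [Finset.disjoint_left, Finset.ext_iff, Finset.mem_inter, Finset.mem_union,
    Finset.mem_sdiff, ← forall_and]
  refine forall_congr' fun p => ?_
  tauto

/-- Freezing the common part of a pair. -/
theorem split {α : Type*} [AddCommMonoid α] {M d₁ d₂ : O} (hd₁ : d₁ ≠ 0) (hd₂ : d₂ ≠ 0)
    {X₁ X₂ L : ℝ} (h₁ : 0 ≤ X₁) (h₂ : 0 ≤ X₂) (hL₁ : X₁ ≤ L) (hL₂ : X₂ ≤ L) (H : O → O → α) :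
    ∑ n₁ ∈ sp M X₁, ∑ n₂ ∈ sp M X₂, H n₁ n₂ =
      ∑ e₁ ∈ sp M L, ∑ e₂ ∈ sp M L, ∑ m₁ ∈ sp M (X₁ / nr e₁), ∑ m₂ ∈ sp M (X₂ / nr e₂),
        if Cop d₁ d₂ e₁ e₂ m₁ m₂ then H (e₁ * m₁) (e₂ * m₂) else 0 := by
  have hL0 : 0 ≤ L := h₁.trans hL₁
  set D := pf d₁ ∪ pf d₂ with hD
  have e1 : ∀ n₁ ∈ sp M X₁, ∀ n₂ ∈ sp M X₂, H n₁ n₂ = ∑ e₁ ∈ sp M L, ∑ e₂ ∈ sp M L,
      if e₁ ∣ n₁ then (if e₂ ∣ n₂ then
        (if pf e₁ = pf n₁ ∩ (D ∪ pf n₂) ∧ pf e₂ = pf n₂ ∩ (D ∪ pf n₁) then H n₁ n₂ else 0)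
        else 0) else 0 := by
    intro n₁ hn₁ n₂ hn₂
    rw [LS2.mem_sp h₁] at hn₁
    rw [LS2.mem_sp h₂] at hn₂
    conv_lhs => rw [← sum_pf_eq hn₁.1 (hn₁.2.trans hL₁) (A := pf n₁ ∩ (D ∪ pf n₂))
      Finset.inter_subset_left (H n₁ n₂)]
    refine Finset.sum_congr rfl fun e₁ he₁ => ?_
    have he₁' := ((LS2.mem_sp hL0).1 he₁).1
    by_cases a1 : pf e₁ = pf n₁ ∩ (D ∪ pf n₂)
    · have b1 : e₁ ∣ n₁ := dvd_of_pf_subset he₁'.1 he₁'.2.1 hn₁.1.1.ne_zero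
        (a1 ▸ Finset.inter_subset_left)
      rw [if_pos a1]
      conv_lhs => rw [← sum_pf_eq hn₂.1 (hn₂.2.trans hL₂) (A := pf n₂ ∩ (D ∪ pf n₁))
        Finset.inter_subset_left (H n₁ n₂)]
      refine Finset.sum_congr rfl fun e₂ he₂ => ?_
      have he₂' := ((LS2.mem_sp hL0).1 he₂).1
      by_cases a2 : pf e₂ = pf n₂ ∩ (D ∪ pf n₁)
      · have b2 : e₂ ∣ n₂ := dvd_of_pf_subset he₂'.1 he₂'.2.1 hn₂.1.1.ne_zero
          (a2 ▸ Finset.inter_subset_left)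
        rw [if_pos a2, if_pos b1, if_pos b2, if_pos ⟨a1, a2⟩]
      · simp [a2]
    · simp [a1]
  rw [Finset.sum_congr rfl fun n₁ hn₁ => Finset.sum_congr rfl fun n₂ hn₂ => e1 n₁ hn₁ n₂ hn₂]
  rw [Finset.sum_congr rfl fun n₁ _ => Finset.sum_comm, Finset.sum_comm]
  refine Finset.sum_congr rfl fun e₁ he₁ => ?_
  rw [Finset.sum_congr rfl fun n₁ _ => Finset.sum_comm, Finset.sum_comm]
  refine Finset.sum_congr rfl fun e₂ he₂ => ?_
  have he₁' := ((LS2.mem_sp hL0).1 he₁).1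
  have he₂' := ((LS2.mem_sp hL0).1 he₂).1
  have z₁ := he₁'.1.ne_zero
  have z₂ := he₂'.1.ne_zero
  simp only [Finset.sum_ite_irrel, Finset.sum_const_zero]
  rw [sum_dvd he₁' h₁]
  refine Finset.sum_congr rfl fun m₁ hm₁ => ?_
  rw [sum_dvd he₂' h₂, ite_sum]
  refine Finset.sum_congr rfl fun m₂ hm₂ => ?_
  have hm₁' := ((LS2.mem_sp (div_nonneg h₁ (nr_pos z₁).le)).1 hm₁).1
  have hm₂' := ((LS2.mem_sp (div_nonneg h₂ (nr_pos z₂).le)).1 hm₂).1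
  have y₁ := hm₁'.1.ne_zero
  have y₂ := hm₂'.1.ne_zero
  have zr : rho d₁ d₂ e₁ e₂ ≠ 0 := (primary_rad _).ne_zero
  rw [← ite_and, ← ite_and]
  refine if_congr ?_ rfl rfl
  rw [Cop, Val, coprime_iff hm₁'.1 z₁, coprime_iff hm₂'.1 z₂, coprime_iff hm₁'.1 y₂,
    coprime_iff hm₁'.1 zr, coprime_iff hm₂'.1 zr,
    pf_rho hd₁ hd₂ z₁ z₂, pf_mul z₁ y₁, pf_mul z₂ y₂, ← hD]
  exact split_sets _ _ _ _ _

theorem frozen {M d₁ d₂ e₁ e₂ : O} (hM : Adm M) (hd₁ : SP M d₁) (hd₂ : SP M d₂) (he₁ : SP M e₁)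
    (he₂ : SP M e₂) (hv : Val d₁ d₂ e₁ e₂) :
    PO (rho d₁ d₂ e₁ e₂) ∧ Squarefree (rho d₁ d₂ e₁ e₂) ∧ e₁ ∣ rho d₁ d₂ e₁ e₂ ∧
      e₂ ∣ rho d₁ d₂ e₁ e₂ ∧ d₁ ∣ rho d₁ d₂ e₁ e₂ ∧ d₂ ∣ rho d₁ d₂ e₁ e₂ ∧
      e₁ * d₁ ^ 3 * (e₂ * d₂ ^ 3) = rho d₁ d₂ e₁ e₂ * bb d₁ d₂ e₁ e₂ ∧
      rho d₁ d₂ e₁ e₂ ∣ bb d₁ d₂ e₁ e₂ := by
  have z₁ := hd₁.1.ne_zero
  have z₂ := hd₂.1.ne_zero
  have y₁ := he₁.1.ne_zero
  have y₂ := he₂.1.ne_zero
  have hp : Primary (rho d₁ d₂ e₁ e₂) := primary_rad _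
  have hs : Squarefree (rho d₁ d₂ e₁ e₂) := squarefree_rad _
  have hpf := pf_rho z₁ z₂ y₁ y₂
  have hc : IsCoprime (rho d₁ d₂ e₁ e₂) M :=
    ((hd₁.2.2.mul_left hd₂.2.2).mul_left (he₁.2.2.mul_left he₂.2.2)).of_isCoprime_of_dvd_left
      (rad_dvd _)
  have w₁ := mul_ne_zero y₁ (pow_ne_zero 3 z₁)
  have w₂ := mul_ne_zero y₂ (pow_ne_zero 3 z₂)
  have h2 : rho d₁ d₂ e₁ e₂ * rho d₁ d₂ e₁ e₂ ∣ e₁ * d₁ ^ 3 * (e₂ * d₂ ^ 3) := by
    rw [(hp.mul hp).dvd_iff_vp (mul_ne_zero w₁ w₂)]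
    intro p hp'
    rw [pf_mul hp.ne_zero hp.ne_zero, Finset.union_self] at hp'
    have pp := (BasicB.pf_sub hp').1
    rw [vp_mul pp hp.ne_zero hp.ne_zero, hp.squarefree_iff.1 hs p hp', vp_mul pp w₁ w₂,
      vp_mul pp y₁ (pow_ne_zero 3 z₁), vp_mul pp y₂ (pow_ne_zero 3 z₂), vp_pow pp z₁,
      vp_pow pp z₂]
    by_cases a1 : p ∈ pf d₁
    · have := BasicB.vp_ne_zero a1; omega
    by_cases a2 : p ∈ pf d₂
    · have := BasicB.vp_ne_zero a2; omega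
    have a3 := Finset.ext_iff.1 hv p
    rw [hpf] at hp'
    simp only [Finset.mem_sdiff, Finset.mem_union] at a3 hp'
    have a5 : ¬ (p ∈ pf d₁ ∨ p ∈ pf d₂) := fun h => h.elim a1 a2
    have a4 : p ∈ pf e₁ ∧ p ∈ pf e₂ := (hp'.resolve_left a5).elim
      (fun h => ⟨h, (a3.1 ⟨h, a5⟩).1⟩) (fun h => ⟨(a3.2 ⟨h, a5⟩).1, h⟩)
    have := BasicB.vp_ne_zero a4.1
    have := BasicB.vp_ne_zero a4.2
    omega
  obtain ⟨c, hc'⟩ := h2
  have hb : bb d₁ d₂ e₁ e₂ = rho d₁ d₂ e₁ e₂ * c := by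
    rw [bb, hc', mul_assoc, mul_div_cancel_left₀ _ hp.ne_zero]
  refine ⟨PO.of_adm hM hp hc, hs, dvd_of_pf_subset he₁.1 he₁.2.1 hp.ne_zero ?_,
    dvd_of_pf_subset he₂.1 he₂.2.1 hp.ne_zero ?_, dvd_of_pf_subset hd₁.1 hd₁.2.1 hp.ne_zero ?_,
    dvd_of_pf_subset hd₂.1 hd₂.2.1 hp.ne_zero ?_, by rw [hb, hc', mul_assoc], ⟨c, hb⟩⟩
  all_goals
    rw [hpf]
    intro p hp
    simp only [Finset.mem_union, hp, true_or, or_true]

/-- Truncation of a series over the dual variable. -/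
theorem trunc {h : O → ℂ} {B X Λ : ℝ} (hX : 0 < X) (hB : 0 ≤ B)
    (hh : ∀ a, ‖h a‖ ≤ B * gw (nr a / X))
    {b : O} (hb : b ≠ 0) (S : Finset O) (hS : ∀ a, a ≠ 0 → a * b ∉ S → X * Λ ≤ nr a) :
    ‖∑' a, h a - ∑ a ∈ S, (if b ∣ a then h (a / b) else 0)‖ ≤
      ‖h 0‖ + B * ∑' k : O, (if X * Λ ≤ nr k then gw (nr k / X) * (1 + nr k) ^ (0 : ℝ) else 0) := by
  have hinj : Function.Injective fun a : O => a * b := mul_left_injective₀ hb
  set A := S.preimage (fun a : O => a * b) hinj.injOn with hA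
  have e1 : ∑ a ∈ S, (if b ∣ a then h (a / b) else 0) = ∑ a ∈ A, h a := by
    rw [← Finset.sum_filter]
    symm
    refine Finset.sum_bij (fun a _ => a * b) (fun a ha => ?_) (fun a _ a' _ h => hinj h)
      (fun a ha => ?_) (fun a _ => ?_)
    · rw [hA, Finset.mem_preimage] at ha
      exact Finset.mem_filter.2 ⟨ha, dvd_mul_left _ _⟩
    · obtain ⟨h1, c, rfl⟩ := Finset.mem_filter.1 ha
      exact ⟨c, by rw [hA, Finset.mem_preimage, mul_comm]; exact h1, mul_comm _ _⟩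
    · rw [mul_div_cancel_right₀ _ hb]
  have s1 : Summable h :=
    Summable.of_norm_bounded ((summable_gw' hX).mul_left B) hh
  have s2 : HasSum (fun a => if a ∈ A then h a else 0) (∑ a ∈ A, h a) := by
    have := hasSum_sum_of_ne_finset_zero (f := fun a => if a ∈ A then h a else 0) (s := A)
      (L := SummationFilter.unconditional O) fun a ha => if_neg ha
    rwa [Finset.sum_congr rfl fun a ha => if_pos ha] at this
  have s3 : Summable fun k : O =>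
      (if X * Λ ≤ nr k then gw (nr k / X) * (1 + nr k) ^ (0 : ℝ) else 0) := by
    refine Summable.of_nonneg_of_le (fun k => ?_) (fun k => ?_) (summable_gw' hX)
    · split_ifs
      · exact mul_nonneg (gw_pos _).le (by positivity)
      · exact le_rfl
    · split_ifs
      · rw [Real.rpow_zero, mul_one]
      · exact (gw_pos _).le
  rw [e1]
  refine (s1.hasSum.sub s2).norm_le_of_bounded
    ((hasSum_ite_eq (0 : O) ‖h 0‖).add (s3.hasSum.mul_left B)) fun a => ?_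
  have n1 : 0 ≤ B * (if X * Λ ≤ nr a then gw (nr a / X) * (1 + nr a) ^ (0 : ℝ) else 0) := by
    refine mul_nonneg hB ?_
    split_ifs
    · exact mul_nonneg (gw_pos _).le (by positivity)
    · exact le_rfl
  by_cases a0 : a = 0
  · subst a0
    rw [if_pos rfl]
    refine le_trans ?_ (le_add_of_nonneg_right n1)
    split_ifs <;> simp
  · rw [if_neg a0, zero_add]
    by_cases a1 : a ∈ A
    · rw [if_pos a1, sub_self, norm_zero]; exact n1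
    · rw [if_neg a1, sub_zero, if_pos (hS a a0 (by rwa [hA, Finset.mem_preimage] at a1)),
        Real.rpow_zero, mul_one]
      exact hh a

/-- Opening the square. -/
theorem open_sq {τ : Type*} (P : Finset τ) (c : τ → ℂ) (x : τ → O → ℂ) (hx : ∀ p k, ‖x p k‖ ≤ 1)
    {K : ℝ} (hK : 0 < K) (S : Finset O) (hS : ∀ k ∈ S, nr k ≤ K) :
    ∑ k ∈ S, ‖∑ p ∈ P, c p * x p k‖ ^ 2 ≤ (gw 1)⁻¹ *
      ‖∑ p ∈ P, ∑ q ∈ P, c p * conj (c q) * ∑' k : O, x p k * conj (x q k) * (gw (nr k / K) : ℂ)‖ := by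
  have s1 : ∀ p q, Summable fun k : O => x p k * conj (x q k) * (gw (nr k / K) : ℂ) := by
    intro p q
    refine Summable.of_norm_bounded (summable_gw' hK) fun k => ?_
    rw [norm_mul, norm_mul, Complex.norm_conj, Complex.norm_real, Real.norm_of_nonneg (gw_pos _).le]
    exact mul_le_of_le_one_left (gw_pos _).le
      (mul_le_one₀ (hx _ _) (norm_nonneg _) (hx _ _))
  have e1 : ∀ k : O, ((gw (nr k / K) * ‖∑ p ∈ P, c p * x p k‖ ^ 2 : ℝ) : ℂ) =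
      ∑ p ∈ P, ∑ q ∈ P, c p * conj (c q) * (x p k * conj (x q k) * (gw (nr k / K) : ℂ)) := by
    intro k
    rw [Complex.ofReal_mul, Complex.ofReal_pow, ← Complex.mul_conj', map_sum, Finset.sum_mul_sum,
      Finset.mul_sum]
    refine Finset.sum_congr rfl fun p _ => ?_
    rw [Finset.mul_sum]
    refine Finset.sum_congr rfl fun q _ => ?_
    rw [map_mul]; ring
  have s2 : HasSum (fun k : O => ((gw (nr k / K) * ‖∑ p ∈ P, c p * x p k‖ ^ 2 : ℝ) : ℂ))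
      (∑ p ∈ P, ∑ q ∈ P, c p * conj (c q) *
        ∑' k : O, x p k * conj (x q k) * (gw (nr k / K) : ℂ)) := by
    simp only [e1]
    exact hasSum_sum fun p _ => hasSum_sum fun q _ => (s1 p q).hasSum.mul_left _
  have s3 := Complex.hasSum_re s2
  simp only [Complex.ofReal_re] at s3
  have s4 := sum_le_hasSum S (fun k _ => mul_nonneg (gw_pos _).le (by positivity)) s3
  rw [le_inv_mul_iff₀ (gw_pos 1), Finset.mul_sum]
  refine le_trans (Finset.sum_le_sum fun k hk => ?_) (s4.trans (Complex.re_le_norm _))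
  exact mul_le_mul_of_nonneg_right (gw_antitone ((div_le_one hK).2 (hS k hk))) (by positivity)

/-- Separation of the two variables in the power kernel. -/
theorem kernel {n₁ n₂ f₁ f₂ K L x : ℝ} (h₁ : 0 < n₁) (h₂ : 0 < n₂) (g₁ : 0 < f₁) (g₂ : 0 < f₂)
    (hK : 0 < K) (hL : 0 < L) (hx : 0 < x) (z : ℂ) :
    ((K / Real.sqrt (n₁ * n₂) : ℝ) : ℂ) * ((K * x / (f₁ * n₁ * (f₂ * n₂)) : ℝ) : ℂ) ^ (-z) =
      ((K / L * Real.sqrt (f₁ * f₂) : ℝ) : ℂ) * ((K * x / L ^ 2 : ℝ) : ℂ) ^ (-z) *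
        (((n₁ * f₁ / L : ℝ) : ℂ) ^ (z - 1 / 2) *
          conj (((n₂ * f₂ / L : ℝ) : ℂ) ^ (conj (z - 1 / 2)))) := by
  have a1 : K / Real.sqrt (n₁ * n₂) = Real.exp (Real.log K - (Real.log n₁ + Real.log n₂) / 2) := by
    rw [Real.exp_sub, Real.exp_log hK, ← Real.log_mul h₁.ne' h₂.ne', Real.exp_half,
      Real.exp_log (mul_pos h₁ h₂)]
  have a2 : K / L * Real.sqrt (f₁ * f₂) =
      Real.exp (Real.log K - Real.log L + (Real.log f₁ + Real.log f₂) / 2) := by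
    rw [Real.exp_add, Real.exp_sub, Real.exp_log hK, Real.exp_log hL,
      ← Real.log_mul g₁.ne' g₂.ne', Real.exp_half, Real.exp_log (mul_pos g₁ g₂)]
  rw [a1, a2, avg_cpow (by positivity), avg_cpow (by positivity), avg_cpow (by positivity),
    avg_cpow (by positivity), ← Complex.exp_conj, map_mul, Complex.conj_conj, Complex.conj_ofReal,
    Complex.ofReal_exp, Complex.ofReal_exp, ← Complex.exp_add, ← Complex.exp_add,
    ← Complex.exp_add, ← Complex.exp_add]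
  congr 1
  rw [Real.log_div (by positivity) (by positivity), Real.log_div (by positivity) (by positivity),
    Real.log_div (by positivity) (by positivity), Real.log_div (by positivity) (by positivity),
    Real.log_mul (by positivity) (by positivity), Real.log_mul (by positivity) (by positivity),
    Real.log_mul (by positivity) (by positivity), Real.log_mul (by positivity) (by positivity),
    Real.log_mul (by positivity) (by positivity), Real.log_mul (by positivity) (by positivity),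
    Real.log_pow]
  push_cast
  ring

end Crest.Agent.R17.GP
end
end

-- ▼ part PVc/R17/DPAuxG3
section

/-!
# Row 17, module M11: auxiliary lemmas for `gp` (one pair of columns, one frozen cell)
-/

set_option autoImplicit false

noncomputable section

namespace Crest.Agent.R17.GP

open scoped ComplexConjugate
open Classical MeasureTheory LS2

/-- The weight `∏_{p ∣ d, p⁶ ∣ a} N p`. -/
def wt (d a : O) : ℝ := ∏ p ∈ (pf d).filter (fun p => p ^ 6 ∣ a), nr p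

/-- The frozen character. -/
def Phi (d₁ d₂ e₁ e₂ : O) : O → ℂ := fun k => sym (e₁ * d₁ ^ 3) k * conj (sym (e₂ * d₂ ^ 3) k)

/-- The frozen coefficient of the row `a`. -/
def gF (d₁ d₂ e₁ e₂ a : O) : ℂ :=
  if bb d₁ d₂ e₁ e₂ ∣ a then
    gam 5 e₁ * conj (gam 5 e₂) * ((Real.sqrt (nr d₁ * nr d₂) / nr (rho d₁ d₂ e₁ e₂) : ℝ) : ℂ) *
      ft (rho d₁ d₂ e₁ e₂) (Phi d₁ d₂ e₁ e₂) (a / bb d₁ d₂ e₁ e₂)
  else 0

/-- The phase. -/
def ph (e₁ e₂ c m₁ m₂ : O) : ℂ :=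
  Rs m₁ m₂ * (sym m₁ (-1) * Rs e₁ m₁ * Rs c m₁) * (Rs e₂ m₂ * Rs c m₂)

/-- The term of the row `a` for a pair. -/
def Ta (K : ℝ) (d₁ d₂ e₁ e₂ m₁ m₂ a : O) (f : ℝ → ℂ) : ℂ :=
  ph e₁ e₂ (e₁ * d₁ ^ 3 * (e₂ * d₂ ^ 3)) m₁ m₂ * (conj (sym m₁ a) * sym m₂ a) *
    (((K / Real.sqrt (nr m₁ * nr m₂) : ℝ) : ℂ) *
      f (K * nr a / (nr e₁ * nr d₁ ^ 3 * nr m₁ * (nr e₂ * nr d₂ ^ 3 * nr m₂))))

/-- The complete sum for a pair. -/
def Tp (K : ℝ) (d₁ d₂ n₁ n₂ : O) : ℂ :=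
  (Real.sqrt (nr d₁ * nr d₂) : ℂ) * (gam 5 n₁ * conj (gam 5 n₂) *
    ∑' k : O, sym (n₁ * d₁ ^ 3) k * conj (sym (n₂ * d₂ ^ 3) k) * (gw (nr k / K) : ℂ))

/-- The new row sums. -/
def Bx {M : O} (L : ℝ) (β : O → ℂ) (ν : Chr M) (s : ℂ) (d e t a : O) : ℂ :=
  ∑ m ∈ sp M (L / (nr e * nr d ^ 3 * nr t)),
    (if IsCoprime m (e * t) then β (e * t * m) * ev ν m *
      ((nr m * (nr e * nr d ^ 3 * nr t) / L : ℝ) : ℂ) ^ s else 0) * conj (sym m a)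

theorem wt_nonneg (d a : O) : 0 ≤ wt d a := Finset.prod_nonneg fun _ _ => Nat.cast_nonneg _

theorem norm_Phi_le (d₁ d₂ e₁ e₂ k : O) : ‖Phi d₁ d₂ e₁ e₂ k‖ ≤ 1 := by
  rw [Phi, norm_mul, Complex.norm_conj]
  exact mul_le_one₀ (norm_sym_le _ _) (norm_nonneg _) (norm_sym_le _ _)

theorem norm_ft_le {q : O} (hq : q ≠ 0) {f : O → ℂ} (hf : ∀ k, ‖f k‖ ≤ 1) (a : O) :
    ‖ft q f a‖ ≤ nr q := by
  refine (norm_sum_le _ _).trans ?_
  have := Finset.sum_le_card_nsmul (res q) (fun x => ‖f x * eq (a * x) q‖) 1 fun x _ => by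
    rw [norm_mul, norm_eq, mul_one]; exact hf x
  rwa [card_res hq, nsmul_eq_mul, mul_one] at this

theorem norm_ph_le {e₁ e₂ c m₁ m₂ : O} (he₁ : IsCoprime e₁ 2) (he₂ : IsCoprime e₂ 2)
    (hc : IsCoprime c 2) (h₁ : IsCoprime m₁ 2) (h₂ : IsCoprime m₂ 2) : ‖ph e₁ e₂ c m₁ m₂‖ ≤ 1 := by
  simp only [ph, norm_mul, Dual_norm_Rs h₁ h₂, Dual_norm_Rs he₁ h₁, Dual_norm_Rs he₂ h₂,
    Dual_norm_Rs hc h₁, Dual_norm_Rs hc h₂, one_mul, mul_one]
  exact norm_sym_le _ _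

theorem phase {M : O} (hM : Adm M) [Fintype (Chr M)] {e₁ e₂ c : O} (he₁ : IsCoprime e₁ 2)
    (he₂ : IsCoprime e₂ 2) (hc : IsCoprime c 2) : ∃ b : Chr M → Chr M → ℂ,
      (∀ ν ν', ‖b ν ν'‖ ≤ 1) ∧ ∀ m₁ m₂, SP M m₁ → SP M m₂ →
        ph e₁ e₂ c m₁ m₂ = ∑ ν, ∑ ν', b ν ν' * (ev ν m₁ * conj (ev ν' m₂)) := by
  obtain ⟨b, hb, hb'⟩ := DPA1.Rs_expand hM
  obtain ⟨ν₀, h₀⟩ := exists_chr_sym hM (s := -1) (by norm_num) (by
    rw [BasicB.pf_unit isUnit_one.neg]; simp)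
  obtain ⟨ν₁, h₁⟩ := DPA1.exists_chr_Rs hM he₁
  obtain ⟨ν₂, h₂⟩ := DPA1.exists_chr_Rs hM he₂
  obtain ⟨ν₃, h₃⟩ := DPA1.exists_chr_Rs hM hc
  refine ⟨fun ν ν' => b (ν * (ν₀ * ν₁ * ν₃)⁻¹) (ν' * (ν₂ * ν₃)), fun _ _ => hb _ _,
    fun m₁ m₂ hm₁ hm₂ => ?_⟩
  rw [← Equiv.sum_comp (Equiv.mulRight (ν₀ * ν₁ * ν₃)), ph, hb' m₁ m₂ hm₁.2.2 hm₂.2.2,
    Finset.sum_mul, Finset.sum_mul]
  refine Finset.sum_congr rfl fun ν _ => ?_
  rw [Finset.sum_mul, Finset.sum_mul]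
  conv_rhs => rw [← Equiv.sum_comp (Equiv.mulRight (ν₂ * ν₃)⁻¹)]
  refine Finset.sum_congr rfl fun ν' _ => ?_
  simp only [Equiv.coe_mulRight, mul_inv_cancel_right, inv_mul_cancel_right]
  rw [ev_mul_chr ν', ev_inv hM.1, map_mul, Complex.conj_conj]
  simp only [ev_mul_chr, h₀ m₁ hm₁.1 hm₁.2.2, h₁ m₁ hm₁.2.2, h₂ m₂ hm₂.2.2, h₃ m₁ hm₁.2.2,
    h₃ m₂ hm₂.2.2]
  ring

theorem norm_gam_five {M e : O} (hM : Adm M) (he : SP M e) : ‖gam 5 e‖ = 1 :=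
  norm_gam (by norm_num) (PO.of_adm hM he.1 he.2.2) he.2.1

theorem norm_gF_le {M d₁ d₂ e₁ e₂ : O} (hM : Adm M) (hd₁ : SP M d₁) (hd₂ : SP M d₂)
    (he₁ : SP M e₁) (he₂ : SP M e₂) (hv : Val d₁ d₂ e₁ e₂) (a : O) :
    ‖gF d₁ d₂ e₁ e₂ a‖ ≤ min (wt d₁ a) (wt d₂ a) := by
  obtain ⟨r1, r2, r3, r4, r5, r6, r7, r8⟩ := frozen hM hd₁ hd₂ he₁ he₂ hv
  rw [gF]
  split_ifs with h
  · obtain ⟨c, rfl⟩ := h
    have zb : bb d₁ d₂ e₁ e₂ ≠ 0 := fun h0 => by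
      rw [h0, mul_zero] at r7
      exact ((he₁.1.mul (hd₁.1.pow 3)).mul (he₂.1.mul (hd₂.1.pow 3))).ne_zero r7
    have := (DPA2.norm_ft_frozen r1 r2 he₁.1 he₂.1 hd₁.1 hd₂.1 r3 r4 r5 r6 r7 r8 c).1
    have hr := nr_pos r1.1.ne_zero
    rw [mul_div_cancel_left₀ _ zb, norm_mul, norm_mul, norm_mul, Complex.norm_conj,
      norm_gam_five hM he₁, norm_gam_five hM he₂, Complex.norm_real,
      Real.norm_of_nonneg (by positivity), one_mul, one_mul, div_mul_eq_mul_div, div_le_iff₀' hr,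
      mul_comm (bb d₁ d₂ e₁ e₂) c]
    exact this
  · rw [norm_zero]; exact le_min (wt_nonneg _ _) (wt_nonneg _ _)

/-- The complete sum of a pair minus its main part. -/
theorem pair_est {M d₁ d₂ e₁ e₂ m₁ m₂ : O} (hM : Adm M) (hd₁ : SP M d₁) (hd₂ : SP M d₂)
    (he₁ : SP M e₁) (he₂ : SP M e₂) (hm₁ : SP M m₁) (hm₂ : SP M m₂) (hc : Cop d₁ d₂ e₁ e₂ m₁ m₂)
    {K L Λ τ : ℝ} (hK : 0 < K) (hΛ : 0 ≤ Λ) (n₁ : nr e₁ * nr d₁ ^ 3 * nr m₁ ≤ L)
    (n₂ : nr e₂ * nr d₂ ^ 3 * nr m₂ ≤ L)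
    (hτ : ∀ X : ℝ, 0 < X → X ≤ L ^ 2 / K → ∑' k : O,
      (if X * Λ ≤ nr k then gw (nr k / X) * (1 + nr k) ^ (0 : ℝ) else 0) ≤ τ) :
    ‖Tp K d₁ d₂ (e₁ * m₁) (e₂ * m₂) - ∑ a ∈ rows (L ^ 2 * Λ / K),
        gF d₁ d₂ e₁ e₂ a * Ta K d₁ d₂ e₁ e₂ m₁ m₂ a (fun y => (gw y : ℂ))‖ ≤
      Real.sqrt (nr d₁ * nr d₂) * K * ((if d₁ = d₂ ∧ e₁ * m₁ = e₂ * m₂ then 1 else 0) + τ) := by
  obtain ⟨hv, c₁, c₂, c₃⟩ := hc
  obtain ⟨r1, r2, r3, r4, r5, r6, r7, r8⟩ := frozen hM hd₁ hd₂ he₁ he₂ hv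
  have p₁ := PO.of_adm hM hm₁.1 hm₁.2.2
  have p₂ := PO.of_adm hM hm₂.1 hm₂.2.2
  have q₁ := PO.of_adm hM he₁.1 he₁.2.2
  have q₂ := PO.of_adm hM he₂.1 he₂.2.2
  have t₁ := PO.of_adm hM hd₁.1 hd₁.2.2
  have t₂ := PO.of_adm hM hd₂.1 hd₂.2.2
  have hf : IsCoprime (e₁ * d₁ ^ 3 * (e₂ * d₂ ^ 3)) 2 :=
    (q₁.2.mul_left t₁.2.pow_left).mul_left (q₂.2.mul_left t₂.2.pow_left)
  have zb : bb d₁ d₂ e₁ e₂ ≠ 0 := fun h0 => by
    rw [h0, mul_zero] at r7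
    exact ((he₁.1.mul (hd₁.1.pow 3)).mul (he₂.1.mul (hd₂.1.pow 3))).ne_zero r7
  have hs : Squarefree (rho d₁ d₂ e₁ e₂ * m₁ * m₂) :=
    squarefree_mul_iff.2 ⟨(c₂.symm.mul_left c₃).isRelPrime,
      squarefree_mul_iff.2 ⟨c₁.symm.isRelPrime, r2, hm₁.2.1⟩, hm₂.2.1⟩
  have hPB := DPA2.pair_back r1 p₁ p₂ hs he₁.1 he₂.1 hd₁.1 hd₂.1 r3 r4 r5 r6 r7 hK
  have hN := congrArg nr r7
  rw [nr_mul, nr_mul, nr_mul, nr_mul, nr_pow, nr_pow] at hN
  have hNF := (DPA2.norm_ft_frozen r1 r2 he₁.1 he₂.1 hd₁.1 hd₂.1 r3 r4 r5 r6 r7 r8 0).2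
  set ρ := rho d₁ d₂ e₁ e₂ with hρ
  set b := bb d₁ d₂ e₁ e₂ with hb
  have nρ := nr_pos r1.1.ne_zero
  have nb := one_le_nr zb
  have nm₁ := one_le_nr hm₁.1.ne_zero
  have nm₂ := one_le_nr hm₂.1.ne_zero
  set h : O → ℂ := fun a => ft ρ (Phi d₁ d₂ e₁ e₂) a * (conj (sym m₁ (a * b)) * sym m₂ (a * b)) *
    (gw (K * nr a / (nr ρ * nr m₁ * nr m₂)) : ℂ) with hh
  set c₀ : ℂ := (Real.sqrt (nr d₁ * nr d₂) : ℂ) * (gam 5 e₁ * conj (gam 5 e₂) *
    ((K / (nr ρ * Real.sqrt (nr m₁ * nr m₂)) : ℝ) : ℂ) *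
      ph e₁ e₂ (e₁ * d₁ ^ 3 * (e₂ * d₂ ^ 3)) m₁ m₂) with hc₀
  have e1 : Tp K d₁ d₂ (e₁ * m₁) (e₂ * m₂) = c₀ * ∑' a, h a := by
    rw [Tp, hPB, hc₀, ph, r7, mul_assoc (Real.sqrt _ : ℂ)]
    rfl
  have e2 : ∑ a ∈ rows (L ^ 2 * Λ / K),
      gF d₁ d₂ e₁ e₂ a * Ta K d₁ d₂ e₁ e₂ m₁ m₂ a (fun y => (gw y : ℂ)) =
      c₀ * ∑ a ∈ rows (L ^ 2 * Λ / K), if b ∣ a then h (a / b) else 0 := by
    rw [Finset.mul_sum]
    refine Finset.sum_congr rfl fun a _ => ?_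
    rw [gF, ← hb, ← hρ]
    split_ifs with h1
    · obtain ⟨c, rfl⟩ := h1
      have a1 : K * nr (b * c) / (nr e₁ * nr d₁ ^ 3 * nr m₁ * (nr e₂ * nr d₂ ^ 3 * nr m₂)) =
          K * nr c / (nr ρ * nr m₁ * nr m₂) := by
        rw [show nr e₁ * nr d₁ ^ 3 * nr m₁ * (nr e₂ * nr d₂ ^ 3 * nr m₂) =
          nr e₁ * nr d₁ ^ 3 * (nr e₂ * nr d₂ ^ 3) * (nr m₁ * nr m₂) by ring, hN, nr_mul]
        field_simp
      simp only [hh, hc₀, Ta]
      rw [mul_div_cancel_left₀ _ zb, a1, mul_comm c b]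
      push_cast
      ring
    · simp
  have hX : 0 < nr ρ * nr m₁ * nr m₂ / K := by positivity
  have hL : 0 ≤ L := le_trans (by positivity) n₁
  have hXb : nr ρ * nr m₁ * nr m₂ * nr b ≤ L ^ 2 := by
    calc _ = nr e₁ * nr d₁ ^ 3 * nr m₁ * (nr e₂ * nr d₂ ^ 3 * nr m₂) := by
          linear_combination (-(nr m₁ * nr m₂)) * hN
      _ ≤ L * L := mul_le_mul n₁ n₂ (by positivity) hL
      _ = _ := by ring
  have t := trunc (h := h) (B := nr ρ) (Λ := Λ) hX nρ.le (fun a => by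
      simp only [hh]
      rw [norm_mul, norm_mul, norm_mul, Complex.norm_conj, Complex.norm_real,
        Real.norm_of_nonneg (gw_pos _).le, div_div_eq_mul_div, mul_comm (nr a) K]
      refine mul_le_mul_of_nonneg_right ?_ (gw_pos _).le
      exact (mul_le_of_le_one_right (norm_nonneg _) (mul_le_one₀ (norm_sym_le _ _)
        (norm_nonneg _) (norm_sym_le _ _))).trans (norm_ft_le r1.1.ne_zero (norm_Phi_le _ _ _ _) _))
    zb (rows (L ^ 2 * Λ / K)) (fun a ha hab => by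
      rw [mem_rows (by positivity), not_and, not_le, nr_mul] at hab
      have a1 := hab (mul_ne_zero ha zb)
      rw [div_lt_iff₀ hK] at a1
      rw [div_mul_eq_mul_div, div_le_iff₀ hK]
      refine le_of_mul_le_mul_right ?_ (lt_of_lt_of_le one_pos nb)
      have := mul_le_mul_of_nonneg_right hXb hΛ
      linarith)
  have t1 := hτ _ hX (div_le_div_of_nonneg_right
    ((le_mul_of_one_le_right (by positivity) nb).trans hXb) hK.le)
  have t2 : ‖h 0‖ ≤ nr ρ * (if d₁ = d₂ ∧ e₁ * m₁ = e₂ * m₂ then 1 else 0) := by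
    simp only [hh, zero_mul]
    split_ifs with h1
    · rw [norm_mul, norm_mul, norm_mul, Complex.norm_conj, Complex.norm_real,
        Real.norm_of_nonneg (gw_pos _).le]
      refine mul_le_mul ?_ (gw_le_one (by positivity)) (gw_pos _).le nρ.le
      exact (mul_le_of_le_one_right (norm_nonneg _) (mul_le_one₀ (norm_sym_le _ _)
        (norm_nonneg _) (norm_sym_le _ _))).trans (norm_ft_le r1.1.ne_zero (norm_Phi_le _ _ _ _) _)
    · rw [mul_zero, norm_le_zero_iff]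
      by_contra h0
      have b1 := left_ne_zero_of_mul h0
      obtain ⟨b2, b3⟩ := hNF (left_ne_zero_of_mul b1)
      have b4 := right_ne_zero_of_mul b1
      have b5 : sym m₁ 0 ≠ 0 := fun h => left_ne_zero_of_mul b4 (by rw [h, map_zero])
      have b6 := right_ne_zero_of_mul b4
      rw [Ne, sym_eq_zero_iff hm₁.1, not_not, isCoprime_zero_right] at b5
      rw [Ne, sym_eq_zero_iff hm₂.1, not_not, isCoprime_zero_right] at b6
      exact h1 ⟨b3, by rw [b2, hm₁.1.eq_one_of_isUnit b5, hm₂.1.eq_one_of_isUnit b6]⟩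
  have t3 : ‖c₀‖ ≤ Real.sqrt (nr d₁ * nr d₂) * (K / nr ρ) := by
    rw [hc₀, norm_mul, norm_mul, norm_mul, norm_mul, Complex.norm_conj, norm_gam_five hM he₁,
      norm_gam_five hM he₂, Complex.norm_real, Complex.norm_real,
      Real.norm_of_nonneg (Real.sqrt_nonneg _), Real.norm_of_nonneg (by positivity), one_mul,
      one_mul]
    refine mul_le_mul_of_nonneg_left ?_ (Real.sqrt_nonneg _)
    refine (mul_le_of_le_one_right (by positivity) (norm_ph_le q₁.2 q₂.2 hf p₁.2 p₂.2)).trans ?_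
    refine div_le_div_of_nonneg_left hK.le nρ (le_mul_of_one_le_right nρ.le ?_)
    exact Real.one_le_sqrt.2 (one_le_mul_of_one_le_of_one_le nm₁ nm₂)
  rw [e1, e2, ← mul_sub, norm_mul]
  refine (mul_le_mul t3 (t.trans (add_le_add t2 (mul_le_mul_of_nonneg_left t1 nρ.le)))
    (norm_nonneg _) (by positivity)).trans_eq ?_
  field_simp

theorem inner {M d e t a : O} (he : SP M e) (ht : SP M t) (hd : d ≠ 0) (hea : e ∣ a)
    {L : ℝ} (hL : 0 < L) (β : O → ℂ) (ν : Chr M) (s : ℂ) :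
    ∑ m ∈ sp M (L / nr d ^ 3 / nr e / nr t), (if IsCoprime m t then
      β (e * (t * m)) * conj (sym (t * m) a) *
        ((nr (t * m) * (nr e * nr d ^ 3) / L : ℝ) : ℂ) ^ s * ev ν (t * m) else 0) =
      ev ν t * conj (sym t a) * Bx L β ν s d e t a := by
  have nd := nr_pos hd
  have ne := nr_pos he.1.ne_zero
  have nt := nr_pos ht.1.ne_zero
  rw [Bx, Finset.mul_sum, show L / nr d ^ 3 / nr e / nr t = L / (nr e * nr d ^ 3 * nr t) by
    field_simp]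
  refine Finset.sum_congr rfl fun m hm => ?_
  have hm' := ((LS2.mem_sp (by positivity)).1 hm).1
  rw [sym_mul_left ht.1.ne_zero hm'.1.ne_zero, ev_mul, nr_mul,
    show nr t * nr m * (nr e * nr d ^ 3) = nr m * (nr e * nr d ^ 3 * nr t) by ring, map_mul,
    ← mul_assoc e]
  by_cases h1 : IsCoprime m a
  · have h2 : IsCoprime m (e * t) ↔ IsCoprime m t :=
      ⟨fun h => h.of_mul_right_right, fun h => (h1.of_isCoprime_of_dvd_right hea).mul_right h⟩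
    rw [if_congr h2 rfl rfl]
    split_ifs
    · ring
    · simp
  · rw [(sym_eq_zero_iff hm'.1).2 h1]
    simp

theorem norm_inner_le {M d e t a : O} (hM : Adm M) (he : SP M e) (ht : SP M t) (hd : d ≠ 0)
    (hea : e ∣ a) {L : ℝ} (hL : 0 < L) (β : O → ℂ) (ν : Chr M) (s : ℂ) :
    ‖∑ m ∈ sp M (L / nr d ^ 3 / nr e / nr t), (if IsCoprime m t then
      β (e * (t * m)) * conj (sym (t * m) a) *
        ((nr (t * m) * (nr e * nr d ^ 3) / L : ℝ) : ℂ) ^ s * ev ν (t * m) else 0)‖ ≤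
      if IsCoprime t a then ‖Bx L β ν s d e t a‖ else 0 := by
  rw [inner he ht hd hea hL, norm_mul, norm_mul, Complex.norm_conj]
  split_ifs with h
  · exact mul_le_of_le_one_left (norm_nonneg _)
      (mul_le_one₀ (norm_ev_le hM.1 _ _) (norm_nonneg _) (norm_sym_le _ _))
  · rw [(sym_eq_zero_iff ht.1).2 h]; simp

/-- The sum over the free variables in one frozen cell. -/
theorem cell {M d₁ d₂ e₁ e₂ a : O} (hM : Adm M) [Fintype (Chr M)] (hd₁ : SP M d₁) (hd₂ : SP M d₂)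
    (he₁ : SP M e₁) (he₂ : SP M e₂) (hv : Val d₁ d₂ e₁ e₂) (ha : a ≠ 0)
    (hb : bb d₁ d₂ e₁ e₂ ∣ a) {K L : ℝ} (hK : 0 < K) (hL : 0 < L) (β₁ β₂ : O → ℂ) (z : ℂ) :
    ‖∑ m₁ ∈ sp M (L / nr d₁ ^ 3 / nr e₁), ∑ m₂ ∈ sp M (L / nr d₂ ^ 3 / nr e₂),
      if Cop d₁ d₂ e₁ e₂ m₁ m₂ then β₁ (e₁ * m₁) * conj (β₂ (e₂ * m₂)) *
        Ta K d₁ d₂ e₁ e₂ m₁ m₂ a (fun y => (y : ℂ) ^ (-z)) else 0‖ ≤
      K / L * Real.sqrt (nr e₁ * nr d₁ ^ 3 * (nr e₂ * nr d₂ ^ 3)) * (K * nr a / L ^ 2) ^ (-z.re) *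
        ∑ ν : Chr M, ∑ ν' : Chr M, ∑ t ∈ (sp M L).filter (fun t => IsCoprime t a),
          ‖Bx L β₁ ν (z - 1 / 2) d₁ e₁ t a‖ * ‖Bx L β₂ ν' (conj (z - 1 / 2)) d₂ e₂ t a‖ := by
  obtain ⟨r1, r2, r3, r4, r5, r6, r7, r8⟩ := frozen hM hd₁ hd₂ he₁ he₂ hv
  have q₁ := PO.of_adm hM he₁.1 he₁.2.2
  have q₂ := PO.of_adm hM he₂.1 he₂.2.2
  have t₁ := PO.of_adm hM hd₁.1 hd₁.2.2
  have t₂ := PO.of_adm hM hd₂.1 hd₂.2.2
  have hf : IsCoprime (e₁ * d₁ ^ 3 * (e₂ * d₂ ^ 3)) 2 :=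
    (q₁.2.mul_left t₁.2.pow_left).mul_left (q₂.2.mul_left t₂.2.pow_left)
  obtain ⟨c, hc, hc'⟩ := phase hM q₁.2 q₂.2 hf
  have nd₁ := one_le_nr hd₁.1.ne_zero
  have nd₂ := one_le_nr hd₂.1.ne_zero
  have ne₁ := one_le_nr he₁.1.ne_zero
  have ne₂ := one_le_nr he₂.1.ne_zero
  have na := nr_pos ha
  have hra : rho d₁ d₂ e₁ e₂ ∣ a := r8.trans hb
  set s : ℂ := z - 1 / 2 with hs
  set U : Chr M → O → ℂ := fun ν m => β₁ (e₁ * m) * conj (sym m a) *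
    ((nr m * (nr e₁ * nr d₁ ^ 3) / L : ℝ) : ℂ) ^ s * ev ν m with hU
  set V : Chr M → O → ℂ := fun ν m => β₂ (e₂ * m) * conj (sym m a) *
    ((nr m * (nr e₂ * nr d₂ ^ 3) / L : ℝ) : ℂ) ^ (conj s) * ev ν m with hV
  set κ : ℂ := ((K / L * Real.sqrt (nr e₁ * nr d₁ ^ 3 * (nr e₂ * nr d₂ ^ 3)) : ℝ) : ℂ) *
    ((K * nr a / L ^ 2 : ℝ) : ℂ) ^ (-z) with hκ
  have X₁ : 0 ≤ L / nr d₁ ^ 3 / nr e₁ := by positivity
  have X₂ : 0 ≤ L / nr d₂ ^ 3 / nr e₂ := by positivity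
  have X₃ : L / nr d₁ ^ 3 / nr e₁ ≤ L :=
    (div_le_self (by positivity) ne₁).trans (div_le_self hL.le (one_le_pow₀ nd₁))
  have e1 : ∀ m₁ ∈ sp M (L / nr d₁ ^ 3 / nr e₁), ∀ m₂ ∈ sp M (L / nr d₂ ^ 3 / nr e₂),
      (if Cop d₁ d₂ e₁ e₂ m₁ m₂ then β₁ (e₁ * m₁) * conj (β₂ (e₂ * m₂)) *
        Ta K d₁ d₂ e₁ e₂ m₁ m₂ a (fun y => (y : ℂ) ^ (-z)) else 0) =
      ∑ ν, ∑ ν', κ * c ν ν' * if IsCoprime m₁ m₂ then U ν m₁ * conj (V ν' m₂) else 0 := by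
    intro m₁ hm₁ m₂ hm₂
    have hm₁' := ((LS2.mem_sp X₁).1 hm₁).1
    have hm₂' := ((LS2.mem_sp X₂).1 hm₂).1
    by_cases h1 : IsCoprime m₁ a
    · by_cases h2 : IsCoprime m₂ a
      · have h3 : Cop d₁ d₂ e₁ e₂ m₁ m₂ ↔ IsCoprime m₁ m₂ :=
          ⟨fun h => h.2.2.2, fun h => ⟨hv, h1.of_isCoprime_of_dvd_right hra,
            h2.of_isCoprime_of_dvd_right hra, h⟩⟩
        rw [if_congr h3 rfl rfl]
        split_ifs with h4
        · rw [Ta, hc' m₁ m₂ hm₁' hm₂', kernel (nr_pos hm₁'.1.ne_zero) (nr_pos hm₂'.1.ne_zero)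
            (by positivity) (by positivity) hK hL na, ← hs, ← hκ, Finset.sum_mul, Finset.sum_mul,
            Finset.mul_sum]
          refine Finset.sum_congr rfl fun ν _ => ?_
          rw [Finset.sum_mul, Finset.sum_mul, Finset.mul_sum]
          refine Finset.sum_congr rfl fun ν' _ => ?_
          simp only [hU, hV, map_mul, Complex.conj_conj]
          ring
        · simp
      · have h3 := (sym_eq_zero_iff hm₂'.1).2 h2
        simp [Ta, hV, h3]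
    · have h3 := (sym_eq_zero_iff hm₁'.1).2 h1
      simp [Ta, hU, h3]
  rw [Finset.sum_congr rfl fun m₁ hm₁ => Finset.sum_congr rfl fun m₂ hm₂ => e1 m₁ hm₁ m₂ hm₂]
  rw [Finset.sum_congr rfl fun m₁ _ => Finset.sum_comm, Finset.sum_comm, Finset.mul_sum]
  refine (norm_sum_le _ _).trans (Finset.sum_le_sum fun ν _ => ?_)
  rw [Finset.sum_congr rfl fun m₁ _ => Finset.sum_comm, Finset.sum_comm, Finset.mul_sum]
  refine (norm_sum_le _ _).trans (Finset.sum_le_sum fun ν' _ => ?_)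
  simp only [← Finset.mul_sum]
  rw [mob X₁ X₂ X₃ (U ν) (fun m => conj (V ν' m)), norm_mul, norm_mul]
  have n1 : ‖κ‖ = K / L * Real.sqrt (nr e₁ * nr d₁ ^ 3 * (nr e₂ * nr d₂ ^ 3)) *
      (K * nr a / L ^ 2) ^ (-z.re) := by
    rw [hκ, norm_mul, Complex.norm_real, Real.norm_of_nonneg (by positivity),
      Complex.norm_cpow_eq_rpow_re_of_pos (by positivity), Complex.neg_re]
  rw [← n1]
  refine mul_le_mul (mul_le_of_le_one_right (norm_nonneg _) (hc _ _)) ?_ (norm_nonneg _)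
    (norm_nonneg _)
  rw [Finset.sum_filter]
  refine (norm_sum_le _ _).trans (Finset.sum_le_sum fun t ht => ?_)
  have ht' := ((LS2.mem_sp hL.le).1 ht).1
  have b1 := norm_inner_le hM he₁ ht' hd₁.1.ne_zero (r3.trans hra) hL β₁ ν s
  have b2 := norm_inner_le hM he₂ ht' hd₂.1.ne_zero (r4.trans hra) hL β₂ ν' (conj s)
  have b3 : (∑ m ∈ sp M (L / nr d₂ ^ 3 / nr e₂ / nr t),
      if IsCoprime m t then conj (V ν' (t * m)) else 0) =
      conj (∑ m ∈ sp M (L / nr d₂ ^ 3 / nr e₂ / nr t),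
        if IsCoprime m t then V ν' (t * m) else 0) := by
    rw [map_sum]
    exact Finset.sum_congr rfl fun m _ => by split_ifs <;> simp
  rw [norm_mul, norm_mul, b3, Complex.norm_conj]
  refine (mul_le_of_le_one_left (by positivity) (norm_mu_le t)).trans ?_
  refine (mul_le_mul b1 b2 (norm_nonneg _) ((norm_nonneg _).trans b1)).trans_eq ?_
  split_ifs <;> simp

end Crest.Agent.R17.GP
end
end

-- ▼ part PVc/R17/DPAuxG4
section

/-!
# Row 17, module M11: backward Poisson summation for cube-completed indices (`gp`)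
-/

set_option autoImplicit false

noncomputable section

namespace Crest.Agent.R17.GP

open scoped ComplexConjugate
open Classical MeasureTheory LS2

/-- The main part, as a functional of the profile. -/
def Lam (M : O) (K L Z : ℝ) (β : O → O → ℂ) (f : ℝ → ℂ) : ℂ :=
  ∑ d₁ ∈ sp M L, ∑ d₂ ∈ sp M L, ∑ e₁ ∈ sp M L, ∑ e₂ ∈ sp M L,
    ∑ m₁ ∈ sp M (L / nr d₁ ^ 3 / nr e₁), ∑ m₂ ∈ sp M (L / nr d₂ ^ 3 / nr e₂),
      if Cop d₁ d₂ e₁ e₂ m₁ m₂ then β d₁ (e₁ * m₁) * conj (β d₂ (e₂ * m₂)) *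
        ∑ a ∈ rows Z, gF d₁ d₂ e₁ e₂ a * Ta K d₁ d₂ e₁ e₂ m₁ m₂ a f else 0

/-- The mean square of one child. -/
def YY {M : O} (L : ℝ) (β : O → ℂ) (ν : Chr M) (s : ℂ) (d e a : O) : ℝ :=
  ∑ t ∈ sp (M * d * e) L, wt d a * (nr e * nr d ^ 3) * ‖Bx L β ν s d e t a‖ ^ 2

/-- The dual mean square. -/
def HH {M : O} (L Z : ℝ) (β : O → O → ℂ) (ν : Chr M) (s : ℂ) : ℝ :=
  ∑ a ∈ rows Z, ∑ d ∈ (sp M L).filter (· ∈ pdiv a), ∑ e ∈ (sp M L).filter (· ∈ pdiv a),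
    YY L (β d) ν s d e a

theorem YY_nonneg {M : O} (L : ℝ) (β : O → ℂ) (ν : Chr M) (s : ℂ) (d e a : O) :
    0 ≤ YY L β ν s d e a :=
  Finset.sum_nonneg fun _ _ => mul_nonneg (mul_nonneg (wt_nonneg _ _) (by positivity))
    (by positivity)

theorem HH_nonneg {M : O} (L Z : ℝ) (β : O → O → ℂ) (ν : Chr M) (s : ℂ) : 0 ≤ HH L Z β ν s :=
  Finset.sum_nonneg fun _ _ => Finset.sum_nonneg fun _ _ => Finset.sum_nonneg fun _ _ =>
    YY_nonneg _ _ _ _ _ _ _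

theorem ne_zero_of_mem_sp {M n : O} {X : ℝ} (h : n ∈ sp M X) : n ≠ 0 := (Dual_SP_of_mem h).1.ne_zero

theorem fc_Lam (M : O) {K : ℝ} (hK : 0 < K) (L Z : ℝ) (β : O → O → ℂ) : FC (Lam M K L Z β) := by
  refine FC.sum _ fun d₁ hd₁ => FC.sum _ fun d₂ hd₂ => FC.sum _ fun e₁ he₁ => FC.sum _ fun e₂ he₂ =>
    FC.sum _ fun m₁ hm₁ => FC.sum _ fun m₂ hm₂ => ?_
  by_cases h : Cop d₁ d₂ e₁ e₂ m₁ m₂
  · simp only [if_pos h]
    refine FC.const_mul (FC.sum _ fun a ha => FC.const_mul (FC.const_mul (FC.const_mul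
      (FC.eval ?_) _) _) _) _
    have := nr_pos (ne_zero_of_mem_sp hd₁)
    have := nr_pos (ne_zero_of_mem_sp hd₂)
    have := nr_pos (ne_zero_of_mem_sp he₁)
    have := nr_pos (ne_zero_of_mem_sp he₂)
    have := nr_pos (ne_zero_of_mem_sp hm₁)
    have := nr_pos (ne_zero_of_mem_sp hm₂)
    have := nr_pos (Finset.ne_of_mem_erase ha)
    positivity
  · simp only [if_neg h]
    exact FC.zero

theorem amgm {w₁ w₂ f₁ f₂ x y : ℝ} (h₁ : 0 ≤ w₁) (h₂ : 0 ≤ w₂) (g₁ : 0 ≤ f₁) (g₂ : 0 ≤ f₂) :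
    min w₁ w₂ * (Real.sqrt (f₁ * f₂) * (x * y)) ≤ w₁ * f₁ * x ^ 2 + w₂ * f₂ * y ^ 2 := by
  have h0 : 0 ≤ min w₁ w₂ := le_min h₁ h₂
  have a1 : Real.sqrt (f₁ * f₂) * (x * y) ≤ f₁ * x ^ 2 + f₂ * y ^ 2 := by
    rw [Real.sqrt_mul g₁]
    nth_rewrite 2 [← Real.sq_sqrt g₁, ← Real.sq_sqrt g₂]
    nlinarith [sq_nonneg (Real.sqrt f₁ * x - Real.sqrt f₂ * y), sq_nonneg (Real.sqrt f₁ * x),
      sq_nonneg (Real.sqrt f₂ * y)]
  have a2 := mul_le_mul_of_nonneg_right (min_le_left w₁ w₂) (show 0 ≤ f₁ * x ^ 2 by positivity)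
  have a3 := mul_le_mul_of_nonneg_right (min_le_right w₁ w₂) (show 0 ≤ f₂ * y ^ 2 by positivity)
  have a4 := mul_le_mul_of_nonneg_left a1 h0
  nlinarith

theorem cell_le {M d₁ d₂ e₁ e₂ a : O} (hM : Adm M) [Fintype (Chr M)] (hd₁ : SP M d₁)
    (hd₂ : SP M d₂) (he₁ : SP M e₁) (he₂ : SP M e₂) (ha : a ≠ 0) {K L R : ℝ} (hK : 1 ≤ K)
    (hL : 0 < L) (hR : L ≤ R) (β₁ β₂ : O → ℂ) {z : ℂ} (hz : 0 ≤ z.re) :
    ‖gF d₁ d₂ e₁ e₂ a * ∑ m₁ ∈ sp M (L / nr d₁ ^ 3 / nr e₁), ∑ m₂ ∈ sp M (L / nr d₂ ^ 3 / nr e₂),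
      if Cop d₁ d₂ e₁ e₂ m₁ m₂ then β₁ (e₁ * m₁) * conj (β₂ (e₂ * m₂)) *
        Ta K d₁ d₂ e₁ e₂ m₁ m₂ a (fun y => (y : ℂ) ^ (-z)) else 0‖ ≤
      K / L * R ^ (2 * z.re) * Fintype.card (Chr M) *
        if (d₁ ∈ pdiv a ∧ e₁ ∈ pdiv a) ∧ (d₂ ∈ pdiv a ∧ e₂ ∈ pdiv a) then
          ∑ ν : Chr M, YY L β₁ ν (z - 1 / 2) d₁ e₁ a +
            ∑ ν : Chr M, YY L β₂ ν (conj (z - 1 / 2)) d₂ e₂ a else 0 := by
  have hK0 : 0 < K := lt_of_lt_of_le one_pos hK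
  have hR0 : 0 < R := lt_of_lt_of_le hL hR
  have n0 : 0 ≤ K / L * R ^ (2 * z.re) * Fintype.card (Chr M) *
      if (d₁ ∈ pdiv a ∧ e₁ ∈ pdiv a) ∧ (d₂ ∈ pdiv a ∧ e₂ ∈ pdiv a) then
        ∑ ν : Chr M, YY L β₁ ν (z - 1 / 2) d₁ e₁ a +
          ∑ ν : Chr M, YY L β₂ ν (conj (z - 1 / 2)) d₂ e₂ a else 0 := by
    refine mul_nonneg (by positivity) ?_
    split_ifs
    · exact add_nonneg (Finset.sum_nonneg fun _ _ => YY_nonneg _ _ _ _ _ _ _)
        (Finset.sum_nonneg fun _ _ => YY_nonneg _ _ _ _ _ _ _)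
    · exact le_rfl
  by_cases hv : Val d₁ d₂ e₁ e₂
  swap
  · have : ∀ m₁ m₂, ¬ Cop d₁ d₂ e₁ e₂ m₁ m₂ := fun _ _ h => hv h.1
    simpa [this] using n0
  by_cases hb : bb d₁ d₂ e₁ e₂ ∣ a
  swap
  · rw [gF, if_neg hb, zero_mul, norm_zero]; exact n0
  obtain ⟨r1, r2, r3, r4, r5, r6, r7, r8⟩ := frozen hM hd₁ hd₂ he₁ he₂ hv
  have hra : rho d₁ d₂ e₁ e₂ ∣ a := r8.trans hb
  have na := one_le_nr ha
  rw [if_pos ⟨⟨(mem_pdiv ha).2 ⟨hd₁.1, r5.trans hra⟩, (mem_pdiv ha).2 ⟨he₁.1, r3.trans hra⟩⟩,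
    (mem_pdiv ha).2 ⟨hd₂.1, r6.trans hra⟩, (mem_pdiv ha).2 ⟨he₂.1, r4.trans hra⟩⟩, norm_mul]
  have a1 : (K * nr a / L ^ 2) ^ (-z.re) ≤ R ^ (2 * z.re) := by
    rw [Real.rpow_neg (by positivity), ← Real.inv_rpow (by positivity), inv_div,
      Real.rpow_mul hR0.le, Real.rpow_two]
    refine Real.rpow_le_rpow (by positivity) ?_ hz
    exact (div_le_self (by positivity) (one_le_mul_of_one_le_of_one_le hK na)).trans
      (pow_le_pow_left₀ hL.le hR 2)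
  set T := (sp M L).filter (fun t => IsCoprime t a) with hT
  have a2 : ∀ {d e : O}, d ∣ a → e ∣ a → T ⊆ sp (M * d * e) L := by
    intro d e hd he t ht
    rw [hT, Finset.mem_filter, LS2.mem_sp hL.le] at ht
    exact (LS2.mem_sp hL.le).2 ⟨⟨ht.1.1.1, ht.1.1.2.1, (ht.1.1.2.2.mul_right
      (ht.2.of_isCoprime_of_dvd_right hd)).mul_right (ht.2.of_isCoprime_of_dvd_right he)⟩, ht.1.2⟩
  have a3 : ∀ (ν ν' : Chr M), min (wt d₁ a) (wt d₂ a) *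
      (Real.sqrt (nr e₁ * nr d₁ ^ 3 * (nr e₂ * nr d₂ ^ 3)) * ∑ t ∈ T,
        ‖Bx L β₁ ν (z - 1 / 2) d₁ e₁ t a‖ * ‖Bx L β₂ ν' (conj (z - 1 / 2)) d₂ e₂ t a‖) ≤
      YY L β₁ ν (z - 1 / 2) d₁ e₁ a + YY L β₂ ν' (conj (z - 1 / 2)) d₂ e₂ a := by
    intro ν ν'
    rw [Finset.mul_sum, Finset.mul_sum]
    refine (Finset.sum_le_sum fun t _ => amgm (wt_nonneg _ _) (wt_nonneg _ _) (by positivity)
      (by positivity)).trans ?_
    rw [Finset.sum_add_distrib]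
    refine add_le_add ?_ ?_
    · exact Finset.sum_le_sum_of_subset_of_nonneg (a2 (r5.trans hra) (r3.trans hra)) fun _ _ _ =>
        mul_nonneg (mul_nonneg (wt_nonneg _ _) (by positivity)) (by positivity)
    · exact Finset.sum_le_sum_of_subset_of_nonneg (a2 (r6.trans hra) (r4.trans hra)) fun _ _ _ =>
        mul_nonneg (mul_nonneg (wt_nonneg _ _) (by positivity)) (by positivity)
  have a4 : min (wt d₁ a) (wt d₂ a) *
      (Real.sqrt (nr e₁ * nr d₁ ^ 3 * (nr e₂ * nr d₂ ^ 3)) * ∑ ν : Chr M, ∑ ν' : Chr M, ∑ t ∈ T,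
        ‖Bx L β₁ ν (z - 1 / 2) d₁ e₁ t a‖ * ‖Bx L β₂ ν' (conj (z - 1 / 2)) d₂ e₂ t a‖) ≤
      Fintype.card (Chr M) * (∑ ν : Chr M, YY L β₁ ν (z - 1 / 2) d₁ e₁ a +
        ∑ ν : Chr M, YY L β₂ ν (conj (z - 1 / 2)) d₂ e₂ a) := by
    rw [Finset.mul_sum, Finset.mul_sum]
    refine (Finset.sum_le_sum fun ν _ => ?_).trans
      (le_of_eq (a := ∑ ν : Chr M, ∑ ν' : Chr M, (YY L β₁ ν (z - 1 / 2) d₁ e₁ a +
        YY L β₂ ν' (conj (z - 1 / 2)) d₂ e₂ a)) ?_)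
    · rw [Finset.mul_sum, Finset.mul_sum]
      exact Finset.sum_le_sum fun ν' _ => a3 ν ν'
    · simp only [Finset.sum_add_distrib, Finset.sum_const, Finset.card_univ, nsmul_eq_mul,
        ← Finset.mul_sum]
      ring
  have h0 : 0 ≤ min (wt d₁ a) (wt d₂ a) := le_min (wt_nonneg _ _) (wt_nonneg _ _)
  refine (mul_le_mul (norm_gF_le hM hd₁ hd₂ he₁ he₂ hv a)
    (cell hM hd₁ hd₂ he₁ he₂ hv ha hb hK0 hL β₁ β₂ z) (norm_nonneg _) h0).trans ?_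
  rw [← hT]
  have h1 : 0 ≤ min (wt d₁ a) (wt d₂ a) *
      (Real.sqrt (nr e₁ * nr d₁ ^ 3 * (nr e₂ * nr d₂ ^ 3)) * ∑ ν : Chr M, ∑ ν' : Chr M, ∑ t ∈ T,
        ‖Bx L β₁ ν (z - 1 / 2) d₁ e₁ t a‖ * ‖Bx L β₂ ν' (conj (z - 1 / 2)) d₂ e₂ t a‖) := by
    positivity
  have a5 := mul_le_mul_of_nonneg_left (mul_le_mul a1 a4 h1 (by positivity))
    (show 0 ≤ K / L by positivity)
  refine le_trans (le_of_eq ?_) (a5.trans_eq ?_) <;> ring

theorem count4 (S : Finset O) (p : O → Prop) [DecidablePred p] {Y₁ Y₂ : O → O → ℝ} (h₁ : ∀ d e, 0 ≤ Y₁ d e)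
    (h₂ : ∀ d e, 0 ≤ Y₂ d e) {D : ℝ} (hD : ((S.filter p).card : ℝ) ≤ D) :
    ∑ d₁ ∈ S, ∑ d₂ ∈ S, ∑ e₁ ∈ S, ∑ e₂ ∈ S,
      (if (p d₁ ∧ p e₁) ∧ (p d₂ ∧ p e₂) then Y₁ d₁ e₁ + Y₂ d₂ e₂ else 0) ≤
      D ^ 2 * (∑ d ∈ S.filter p, ∑ e ∈ S.filter p, Y₁ d e +
        ∑ d ∈ S.filter p, ∑ e ∈ S.filter p, Y₂ d e) := by
  have e1 : ∑ d₁ ∈ S, ∑ d₂ ∈ S, ∑ e₁ ∈ S, ∑ e₂ ∈ S,
      (if (p d₁ ∧ p e₁) ∧ (p d₂ ∧ p e₂) then Y₁ d₁ e₁ + Y₂ d₂ e₂ else 0) =
      ∑ d₁ ∈ S.filter p, ∑ d₂ ∈ S.filter p, ∑ e₁ ∈ S.filter p, ∑ e₂ ∈ S.filter p,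
        (Y₁ d₁ e₁ + Y₂ d₂ e₂) := by
    simp only [Finset.sum_filter, ite_sum]
    refine Finset.sum_congr rfl fun d₁ _ => Finset.sum_congr rfl fun d₂ _ =>
      Finset.sum_congr rfl fun e₁ _ => Finset.sum_congr rfl fun e₂ _ => ?_
    by_cases a1 : p d₁ <;> by_cases a2 : p d₂ <;> by_cases a3 : p e₁ <;> by_cases a4 : p e₂ <;>
      simp [a1, a2, a3, a4]
  rw [e1]
  simp only [Finset.sum_add_distrib, Finset.sum_const, nsmul_eq_mul, ← Finset.mul_sum]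
  have n1 : 0 ≤ ∑ d ∈ S.filter p, ∑ e ∈ S.filter p, Y₁ d e :=
    Finset.sum_nonneg fun _ _ => Finset.sum_nonneg fun _ _ => h₁ _ _
  have n2 : 0 ≤ ∑ d ∈ S.filter p, ∑ e ∈ S.filter p, Y₂ d e :=
    Finset.sum_nonneg fun _ _ => Finset.sum_nonneg fun _ _ => h₂ _ _
  have := mul_le_mul_of_nonneg_right (pow_le_pow_left₀ (Nat.cast_nonneg _) hD 2) (add_nonneg n1 n2)
  linarith

theorem Lam_le {M : O} (hM : Adm M) [Fintype (Chr M)] {K L R Z D : ℝ} (hK : 1 ≤ K) (hL : 0 < L)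
    (hR : L ≤ R) (hD : ∀ a ∈ rows Z, ((pdiv a).card : ℝ) ≤ D) (β : O → O → ℂ) {z : ℂ}
    (hz : 0 ≤ z.re) :
    ‖Lam M K L Z β (fun y => (y : ℂ) ^ (-z))‖ ≤
      R ^ (2 * z.re) * Fintype.card (Chr M) * D ^ 2 * (∑ ν : Chr M, K / L * HH L Z β ν (z - 1 / 2) +
        ∑ ν : Chr M, K / L * HH L Z β ν (conj (z - 1 / 2))) := by
  have hK0 : 0 < K := lt_of_lt_of_le one_pos hK
  have hR0 : 0 < R := lt_of_lt_of_le hL hR
  set c : ℝ := K / L * R ^ (2 * z.re) * Fintype.card (Chr M) with hc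
  have hc0 : 0 ≤ c := by positivity
  set Y₁ : O → O → O → ℝ := fun a d e => ∑ ν : Chr M, YY L (β d) ν (z - 1 / 2) d e a with hY₁
  set Y₂ : O → O → O → ℝ := fun a d e => ∑ ν : Chr M, YY L (β d) ν (conj (z - 1 / 2)) d e a
    with hY₂
  have e1 : ‖Lam M K L Z β (fun y => (y : ℂ) ^ (-z))‖ ≤
      ∑ d₁ ∈ sp M L, ∑ d₂ ∈ sp M L, ∑ e₁ ∈ sp M L, ∑ e₂ ∈ sp M L, ∑ a ∈ rows Z, c *
        if (d₁ ∈ pdiv a ∧ e₁ ∈ pdiv a) ∧ (d₂ ∈ pdiv a ∧ e₂ ∈ pdiv a) then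
          Y₁ a d₁ e₁ + Y₂ a d₂ e₂ else 0 := by
    refine (norm_sum_le _ _).trans (Finset.sum_le_sum fun d₁ hd₁ => ?_)
    refine (norm_sum_le _ _).trans (Finset.sum_le_sum fun d₂ hd₂ => ?_)
    refine (norm_sum_le _ _).trans (Finset.sum_le_sum fun e₁ he₁ => ?_)
    refine (norm_sum_le _ _).trans (Finset.sum_le_sum fun e₂ he₂ => ?_)
    refine le_trans (le_of_eq ?_) ((norm_sum_le _ _).trans (Finset.sum_le_sum fun a ha =>
      cell_le hM (Dual_SP_of_mem hd₁) (Dual_SP_of_mem hd₂) (Dual_SP_of_mem he₁)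
        (Dual_SP_of_mem he₂) (Finset.ne_of_mem_erase ha) hK hL hR (β d₁) (β d₂) hz))
    congr 1
    simp only [Finset.mul_sum, ite_sum]
    rw [Finset.sum_congr rfl fun m₁ _ => Finset.sum_comm, Finset.sum_comm]
    refine Finset.sum_congr rfl fun a _ => Finset.sum_congr rfl fun m₁ _ =>
      Finset.sum_congr rfl fun m₂ _ => ?_
    split_ifs
    · ring
    · simp
  refine e1.trans ?_
  rw [Finset.sum_congr rfl fun d₁ _ => Finset.sum_congr rfl fun d₂ _ =>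
      Finset.sum_congr rfl fun e₁ _ => Finset.sum_comm,
    Finset.sum_congr rfl fun d₁ _ => Finset.sum_congr rfl fun d₂ _ => Finset.sum_comm,
    Finset.sum_congr rfl fun d₁ _ => Finset.sum_comm, Finset.sum_comm]
  simp only [← Finset.mul_sum]
  have e2 : ∀ a ∈ rows Z, ∑ d₁ ∈ sp M L, ∑ d₂ ∈ sp M L, ∑ e₁ ∈ sp M L, ∑ e₂ ∈ sp M L,
      (if (d₁ ∈ pdiv a ∧ e₁ ∈ pdiv a) ∧ (d₂ ∈ pdiv a ∧ e₂ ∈ pdiv a) then
        Y₁ a d₁ e₁ + Y₂ a d₂ e₂ else 0) ≤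
      D ^ 2 * (∑ d ∈ (sp M L).filter (· ∈ pdiv a), ∑ e ∈ (sp M L).filter (· ∈ pdiv a), Y₁ a d e +
        ∑ d ∈ (sp M L).filter (· ∈ pdiv a), ∑ e ∈ (sp M L).filter (· ∈ pdiv a), Y₂ a d e) := by
    intro a ha
    have := count4 (sp M L) (· ∈ pdiv a) (Y₁ := Y₁ a) (Y₂ := Y₂ a)
      (fun _ _ => Finset.sum_nonneg fun _ _ => YY_nonneg _ _ _ _ _ _ _)
      (fun _ _ => Finset.sum_nonneg fun _ _ => YY_nonneg _ _ _ _ _ _ _) (D := D)
      (le_trans (by exact_mod_cast Finset.card_le_card fun x hx => (Finset.mem_filter.1 hx).2)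
        (hD a ha))
    convert this
  have e3 : ∀ s : ℂ, ∑ a ∈ rows Z, ∑ d ∈ (sp M L).filter (· ∈ pdiv a),
      ∑ e ∈ (sp M L).filter (· ∈ pdiv a), ∑ ν : Chr M, YY L (β d) ν s d e a =
      ∑ ν : Chr M, HH L Z β ν s := by
    intro s
    rw [Finset.sum_congr rfl fun a _ => Finset.sum_congr rfl fun d _ => Finset.sum_comm,
      Finset.sum_congr rfl fun a _ => Finset.sum_comm, Finset.sum_comm]
    rfl
  refine (mul_le_mul_of_nonneg_left (Finset.sum_le_sum e2) hc0).trans_eq ?_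
  rw [← Finset.mul_sum, Finset.sum_add_distrib, e3, e3, hc]
  ring

theorem card_sp_le {M : O} {X R : ℝ} (hR : 1 ≤ R) (hX : 0 ≤ X) (h : X ≤ R) :
    ((sp M X).card : ℝ) ≤ 8 * R := by
  have h1 : (sp M X).card ≤ 7 * ⌊X⌋₊ + 1 :=
    (Finset.card_le_card (Finset.filter_subset _ _)).trans (card_ball_le _)
  have h2 : ((sp M X).card : ℝ) ≤ 7 * (⌊X⌋₊ : ℝ) + 1 := by exact_mod_cast h1
  linarith [Nat.floor_le hX]

theorem diag (S : Finset O) (T : O → Finset O) (c : O → O → ℝ) {τ B : ℝ} (hτ : 0 ≤ τ)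
    (hS : (S.card : ℝ) ≤ B) (hT : ∀ d ∈ S, ((T d).card : ℝ) ≤ B) :
    ∑ d₁ ∈ S, ∑ d₂ ∈ S, ∑ n₁ ∈ T d₁, ∑ n₂ ∈ T d₂,
      c d₁ n₁ * c d₂ n₂ * ((if d₁ = d₂ ∧ n₁ = n₂ then 1 else 0) + τ) ≤
      (1 + B ^ 2 * τ) * ∑ d ∈ S, ∑ n ∈ T d, c d n ^ 2 := by
  have hB : 0 ≤ B := le_trans (Nat.cast_nonneg _) hS
  have e1 : ∑ d₁ ∈ S, ∑ d₂ ∈ S, ∑ n₁ ∈ T d₁, ∑ n₂ ∈ T d₂,
      c d₁ n₁ * c d₂ n₂ * (if d₁ = d₂ ∧ n₁ = n₂ then 1 else 0) =
      ∑ d ∈ S, ∑ n ∈ T d, c d n ^ 2 := by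
    refine Finset.sum_congr rfl fun d hd => ?_
    rw [Finset.sum_eq_single_of_mem d hd fun d' _ h => by simp [h.symm]]
    refine Finset.sum_congr rfl fun n hn => ?_
    rw [Finset.sum_eq_single_of_mem n hn fun n' _ h => by simp [h.symm]]
    simp [sq]
  have e2 : ∑ d₁ ∈ S, ∑ d₂ ∈ S, ∑ n₁ ∈ T d₁, ∑ n₂ ∈ T d₂, c d₁ n₁ * c d₂ n₂ * τ =
      (∑ d ∈ S, ∑ n ∈ T d, c d n) ^ 2 * τ := by
    rw [sq, Finset.sum_mul_sum, Finset.sum_mul]
    refine Finset.sum_congr rfl fun d₁ _ => ?_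
    rw [Finset.sum_mul]
    refine Finset.sum_congr rfl fun d₂ _ => ?_
    rw [Finset.sum_mul_sum, Finset.sum_mul]
    exact Finset.sum_congr rfl fun n₁ _ => by rw [Finset.sum_mul]
  have e3 : (∑ d ∈ S, ∑ n ∈ T d, c d n) ^ 2 ≤ B ^ 2 * ∑ d ∈ S, ∑ n ∈ T d, c d n ^ 2 := by
    refine sq_sum_le_card_mul_sum_sq.trans ?_
    rw [sq B, mul_assoc, Finset.mul_sum S _ B]
    refine mul_le_mul hS (Finset.sum_le_sum fun d hd => sq_sum_le_card_mul_sum_sq.trans ?_)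
      (Finset.sum_nonneg fun _ _ => sq_nonneg _) hB
    exact mul_le_mul_of_nonneg_right (hT d hd) (Finset.sum_nonneg fun _ _ => sq_nonneg _)
  simp only [mul_add, Finset.sum_add_distrib]
  rw [e1, e2]
  have := mul_le_mul_of_nonneg_right e3 hτ
  linarith

theorem one_idx {M : O} (hM : Adm M) {K L R Λ τ : ℝ} (hK : 0 < K) (hL : 0 < L) (hR : L ≤ R)
    (hR1 : 1 ≤ R) (hΛ : 0 ≤ Λ) (hτ0 : 0 ≤ τ)
    (hτ : ∀ X : ℝ, 0 < X → X ≤ L ^ 2 / K → ∑' k : O,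
      (if X * Λ ≤ nr k then gw (nr k / X) * (1 + nr k) ^ (0 : ℝ) else 0) ≤ τ) (β : O → O → ℂ) :
    ∑ k ∈ rows K, ‖∑ d ∈ sp M L, ∑ m ∈ sp M (L / nr d ^ 3),
      β d m * (Real.sqrt (nr d) : ℂ) * gam 5 m * sym (m * d ^ 3) k‖ ^ 2 ≤
      (gw 1)⁻¹ * ((1 + (8 * R) ^ 2 * τ) * (K * ∑ d ∈ sp M L, nr d *
        ∑ n ∈ sp M (L / nr d ^ 3), ‖β d n‖ ^ 2) +
        ‖Lam M K L (L ^ 2 * Λ / K) β (fun y => (gw y : ℂ))‖) := by
  have h0 := open_sq ((sp M L).sigma fun d => sp M (L / nr d ^ 3))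
    (fun p => β p.1 p.2 * (Real.sqrt (nr p.1) : ℂ) * gam 5 p.2) (fun p k => sym (p.2 * p.1 ^ 3) k)
    (fun _ _ => norm_sym_le _ _) hK (rows K) fun k hk => ((mem_rows hK.le).1 hk).2
  simp only [Finset.sum_sigma] at h0
  refine h0.trans (mul_le_mul_of_nonneg_left ?_ (inv_nonneg.2 (gw_pos 1).le))
  have hX : ∀ d ∈ sp M L, 0 ≤ L / nr d ^ 3 ∧ L / nr d ^ 3 ≤ L := fun d hd =>
    ⟨by positivity, div_le_self hL.le (one_le_pow₀ (one_le_nr (ne_zero_of_mem_sp hd)))⟩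
  have e1 : ∑ d₁ ∈ sp M L, ∑ n₁ ∈ sp M (L / nr d₁ ^ 3), ∑ d₂ ∈ sp M L, ∑ n₂ ∈ sp M (L / nr d₂ ^ 3),
      β d₁ n₁ * (Real.sqrt (nr d₁) : ℂ) * gam 5 n₁ *
        conj (β d₂ n₂ * (Real.sqrt (nr d₂) : ℂ) * gam 5 n₂) *
        ∑' k : O, sym (n₁ * d₁ ^ 3) k * conj (sym (n₂ * d₂ ^ 3) k) * (gw (nr k / K) : ℂ) =
      ∑ d₁ ∈ sp M L, ∑ d₂ ∈ sp M L, ∑ e₁ ∈ sp M L, ∑ e₂ ∈ sp M L,
        ∑ m₁ ∈ sp M (L / nr d₁ ^ 3 / nr e₁), ∑ m₂ ∈ sp M (L / nr d₂ ^ 3 / nr e₂),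
          if Cop d₁ d₂ e₁ e₂ m₁ m₂ then β d₁ (e₁ * m₁) * conj (β d₂ (e₂ * m₂)) *
            Tp K d₁ d₂ (e₁ * m₁) (e₂ * m₂) else 0 := by
    refine Finset.sum_congr rfl fun d₁ hd₁ => ?_
    rw [Finset.sum_comm]
    refine Finset.sum_congr rfl fun d₂ hd₂ => ?_
    rw [← split (ne_zero_of_mem_sp hd₁) (ne_zero_of_mem_sp hd₂) (hX d₁ hd₁).1 (hX d₂ hd₂).1
      (hX d₁ hd₁).2 (hX d₂ hd₂).2 (fun n₁ n₂ => β d₁ n₁ * conj (β d₂ n₂) * Tp K d₁ d₂ n₁ n₂)]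
    refine Finset.sum_congr rfl fun n₁ _ => Finset.sum_congr rfl fun n₂ _ => ?_
    rw [Tp, Real.sqrt_mul (Nat.cast_nonneg _), map_mul, map_mul, Complex.conj_ofReal]
    push_cast
    ring
  rw [e1]
  refine (norm_le_norm_sub_add _ (Lam M K L (L ^ 2 * Λ / K) β (fun y => (gw y : ℂ)))).trans
    (add_le_add ?_ le_rfl)
  have e2 := diag (sp M L) (fun d => sp M (L / nr d ^ 3)) (fun d n => Real.sqrt (nr d) * ‖β d n‖)
    hτ0 (card_sp_le hR1 hL.le hR) fun d hd => card_sp_le hR1 (hX d hd).1 ((hX d hd).2.trans hR)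
  have e3 : ∑ d ∈ sp M L, ∑ n ∈ sp M (L / nr d ^ 3), (Real.sqrt (nr d) * ‖β d n‖) ^ 2 =
      ∑ d ∈ sp M L, nr d * ∑ n ∈ sp M (L / nr d ^ 3), ‖β d n‖ ^ 2 := by
    refine Finset.sum_congr rfl fun d _ => ?_
    rw [Finset.mul_sum]
    exact Finset.sum_congr rfl fun n _ => by rw [mul_pow, Real.sq_sqrt (Nat.cast_nonneg _)]
  rw [e3] at e2
  refine le_trans ?_ ((mul_le_mul_of_nonneg_left e2 hK.le).trans_eq (by ring))
  rw [Lam, ← Finset.sum_sub_distrib, Finset.mul_sum]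
  refine (norm_sum_le _ _).trans (Finset.sum_le_sum fun d₁ hd₁ => ?_)
  rw [← Finset.sum_sub_distrib, Finset.mul_sum]
  refine (norm_sum_le _ _).trans (Finset.sum_le_sum fun d₂ hd₂ => ?_)
  rw [split (ne_zero_of_mem_sp hd₁) (ne_zero_of_mem_sp hd₂) (hX d₁ hd₁).1 (hX d₂ hd₂).1
    (hX d₁ hd₁).2 (hX d₂ hd₂).2 (fun n₁ n₂ => Real.sqrt (nr d₁) * ‖β d₁ n₁‖ *
      (Real.sqrt (nr d₂) * ‖β d₂ n₂‖) * ((if d₁ = d₂ ∧ n₁ = n₂ then 1 else 0) + τ)),
    ← Finset.sum_sub_distrib, Finset.mul_sum]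
  refine (norm_sum_le _ _).trans (Finset.sum_le_sum fun e₁ he₁ => ?_)
  rw [← Finset.sum_sub_distrib, Finset.mul_sum]
  refine (norm_sum_le _ _).trans (Finset.sum_le_sum fun e₂ he₂ => ?_)
  rw [← Finset.sum_sub_distrib, Finset.mul_sum]
  refine (norm_sum_le _ _).trans (Finset.sum_le_sum fun m₁ hm₁ => ?_)
  rw [← Finset.sum_sub_distrib, Finset.mul_sum]
  refine (norm_sum_le _ _).trans (Finset.sum_le_sum fun m₂ hm₂ => ?_)
  have hn : ∀ {d e m : O}, d ∈ sp M L → e ∈ sp M L → m ∈ sp M (L / nr d ^ 3 / nr e) →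
      nr e * nr d ^ 3 * nr m ≤ L := by
    intro d e m hd he hm
    have a1 := nr_pos (ne_zero_of_mem_sp hd)
    have a2 := nr_pos (ne_zero_of_mem_sp he)
    have a3 := ((LS2.mem_sp (by positivity)).1 hm).2
    rw [div_div, le_div_iff₀ (by positivity)] at a3
    linarith
  by_cases hc : Cop d₁ d₂ e₁ e₂ m₁ m₂
  · rw [if_pos hc, if_pos hc, if_pos hc, ← mul_sub, norm_mul, norm_mul, Complex.norm_conj]
    refine (mul_le_mul_of_nonneg_left (pair_est hM (Dual_SP_of_mem hd₁) (Dual_SP_of_mem hd₂)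
      (Dual_SP_of_mem he₁) (Dual_SP_of_mem he₂) (Dual_SP_of_mem hm₁) (Dual_SP_of_mem hm₂) hc hK hΛ
      (hn hd₁ he₁ hm₁) (hn hd₂ he₂ hm₂) hτ) (by positivity)).trans_eq ?_
    rw [Real.sqrt_mul (Nat.cast_nonneg _)]
    ring
  · simp [hc]

theorem gp_main {M : O} (hM : Adm M) {ε : ℝ} (hε : 0 < ε) (J : ℕ) : ∃ C : ℝ, 0 < C ∧
    ∀ {I : Type} (S : Finset I) (w K L : I → ℝ) (β : I → O → O → ℂ) (R E : ℝ), 1 ≤ R →
      (∀ i ∈ S, 0 ≤ w i ∧ 1 ≤ K i ∧ 0 < L i ∧ L i ≤ R) →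
      (∀ (ν : Chr M) (s : ℂ), -(1 / 2) ≤ s.re → s.re ≤ 0 →
        ∑ i ∈ S, w i * (K i / L i) * HH (L i) (L i ^ 2 * R ^ ε / K i) (β i) ν s ≤
          E * (1 + |s.im|) ^ J) →
      ∑ i ∈ S, w i * ∑ k ∈ rows (K i), ‖∑ d ∈ sp M (L i), ∑ m ∈ sp M (L i / nr d ^ 3),
          β i d m * (Real.sqrt (nr d) : ℂ) * gam 5 m * sym (m * d ^ 3) k‖ ^ 2 ≤
        C * (∑ i ∈ S, w i * K i *
          ∑ d ∈ sp M (L i), nr d * ∑ n ∈ sp M (L i / nr d ^ 3), ‖β i d n‖ ^ 2 + R ^ ε * E) := by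
  have := finite_chr hM.1
  have : Fintype (Chr M) := Fintype.ofFinite _
  set σ : ℝ := min (ε / 4) (1 / 2) with hσ
  have hσ0 : 0 < σ := lt_min (by positivity) (by norm_num)
  have hσ1 : σ ≤ ε / 4 := min_le_left _ _
  have hσ2 : σ ≤ 1 / 2 := min_le_right _ _
  obtain ⟨C₁, hC₁, h₁⟩ := tsum_gw_tail_le (4 / ε) 0
  obtain ⟨C₂, hC₂, h₂⟩ := card_pdiv_le (ε := ε / (4 * (2 + ε))) (by positivity)
  obtain ⟨C₃, hC₃, h₃⟩ := sep hσ0 J
  set N : ℝ := (Fintype.card (Chr M) : ℝ) with hN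
  have hN0 : 0 ≤ N := Nat.cast_nonneg _
  have hg := inv_pos.2 (gw_pos 1)
  refine ⟨(gw 1)⁻¹ * (1 + 128 * C₁ + C₃ * (2 * N ^ 2 * C₂ ^ 2)), by positivity,
    fun {I} S w K L β R E hR hS hE => ?_⟩
  have hR0 : 0 < R := lt_of_lt_of_le one_pos hR
  have hΛ : 1 ≤ R ^ ε := Real.one_le_rpow hR hε.le
  have hE0 : 0 ≤ E := by
    have h1 := hE 1 0 (by norm_num) (by simp)
    rw [Complex.zero_im, abs_zero, add_zero, one_pow, mul_one] at h1
    refine le_trans (Finset.sum_nonneg fun i hi => ?_) h1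
    obtain ⟨a1, a2, a3, a4⟩ := hS i hi
    exact mul_nonneg (by positivity) (HH_nonneg _ _ _ _ _)
  have hZ : ∀ i ∈ S, L i ^ 2 / K i ≤ R ^ 2 := fun i hi => by
    obtain ⟨a1, a2, a3, a4⟩ := hS i hi
    exact (div_le_self (by positivity) a2).trans (pow_le_pow_left₀ a3.le a4 2)
  -- the main part
  have key := h₃ S w (fun i => Lam M (K i) (L i) (L i ^ 2 * R ^ ε / K i) (β i))
    (2 * N ^ 2 * C₂ ^ 2 * (R ^ ε * E)) (fun i hi => (hS i hi).1)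
    (fun i hi => fc_Lam M (lt_of_lt_of_le one_pos (hS i hi).2.1) _ _ _) fun z hz => by
      have b1 := fun ν => hE ν (z - 1 / 2) (by simp [hz]; linarith) (by simp [hz]; linarith)
      have b2 := fun ν => hE ν (conj (z - 1 / 2)) (by simp [hz]; linarith) (by simp [hz]; linarith)
      have c1 : (z - 1 / 2).im = z.im := by simp
      have c2 : |(conj (z - 1 / 2)).im| = |z.im| := by simp
      simp only [c1] at b1
      simp only [c2] at b2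
      have b3 : ∀ s : ℂ, (∀ ν : Chr M, ∑ i ∈ S, w i * (K i / L i) *
          HH (L i) (L i ^ 2 * R ^ ε / K i) (β i) ν s ≤ E * (1 + |z.im|) ^ J) →
          ∑ i ∈ S, w i * ∑ ν : Chr M, K i / L i * HH (L i) (L i ^ 2 * R ^ ε / K i) (β i) ν s ≤
            N * (E * (1 + |z.im|) ^ J) := by
        intro s hs
        simp only [Finset.mul_sum]
        rw [Finset.sum_comm]
        refine (Finset.sum_le_sum fun ν _ => ?_).trans
          (le_of_eq (a := ∑ _ν : Chr M, E * (1 + |z.im|) ^ J) ?_)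
        · simp only [← mul_assoc]; exact hs ν
        · rw [Finset.sum_const, Finset.card_univ, nsmul_eq_mul]
      have b4 : R ^ (2 * z.re) * (C₂ * R ^ (ε / 4)) ^ 2 ≤ C₂ ^ 2 * R ^ ε := by
        rw [mul_pow, ← Real.rpow_natCast (R ^ (ε / 4)), ← Real.rpow_mul hR0.le, mul_left_comm,
          ← Real.rpow_add hR0]
        refine mul_le_mul_of_nonneg_left (Real.rpow_le_rpow_of_exponent_le hR ?_) (by positivity)
        rw [hz]; push_cast; linarith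
      calc _ ≤ ∑ i ∈ S, w i * (R ^ (2 * z.re) * N * (C₂ * R ^ (ε / 4)) ^ 2 *
            (∑ ν : Chr M, K i / L i * HH (L i) (L i ^ 2 * R ^ ε / K i) (β i) ν (z - 1 / 2) +
            ∑ ν : Chr M, K i / L i *
              HH (L i) (L i ^ 2 * R ^ ε / K i) (β i) ν (conj (z - 1 / 2)))) := by
            refine Finset.sum_le_sum fun i hi => ?_
            obtain ⟨a1, a2, a3, a4⟩ := hS i hi
            refine mul_le_mul_of_nonneg_left (Lam_le hM a2 a3 a4 (fun a ha => ?_) (β i)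
              (by rw [hz]; exact hσ0.le)) a1
            rw [mem_rows (by positivity)] at ha
            refine (h₂ a ha.1).trans (mul_le_mul_of_nonneg_left ?_ hC₂.le)
            have d1 : nr a ≤ R ^ (2 + ε) := by
              rw [Real.rpow_add hR0, Real.rpow_two]
              refine ha.2.trans ?_
              rw [mul_div_right_comm]
              exact mul_le_mul_of_nonneg_right (hZ i hi) (by positivity)
            refine (Real.rpow_le_rpow (Nat.cast_nonneg _) d1 (by positivity)).trans_eq ?_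
            rw [← Real.rpow_mul hR0.le]
            congr 1
            field_simp
        _ = R ^ (2 * z.re) * (C₂ * R ^ (ε / 4)) ^ 2 * N * (∑ i ∈ S, w i *
            ∑ ν : Chr M, K i / L i * HH (L i) (L i ^ 2 * R ^ ε / K i) (β i) ν (z - 1 / 2) +
            ∑ i ∈ S, w i * ∑ ν : Chr M, K i / L i *
              HH (L i) (L i ^ 2 * R ^ ε / K i) (β i) ν (conj (z - 1 / 2))) := by
            rw [← Finset.sum_add_distrib, Finset.mul_sum]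
            exact Finset.sum_congr rfl fun i _ => by ring
        _ ≤ R ^ (2 * z.re) * (C₂ * R ^ (ε / 4)) ^ 2 * N *
            (N * (E * (1 + |z.im|) ^ J) + N * (E * (1 + |z.im|) ^ J)) :=
            mul_le_mul_of_nonneg_left (add_le_add (b3 _ b1) (b3 _ b2)) (by positivity)
        _ ≤ C₂ ^ 2 * R ^ ε * N * (N * (E * (1 + |z.im|) ^ J) + N * (E * (1 + |z.im|) ^ J)) :=
            mul_le_mul_of_nonneg_right (mul_le_mul_of_nonneg_right b4 hN0) (by positivity)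
        _ = _ := by ring
  -- the diagonal and the tail
  set τ : ℝ := 2 * C₁ / R ^ 2 with hτ
  have e1 : ∀ i ∈ S, w i * ∑ k ∈ rows (K i), ‖∑ d ∈ sp M (L i), ∑ m ∈ sp M (L i / nr d ^ 3),
      β i d m * (Real.sqrt (nr d) : ℂ) * gam 5 m * sym (m * d ^ 3) k‖ ^ 2 ≤
      (gw 1)⁻¹ * ((1 + 128 * C₁) * (w i * K i *
        ∑ d ∈ sp M (L i), nr d * ∑ n ∈ sp M (L i / nr d ^ 3), ‖β i d n‖ ^ 2) +
        w i * ‖Lam M (K i) (L i) (L i ^ 2 * R ^ ε / K i) (β i) (fun y => (gw y : ℂ))‖) := by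
    intro i hi
    obtain ⟨a1, a2, a3, a4⟩ := hS i hi
    have := one_idx hM (lt_of_lt_of_le one_pos a2) a3 a4 hR (Λ := R ^ ε) (τ := τ) (by positivity)
      (by positivity) (fun X hX hX' => by
        refine (h₁ X _ hX hΛ).trans ?_
        rw [abs_zero, zero_add, Real.rpow_one, ← Real.rpow_mul hR0.le,
          show ε * -(4 / ε) = -((4 : ℕ) : ℝ) by push_cast; field_simp, Real.rpow_neg hR0.le,
          Real.rpow_natCast, hτ, ← div_eq_mul_inv, div_le_div_iff₀ (by positivity) (by positivity)]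
        have d1 : 1 + X ≤ 2 * R ^ 2 := by linarith [hX'.trans (hZ i hi), one_le_pow₀ (n := 2) hR]
        have := mul_le_mul_of_nonneg_left d1 (show 0 ≤ C₁ * R ^ 2 by positivity)
        linarith) (β i)
    rw [show (8 * R) ^ 2 * τ = 128 * C₁ by rw [hτ]; field_simp; norm_num] at this
    exact (mul_le_mul_of_nonneg_left this a1).trans_eq (by ring)
  refine (Finset.sum_le_sum e1).trans ?_
  rw [← Finset.mul_sum, Finset.sum_add_distrib, ← Finset.mul_sum, mul_assoc]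
  refine mul_le_mul_of_nonneg_left ?_ hg.le
  have n1 : 0 ≤ ∑ i ∈ S, w i * K i *
      ∑ d ∈ sp M (L i), nr d * ∑ n ∈ sp M (L i / nr d ^ 3), ‖β i d n‖ ^ 2 :=
    Finset.sum_nonneg fun i hi => by
      obtain ⟨a1, a2, a3, a4⟩ := hS i hi
      positivity
  have n2 : 0 ≤ R ^ ε * E := by positivity
  have n3 := mul_nonneg (show 0 ≤ C₃ * (2 * N ^ 2 * C₂ ^ 2) by positivity) n1
  have n4 := mul_nonneg (show 0 ≤ 1 + 128 * C₁ by positivity) n2
  linarith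

end Crest.Agent.R17.GP
end
end

-- ▼ part PVc/R17/DP

/-!
# Row 17, module M11: Poisson summation in the rows, forwards (`fwd`) and backwards (`back`, `gp`)

`Sr` is a row sum (coefficients against `conj χ_n(a)`), `Sd` a dual sum (coefficients against
`γ₅(n) χ_n(k)`).  All sums over rows are sharp and exclude `0`; inside the proofs use
`1_{N a ≤ A} ≤ e^{2π/√3} gw(N a / A)`.
-/

set_option autoImplicit false

noncomputable section

namespace Crest.Agent.R17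

open scoped ComplexConjugate

/-- Row sum. -/
def Sr (M : O) (L : ℝ) (α : O → ℂ) (a : O) : ℂ := ∑ n ∈ sp M L, α n * conj (sym n a)

/-- Dual sum. -/
def Sd (M : O) (L : ℝ) (β : O → ℂ) (k : O) : ℂ := ∑ n ∈ sp M L, β n * gam 5 n * sym n k

/-- Dual sum over the indices `n = m d³` (`m`, `d` squarefree, not necessarily coprime). -/
def Sg (M : O) (L : ℝ) (β : O → O → ℂ) (k : O) : ℂ :=
  ∑ d ∈ sp M L, ∑ m ∈ sp M (L / nr d ^ 3),
    β d m * (Real.sqrt (nr d) : ℂ) * gam 5 m * sym (m * d ^ 3) k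

open Classical in
/-- The coefficients `m ↦ α(h m)` on the `m` coprime to `h`, with a character of `m` and the
normalised twist `(N(f m)/L)^s`. -/
def ext {M : O} (α : O → ℂ) (h : O) (ν : Chr M) (f L : ℝ) (s : ℂ) (m : O) : ℂ :=
  if IsCoprime m h then α (h * m) * ev ν m * ((nr m * f / L : ℝ) : ℂ) ^ s else 0

/-- `∑ |α|²`. -/
def nsq (M : O) (L : ℝ) (α : O → ℂ) : ℝ := ∑ n ∈ sp M L, ‖α n‖ ^ 2

/-- `∑ |α(n)|² L / N n`. -/
def nsq1 (M : O) (L : ℝ) (α : O → ℂ) : ℝ := ∑ n ∈ sp M L, ‖α n‖ ^ 2 * (L / nr n)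

open Classical in
/-- The weight `∏_{p ∣ d, p⁶ ∣ a} N p`. -/
def w6 (d a : O) : ℝ := ∏ p ∈ (pf d).filter (fun p => p ^ 6 ∣ a), nr p

theorem rows_mono {A A' : ℝ} (h : A ≤ A') : rows A ⊆ rows A' :=
  Finset.erase_subset_erase _ fun _ ha => mem_ball.2 ((mem_ball.1 ha).trans (Nat.floor_mono h))
theorem rows_eq_empty {A : ℝ} (h : A < 1) : rows A = ∅ := by
  refine Finset.eq_empty_of_forall_notMem fun a ha => ?_
  rw [rows, Finset.mem_erase, mem_ball, Nat.floor_eq_zero.2 h] at ha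
  exact ha.1 (nm_eq_zero.1 (Nat.le_zero.1 ha.2))
theorem card_rows_le {A : ℝ} (hA : 0 ≤ A) : ((rows A).card : ℝ) ≤ 7 * A := by
  have h1 := card_ball_le ⌊A⌋₊
  have h2 : (rows A).card ≤ 7 * ⌊A⌋₊ := by
    rw [rows, Finset.card_erase_of_mem (mem_ball.2 (by simp [nm]))]
    omega
  have h3 : ((rows A).card : ℝ) ≤ 7 * (⌊A⌋₊ : ℝ) := by exact_mod_cast h2
  linarith [Nat.floor_le hA]
theorem mem_sp {M : O} {X : ℝ} (hX : 0 ≤ X) {n : O} : n ∈ sp M X ↔ SP M n ∧ nr n ≤ X :=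
  LS2.mem_sp hX
theorem sp_eq_empty (M : O) {X : ℝ} (h : X < 1) : sp M X = ∅ := by
  classical
  refine Finset.eq_empty_of_forall_notMem fun a ha => ?_
  rw [sp, Finset.mem_filter, mem_ball, Nat.floor_eq_zero.2 h] at ha
  exact ha.2.1.ne_zero (nm_eq_zero.1 (Nat.le_zero.1 ha.1))

/-! ## A. pair lemmas -/




/-- Functions of two classes modulo `4` are combinations of products of characters modulo `M`. -/
theorem Rs_expand {M : O} (hM : Adm M) [Fintype (Chr M)] : ∃ b : Chr M → Chr M → ℂ,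
    (∀ ν ν', ‖b ν ν'‖ ≤ 1) ∧ ∀ m n, IsCoprime m M → IsCoprime n M →
      Rs m n = ∑ ν, ∑ ν', b ν ν' * ev ν m * conj (ev ν' n) :=
  DPA1.Rs_expand hM

/-- `m ↦ Rs c m` is a character modulo `M`. -/
theorem exists_chr_Rs {M : O} (hM : Adm M) {c : O} (hc : IsCoprime c 2) :
    ∃ ν : Chr M, ∀ m, IsCoprime m M → ev ν m = Rs c m :=
  DPA1.exists_chr_Rs hM hc

/-! ## B. the three inequalities

Common scheme: open the square, freeze the common part of the pair, apply the pair lemma, remove the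
condition `(m₁, m₂) = 1` by `sum_mu_coprime` (variable `t`), discard the tail of the dual variable
(`tsum_gw_tail_le`), separate `m₁, m₂` in the Gaussian by `gw_eq_integral` on the line
`σ = min(ε/10, 1/2)` (twists `s = σ - 1/2 ± iu`), expand `Rs` (`Rs_expand`, `exists_chr_Rs`,
`exists_chr_sym`), use `|x y| ≤ (|x|² + |y|²)/2`, integrate the hypothesis against `|Γ(σ+iu)|`
(`integrable_Gamma_mul_pow`). -/

namespace B1

open Classical in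
/-- The coefficients cut to `sp M L`. -/
def cut (M : O) (L : ℝ) (α : O → ℂ) (n : O) : ℂ := if n ∈ sp M L then α n else 0

theorem cut_mem {M : O} {L : ℝ} {α : O → ℂ} {n : O} (h : cut M L α n ≠ 0) : n ∈ sp M L := by
  by_contra h'
  exact h (if_neg h')

theorem cut_of_mem {M : O} {L : ℝ} (α : O → ℂ) {n : O} (h : n ∈ sp M L) : cut M L α n = α n :=
  if_pos h

theorem supp_cut (M : O) {L : ℝ} (hL : 0 ≤ L) (α : O → ℂ) : Supp M L (cut M L α) :=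
  fun _ h => (mem_sp hL).1 (cut_mem h)

theorem sp_mono (M : O) {L R : ℝ} (hL : 0 ≤ L) (h : L ≤ R) : sp M L ⊆ sp M R := fun _ hn =>
  (mem_sp (hL.trans h)).2 ⟨((mem_sp hL).1 hn).1, ((mem_sp hL).1 hn).2.trans h⟩

theorem sum_cut {A : Type*} [AddCommMonoid A] (M : O) {L R : ℝ} (hL : 0 ≤ L) (h : L ≤ R)
    (α : O → ℂ) (F : O → ℂ → A) (hF : ∀ n, F n 0 = 0) :
    ∑ n ∈ sp M R, F n (cut M L α n) = ∑ n ∈ sp M L, F n (α n) := by
  rw [← Finset.sum_subset (sp_mono M hL h) fun n _ hn => by rw [cut, if_neg hn, hF]]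
  exact Finset.sum_congr rfl fun n hn => by rw [cut_of_mem α hn]

theorem rowS_cut (M : O) {L R : ℝ} (hL : 0 ≤ L) (h : L ≤ R) (α : O → ℂ) (a : O) :
    rowS M R 5 (cut M L α) a = Sr M L α a := by
  rw [rowS, sum_cut M hL h α (fun n z => z * sym n a ^ 5) fun _ => zero_mul _, Sr]
  exact Finset.sum_congr rfl fun n hn => by rw [conj_sym ((mem_sp hL).1 hn).1.1]

theorem cop_of_sqfree {x y : O} (h : Squarefree (x * y)) : IsCoprime x y :=
  isRelPrime_iff_isCoprime.1 (IsRelPrime.of_squarefree_mul h)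

/-- The support of the dual sums. -/
theorem dual_supp {M : O} {L R : ℝ} (hL : 0 ≤ L) (hR : 0 ≤ R) {α : O → ℂ} {g e h k : O}
    {ψ : Chr M} {w : ℂ} (hg : g ∈ sp M R) (hh : h ∈ sp M R)
    (h0 : rowS M R 1 (dualC 5 (cut M L α) g e h ψ w) k ≠ 0) :
    g ∈ sp M L ∧ h ∈ sp (M * g) (L / nr g) := by
  obtain ⟨n, hn, h1⟩ := Finset.exists_ne_zero_of_sum_ne_zero h0
  have h2 : cut M L α (g * h * n) ≠ 0 := fun h2 => h1 (by simp [dualC, h2])
  have h3 := cut_mem h2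
  obtain ⟨hg1, -⟩ := (mem_sp hR).1 hg
  obtain ⟨hh1, -⟩ := (mem_sp hR).1 hh
  obtain ⟨hn1, -⟩ := (mem_sp hR).1 hn
  obtain ⟨h4, h5⟩ := (mem_sp hL).1 h3
  have ng := nr_pos hg1.1.ne_zero
  refine ⟨P1b.mem_sp_of_dvd hL h3 hg1.1 ⟨h * n, by ring⟩, (mem_sp (by positivity)).2
    ⟨⟨hh1.1, hh1.2.1, hh1.2.2.mul_right ?_⟩, ?_⟩⟩
  · exact (cop_of_sqfree (h4.2.1.squarefree_of_dvd (dvd_mul_right _ _))).symm
  · rw [le_div_iff₀ ng]
    rw [nr_mul, nr_mul] at h5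
    have := one_le_nr hn1.1.ne_zero
    have := nr_pos hh1.1.ne_zero
    nlinarith [mul_pos ng this]

/-- The dual sum in the normalisation of `Sd`. -/
theorem dual_eq {M : O} {L R : ℝ} (hL : 0 < L) (hLR : L ≤ R) (α : O → ℂ) {g h : O} (e k : O)
    (ψ : Chr M) (w : ℂ) (hg : g ∈ sp M L) (hh : h ∈ sp (M * g) (L / nr g)) :
    Sd M (L / (nr g * nr h))
        (fun m => ext α (g * h) ψ (nr g * nr h) L w m * conj (sym m (e * h ^ 2))) k =
      ((nr g * nr h / L : ℝ) : ℂ) ^ w * rowS M R 1 (dualC 5 (cut M L α) g e h ψ w) k := by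
  obtain ⟨hg1, -⟩ := (mem_sp hL.le).1 hg
  have ng := one_le_nr hg1.1.ne_zero
  obtain ⟨hh1, -⟩ := (mem_sp (by positivity)).1 hh
  have nh := one_le_nr hh1.1.ne_zero
  have hf : 1 ≤ nr g * nr h := one_le_mul_of_one_le_of_one_le ng nh
  have hsub : sp M (L / (nr g * nr h)) ⊆ sp M R :=
    sp_mono M (by positivity) ((div_le_self hL.le hf).trans hLR)
  have hgh : IsCoprime g h := hh1.2.2.of_mul_right_right.symm
  rw [rowS, ← Finset.sum_subset hsub, Finset.mul_sum, Sd]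
  · refine Finset.sum_congr rfl fun n hn => ?_
    obtain ⟨hn1, hn2⟩ := (mem_sp (by positivity)).1 hn
    have nn := nr_pos hn1.1.ne_zero
    by_cases hc : IsCoprime n (g * h)
    · have hm : g * h * n ∈ sp M L := by
        refine (mem_sp hL.le).2 ⟨⟨(hg1.1.mul hh1.1).mul hn1.1, ?_,
          (hg1.2.2.mul_left hh1.2.2.of_mul_right_left).mul_left hn1.2.2⟩, ?_⟩
        · exact squarefree_mul_iff.2 ⟨hc.symm.isRelPrime,
            squarefree_mul_iff.2 ⟨hgh.isRelPrime, hg1.2.1, hh1.2.1⟩, hn1.2.1⟩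
        · rw [le_div_iff₀ (by positivity)] at hn2
          rw [nr_mul, nr_mul]
          linarith
      have e1 : ((nr n * (nr g * nr h) / L : ℝ) : ℂ) ^ w =
          (nr n : ℂ) ^ w * ((nr g * nr h / L : ℝ) : ℂ) ^ w := by
        rw [mul_div_assoc, Complex.ofReal_mul, Complex.mul_cpow_ofReal_nonneg nn.le (by positivity)]
      simp only [ext, if_pos hc, dualC, cut_of_mem α hm, e1, conj_sym hn1.1]
      ring
    · have h0 : cut M L α (g * h * n) = 0 := by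
        by_contra h0
        exact hc (cop_of_sqfree ((mem_sp hL.le).1 (cut_mem h0)).1.2.1).symm
      simp [ext, hc, dualC, h0]
  · intro n hn hn'
    have h0 : cut M L α (g * h * n) = 0 := by
      by_contra h0
      refine hn' ((mem_sp (by positivity)).2 ⟨((mem_sp (hL.le.trans hLR)).1 hn).1, ?_⟩)
      have h1 := ((mem_sp hL.le).1 (cut_mem h0)).2
      rw [nr_mul, nr_mul] at h1
      rw [le_div_iff₀ (by positivity)]
      linarith
    simp [dualC, h0]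

theorem dual_le {M : O} {L R σ : ℝ} (hL : 0 < L) (hLR : L ≤ R) (hσ : 0 ≤ σ) (α : O → ℂ)
    {g h : O} (e k : O) (ψ : Chr M) {w : ℂ} (hw : w.re = -(1 / 2) + σ) (hg : g ∈ sp M L)
    (hh : h ∈ sp (M * g) (L / nr g)) :
    ‖rowS M R 1 (dualC 5 (cut M L α) g e h ψ w) k‖ ^ 2 ≤ R ^ (2 * σ) * (nr g * nr h / L) *
      ‖Sd M (L / (nr g * nr h))
        (fun m => ext α (g * h) ψ (nr g * nr h) L w m * conj (sym m (e * h ^ 2))) k‖ ^ 2 := by
  obtain ⟨hg1, -⟩ := (mem_sp hL.le).1 hg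
  have ng := one_le_nr hg1.1.ne_zero
  obtain ⟨hh1, -⟩ := (mem_sp (by positivity)).1 hh
  have nh := one_le_nr hh1.1.ne_zero
  have hf : 1 ≤ nr g * nr h := one_le_mul_of_one_le_of_one_le ng nh
  set y : ℝ := nr g * nr h / L with hy
  have hy0 : 0 < y := by positivity
  have hR : 0 < R := hL.trans_le hLR
  rw [dual_eq hL hLR α e k ψ w hg hh, norm_mul, Complex.norm_cpow_eq_rpow_re_of_pos hy0, hw,
    mul_pow, ← mul_assoc]
  refine le_mul_of_one_le_left (by positivity) ?_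
  have e1 : R ^ (2 * σ) * y * (y ^ (-(1 / 2) + σ)) ^ 2 = (R * y) ^ (2 * σ) := by
    rw [Real.mul_rpow hR.le hy0.le, ← Real.rpow_natCast, ← Real.rpow_mul hy0.le, mul_assoc]
    congr 1
    nth_rewrite 1 [← Real.rpow_one y]
    rw [← Real.rpow_add hy0]
    congr 1
    push_cast
    ring
  rw [e1]
  refine Real.one_le_rpow ?_ (by positivity)
  rw [hy, ← mul_div_assoc, le_div_iff₀ hL]
  nlinarith

theorem OD_le {M : O} {L R σ A : ℝ} (hL : 0 < L) (hLR : L ≤ R) (hσ : 0 ≤ σ) (hA : 0 ≤ A)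
    (Λ : ℝ) (α : O → ℂ) (ψ : Chr M) {w : ℂ} (hw : w.re = -(1 / 2) + σ) :
    OD M R 5 1 (cut M L α) A L Λ ψ w ≤ R ^ (2 * σ) *
      ∑ g ∈ sp M L, ∑ e ∈ pdiv g, ∑ t ∈ sp (M * g) (L / nr g), A * nr g / (nr e * L) *
        ∑ k ∈ rows (nr e * (L / nr g) ^ 2 * Λ / A),
          ‖Sd M (L / (nr g * nr t))
            (fun m => ext α (g * t) ψ (nr g * nr t) L w m * conj (sym m (e * t ^ 2))) k‖ ^ 2 := by
  have hR : 0 ≤ R := hL.le.trans hLR
  rw [OD, ← Finset.sum_subset (sp_mono M hL.le hLR), Finset.mul_sum]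
  · refine Finset.sum_le_sum fun g hg => ?_
    obtain ⟨hg1, -⟩ := (mem_sp hL.le).1 hg
    have ng := one_le_nr hg1.1.ne_zero
    rw [Finset.mul_sum]
    refine Finset.sum_le_sum fun e he => ?_
    have ne := one_le_nr ((mem_pdiv hg1.1.ne_zero).1 he).1.ne_zero
    have hsub : sp (M * g) (L / nr g) ⊆ sp M R := fun t ht => by
      obtain ⟨h1, h2⟩ := (mem_sp (by positivity)).1 ht
      exact (mem_sp hR).2 ⟨⟨h1.1, h1.2.1, h1.2.2.of_mul_right_left⟩,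
        h2.trans ((div_le_self hL.le ng).trans hLR)⟩
    rw [← Finset.sum_subset hsub, Finset.mul_sum]
    · refine Finset.sum_le_sum fun t ht => ?_
      have nt := one_le_nr ((mem_sp (by positivity)).1 ht).1.1.ne_zero
      rw [show Λ * nr e * (L / nr g) ^ 2 / A = nr e * (L / nr g) ^ 2 * Λ / A by ring]
      refine (mul_le_mul_of_nonneg_left (Finset.sum_le_sum fun k _ =>
        dual_le hL hLR hσ α e k ψ hw hg ht) (by positivity)).trans_eq ?_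
      rw [← Finset.mul_sum]
      field_simp
    · intro t ht ht'
      refine mul_eq_zero_of_right _ (Finset.sum_eq_zero fun k _ => ?_)
      by_contra h0
      exact ht' (dual_supp hL.le hR (sp_mono M hL.le hLR hg) ht
        (norm_ne_zero_iff.1 (ne_zero_pow two_ne_zero h0))).2
  · intro g hg hg'
    refine Finset.sum_eq_zero fun e _ => Finset.sum_eq_zero fun t ht =>
      mul_eq_zero_of_right _ (Finset.sum_eq_zero fun k _ => ?_)
    by_contra h0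
    exact hg' (dual_supp hL.le hR hg ht (norm_ne_zero_iff.1 (ne_zero_pow two_ne_zero h0))).1

/-- The sharp sum is majorised by the Gaussian sum. -/
theorem maj {A : ℝ} (hA : 0 < A) (f : O → ℝ) (h0 : ∀ a, 0 ≤ f a) {H : ℝ} (hH : ∀ a, f a ≤ H) :
    ∑ a ∈ rows A, f a ≤ (gw 1)⁻¹ * ∑' a : O, gw (nr a / A) * f a := by
  have h1 := gw_pos 1
  have hs : Summable fun a : O => gw (nr a / A) * f a :=
    Summable.of_nonneg_of_le (fun a => mul_nonneg (gw_pos _).le (h0 a))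
      (fun a => mul_le_mul_of_nonneg_left (hH a) (gw_pos _).le) ((summable_gw' hA).mul_right H)
  rw [le_inv_mul_iff₀ h1, Finset.mul_sum]
  refine le_trans (Finset.sum_le_sum fun a ha => ?_)
    (hs.sum_le_tsum _ fun a _ => mul_nonneg (gw_pos _).le (h0 a))
  refine mul_le_mul_of_nonneg_right (gw_antitone ?_) (h0 a)
  rw [div_le_one hA]
  exact ((mem_rows hA.le).1 ha).2

theorem norm_Sr_le (M : O) (L : ℝ) (α : O → ℂ) (a : O) :
    ‖Sr M L α a‖ ≤ ∑ n ∈ sp M L, ‖α n‖ := by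
  refine (norm_sum_le _ _).trans (Finset.sum_le_sum fun n _ => ?_)
  rw [norm_mul, Complex.norm_conj]
  exact mul_le_of_le_one_right (norm_nonneg _) (norm_sym_le _ _)

theorem card_sp_le (M : O) {L : ℝ} (hL : 1 ≤ L) : ((sp M L).card : ℝ) ≤ 8 * L := by
  classical
  have h1 : (sp M L).card ≤ 7 * ⌊L⌋₊ + 1 := (Finset.card_filter_le _ _).trans (card_ball_le _)
  have h2 : ((sp M L).card : ℝ) ≤ 7 * (⌊L⌋₊ : ℝ) + 1 := by exact_mod_cast h1
  linarith [Nat.floor_le (show 0 ≤ L by linarith)]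

theorem nsq_nonneg (M : O) (L : ℝ) (α : O → ℂ) : 0 ≤ nsq M L α :=
  Finset.sum_nonneg fun _ _ => by positivity

end B1

/-- **Forward Poisson.**  `γ₅(t m) = γ₅(t) γ₅(m) Rs(t,m) conj χ_m(t²)` produces the twist by `t²`. -/
theorem fwd {M : O} (hM : Adm M) {ε : ℝ} (hε : 0 < ε) (J : ℕ) : ∃ C : ℝ, 0 < C ∧
    ∀ (R A L E : ℝ) (α : O → ℂ), 1 ≤ A → A ≤ R → 1 ≤ L → L ≤ R →
      (∀ (ν : Chr M) (s : ℂ), -(1 / 2) ≤ s.re → s.re ≤ 0 →
        ∑ g ∈ sp M L, ∑ e ∈ pdiv g, ∑ t ∈ sp (M * g) (L / nr g), A * nr g / (nr e * L) *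
          ∑ k ∈ rows (nr e * (L / nr g) ^ 2 * R ^ ε / A),
            ‖Sd M (L / (nr g * nr t))
              (fun m => ext α (g * t) ν (nr g * nr t) L s m * conj (sym m (e * t ^ 2))) k‖ ^ 2 ≤
          E * (1 + |s.im|) ^ J) →
      ∑ a ∈ rows A, ‖Sr M L α a‖ ^ 2 ≤ C * (A * nsq M L α + R ^ ε * E) := by
  set σ : ℝ := min (ε / 6) (1 / 2) with hσ
  have hσ0 : 0 < σ := lt_min (by positivity) (by norm_num)
  have hσ1 : σ ≤ 1 / 2 := min_le_right _ _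
  have hσ2 : σ ≤ ε / 6 := min_le_left _ _
  obtain ⟨C, hC, H⟩ := poisson_family hM hσ0 (by linarith) J (8 / ε)
  have hg := gw_pos 1
  refine ⟨(gw 1)⁻¹ * (1 + 8 * C), by positivity, fun R A L E α hA hAR hL hLR hE => ?_⟩
  have hR : 1 ≤ R := hA.trans hAR
  have hL0 : 0 < L := by linarith
  have hA0 : 0 < A := by linarith
  have hE0 : 0 ≤ E := by
    have h1 := hE 1 0 (by norm_num) le_rfl
    rw [Complex.zero_im, abs_zero, add_zero, one_pow, mul_one] at h1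
    refine le_trans (Finset.sum_nonneg fun g _ => Finset.sum_nonneg fun e _ =>
      Finset.sum_nonneg fun t _ => mul_nonneg (by positivity)
        (Finset.sum_nonneg fun k _ => by positivity)) h1
  have hn := B1.nsq_nonneg M L α
  have h1 := H ({()} : Finset Unit) (fun _ => 1) (fun _ => B1.cut M L α) (fun _ => A) (fun _ => L)
    5 1 R (R ^ ε) (R ^ (2 * σ) * E) (Or.inr ⟨rfl, rfl⟩) hR (Real.one_le_rpow hR hε.le)
    (fun _ _ => zero_le_one)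
    (fun _ _ => ⟨B1.supp_cut M hL0.le α, hLR, (inv_le_one_of_one_le₀ hR).trans hA,
      hAR.trans (by nlinarith)⟩)
    (fun ψ u => by
      rw [Finset.sum_singleton, one_mul, mul_assoc]
      have hw : (-(1 / 2) + (σ : ℂ) + u * Complex.I).re = -(1 / 2) + σ := by simp
      have hw' : (-(1 / 2) + (σ : ℂ) + u * Complex.I).im = u := by simp
      refine (B1.OD_le hL0 hLR hσ0.le hA0.le _ α ψ hw).trans
        (mul_le_mul_of_nonneg_left ?_ (by positivity))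
      have := hE ψ _ (by rw [hw]; linarith) (by rw [hw]; linarith)
      rwa [hw'] at this)
  simp only [Finset.sum_singleton, one_mul] at h1
  rw [B1.sum_cut M hL0.le hLR α (fun _ z => ‖z‖ ^ 2) fun _ => by simp,
    B1.sum_cut M hL0.le hLR α (fun _ z => ‖z‖) fun _ => by simp, Dq] at h1
  simp only [B1.rowS_cut M hL0.le hLR] at h1
  have h2 : R ^ (4 * σ) * (R ^ (2 * σ) * E) ≤ R ^ ε * E := by
    rw [← mul_assoc, ← Real.rpow_add (by linarith)]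
    exact mul_le_mul_of_nonneg_right (Real.rpow_le_rpow_of_exponent_le hR (by linarith)) hE0
  have h3 : (∑ n ∈ sp M L, ‖α n‖) ^ 2 ≤ 8 * R * nsq M L α :=
    sq_sum_le_card_mul_sum_sq.trans (mul_le_mul_of_nonneg_right
      ((B1.card_sp_le M hL).trans (by linarith)) hn)
  have h4 : R ^ (7 : ℝ) * (R ^ ε) ^ (-(8 / ε)) * R = 1 := by
    rw [← Real.rpow_mul (by linarith), ← Real.rpow_add (by linarith),
      ← Real.rpow_add_one (by linarith),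
      show (7 : ℝ) + ε * -(8 / ε) + 1 = 0 by field_simp; ring, Real.rpow_zero]
  have h5 : C * R ^ (7 : ℝ) * (R ^ ε) ^ (-(8 / ε)) * (∑ n ∈ sp M L, ‖α n‖) ^ 2 ≤
      8 * C * (A * nsq M L α) := by
    calc _ ≤ C * R ^ (7 : ℝ) * (R ^ ε) ^ (-(8 / ε)) * (8 * R * nsq M L α) := by gcongr
      _ = 8 * C * (R ^ (7 : ℝ) * (R ^ ε) ^ (-(8 / ε)) * R * nsq M L α) := by ring
      _ ≤ _ := by rw [h4]; gcongr
  refine (B1.maj hA0 _ (fun a => by positivity) (H := (∑ n ∈ sp M L, ‖α n‖) ^ 2) fun a =>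
    pow_le_pow_left₀ (norm_nonneg _) (B1.norm_Sr_le M L α a) 2).trans ?_
  rw [mul_assoc]
  refine mul_le_mul_of_nonneg_left (h1.trans ?_) (by positivity)
  have h6 : 0 ≤ R ^ ε * E := by positivity
  have h7 := mul_le_mul_of_nonneg_left h2 hC.le
  have h8 : 0 ≤ C * (R ^ ε * E) := by positivity
  change A * nsq M L α + _ + _ ≤ _
  linarith

/-- Trivial large sieve (from `fwd` with `A' = max A (2 L² R^ε)`: all dual ranges are empty). -/
theorem trivial_sieve {M : O} (hM : Adm M) {ε : ℝ} (hε : 0 < ε) : ∃ C : ℝ, 0 < C ∧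
    ∀ (A L : ℝ) (α : O → ℂ), 0 ≤ A → 1 ≤ L →
      ∑ a ∈ rows A, ‖Sr M L α a‖ ^ 2 ≤ C * (A + L ^ (2 + ε)) * nsq M L α := by
  have hδ : 0 < ε / (2 + ε) := by positivity
  obtain ⟨C, hC, H⟩ := fwd hM hδ 0
  refine ⟨2 * C, by positivity, fun A L α hA hL => ?_⟩
  have hL0 : 0 < L := by linarith
  have hn := B1.nsq_nonneg M L α
  have h1 : L ≤ L ^ (2 + ε) := Real.self_le_rpow_of_one_le hL (by linarith)
  set A' : ℝ := A + 2 * L ^ (2 + ε) with hA'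
  have hA1 : 1 ≤ A' := by linarith
  have hA0 : 0 < A' := by linarith
  have key : L ^ 2 * A' ^ (ε / (2 + ε)) < A' := by
    have h2 : (L ^ (2 + ε)) ^ (2 / (2 + ε)) < A' ^ (2 / (2 + ε)) :=
      Real.rpow_lt_rpow (by positivity) (by linarith) (by positivity)
    rw [← Real.rpow_mul hL0.le, show (2 + ε) * (2 / (2 + ε)) = ((2 : ℕ) : ℝ) by
      push_cast; field_simp, Real.rpow_natCast] at h2
    calc _ < A' ^ (2 / (2 + ε)) * A' ^ (ε / (2 + ε)) := by gcongr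
      _ = A' := by
        rw [← Real.rpow_add hA0, show 2 / (2 + ε) + ε / (2 + ε) = 1 by field_simp, Real.rpow_one]
  have h2 := H A' A' L 0 α hA1 le_rfl hL (by linarith) fun ν s _ _ => by
    rw [zero_mul]
    refine le_of_eq (Finset.sum_eq_zero fun g hg => Finset.sum_eq_zero fun e he =>
      Finset.sum_eq_zero fun t _ => ?_)
    have hg0 := ((mem_sp hL0.le).1 hg).1.1.ne_zero
    have ng := one_le_nr hg0
    have le : nr e ≤ nr g := by exact_mod_cast nm_le_of_dvd ((mem_pdiv hg0).1 he).2 hg0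
    rw [rows_eq_empty, Finset.sum_empty, mul_zero]
    rw [div_lt_one hA0]
    refine lt_of_le_of_lt (mul_le_mul_of_nonneg_right ?_ (by positivity)) key
    rw [div_pow, ← mul_div_assoc, div_le_iff₀ (by positivity)]
    have : nr e ≤ nr g ^ 2 := by nlinarith
    nlinarith [sq_nonneg L]
  rw [mul_zero, add_zero] at h2
  calc _ ≤ ∑ a ∈ rows A', ‖Sr M L α a‖ ^ 2 :=
        Finset.sum_le_sum_of_subset_of_nonneg (rows_mono (by linarith)) fun _ _ _ => by positivity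
    _ ≤ C * (A' * nsq M L α) := h2
    _ ≤ C * ((2 * (A + L ^ (2 + ε))) * nsq M L α) := by gcongr; linarith
    _ = _ := by ring

/-- **Backward Poisson for cube-completed indices**, for a weighted family.  For a pair
`n_i = m_i d_i³` freeze `ρ = rad(d₁ d₂ gcd(m₁,m₂))`, `e_i = gcd(m_i, ρ)`; the new row is `a b` with
`ρ b = f₁ f₂`, `f_i = e_i d_i³`, and `ρ ∣ b`; a row determines at most `16^{ω}` frozen data. -/
theorem gp {M : O} (hM : Adm M) {ε : ℝ} (hε : 0 < ε) (J : ℕ) : ∃ C : ℝ, 0 < C ∧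
    ∀ {ι : Type} (S : Finset ι) (w K L : ι → ℝ) (β : ι → O → O → ℂ) (R E : ℝ), 1 ≤ R →
      (∀ i ∈ S, 0 ≤ w i ∧ 0 < K i ∧ K i ≤ R ∧ 0 < L i ∧ L i ≤ R) →
      (∀ (ν : Chr M) (s : ℂ), -(1 / 2) ≤ s.re → s.re ≤ 0 →
        ∑ i ∈ S, w i * (K i / L i) * ∑ a ∈ rows (L i ^ 2 * R ^ ε / K i),
          ∑ d ∈ (sp M (L i)).filter (· ∈ pdiv a), ∑ e ∈ (sp M (L i)).filter (· ∈ pdiv a),
            ∑ t ∈ sp (M * d * e) (L i), w6 d a * (nr e * nr d ^ 3) *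
              ‖Sr M (L i / (nr e * nr d ^ 3 * nr t))
                (ext (β i d) (e * t) ν (nr e * nr d ^ 3 * nr t) (L i) s) a‖ ^ 2 ≤
          E * (1 + |s.im|) ^ J) →
      ∑ i ∈ S, w i * ∑ k ∈ rows (K i), ‖Sg M (L i) (β i) k‖ ^ 2 ≤
        C * (∑ i ∈ S, w i * K i *
          ∑ d ∈ sp M (L i), nr d * nsq M (L i / nr d ^ 3) (β i d) + R ^ ε * E) := by
  classical
  obtain ⟨C, hC, H⟩ := GP.gp_main hM hε J
  refine ⟨C, hC, fun {ι} S w K L β R E hR hS hE => ?_⟩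
  have h1 := H (S.filter fun i => 1 ≤ K i) w K L β R E hR (fun i hi => by
      obtain ⟨hi, hK⟩ := Finset.mem_filter.1 hi
      obtain ⟨a1, -, -, a4, a5⟩ := hS i hi
      exact ⟨a1, hK, a4, a5⟩) fun ν s h1 h2 => by
    refine le_trans (Finset.sum_le_sum_of_subset_of_nonneg (Finset.filter_subset _ _)
      fun i hi _ => ?_) (hE ν s h1 h2)
    obtain ⟨a1, a2, -, a4, -⟩ := hS i hi
    exact mul_nonneg (by positivity) (GP.HH_nonneg _ _ _ _ _)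
  rw [← Finset.sum_subset (Finset.filter_subset (fun i => 1 ≤ K i) S) fun i hi hi' => by
    rw [rows_eq_empty (not_le.1 fun h => hi' (Finset.mem_filter.2 ⟨hi, h⟩)), Finset.sum_empty,
      mul_zero]]
  refine h1.trans (mul_le_mul_of_nonneg_left (add_le_add ?_ le_rfl) hC.le)
  refine Finset.sum_le_sum_of_subset_of_nonneg (Finset.filter_subset _ _) fun i hi _ => ?_
  obtain ⟨a1, a2, -, -, -⟩ := hS i hi
  positivity

/-- **Backward Poisson** (the case `d = 1` of `gp`: take `β i d = if d = 1 then β i else 0`). -/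
theorem back {M : O} (hM : Adm M) {ε : ℝ} (hε : 0 < ε) (J : ℕ) : ∃ C : ℝ, 0 < C ∧
    ∀ {ι : Type} (S : Finset ι) (w K L : ι → ℝ) (β : ι → O → ℂ) (R E : ℝ), 1 ≤ R →
      (∀ i ∈ S, 0 ≤ w i ∧ 0 < K i ∧ K i ≤ R ∧ 0 < L i ∧ L i ≤ R) →
      (∀ (ν : Chr M) (s : ℂ), -(1 / 2) ≤ s.re → s.re ≤ 0 →
        ∑ i ∈ S, w i * (K i / L i) * ∑ a ∈ rows (L i ^ 2 * R ^ ε / K i),
          ∑ e ∈ (sp M (L i)).filter (· ∈ pdiv a), ∑ t ∈ sp (M * e) (L i), nr e *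
            ‖Sr M (L i / (nr e * nr t)) (ext (β i) (e * t) ν (nr e * nr t) (L i) s) a‖ ^ 2 ≤
          E * (1 + |s.im|) ^ J) →
      ∑ i ∈ S, w i * ∑ k ∈ rows (K i), ‖Sd M (L i) (β i) k‖ ^ 2 ≤
        C * (∑ i ∈ S, w i * K i * nsq M (L i) (β i) + R ^ ε * E) := by
  classical
  obtain ⟨C, hC, H⟩ := gp hM hε J
  refine ⟨C, hC, fun {ι} S w K L β R E hR hS hE => ?_⟩
  have n1 : nr 1 = 1 := by simp [nr]
  have one_mem : ∀ {X : ℝ}, 1 ≤ X → (1 : O) ∈ sp M X := fun {X} h =>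
    (mem_sp (zero_le_one.trans h)).2 ⟨⟨primary_one, squarefree_one, isCoprime_one_left⟩, n1 ▸ h⟩
  have h1 := H S w K L (fun i d => if d = 1 then β i else 0) R E hR hS fun ν s h1 h2 => by
    refine le_trans (Finset.sum_le_sum fun i hi => ?_) (hE ν s h1 h2)
    obtain ⟨a1, a2, -, a4, -⟩ := hS i hi
    refine mul_le_mul_of_nonneg_left (Finset.sum_le_sum fun a _ => ?_) (by positivity)
    rw [Finset.sum_eq_single (1 : O)]
    · simp [w6, n1]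
    · intro d _ hd
      simp [hd, Sr, ext]
    · intro h
      have : (sp M (L i)).filter (· ∈ pdiv a) = ∅ := by
        refine Finset.eq_empty_of_forall_notMem fun e he => h ?_
        obtain ⟨b1, b2⟩ := Finset.mem_filter.1 he
        have b3 := (mem_sp a4.le).1 b1
        have b4 := one_le_nr b3.1.1.ne_zero
        refine Finset.mem_filter.2 ⟨one_mem (b4.trans b3.2), ?_⟩
        rw [pdiv, Finset.mem_filter, mem_ball] at b2 ⊢
        refine ⟨le_trans ?_ b2.1, primary_one, one_dvd _⟩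
        rw [nm_one]
        exact_mod_cast b4
      rw [this, Finset.sum_empty]
  have e1 : ∀ i k, Sg M (L i) (fun d => if d = 1 then β i else 0) k = Sd M (L i) (β i) k := by
    intro i k
    rw [Sg, Finset.sum_eq_single (1 : O)]
    · simp [Sd, n1]
    · intro d _ hd
      simp [hd]
    · intro h
      rw [n1, one_pow, div_one, sp_eq_empty M (not_le.1 fun h' => h (one_mem h')), Finset.sum_empty]
  have e2 : ∀ i, ∑ d ∈ sp M (L i), nr d * nsq M (L i / nr d ^ 3) (if d = 1 then β i else 0) =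
      nsq M (L i) (β i) := by
    intro i
    rw [Finset.sum_eq_single (1 : O)]
    · simp [n1]
    · intro d _ hd
      simp [hd, nsq]
    · intro h
      rw [n1, one_pow, div_one, nsq, sp_eq_empty M (not_le.1 fun h' => h (one_mem h')),
        Finset.sum_empty, mul_zero]
  simpa only [e1, e2] using h1

theorem DP3_mult {σ τ υ : Type*} (S : Finset σ) (T : Finset τ) (f : σ → ℝ) (F : τ → ℝ) (φ : σ → τ)
    (ψ : σ → υ) (U : τ → Finset υ) {D : ℝ} (hF : ∀ j ∈ T, 0 ≤ F j)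
    (hU : ∀ j ∈ T, ((U j).card : ℝ) ≤ D)
    (h : ∀ i ∈ S, f i ≤ 0 ∨ φ i ∈ T ∧ ψ i ∈ U (φ i) ∧ f i ≤ F (φ i))
    (inj : ∀ i ∈ S, ∀ i' ∈ S, φ i = φ i' → ψ i = ψ i' → i = i') :
    ∑ i ∈ S, f i ≤ D * ∑ j ∈ T, F j := by
  classical
  set S' := S.filter fun i => φ i ∈ T ∧ ψ i ∈ U (φ i) ∧ f i ≤ F (φ i)
  calc ∑ i ∈ S, f i ≤ ∑ i ∈ S', F (φ i) := by
        rw [Finset.sum_filter]
        refine Finset.sum_le_sum fun i hi => ?_
        split_ifs with h'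
        exacts [h'.2.2, (h i hi).resolve_right h']
    _ = ∑ j ∈ T, ∑ i ∈ S' with φ i = j, F j := (Finset.sum_fiberwise_of_maps_to'
        (fun i hi => (Finset.mem_filter.1 hi).2.1) _).symm
    _ ≤ _ := by
        rw [Finset.mul_sum]
        refine Finset.sum_le_sum fun j hj => ?_
        rw [Finset.sum_const, nsmul_eq_mul]
        refine mul_le_mul_of_nonneg_right (le_trans (Nat.cast_le.2 (Finset.card_le_card_of_injOn ψ
          (fun i hi => ?_) fun i hi i' hi' e => ?_)) (hU j hj)) (hF j hj)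
        · simp only [S', Finset.coe_filter, Finset.mem_filter, Set.mem_ofPred_eq] at hi
          exact hi.2 ▸ hi.1.2.2.1
        · simp only [S', Finset.coe_filter, Finset.mem_filter, Set.mem_ofPred_eq] at hi hi'
          exact inj i hi.1.1 i' hi'.1.1 (hi.2.trans hi'.2.symm) e

theorem DP3_split (s : Finset O) (t u : O → Finset O) (p : O → O → Prop) [∀ g, DecidablePred (p g)]
    (F : O → O → O → ℝ) : ∑ g ∈ s, ∑ e ∈ t g, ∑ x ∈ u g, F g e x =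
      ∑ g ∈ s, ∑ e ∈ t g, ∑ x ∈ (u g).filter (p g), F g e x +
        ∑ i ∈ s.sigma fun g => (t g).sigma fun _ => (u g).filter fun x => ¬ p g x,
          F i.1 i.2.1 i.2.2 := by
  simp only [Finset.sum_sigma, ← Finset.sum_add_distrib, Finset.sum_filter_add_sum_filter_not]

theorem DP3_po {M n : O} (hM : Adm M) (h : SP M n) : PO n :=
  ⟨h.1, h.2.2.of_isCoprime_of_dvd_right ((Dvd.intro 36 (by norm_num) : (2 : O) ∣ 72).trans hM.2)⟩

theorem DP3_mem {M n : O} {X : ℝ} (h : n ∈ sp M X) : SP M n ∧ nr n ≤ X := by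
  rcases lt_or_ge X 1 with hX | hX
  · simp [sp_eq_empty M hX] at h
  · exact (mem_sp (by linarith)).1 h

theorem DP3_sp {M m n : O} (hm : SP M m) (hn : SP M n) (h : IsCoprime m n) : SP M (m * n) :=
  ⟨hm.1.mul hn.1, squarefree_mul_iff.2 ⟨h.isRelPrime, hm.2.1, hn.2.1⟩, hm.2.2.mul_left hn.2.2⟩

open Classical in
theorem DP3_ext {M : O} (hM : Adm M) (α : O → ℂ) {h h' : O} (hh : h ≠ 0) (hh' : h' ≠ 0) (b a : O)
    (ν ν' : Chr M) {f f' L : ℝ} (hf : f = nr h) (hf' : f' = nr h') (hL : 0 < L) (s s' : ℂ) (X : ℝ) :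
    Sr M X (ext (fun m => ext α h ν f L s m * conj (sym m b)) h' ν' f' (L / f) s') a =
      (if IsCoprime h' h then ev ν h' * conj (sym h' b) else 0) *
        Sr M X (ext α (h * h') (ν * ν') (f * f') L (s + s')) (a * b) := by
  rw [Sr, Sr, Finset.mul_sum]
  refine Finset.sum_congr rfl fun n hn => ?_
  have hn := DP3_po hM (DP3_mem hn).1
  have h0 := hn.1.ne_zero
  have h1 := nr_pos hh
  have h2 := nr_pos hh'
  have h3 := nr_pos h0
  subst hf hf'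
  simp only [ext, IsCoprime.mul_left_iff, IsCoprime.mul_right_iff]
  by_cases c1 : IsCoprime h' h <;> by_cases c2 : IsCoprime n h <;> by_cases c3 : IsCoprime n h' <;>
    simp only [c1, c2, c3, and_self, and_true, and_false, if_true, if_false,
      zero_mul, mul_zero]
  rw [Complex.cpow_add _ _ (Complex.ofReal_ne_zero.2 (by positivity)), ev_mul, ev_mul_chr,
    sym_mul_left hh' h0, sym_mul_right hn, nr_mul, map_mul, map_mul, mul_assoc h,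
    show nr h' * nr n * nr h / L = nr n * (nr h * nr h') / L by ring,
    show nr n * nr h' / (L / nr h) = nr n * (nr h * nr h') / L by field_simp]
  ring

/-- The family of `dp`. -/
def DP3Fam (M : O) (L : ℝ) (i : Σ _ : O, Σ _ : O, O) : Prop :=
  SP M i.1 ∧ i.2.1 ∈ pdiv i.1 ∧ SP (M * i.1) i.2.2 ∧ nr i.1 * nr i.2.2 ≤ L

theorem DP3_card {L D : ℝ} (hD : ∀ n : O, n ≠ 0 → nr n ≤ L → ((pdiv n).card : ℝ) ≤ D) {m n : O}
    (hm : m ≠ 0) (hm' : nr m ≤ L) (hn : n ≠ 0) (hn' : nr n ≤ L) :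
    ((pdiv m ×ˢ pdiv m ×ˢ pdiv n).card : ℝ) ≤ D ^ 3 := by
  have h1 := hD m hm hm'
  have h2 := hD n hn hn'
  have h0 := (Nat.cast_nonneg _).trans h1
  rw [Finset.card_product, Finset.card_product, Nat.cast_mul, Nat.cast_mul, pow_three]
  gcongr

theorem DP3_diag {M : O} (hM : Adm M) (α : O → ℂ) (ν : Chr M) {L D : ℝ} (hL : 0 < L) {s : ℂ}
    (hs : -(1 / 2) ≤ s.re) (hD : ∀ n : O, n ≠ 0 → nr n ≤ L → ((pdiv n).card : ℝ) ≤ D)
    {S : Finset (Σ _ : O, Σ _ : O, O)} (hS : ∀ i ∈ S, DP3Fam M L i) :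
    ∑ i ∈ S, nsq M (L / (nr i.1 * nr i.2.2)) (fun m =>
      ext α (i.1 * i.2.2) ν (nr i.1 * nr i.2.2) L s m * conj (sym m (i.2.1 * i.2.2 ^ 2))) ≤
      D ^ 3 * nsq1 M L α := by
  simp only [nsq, Finset.sum_sigma']
  refine DP3_mult _ _ _ _ (fun j => j.1.1 * j.1.2.2 * j.2) (fun j => (j.1.1, j.1.2.1, j.1.2.2))
    (fun n => pdiv n ×ˢ pdiv n ×ˢ pdiv n) (fun n _ => by positivity)
    (fun n hn => DP3_card hD (DP3_mem hn).1.1.ne_zero (DP3_mem hn).2 (DP3_mem hn).1.1.ne_zero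
      (DP3_mem hn).2) ?_ ?_
  · rintro ⟨⟨g, e, t⟩, m⟩ hj
    obtain ⟨hi, hm⟩ := Finset.mem_sigma.1 hj
    obtain ⟨hg, he, ht, -⟩ := hS _ hi
    obtain ⟨hm, hmL⟩ := DP3_mem hm
    dsimp only at hg he ht hm hmL ⊢
    by_cases c : IsCoprime m (g * t)
    swap
    · simp [ext, c]
    have hn : SP M (g * t * m) := DP3_sp (DP3_sp hg ⟨ht.1, ht.2.1, ht.2.2.of_mul_right_left⟩
      ht.2.2.of_mul_right_right.symm) hm c.symm
    have h0 := hn.1.ne_zero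
    have h1 := nr_pos hg.1.ne_zero
    have h2 := nr_pos ht.1.ne_zero
    have h3 := nr_pos hm.1.ne_zero
    rw [le_div_iff₀ (by positivity)] at hmL
    obtain ⟨he, he'⟩ := (mem_pdiv hg.1.ne_zero).1 he
    refine Or.inr ⟨(mem_sp hL.le).2 ⟨hn, by rw [nr_mul, nr_mul]; linarith⟩, ?_, ?_⟩
    · simp only [Finset.mem_product, mem_pdiv h0]
      exact ⟨⟨hg.1, (dvd_mul_right _ _).mul_right _⟩, ⟨he, (he'.mul_right _).mul_right _⟩, ht.1,
        (dvd_mul_left _ _).mul_right _⟩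
    · have h4 : ‖((nr m * (nr g * nr t) / L : ℝ) : ℂ) ^ s‖ ^ 2 ≤ L / nr (g * t * m) := by
        rw [Complex.norm_cpow_eq_rpow_re_of_pos (by positivity), ← Real.rpow_mul_natCast (by positivity)]
        refine (Real.rpow_le_rpow_of_exponent_ge (z := -1) (by positivity) ((div_le_one hL).2 hmL)
          (by push_cast; linarith)).trans_eq ?_
        rw [Real.rpow_neg_one, inv_div, nr_mul, nr_mul, mul_comm (nr m)]
      have h5 := norm_ev_le hM.1 ν m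
      have h6 := norm_sym_le m (e * t ^ 2)
      rw [ext, if_pos c, norm_mul, norm_mul, norm_mul, Complex.norm_conj]
      calc _ ≤ (‖α (g * t * m)‖ * 1 * ‖((nr m * (nr g * nr t) / L : ℝ) : ℂ) ^ s‖ * 1) ^ 2 := by gcongr
        _ ≤ _ := by rw [mul_one, mul_one, mul_pow]; gcongr
  · rintro ⟨⟨g, e, t⟩, m⟩ hj ⟨⟨g', e', t'⟩, m'⟩ - h1 h2
    obtain ⟨hg, -, ht, -⟩ := hS _ (Finset.mem_sigma.1 hj).1
    obtain ⟨rfl, rfl, rfl⟩ : g = g' ∧ e = e' ∧ t = t' := by simpa using h2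
    obtain rfl : m = m' := mul_left_cancel₀ (mul_ne_zero hg.1.ne_zero ht.1.ne_zero) h1
    rfl

theorem DP3_child {M : O} (hM : Adm M) (α : O → ℂ) (ν ν' : Chr M) {L D A Y : ℝ} (hL : 0 < L)
    (hA : 0 ≤ A) (s s' : ℂ) (hD : ∀ n : O, n ≠ 0 → nr n ≤ L → ((pdiv n).card : ℝ) ≤ D)
    {S : Finset (Σ _ : O, Σ _ : O, O)} (hS : ∀ i ∈ S, DP3Fam M L i ∧ Y < nr i.1 * nr i.2.2)
    {X : (Σ _ : O, Σ _ : O, O) → ℝ} (hX : ∀ i ∈ S, 0 ≤ X i ∧ X i * (nr i.2.1 * nr i.2.2 ^ 2) ≤ A) :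
    ∑ i ∈ S, nr i.2.2 * ∑ a ∈ rows (X i),
      ∑ e ∈ (sp M (L / (nr i.1 * nr i.2.2))).filter (· ∈ pdiv a),
        ∑ t ∈ sp (M * e) (L / (nr i.1 * nr i.2.2)), nr e *
          ‖Sr M (L / (nr i.1 * nr i.2.2) / (nr e * nr t)) (ext (fun m =>
            ext α (i.1 * i.2.2) ν (nr i.1 * nr i.2.2) L s m * conj (sym m (i.2.1 * i.2.2 ^ 2)))
            (e * t) ν' (nr e * nr t) (L / (nr i.1 * nr i.2.2)) s') a‖ ^ 2 ≤
    D ^ 3 * ∑ h ∈ sp M L, ∑ a ∈ rows A,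
      ∑ e ∈ (sp (M * h) L).filter (fun e => e ∈ pdiv a ∧ Y < nr h * nr e), nr e *
        ‖Sr M (L / (nr h * nr e)) (ext α (h * e) (ν * ν') (nr h * nr e) L (s + s')) a‖ ^ 2 := by
  simp only [Finset.mul_sum _ _ (nr _), Finset.sum_sigma']
  refine DP3_mult _ _ _ _
    (fun j => ⟨j.1.1 * j.2.2.2, j.2.1 * (j.1.2.1 * j.1.2.2 ^ 2), j.1.2.2 * j.2.2.1⟩)
    (fun j => (j.1.1, j.1.2.1, j.1.2.2)) (fun j => pdiv j.1 ×ˢ pdiv j.1 ×ˢ pdiv j.2.2)
    (fun n _ => by positivity) (fun j hj => ?_) ?_ ?_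
  · simp only [Finset.mem_sigma, Finset.mem_filter] at hj
    exact DP3_card hD (DP3_mem hj.1).1.1.ne_zero (DP3_mem hj.1).2 (DP3_mem hj.2.2.1).1.1.ne_zero
      (DP3_mem hj.2.2.1).2
  · rintro ⟨⟨g, e, t⟩, a, e', t'⟩ hj
    simp only [Finset.mem_sigma, Finset.mem_filter] at hj
    obtain ⟨hi, ha, ⟨he', hea⟩, ht'⟩ := hj
    obtain ⟨⟨hg, he, ht, -⟩, hY⟩ := hS _ hi
    obtain ⟨hX0, hXA⟩ := hX _ hi
    obtain ⟨he', heL⟩ := DP3_mem he'
    obtain ⟨ht', htL⟩ := DP3_mem ht'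
    obtain ⟨ha, haX⟩ := (mem_rows hX0).1 ha
    dsimp only at hg he ht hY hXA ⊢
    obtain ⟨he, heg⟩ := (mem_pdiv hg.1.ne_zero).1 he
    have hea := ((mem_pdiv ha).1 hea).2
    have h1 := one_le_nr hg.1.ne_zero
    have h2 := one_le_nr ht.1.ne_zero
    have h3 := one_le_nr he'.1.ne_zero
    have h4 := one_le_nr ht'.1.ne_zero
    rw [le_div_iff₀ (by positivity)] at heL htL
    rw [DP3_ext hM α (mul_ne_zero hg.1.ne_zero ht.1.ne_zero)
      (mul_ne_zero he'.1.ne_zero ht'.1.ne_zero) _ _ ν ν' (nr_mul _ _).symm (nr_mul _ _).symm hL]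
    by_cases c : IsCoprime (e' * t') (g * t)
    swap
    · simp [c]
    rw [if_pos c]
    simp only [IsCoprime.mul_left_iff, IsCoprime.mul_right_iff] at c
    have hh : SP M (g * t') :=
      DP3_sp hg ⟨ht'.1, ht'.2.1, ht'.2.2.of_mul_right_left⟩ c.1.2.symm
    have he'' : SP (M * (g * t')) (t * e') := DP3_sp
      ⟨ht.1, ht.2.1, mul_assoc M g t' ▸ ht.2.2.mul_right c.2.2.symm⟩
      ⟨he'.1, he'.2.1, he'.2.2.mul_right (c.1.1.mul_right ht'.2.2.of_mul_right_right.symm)⟩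
      c.2.1.symm
    have ha' := mul_ne_zero ha (mul_ne_zero he.ne_zero (pow_ne_zero 2 ht.1.ne_zero))
    refine Or.inr ⟨?_, ?_, ?_⟩
    · simp only [Finset.mem_sigma, Finset.mem_filter, mem_sp hL.le, mem_rows hA, mem_pdiv ha',
        nr_mul, nr_pow]
      refine ⟨⟨hh, by nlinarith⟩, ⟨ha', le_trans (by gcongr) hXA⟩, ⟨he'', by nlinarith⟩,
        ⟨he''.1, ?_⟩, hY.trans_le (by gcongr <;> nlinarith)⟩
      rw [mul_comm t]
      exact mul_dvd_mul hea ((dvd_pow_self _ two_ne_zero).mul_left _)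
    · simp only [Finset.mem_product, mem_pdiv hh.1.ne_zero, mem_pdiv he''.1.ne_zero]
      exact ⟨⟨hg.1, dvd_mul_right _ _⟩, ⟨he, heg.mul_right _⟩, ht.1, dvd_mul_right _ _⟩
    · have h5 := norm_ev_le hM.1 ν (e' * t')
      have h6 := norm_sym_le (e' * t') (e * t ^ 2)
      rw [nr_mul, nr_mul, ← mul_assoc, div_div, show g * t' * (t * e') = g * t * (e' * t') by ring,
        show nr g * nr t' * (nr t * nr e') = nr g * nr t * (nr e' * nr t') by ring, norm_mul,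
        norm_mul, Complex.norm_conj]
      gcongr
      exact mul_le_of_le_one_left (norm_nonneg _) (mul_le_one₀ h5 (norm_nonneg _) h6)
  · rintro ⟨⟨g, e, t⟩, a, e', t'⟩ hj ⟨⟨g₁, e₁, t₁⟩, a₁, e₁', t₁'⟩ - h1 h2
    obtain ⟨⟨hg, he, ht, -⟩, -⟩ := hS _ (Finset.mem_sigma.1 hj).1
    obtain ⟨rfl, rfl, rfl⟩ : g = g₁ ∧ e = e₁ ∧ t = t₁ := by simpa using h2
    have := ((mem_pdiv hg.1.ne_zero).1 he).1.ne_zero
    obtain ⟨rfl, rfl, rfl⟩ : t' = t₁' ∧ a = a₁ ∧ e' = e₁' := by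
      simpa [hg.1.ne_zero, ht.1.ne_zero, this] using h1
    rfl

/-- **Double Poisson.**  `fwd`, then for the terms with `N(g t) > Y` enlarge the dual range by the
factor `lam` and apply `back` (with `R⁵`, `ε/5`) to the family `(g, e, t)`; the child
`(g, e, t, a', e', t')` is sent to `h = g t'`, `a = a' e t²`, `e'' = t e'` (divisor-bounded
multiplicity).  The terms with `N(g t) ≤ Y` are left to the user (none if `Y < 1`). -/
theorem dp {M : O} (hM : Adm M) {ε : ℝ} (hε : 0 < ε) (J : ℕ) : ∃ C : ℝ, 0 < C ∧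
    ∀ (R A L lam' Y E₁ E₂ : ℝ) (α : O → ℂ), 1 ≤ A → A ≤ R → 1 ≤ L → L ≤ R → 1 ≤ lam' →
      lam' ≤ R → ε ≤ 1 →
      (∀ (ν : Chr M) (s : ℂ), -(1 / 2) ≤ s.re → s.re ≤ 0 →
        ∑ g ∈ sp M L, ∑ e ∈ pdiv g,
          ∑ t ∈ (sp (M * g) (L / nr g)).filter (fun t => nr g * nr t ≤ Y), A * nr g / (nr e * L) *
          ∑ k ∈ rows (nr e * (L / nr g) ^ 2 * R ^ ε / A),
            ‖Sd M (L / (nr g * nr t))
              (fun m => ext α (g * t) ν (nr g * nr t) L s m * conj (sym m (e * t ^ 2))) k‖ ^ 2 ≤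
          E₁ * (1 + |s.im|) ^ J) →
      (∀ (ν : Chr M) (s : ℂ), -1 ≤ s.re → s.re ≤ 0 →
        ∑ h ∈ sp M L, ∑ a ∈ rows (A / lam'),
          ∑ e ∈ (sp (M * h) L).filter (fun e => e ∈ pdiv a ∧ Y < nr h * nr e), nr e *
            ‖Sr M (L / (nr h * nr e)) (ext α (h * e) ν (nr h * nr e) L s) a‖ ^ 2 ≤
          E₂ * (1 + |s.im|) ^ J) →
      ∑ a ∈ rows A, ‖Sr M L α a‖ ^ 2 ≤
        C * R ^ (3 * ε) * (A * nsq M L α + lam' * L * nsq1 M L α + E₁ + lam' * E₂) := by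
  obtain ⟨Cf, hCf, Hf⟩ := fwd hM hε J
  obtain ⟨Cb, hCb, Hb⟩ := back hM (ε := ε / 8) (by positivity) J
  obtain ⟨Cd, hCd, Hd⟩ := card_pdiv_le (ε := ε / 6) (by positivity)
  refine ⟨Cf * (1 + Cb * Cd ^ 3), by positivity,
    fun R A L l Y E₁ E₂ α hA hAR hL hLR hl hlR hε1 h1 h2 => ?_⟩
  have hR := hA.trans hAR
  obtain ⟨x, hx⟩ : ∃ x, x = R ^ (ε / 6) := ⟨_, rfl⟩
  have hx1 : 1 ≤ x := hx ▸ Real.one_le_rpow hR (by positivity)
  have hp : ∀ (n : ℕ) (y : ℝ), y = ε / 6 * n → R ^ y = x ^ n := fun n y hy => by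
    rw [hy, hx, Real.rpow_mul_natCast (by linarith)]
  have e1 := hp 6 ε (by push_cast; ring)
  have e2 : (R ^ 4) ^ (ε / 8) = x ^ 3 := by
    rw [← Real.rpow_natCast_mul (by linarith), hp 3 _ (by push_cast; ring)]
  have e3 : x ^ 6 ≤ R := e1 ▸ (Real.rpow_le_rpow_of_exponent_le hR hε1).trans_eq (Real.rpow_one R)
  have hD : ∀ n : O, n ≠ 0 → nr n ≤ L → ((pdiv n).card : ℝ) ≤ Cd * x := fun n hn hn' =>
    (Hd n hn).trans (by rw [hx]; gcongr; exact hn'.trans hLR)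
  have hE₁ : 0 ≤ E₁ := le_trans (by positivity) ((h1 1 0 (by simp) le_rfl).trans_eq (by simp))
  have hE₂ : 0 ≤ E₂ := le_trans (by positivity) ((h2 1 0 (by simp) le_rfl).trans_eq (by simp))
  have hn : 0 ≤ nsq M L α := Finset.sum_nonneg fun _ _ => by positivity
  have hn1 : 0 ≤ nsq1 M L α := Finset.sum_nonneg fun _ _ => by positivity
  rw [hp 18 _ (by push_cast; ring)]
  refine (Hf R A L (E₁ + Cb * Cd ^ 3 * (x ^ 9 * (l * L * nsq1 M L α) + x ^ 12 * (l * E₂))) α hA hAR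
    hL hLR fun ν s hs hs' => ?_).trans ?_
  swap
  · rw [e1, mul_assoc Cf, mul_assoc Cf]
    refine mul_le_mul_of_nonneg_left ?_ hCf.le
    have a1 : 1 ≤ x ^ 18 := one_le_pow₀ hx1
    have a2 : x ^ 6 ≤ x ^ 18 := pow_le_pow_right₀ hx1 (by norm_num)
    have a3 : x ^ 15 ≤ x ^ 18 := pow_le_pow_right₀ hx1 (by norm_num)
    calc _ = 1 * (A * nsq M L α) + x ^ 6 * E₁ +
          Cb * Cd ^ 3 * (x ^ 15 * (l * L * nsq1 M L α) + x ^ 18 * (l * E₂)) := by ring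
      _ ≤ x ^ 18 * (A * nsq M L α) + x ^ 18 * E₁ +
          Cb * Cd ^ 3 * (x ^ 18 * (l * L * nsq1 M L α) + x ^ 18 * (l * E₂)) := by gcongr
      _ ≤ _ := by
        rw [← sub_nonneg]
        ring_nf
        positivity
  set S : Finset (Σ _ : O, Σ _ : O, O) := (sp M L).sigma fun g => (pdiv g).sigma fun _ =>
    (sp (M * g) (L / nr g)).filter fun t => ¬ nr g * nr t ≤ Y with hSdef
  have hS : ∀ i ∈ S, DP3Fam M L i ∧ Y < nr i.1 * nr i.2.2 := fun i hi => by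
    simp only [hSdef, Finset.mem_sigma, Finset.mem_filter, not_le] at hi
    exact ⟨⟨(DP3_mem hi.1).1, hi.2.1, (DP3_mem hi.2.2.1).1,
      (le_div_iff₀' (nr_pos (DP3_mem hi.1).1.1.ne_zero)).1 (DP3_mem hi.2.2.1).2⟩, hi.2.2.2⟩
  have hS' : ∀ i ∈ S, 1 ≤ nr i.1 ∧ 1 ≤ nr i.2.1 ∧ 1 ≤ nr i.2.2 ∧ nr i.2.1 ≤ nr i.1 := fun i hi => by
    obtain ⟨⟨hg, he, ht, -⟩, -⟩ := hS i hi
    obtain ⟨he, he'⟩ := (mem_pdiv hg.1.ne_zero).1 he
    exact ⟨one_le_nr hg.1.ne_zero, one_le_nr he.ne_zero, one_le_nr ht.1.ne_zero,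
      Nat.cast_le.2 (nm_le_of_dvd he' hg.1.ne_zero)⟩
  have hJ : 1 ≤ (1 + |s.im|) ^ J := one_le_pow₀ (by linarith [abs_nonneg s.im])
  have key := Hb S (fun i => A * nr i.1 / (nr i.2.1 * L))
    (fun i => l * (nr i.2.1 * (L / nr i.1) ^ 2 * R ^ ε / A)) (fun i => L / (nr i.1 * nr i.2.2))
    (fun i m => ext α (i.1 * i.2.2) ν (nr i.1 * nr i.2.2) L s m * conj (sym m (i.2.1 * i.2.2 ^ 2)))
    (R ^ 4) (Cd ^ 3 * x ^ 9 * (l * E₂) * (1 + |s.im|) ^ J) (one_le_pow₀ hR) (fun i hi => by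
      obtain ⟨a1, a2, a3, a4⟩ := hS' i hi
      refine ⟨by positivity, by positivity, ?_, by positivity, (div_le_self (by positivity)
        (one_le_mul_of_one_le_of_one_le a1 a3)).trans (hLR.trans (le_self_pow₀ hR (by norm_num)))⟩
      calc _ = l * (L ^ 2 * x ^ 6 * (nr i.2.1 / (nr i.1 ^ 2 * A))) := by rw [e1]; field_simp
        _ ≤ R * (R ^ 2 * R * 1) := by
          gcongr
          exact div_le_one_of_le₀ ((a4.trans (le_self_pow₀ a1 two_ne_zero)).trans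
            (le_mul_of_one_le_right (by positivity) hA)) (by positivity)
        _ = R ^ 4 := by ring) fun ν' s' h3 h4 => by
      have k1 := DP3_child hM α ν ν' (Y := Y) (A := A / l) (by positivity) (by positivity) s s' hD hS
        (X := fun i => (L / (nr i.1 * nr i.2.2)) ^ 2 * (R ^ 4) ^ (ε / 8) /
          (l * (nr i.2.1 * (L / nr i.1) ^ 2 * R ^ ε / A))) fun i hi => by
          obtain ⟨a1, a2, a3, a4⟩ := hS' i hi
          refine ⟨by positivity, le_trans (le_of_eq ?_) (div_le_self (by positivity)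
            (one_le_pow₀ (n := 3) hx1))⟩
          rw [e1, e2]
          field_simp
      have k2 := h2 (ν * ν') (s + s') (by rw [Complex.add_re]; linarith)
        (by rw [Complex.add_re]; linarith)
      have k3 : (1 + |(s + s').im|) ^ J ≤ (1 + |s.im|) ^ J * (1 + |s'.im|) ^ J := by
        rw [← mul_pow, Complex.add_im]
        gcongr
        nlinarith [abs_add_le s.im s'.im, abs_nonneg s.im, abs_nonneg s'.im]
      calc _ = l * x ^ 6 * _ := by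
            rw [Finset.mul_sum]
            refine Finset.sum_congr rfl fun i hi => ?_
            obtain ⟨a1, a2, a3, a4⟩ := hS' i hi
            rw [← mul_assoc (l * x ^ 6)]
            congr 1
            rw [e1]
            field_simp
        _ ≤ l * x ^ 6 * ((Cd * x) ^ 3 * (E₂ * ((1 + |s.im|) ^ J * (1 + |s'.im|) ^ J))) :=
            mul_le_mul_of_nonneg_left (k1.trans (mul_le_mul_of_nonneg_left
              (k2.trans (by gcongr)) (by positivity))) (by positivity)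
        _ = _ := by ring
  have diag : ∑ i ∈ S, A * nr i.1 / (nr i.2.1 * L) *
      (l * (nr i.2.1 * (L / nr i.1) ^ 2 * R ^ ε / A)) * nsq M (L / (nr i.1 * nr i.2.2)) (fun m =>
        ext α (i.1 * i.2.2) ν (nr i.1 * nr i.2.2) L s m * conj (sym m (i.2.1 * i.2.2 ^ 2))) ≤
      l * L * x ^ 6 * ((Cd * x) ^ 3 * nsq1 M L α) := by
    refine le_trans ?_ (mul_le_mul_of_nonneg_left (DP3_diag hM α ν (by positivity) hs hD
      fun i hi => (hS i hi).1) (by positivity))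
    rw [Finset.mul_sum]
    refine Finset.sum_le_sum fun i hi => mul_le_mul_of_nonneg_right ?_
      (Finset.sum_nonneg fun _ _ => by positivity)
    obtain ⟨a1, a2, a3, a4⟩ := hS' i hi
    refine le_trans (le_of_eq ?_) (div_le_self (by positivity) a1)
    rw [e1]
    field_simp
  rw [DP3_split _ _ _ fun g t => nr g * nr t ≤ Y]
  calc _ ≤ E₁ * (1 + |s.im|) ^ J + Cb * (l * L * x ^ 6 * ((Cd * x) ^ 3 * nsq1 M L α) *
        (1 + |s.im|) ^ J + x ^ 3 * (Cd ^ 3 * x ^ 9 * (l * E₂) * (1 + |s.im|) ^ J)) := by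
        refine add_le_add (h1 ν s hs hs') (le_trans (Finset.sum_le_sum fun i hi => ?_) (key.trans ?_))
        · obtain ⟨a1, a2, a3, a4⟩ := hS' i hi
          exact mul_le_mul_of_nonneg_left (Finset.sum_le_sum_of_subset_of_nonneg
            (rows_mono (le_mul_of_one_le_left (by positivity) hl)) fun _ _ _ => sq_nonneg _)
            (by positivity)
        · rw [e2]
          exact mul_le_mul_of_nonneg_left (add_le_add_left
            (diag.trans (le_mul_of_one_le_right (by positivity) hJ)) _) hCb.le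
    _ = _ := by ring

end Crest.Agent.R17
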