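import Crest.Agent.PVc.R17.HSideDefs
import Crest.Agent.PVc.R17.DP

-- ▼ part PVc/R17/HSideB
section

/-!
# Row 17, `hside`, part B: summability, the term `h = 0`, Mellin separation
-/

set_option autoImplicit false

noncomputable section

namespace Crest.Agent.R17.HS

open scoped ComplexConjugate
open MeasureTheory

/-- Majorant of the theta side (`PB1_norm_th_le`, `summable_Sm` with `PolyB th 1 (1/2)`). -/
theorem summable_th {D : ℝ} (hD : 0 < D) (s : ℂ) :
    Summable (fun n : O => ‖th n * Wc (nr n / D) s‖) := by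
  have h : PolyB th 1 (1 / 2) := by
    refine ⟨?_, fun n => ?_⟩
    · rw [th, if_neg fun h0 => Primary.ne_zero h0.1 rfl]
    · rw [one_mul, ← Real.sqrt_eq_rpow]
      exact PB1_norm_th_le n
  exact summable_Sm h hD s

theorem hB_summable_rpow {X a : ℝ} (hX : 0 < X) (ha : a ≠ 0) (s : ℂ) :
    Summable (fun x : O => nr x ^ a * ‖Wc (nr x / X) s‖) := by
  have h : PolyB (fun x => ((nr x ^ a : ℝ) : ℂ)) 1 a := by
    refine ⟨by simp [nr, Real.zero_rpow ha], fun n => ?_⟩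
    rw [one_mul, Complex.norm_real, Real.norm_of_nonneg (by positivity)]
  refine (summable_Sm h hX s).congr fun x => ?_
  rw [norm_mul, Complex.norm_real, Real.norm_of_nonneg (by positivity)]

/-- Majorant of the Gauss sum side in the two variables `(x, h)`: `summable_prod_of_nonneg`,
`summable_gw'`, `tsum_gw_le` (`∑_h gw (N h/(Y N x)) ≤ 1 + 7 Y N x` for `x ≠ 0`; the terms `x = 0`
vanish) and `summable_Sm`. -/
theorem summable_G {X Y : ℝ} (hX : 0 < X) (hY : 0 < Y) (s : ℂ) :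
    Summable (fun v : O × O =>
      nr v.1 ^ (1 / 2 : ℝ) * ‖Wc (nr v.1 / X) s‖ * gw (nr v.2 / (Y * nr v.1))) := by
  have h0 : nr (0 : O) ^ (1 / 2 : ℝ) = 0 := by simp [nr]
  refine (summable_prod_of_nonneg fun v => mul_nonneg (by positivity) (gw_pos _).le).2
    ⟨fun x => ?_, ?_⟩
  · by_cases hx : x = 0
    · subst hx
      simp only [h0, zero_mul]
      exact summable_zero
    · exact (summable_gw' (mul_pos hY (nr_pos hx))).mul_left
        (nr x ^ (1 / 2 : ℝ) * ‖Wc (nr x / X) s‖)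
  · refine Summable.of_nonneg_of_le
      (fun x => tsum_nonneg fun k => mul_nonneg (by positivity) (gw_pos _).le) (fun x => ?_)
      ((hB_summable_rpow hX (a := 1 / 2) (by norm_num) s).add
        ((hB_summable_rpow hX (a := 1 / 2 + 1) (by norm_num) s).mul_left (7 * Y)))
    by_cases hx : x = 0
    · subst hx
      simp only [h0, zero_mul, tsum_zero, zero_add]
      positivity
    · have h1 := nr_pos hx
      simp only
      rw [tsum_mul_left, Real.rpow_add_one h1.ne']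
      refine (mul_le_mul_of_nonneg_left (tsum_gw_le (mul_pos hY h1)) (by positivity)).trans
        (le_of_eq ?_)
      ring

theorem hB_norm_Tz_le {φ : O → ℂ} (hφ : ∀ n, ‖φ n‖ ≤ 1) {B : ℝ} (hB : 0 < B) {z : O} (hz : z ≠ 0)
    (h : O) : ‖Tz φ B z h‖ ≤ ∑' n : O, ‖th n * Wc (nr n / (B * nr z)) (1 / 2)‖ := by
  refine tsum_of_norm_bounded (summable_th (mul_pos hB (nr_pos hz)) (1 / 2)).hasSum fun n => ?_
  split_ifs
  · rw [norm_mul, norm_mul, norm_mul, norm_mul, mul_assoc ‖th n‖]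
    exact mul_le_mul_of_nonneg_right (mul_le_of_le_one_right (norm_nonneg _)
      (mul_le_one₀ (hφ n) (norm_nonneg _) (norm_sym_le n h))) (norm_nonneg _)
  · rw [norm_zero]
    exact norm_nonneg _

/-- `Tz` is bounded uniformly in `h`, and `‖Gz h‖ ≤ ∑_x` (majorant of `summable_G`). -/
theorem summable_dual {M : O} (hM : M ≠ 0) {φ : O → ℂ} (hφ : ∀ n, ‖φ n‖ ≤ 1) (ν : Chr M)
    {B X Y : ℝ} (hB : 0 < B) (hX : 0 < X) (hY : 0 < Y) {z : O} (hz : z ≠ 0) :
    Summable (fun h : O => ‖Tz φ B z h * Gz ν X Y h‖) := by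
  have hG := (summable_G hX hY (-(1 / 2))).prod_symm
  refine Summable.of_nonneg_of_le (fun _ => norm_nonneg _) (fun h => ?_)
    (hG.prod.mul_left (∑' n : O, ‖th n * Wc (nr n / (B * nr z)) (1 / 2)‖))
  rw [norm_mul]
  refine mul_le_mul (hB_norm_Tz_le hφ hB hz h) ?_ (norm_nonneg _)
    (tsum_nonneg fun _ => norm_nonneg _)
  refine tsum_of_norm_bounded (hG.prod_factor h).hasSum fun x => ?_
  rw [norm_mul, Complex.norm_conj, norm_mul, Complex.norm_real, Real.norm_of_nonneg (gw_pos _).le]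
  exact mul_le_mul_of_nonneg_right (mul_le_mul_of_nonneg_right (norm_gx_le hM ν _ x)
    (norm_nonneg _)) (gw_pos _).le

theorem hB_Tz_zero (φ : O → ℂ) (B : ℝ) {z : O} (hz : Primary z) :
    Tz φ B z 0 = if z = 1 then th 1 * φ 1 * sym 1 0 * Wc (nr 1 / (B * nr 1)) (1 / 2) else 0 := by
  classical
  unfold Tz
  rw [tsum_eq_single 1]
  · by_cases h1 : z = 1
    · subst h1
      rw [if_pos (dvd_refl _), if_pos rfl]
    · rw [if_neg h1, if_neg fun h => h1 (hz.eq_one_of_isUnit (isUnit_of_dvd_one h))]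
  · intro n hn
    split_ifs
    · by_cases hp : Primary n
      · rw [(sym_eq_zero_iff hp).2 fun h => hn (hp.eq_one_of_isUnit (isCoprime_zero_right.1 h)),
          mul_zero, zero_mul]
      · rw [th, if_neg fun h => hp h.1, zero_mul, zero_mul, zero_mul]
    · rfl

/-- The term `h = 0`: `th n * sym n 0 ≠ 0` forces `n = 1` (`sym_eq_zero_iff`), hence `z = 1`;
`‖Tz φ B 1 0‖ ≤ exp (1/16)` (`norm_Wc_le`), `‖Gz ν X Y 0‖ ≤ C X^{3/2} ≤ C K` (`tsum_norm_Sm_le`,
`polyB_gx`, `gw_le_one`). -/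
theorem zero_term {M : O} (hM : M ≠ 0) : ∃ C : ℝ, 0 < C ∧ ∀ (B X K : ℝ) (Y : O → ℝ) (φ : O → ℂ)
    (ν : Chr M) (Zs : Finset O) (c : O → ℂ), 0 < X → 0 ≤ K → X ^ 3 ≤ K ^ 2 → (∀ n, ‖φ n‖ ≤ 1) →
      (∀ z ∈ Zs, Primary z) → (∀ z, ‖c z‖ ≤ 1) →
      ‖∑ z ∈ Zs, c z * (Tz φ B z 0 * Gz ν X (Y z) 0)‖ ≤ C * K := by
  classical
  obtain ⟨C, hC, H⟩ := tsum_norm_Sm_le 0 (1 / 2) 1 (by norm_num)
  refine ⟨Real.exp 1 * C, by positivity, fun B X K Y φ ν Zs c hX hK hXK hφ hZ hc => ?_⟩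
  have h1 : ∑ z ∈ Zs, c z * (Tz φ B z 0 * Gz ν X (Y z) 0) = ∑ z ∈ Zs, if z = 1 then
      c 1 * (th 1 * φ 1 * sym 1 0 * Wc (nr 1 / (B * nr 1)) (1 / 2) * Gz ν X (Y 1) 0) else 0 := by
    refine Finset.sum_congr rfl fun z hz => ?_
    rw [hB_Tz_zero φ B (hZ z hz)]
    split_ifs with h
    · rw [h]
    · rw [zero_mul, mul_zero]
  rw [h1, Finset.sum_ite_eq']
  split_ifs
  swap
  · rw [norm_zero]
    positivity
  have h2 : ‖th 1 * φ 1 * sym 1 0 * Wc (nr 1 / (B * nr 1)) (1 / 2)‖ ≤ Real.exp 1 := by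
    rw [PB1_th_one, one_mul, norm_mul, norm_mul]
    refine (mul_le_of_le_one_left (norm_nonneg _)
      (mul_le_one₀ (hφ 1) (norm_nonneg _) (norm_sym_le _ _))).trans
      ((norm_Wc_le _ _).trans (Real.exp_le_exp.2 ?_))
    norm_num
  have h3 : X ^ (1 / 2 + 1 : ℝ) ≤ K := by
    refine le_of_sq_le_sq ?_ hK
    rw [← Real.rpow_natCast, ← Real.rpow_mul hX.le]
    norm_num
    exact hXK
  have h4 : ‖Gz ν X (Y 1) 0‖ ≤ C * K := by
    have h5 := H _ 1 X (-(1 / 2)) (polyB_gx hM ν (-0)) hX (by norm_num [abs_le])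
    rw [mul_one] at h5
    refine le_trans ?_ (h5.trans (mul_le_mul_of_nonneg_left ((min_le_left _ _).trans h3) hC.le))
    refine tsum_of_norm_bounded (summable_Sm (polyB_gx hM ν (-0)) hX _).hasSum fun x => ?_
    rw [norm_mul, Complex.norm_conj, Complex.norm_real, Real.norm_of_nonneg (gw_pos _).le]
    exact mul_le_of_le_one_right (norm_nonneg _) (gw_le_one (by simp [nr]))
  rw [norm_mul, norm_mul _ (Gz _ _ _ _), mul_assoc (Real.exp 1)]
  exact (mul_le_of_le_one_left (by positivity) (hc 1)).trans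
    (mul_le_mul h2 h4 (norm_nonneg _) (Real.exp_pos _).le)

theorem hB_int {σ : ℝ} (hσ : 0 < σ) {f : ℝ → ℂ} (hf : Continuous f) {C : ℝ} (hC : ∀ u, ‖f u‖ ≤ C) :
    Integrable fun u : ℝ => Complex.Gamma (σ + u * Complex.I) * f u := by
  have h : Integrable fun u : ℝ => Complex.Gamma (σ + u * Complex.I) :=
    (integrable_norm_iff (WA.continuous_Gamma_line hσ).aestronglyMeasurable).1
      (by simpa using integrable_Gamma_mul_pow hσ 0)
  exact h.mul_bdd hf.aestronglyMeasurable (Filter.Eventually.of_forall hC)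

theorem hB_cont_cpow {y : ℝ} (hy : 0 < y) {f : ℝ → ℂ} (hf : Continuous f) :
    Continuous fun u => (y : ℂ) ^ f u := by
  simp only [WA.cpow_eq hy]
  fun_prop

theorem hB_norm_term {M : O} (ν : Chr M) (X σ u : ℝ) (k x : O) :
    ‖gx ν k x * Wc (nr x / X) (conj (σ + u * Complex.I) - 1 / 2)‖ =
      ‖gx ν k x * Wc (nr x / X) (σ - 1 / 2)‖ := by
  rw [norm_mul, norm_mul, norm_Wc, norm_Wc]
  simp

theorem hB_cont_term {M : O} (ν : Chr M) (X σ : ℝ) (k x : O) :
    Continuous fun u : ℝ => gx ν k x * Wc (nr x / X) (conj (σ + u * Complex.I) - 1 / 2) := by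
  unfold Wc
  fun_prop

theorem hB_cont_Gsum {M : O} (hM : M ≠ 0) (ν : Chr M) {X : ℝ} (hX : 0 < X) (σ : ℝ) (k : O) :
    Continuous fun u : ℝ => Gsum ν X (conj (σ + u * Complex.I) - 1 / 2) k := by
  simp only [Gsum_eq]
  exact continuous_tsum (hB_cont_term ν X σ k) (summable_Sm (polyB_gx hM ν k) hX (σ - 1 / 2))
    fun x u => (hB_norm_term ν X σ u k x).le

theorem hB_norm_Gsum {M : O} (hM : M ≠ 0) (ν : Chr M) {X : ℝ} (hX : 0 < X) (σ u : ℝ) (k : O) :
    ‖Gsum ν X (conj (σ + u * Complex.I) - 1 / 2) k‖ ≤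
      ∑' x : O, ‖gx ν k x * Wc (nr x / X) (σ - 1 / 2)‖ := by
  rw [Gsum_eq]
  exact tsum_of_norm_bounded (summable_Sm (polyB_gx hM ν k) hX (σ - 1 / 2)).hasSum
    fun x => (hB_norm_term ν X σ u k x).le

theorem hB_norm_pow {A t : ℝ} (hA : 0 < A) (ht : 0 < t) (σ u : ℝ) :
    ‖(A : ℂ) ^ (-(σ + u * Complex.I)) * (t : ℂ) ^ (σ + u * Complex.I)‖ = A ^ (-σ) * t ^ σ := by
  rw [norm_mul, Complex.norm_cpow_eq_rpow_re_of_pos hA, Complex.norm_cpow_eq_rpow_re_of_pos ht]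
  simp

/-- Mellin separation of one `Gz`. -/
theorem hB_Gz {M : O} (hM : M ≠ 0) (ν : Chr M) {X Y A t σ : ℝ} (hX : 0 < X) (hY : 0 < Y)
    (hA : 0 < A) (ht : 0 < t) (hσ : 0 < σ) {h : O} (hh : h ≠ 0)
    (e : 2 * Real.pi / Real.sqrt 3 * (nr h / Y) = A * X / t) :
    Gz ν X Y h = (1 / (2 * Real.pi) : ℂ) * ∫ u : ℝ, Complex.Gamma (σ + u * Complex.I) *
      ((A : ℂ) ^ (-(σ + u * Complex.I)) * (t : ℂ) ^ (σ + u * Complex.I) *
        conj (Gsum ν X (conj (σ + u * Complex.I) - 1 / 2) (-h))) := by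
  set F : O → ℝ → ℂ := fun x u => Complex.Gamma (σ + u * Complex.I) *
      ((A : ℂ) ^ (-(σ + u * Complex.I)) * (t : ℂ) ^ (σ + u * Complex.I) *
        conj (gx ν (-h) x * Wc (nr x / X) (conj (σ + u * Complex.I) - 1 / 2))) with hF
  have hn : ∀ (x : O) (u : ℝ), ‖(A : ℂ) ^ (-(σ + u * Complex.I)) * (t : ℂ) ^ (σ + u * Complex.I) *
      conj (gx ν (-h) x * Wc (nr x / X) (conj (σ + u * Complex.I) - 1 / 2))‖ =
      A ^ (-σ) * t ^ σ * ‖gx ν (-h) x * Wc (nr x / X) (σ - 1 / 2)‖ := fun x u => by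
    rw [norm_mul, hB_norm_pow hA ht, Complex.norm_conj, hB_norm_term]
  have hi : ∀ x, Integrable (F x) := fun x =>
    hB_int hσ (((hB_cont_cpow hA (by fun_prop)).mul (hB_cont_cpow ht (by fun_prop))).mul
      (Complex.continuous_conj.comp (hB_cont_term ν X σ (-h) x))) fun u => (hn x u).le
  have hs : Summable fun x => ∫ u, ‖F x u‖ := by
    simp only [hF, norm_mul (Complex.Gamma _), hn, integral_mul_const]
    exact ((summable_Sm (polyB_gx hM ν (-h)) hX (σ - 1 / 2)).mul_left _).mul_left _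
  have h1 : ∀ x : O, conj (gx ν (-h) x * Wc (nr x / X) (-(1 / 2))) * (gw (nr h / (Y * nr x)) : ℂ) =
      (1 / (2 * Real.pi) : ℂ) * ∫ u, F x u := fun x => by
    by_cases hx : x = 0
    · subst hx
      simp [hF, (polyB_gx hM ν (-h)).1]
    have h2 := nr_pos hx
    have h3 := nr_pos hh
    have h4 : 0 < nr x / X := div_pos h2 hX
    rw [gw_eq_integral (by positivity) hσ, mul_left_comm, ← integral_const_mul]
    congr 2
    funext u
    have h5 : 2 * Real.pi / Real.sqrt 3 * (nr h / (Y * nr x)) = A / (t * (nr x / X)) := by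
      rw [← div_div, ← mul_div_assoc _ (nr h / Y), e]
      field_simp
    have h6 : conj (conj ((σ : ℂ) + u * Complex.I) - 1 / 2) = -(1 / 2) + (σ + u * Complex.I) := by
      rw [map_sub, Complex.conj_conj]
      simp [map_ofNat]
      ring
    have h7 : conj (-(1 / 2) : ℂ) = -(1 / 2) := by simp [map_ofNat]
    simp only [hF]
    rw [h5, map_mul, map_mul, conj_Wc, conj_Wc, h6, h7, Wc_add h4, WA.cpow_eq (by positivity),
      WA.cpow_eq hA, WA.cpow_eq ht, WA.cpow_eq h4, Real.log_div hA.ne' (by positivity),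
      Real.log_mul ht.ne' h4.ne']
    generalize (σ : ℂ) + u * Complex.I = s
    rw [show -s * ((Real.log A - (Real.log t + Real.log (nr x / X)) : ℝ) : ℂ) =
      -s * (Real.log A : ℂ) + s * (Real.log t : ℂ) + s * (Real.log (nr x / X) : ℂ) by
        push_cast; ring, Complex.exp_add, Complex.exp_add]
    ring
  unfold Gz
  simp only [h1]
  rw [tsum_mul_left, integral_tsum_of_summable_integral_norm hi hs]
  congr 2
  funext u
  simp only [hF]
  rw [tsum_mul_left, tsum_mul_left, Gsum_eq, Complex.conj_tsum]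

/-- **Mellin separation** for `h ≠ 0`.  With `s = σ + iu` and `κ = 2π/√3 ≥ 1`, `gw_eq_integral`
gives for `x ≠ 0`
`gw (N h/(L N z N x)) = (1/2π) ∫ Γ(s) (κ N h/(2 L Z X))^{-s} (N z/(2Z))^s (N x/X)^s du`;
interchange `∑'_x` and `∫` (`integral_tsum_of_summable_integral_norm` or
`hasSum_integral_of_summable_integral_norm`; `‖(N x/X)^s‖ = (N x/X)^σ`, `Wc_add`, `summable_Sm`),
then the finite sum over `z` (`integral_finset_sum`);
`conj (Wc y (-1/2)) y^s = Wc y (s - 1/2) = conj (Wc y (conj s - 1/2))` (`conj_Wc`, `Wc_add`),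
`Gsum_eq`, `Tc_eq`; finally `norm_integral_le_integral_norm` and
`(1/2π) (κ N h/(2 L Z X))^{-σ} ≤ (K / N h)^σ` (pull this constant out of the integral, no
monotonicity of the integral is needed). -/
theorem mellin_h {M : O} (hM : M ≠ 0) {φ : O → ℂ} (ν : Chr M) {B X L Z K σ : ℝ} (hX : 0 < X)
    (hL : 0 < L) (hZ : 0 < Z) (hK : 2 * L * Z * X ≤ K) (hσ : 0 < σ) (Zs : Finset O)
    (hz : ∀ z ∈ Zs, z ≠ 0) (c : O → ℂ) {h : O} (hh : h ≠ 0) :
    ‖∑ z ∈ Zs, c z * (Tz φ B z h * Gz ν X (L * nr z) h)‖ ≤ (K / nr h) ^ σ *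
      ∫ u : ℝ, ‖Complex.Gamma (σ + u * Complex.I)‖ *
        (‖Tc φ Zs (cs Zs c Z (σ + u * Complex.I)) B (1 / 2) h‖ *
          ‖Gsum ν X (conj (σ + u * Complex.I) - 1 / 2) (-h)‖) := by
  have hπ := Real.pi_gt_three
  have hκ := pois_three_le
  have h3 := nr_pos hh
  set κ := 2 * Real.pi / Real.sqrt 3 with hκd
  have hκ0 : 0 < κ := by linarith
  set A : ℝ := κ * nr h / (2 * L * Z * X) with hAd
  have hA : 0 < A := by positivity
  set G : ℝ → ℂ := fun u => conj (Gsum ν X (conj (σ + u * Complex.I) - 1 / 2) (-h)) with hG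
  have h1 : ∀ z ∈ Zs, c z * (Tz φ B z h * Gz ν X (L * nr z) h) =
      (1 / (2 * Real.pi) : ℂ) * ∫ u : ℝ, c z * Tz φ B z h * (Complex.Gamma (σ + u * Complex.I) *
        ((A : ℂ) ^ (-(σ + u * Complex.I)) * ((nr z / (2 * Z) : ℝ) : ℂ) ^ (σ + u * Complex.I) *
          G u)) := fun z hzs => by
    have h4 := nr_pos (hz z hzs)
    rw [hB_Gz hM ν hX (by positivity) hA (t := nr z / (2 * Z)) (by positivity) hσ hh
      (by rw [← hκd, hAd]; field_simp), integral_const_mul]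
    ring
  have h2 : ∀ z ∈ Zs, Integrable fun u : ℝ => c z * Tz φ B z h *
      (Complex.Gamma (σ + u * Complex.I) * ((A : ℂ) ^ (-(σ + u * Complex.I)) *
        ((nr z / (2 * Z) : ℝ) : ℂ) ^ (σ + u * Complex.I) * G u)) := fun z hzs => by
    have h4 := nr_pos (hz z hzs)
    have ht : 0 < nr z / (2 * Z) := by positivity
    refine (hB_int hσ (((hB_cont_cpow hA (by fun_prop)).mul (hB_cont_cpow ht (by fun_prop))).mul
      (Complex.continuous_conj.comp (hB_cont_Gsum hM ν hX σ (-h))))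
      (C := A ^ (-σ) * (nr z / (2 * Z)) ^ σ * ∑' x : O, ‖gx ν (-h) x * Wc (nr x / X) (σ - 1 / 2)‖)
      fun u => ?_).const_mul _
    simp only [Pi.mul_apply, Function.comp_apply]
    rw [norm_mul, hB_norm_pow hA ht, Complex.norm_conj]
    exact mul_le_mul_of_nonneg_left (hB_norm_Gsum hM ν hX σ u (-h)) (by positivity)
  rw [Finset.sum_congr rfl h1, ← Finset.mul_sum, ← integral_finsetSum _ h2, norm_mul]
  refine (mul_le_mul_of_nonneg_left (norm_integral_le_integral_norm _) (norm_nonneg _)).trans ?_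
  have h5 : ∀ u : ℝ, ‖∑ z ∈ Zs, c z * Tz φ B z h *
      (Complex.Gamma (σ + u * Complex.I) * ((A : ℂ) ^ (-(σ + u * Complex.I)) *
        ((nr z / (2 * Z) : ℝ) : ℂ) ^ (σ + u * Complex.I) * G u))‖ =
      A ^ (-σ) * (‖Complex.Gamma (σ + u * Complex.I)‖ *
        (‖Tc φ Zs (cs Zs c Z (σ + u * Complex.I)) B (1 / 2) h‖ *
          ‖Gsum ν X (conj (σ + u * Complex.I) - 1 / 2) (-h)‖)) := fun u => by
    have h6 : ∑ z ∈ Zs, c z * Tz φ B z h *
        (Complex.Gamma (σ + u * Complex.I) * ((A : ℂ) ^ (-(σ + u * Complex.I)) *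
          ((nr z / (2 * Z) : ℝ) : ℂ) ^ (σ + u * Complex.I) * G u)) =
        (A : ℂ) ^ (-(σ + u * Complex.I)) * (Complex.Gamma (σ + u * Complex.I) *
          (Tc φ Zs (cs Zs c Z (σ + u * Complex.I)) B (1 / 2) h * G u)) := by
      rw [Tc_eq, Finset.sum_mul, Finset.mul_sum, Finset.mul_sum]
      refine Finset.sum_congr rfl fun z hzs => ?_
      rw [cs, if_pos hzs]
      ring
    rw [h6, norm_mul, norm_mul, norm_mul, Complex.norm_cpow_eq_rpow_re_of_pos hA, hG,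
      Complex.norm_conj]
    simp
  simp only [h5]
  rw [integral_const_mul, ← mul_assoc]
  refine mul_le_mul_of_nonneg_right ?_ (integral_nonneg fun u => by positivity)
  have h7 : ‖(1 / (2 * Real.pi) : ℂ)‖ ≤ 1 := by
    rw [norm_div, norm_one, norm_mul, Complex.norm_real, Real.norm_of_nonneg Real.pi_pos.le,
      Complex.norm_ofNat, div_le_one (by positivity)]
    linarith
  refine (mul_le_of_le_one_left (by positivity) h7).trans ?_
  rw [Real.rpow_neg hA.le, ← Real.inv_rpow hA.le]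
  refine Real.rpow_le_rpow (by positivity) ?_ hσ.le
  rw [hAd, inv_div]
  exact div_le_div₀ ((by positivity : 0 ≤ 2 * L * Z * X).trans hK) hK h3
    (le_mul_of_one_le_left h3.le (by linarith))

end Crest.Agent.R17.HS
end
end

-- ▼ part PVc/R17/HSideA
section

/-!
# Row 17, `hside`, part A: the exact dual identity
-/

set_option autoImplicit false

noncomputable section

namespace Crest.Agent.R17.HS

open scoped ComplexConjugate

theorem A_cond_congr {M : O} (hM : Adm M) {n n' : O} (h : M ∣ n - n')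
    (hn : Primary n ∧ IsCoprime n M) : Primary n' ∧ IsCoprime n' M := by
  obtain ⟨k, hk⟩ := h
  have e : n' = n + M * (-k) := by linear_combination -hk
  refine ⟨?_, by rw [e]; exact hn.2.add_mul_left_left _⟩
  have h3 : (3 : O) ∣ M := Dvd.dvd.trans ⟨24, by norm_num⟩ hM.2
  have : n' - 1 = (n - 1) + M * (-k) := by rw [e]; ring
  rw [Primary, this]
  exact dvd_add hn.1 (h3.mul_right _)

theorem A_cond_iff {M : O} (hM : Adm M) {n n' : O} (h : M ∣ n - n') :
    Primary n ∧ IsCoprime n M ↔ Primary n' ∧ IsCoprime n' M :=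
  ⟨A_cond_congr hM h, A_cond_congr hM (by rw [← dvd_neg, neg_sub]; exact h)⟩

theorem A_xiR_congr {M : O} (hM : Adm M) (a a' : O) (h : M ∣ a - a') : xiR M a = xiR M a' := by
  classical
  unfold xiR
  exact if_congr (A_cond_iff hM h) rfl rfl

theorem A_xiR_mul {M y : O} (hy : Primary y) (hyM : IsCoprime y M) (a : O) :
    xiR M (y * a) = xiR M a := by
  classical
  unfold xiR
  exact if_congr ⟨fun h => ⟨hy.of_mul h.1, h.2.of_mul_left_right⟩,
    fun h => ⟨hy.mul h.1, hyM.mul_left h.2⟩⟩ rfl rfl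

theorem A_norm_xiR (M a : O) : ‖xiR M a‖ ≤ 1 := by
  unfold xiR
  split_ifs <;> simp

theorem A_ft_congr (q : O) (f : O → ℂ) (a a' : O) (h : q ∣ a - a') : ft q f a = ft q f a' :=
  Finset.sum_congr rfl fun x _ => by
    rw [eq_congr (show q ∣ a * x - a' * x from sub_mul a a' x ▸ h.mul_right x)]

/-- Poisson summation in the row for one pair `(n, x)`: `poisson` with `q = M * (n * x)`, `ft_mul`,
`xiR M (n * x * y) = xiR M y`, `PB1_ft_row` (with `y = M`), `PB1_ft_const`, `ft_ft`, `PB1_per`. -/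
theorem pois_pair {M : O} (hM : Adm M) {n x : O} (hn : Primary n) (hnM : IsCoprime n M)
    (hx : Primary x) (hxM : IsCoprime x M) {Y : ℝ} (hY : 0 < Y) :
    ∑' a : O, xiR M a * ft (n * x) (fun k => sym n k * conj (gs 5 x k)) a * (gw (nr a / Y) : ℂ) =
      ((Y / nr M : ℝ) : ℂ) * (conj (sym n M) * sym x M) *
        ∑' h : O, ft M (xiR M) h * (sym n (-h) * conj (gs 5 x (-h))) *
          (gw (Y * nr h / (nr M * nr n * nr x)) : ℂ) := by
  have hq : n * x ≠ 0 := mul_ne_zero hn.ne_zero hx.ne_zero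
  have hc : IsCoprime M (n * x) := (hnM.mul_left hxM).symm
  have pM := nr_pos hM.1
  have pn := nr_pos hn.ne_zero
  have px := nr_pos hx.ne_zero
  rw [poisson (mul_ne_zero hM.1 hq)
    (fun a => xiR M a * ft (n * x) (fun k => sym n k * conj (gs 5 x k)) a) (fun a a' h => by
      rw [A_xiR_congr hM a a' ((dvd_mul_right _ _).trans h),
        A_ft_congr _ _ a a' ((dvd_mul_left _ _).trans h)]) hY, ← tsum_mul_left, ← tsum_mul_left]
  refine tsum_congr fun h => ?_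
  rw [ft_mul hM.1 hq hc _ _ (A_xiR_congr hM) (A_ft_congr _ _)]
  simp only [A_xiR_mul (hn.mul hx) (hnM.mul_left hxM), mul_comm M,
    PB1_ft_row (PO.of_adm hM hn hnM) (PO.of_adm hM hx hxM) hc]
  rw [PB1_ft_const, ft_ft hq _ (PB1_per n x)]
  have e1 : nr (n * x * M) = nr M * nr n * nr x := by
    rw [nr_mul, nr_mul]
    ring
  have e2 : ((Y / (nr M * nr n * nr x) : ℝ) : ℂ) * (nm (n * x) : ℂ) = ((Y / nr M : ℝ) : ℂ) := by
    rw [← Complex.ofReal_natCast, ← Complex.ofReal_mul]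
    congr 1
    rw [show ((nm (n * x) : ℕ) : ℝ) = nr n * nr x from nr_mul n x]
    field_simp
  rw [e1, ← e2]
  ring

open Classical in
theorem A_summable_T {M : O} (hM : Adm M) (ψ : Chr M) {B : ℝ} (hB : 0 < B) {z π : O}
    (hz : z ≠ 0) (hπ : π ≠ 0) : Summable (fun v : O × O × O => xiR M v.1 *
      if z ∣ v.2.1 then cf ψ v.1 v.2.1 v.2.2 * Phi B v.1 (nr v.2.1 / nr z) (nr v.2.2 * nr π)
      else 0) := by
  refine Summable.of_norm_bounded (summable_probe hM ψ hB hz hπ) fun v => ?_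
  rw [norm_mul]
  refine (mul_le_of_le_one_left (norm_nonneg _) (A_norm_xiR _ _)).trans ?_
  split_ifs
  · exact le_rfl
  · rw [norm_zero]
    exact norm_nonneg _

theorem summable_row {M : O} (hM : Adm M) (ψ : Chr M) {B : ℝ} (hB : 0 < B) {z π : O}
    (hz : z ≠ 0) (hπ : π ≠ 0) : Summable (fun a : O => xiR M a * Irow ψ B a z π) := by
  have h := (A_summable_T hM ψ hB hz hπ).prod
  simp only [tsum_mul_left] at h
  exact h

open Classical in
theorem A_norm_t {φ : O → ℂ} (hφ : ∀ n, ‖φ n‖ ≤ 1) (D : ℝ) (z h n : O) :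
    ‖(if z ∣ n then th n * φ n * sym n h * Wc (nr n / D) (1 / 2) else 0 : ℂ)‖ ≤
      ‖th n * Wc (nr n / D) (1 / 2)‖ := by
  split_ifs
  · rw [show th n * φ n * sym n h * Wc (nr n / D) (1 / 2) =
      φ n * sym n h * (th n * Wc (nr n / D) (1 / 2)) by ring, norm_mul, norm_mul]
    exact mul_le_of_le_one_left (norm_nonneg _)
      (mul_le_one₀ (hφ n) (norm_nonneg _) (norm_sym_le _ _))
  · rw [norm_zero]
    exact norm_nonneg _

theorem A_norm_g {M : O} (hM : M ≠ 0) (ν : Chr M) (X Y : ℝ) (h x : O) :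
    ‖conj (gx ν (-h) x * Wc (nr x / X) (-(1 / 2))) * (gw (nr h / (Y * nr x)) : ℂ)‖ ≤
      nr x ^ (1 / 2 : ℝ) * ‖Wc (nr x / X) (-(1 / 2))‖ * gw (nr h / (Y * nr x)) := by
  rw [norm_mul, Complex.norm_conj, norm_mul, Complex.norm_real, Real.norm_of_nonneg (gw_pos _).le]
  exact mul_le_mul_of_nonneg_right
    (mul_le_mul_of_nonneg_right (norm_gx_le hM ν _ _) (norm_nonneg _)) (gw_pos _).le

open Classical in
theorem A_dual {M : O} (hM : M ≠ 0) {φ θ : O → ℂ} (hφ : ∀ n, ‖φ n‖ ≤ 1) (hθ : ∀ h, ‖θ h‖ ≤ 1)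
    (ν : Chr M) {B X L : ℝ} (hB : 0 < B) (hX : 0 < X) (hL : 0 < L) {z : O} (hz : z ≠ 0)
    (U : O × O → O → ℂ) (hU : ∀ v h, U v h = θ h *
      ((if z ∣ v.1 then th v.1 * φ v.1 * sym v.1 h * Wc (nr v.1 / (B * nr z)) (1 / 2) else 0) *
        (conj (gx ν (-h) v.2 * Wc (nr v.2 / X) (-(1 / 2))) *
          (gw (nr h / (L * nr z * nr v.2)) : ℂ)))) :
    (∀ v, Summable (U v)) ∧ Summable (fun v => ∑' h, U v h) ∧
      ∑' v, ∑' h, U v h = Dual φ ν θ B X L z := by
  have pz := nr_pos hz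
  have s1 := summable_th (D := B * nr z) (by positivity) (1 / 2)
  have s2 := summable_G (Y := L * nr z) hX (by positivity) (-(1 / 2))
  have s3 := s1.mul_of_nonneg s2 (fun _ => norm_nonneg _)
    (fun v => by have := gw_pos (nr v.2 / (L * nr z * nr v.1)); positivity)
  have s4 : Summable (Function.uncurry U) := by
    refine Summable.of_norm_bounded ((Equiv.prodAssoc O O O).summable_iff.2 s3) fun w => ?_
    rw [Function.uncurry, hU, norm_mul]
    refine (mul_le_of_le_one_left (norm_nonneg _) (hθ _)).trans ?_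
    rw [norm_mul]
    exact mul_le_mul (A_norm_t hφ _ _ _ _) (A_norm_g hM ν _ _ _ _) (norm_nonneg _) (norm_nonneg _)
  refine ⟨fun v => s4.prod_factor v, s4.prod, ?_⟩
  rw [← s4.tsum_comm, Dual]
  refine tsum_congr fun h => ?_
  simp only [hU]
  rw [tsum_mul_left, Tz, Gz, tsum_mul_tsum_of_summable_norm]
  · exact Summable.of_nonneg_of_le (fun _ => norm_nonneg _) (fun n => A_norm_t hφ _ _ _ n) s1
  · exact Summable.of_nonneg_of_le (fun _ => norm_nonneg _) (fun x => A_norm_g hM ν _ _ h x)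
      (s2.prod_symm.prod_factor h)

theorem A_norm_const {A D X a b : ℝ} (hD : 0 < D) (hX : 0 < X) (ha : 0 < a) (hb : 0 < b) :
    ((A * (a / D) : ℝ) : ℂ) / ((Real.sqrt a * b : ℝ) : ℂ) * (Wc (a / D) 0 * Wc (b / X) 0) =
      ((A / Real.sqrt (D * X) : ℝ) : ℂ) *
        (Wc (a / D) (1 / 2) * (Wc (b / X) (-(1 / 2)) / (Real.sqrt b : ℂ))) := by
  have h1 : Wc (a / D) (1 / 2) = Wc (a / D) 0 * (Real.sqrt (a / D) : ℂ) := by
    have := Wc_add (div_pos ha hD) 0 (1 / 2)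
    rw [zero_add] at this
    rw [this, Real.sqrt_eq_rpow, Complex.ofReal_cpow (div_pos ha hD).le]
    norm_num
  have h2 : Wc (b / X) 0 = Wc (b / X) (-(1 / 2)) * (Real.sqrt (b / X) : ℂ) := by
    have := Wc_add (div_pos hb hX) (-(1 / 2)) (1 / 2)
    rw [neg_add_cancel] at this
    rw [this, Real.sqrt_eq_rpow, Complex.ofReal_cpow (div_pos hb hX).le]
    norm_num
  have h3 : A * (a / D) / (Real.sqrt a * b) * Real.sqrt (b / X) =
      A / Real.sqrt (D * X) * Real.sqrt (a / D) / Real.sqrt b := by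
    obtain ⟨a, ha', rfl⟩ : ∃ t, 0 < t ∧ a = t ^ 2 := ⟨_, Real.sqrt_pos.2 ha, (Real.sq_sqrt ha.le).symm⟩
    obtain ⟨b, hb', rfl⟩ : ∃ t, 0 < t ∧ b = t ^ 2 := ⟨_, Real.sqrt_pos.2 hb, (Real.sq_sqrt hb.le).symm⟩
    obtain ⟨D, hD', rfl⟩ : ∃ t, 0 < t ∧ D = t ^ 2 := ⟨_, Real.sqrt_pos.2 hD, (Real.sq_sqrt hD.le).symm⟩
    obtain ⟨X, hX', rfl⟩ : ∃ t, 0 < t ∧ X = t ^ 2 := ⟨_, Real.sqrt_pos.2 hX, (Real.sq_sqrt hX.le).symm⟩
    rw [← mul_pow, ← div_pow a D, ← div_pow b X, Real.sqrt_sq ha'.le, Real.sqrt_sq hb'.le,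
      Real.sqrt_sq (by positivity), Real.sqrt_sq (by positivity), Real.sqrt_sq (by positivity)]
    field_simp
  have h4 := congrArg (fun t : ℝ => (t : ℂ)) h3
  simp only [Complex.ofReal_mul (_ / _), Complex.ofReal_div (_ * _)] at h4
  rw [h1, h2]
  linear_combination (Wc (a / D) 0 * Wc (b / X) (-(1 / 2))) * h4

/-- **The dual identity.**  Interchange `∑'_a` and `∑'_{(n,x)}` (`summable_probe`), apply
`pois_pair` with `Y = A N n/(B N z)` on the support of `cf` (`cf_support`), put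
`θ h = ft M (xiR M) h / N M`, use `sym n (-1) * sym n (-h) = sym n h`, expand `Rs n x`
(`Rs_expand`: index set `Chr M × Chr M`, `φ n = if Primary n ∧ IsCoprime n M then
b ν₁ ν₂ * ev ν₁ n * ev ψ n * Gf n * conj (sym n M) else 0`, periodic by `Gf_congr`,
`exists_chr_sym`; the character of `x` is `ν₂ * ν_M⁻¹` where `ev ν_M x = sym x M`), interchange
`∑'_{(n,x)}` and `∑'_h` (majorant: `summable_th` times `summable_G`) and factor
(`tsum_mul_tsum_of_summable_norm`).  Normalisation: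
`Y/(√(N n) N x) · W(N n/(B N z)) W(N x/X') =
A/√(B N z X') · Wc(N n/(B N z), 1/2) · Wc(N x/X', -1/2)/√(N x)` (`Wc_add`), `X' = X/N π`. -/
theorem dual_eq {M : O} (hM : Adm M) (ψ : Chr M) : ∃ (κ : Type) (S : Finset κ) (φ : κ → O → ℂ)
    (ν : κ → Chr M) (θ : O → ℂ), (∀ i, PerB M (φ i)) ∧ (∀ h, ‖θ h‖ ≤ 1) ∧
    ∀ (B : ℝ) (z π : O), 0 < B → z ≠ 0 → π ≠ 0 →
      ∑' a : O, xiR M a * Irow ψ B a z π =
        ((Apar B / Real.sqrt (B * nr z * (Xpar B / nr π)) : ℝ) : ℂ) *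
          ∑ i ∈ S, Dual (φ i) (ν i) θ B (Xpar B / nr π) (B * nr M / Apar B) z := by
  classical
  have := finite_chr hM.1
  have : Fintype (Chr M) := Fintype.ofFinite _
  obtain ⟨b, hb, hR⟩ := Rs_expand hM
  obtain ⟨μ, hμ⟩ := exists_chr_sym hM hM.1 fun p hp => (BasicB.of_mem_pf hp).2.2
  have pM := nr_pos hM.1
  obtain ⟨φ, hφ⟩ : ∃ φ : Chr M × Chr M → O → ℂ, ∀ i n, φ i n =
      if Primary n ∧ IsCoprime n M then b i.1 i.2 * ev i.1 n * ev ψ n * Gf n * conj (ev μ n)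
      else 0 := ⟨_, fun _ _ => rfl⟩
  have hφ1 : ∀ i n, ‖φ i n‖ ≤ 1 := fun i n => by
    rw [hφ]
    split_ifs with h
    · rw [norm_mul, norm_mul, norm_mul, norm_mul, Complex.norm_conj,
        norm_Gf (PO.of_adm hM h.1 h.2), norm_ev hM.1 _ h.2, norm_ev hM.1 _ h.2, norm_ev hM.1 _ h.2]
      simpa using hb i.1 i.2
    · simp
  have hθ : ∀ h, ‖ft M (xiR M) h / (nr M : ℂ)‖ ≤ 1 := fun h => by
    rw [norm_div, Complex.norm_real, Real.norm_of_nonneg pM.le, div_le_one pM]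
    simpa using PB1_norm_ft_le hM.1 (A_norm_xiR M) h
  refine ⟨Chr M × Chr M, Finset.univ, φ, fun i => i.2 * μ⁻¹, fun h => ft M (xiR M) h / (nr M : ℂ),
    fun i => ⟨hφ1 i, fun n n' h => ?_, fun n h => by rw [hφ, if_neg fun h' => h h'.2]⟩, hθ,
    fun B z π hB hz hπ => ?_⟩
  · rw [hφ, hφ]
    by_cases c : Primary n ∧ IsCoprime n M
    · have c' := (A_cond_iff hM h).1 c
      rw [if_pos c, if_pos c', ev_congr i.1 h, ev_congr ψ h, ev_congr μ h,
        Gf_congr (PO.of_adm hM c.1 c.2) (PO.of_adm hM c'.1 c'.2)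
          ((Dvd.dvd.trans ⟨18, by norm_num⟩ hM.2).trans h)]
    · rw [if_neg c, if_neg fun c' => c ((A_cond_iff hM h).2 c')]
  have pA := RT.Apar_pos hB
  have pX := RT.Xpar_pos hB
  have pz := nr_pos hz
  have pπ := nr_pos hπ
  obtain ⟨U, hU⟩ : ∃ U : Chr M × Chr M → O × O → O → ℂ, ∀ i v h, U i v h =
      ft M (xiR M) h / (nr M : ℂ) *
        ((if z ∣ v.1 then th v.1 * φ i v.1 * sym v.1 h * Wc (nr v.1 / (B * nr z)) (1 / 2) else 0) *
          (conj (gx (i.2 * μ⁻¹) (-h) v.2 * Wc (nr v.2 / (Xpar B / nr π)) (-(1 / 2))) *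
            (gw (nr h / (B * nr M / Apar B * nr z * nr v.2)) : ℂ))) := ⟨_, fun _ _ _ => rfl⟩
  have hD := fun i => A_dual hM.1 (hφ1 i) hθ (i.2 * μ⁻¹) hB (X := Xpar B / nr π)
    (L := B * nr M / Apar B) (by positivity) (by positivity) hz (U i) (hU i)
  have e1 := (A_summable_T hM ψ hB hz hπ).tsum_comm
    (f := fun (a : O) (v : O × O) => xiR M a *
      if z ∣ v.1 then cf ψ a v.1 v.2 * Phi B a (nr v.1 / nr z) (nr v.2 * nr π) else 0)
  simp only [Irow, ← tsum_mul_left]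
  rw [← e1, ← Finset.sum_congr rfl fun i _ => (hD i).2.2,
    ← Summable.tsum_finsetSum fun i _ => (hD i).2.1, ← tsum_mul_left]
  refine tsum_congr fun v => ?_
  obtain ⟨n, x⟩ := v
  rw [← Summable.tsum_finsetSum fun i _ => (hD i).1 (n, x)]
  by_cases c : z ∣ n ∧ (Primary n ∧ IsCoprime n M) ∧ Primary x ∧ IsCoprime x M
  swap
  · have z1 : ∀ a, (if z ∣ n then cf ψ a n x * Phi B a (nr n / nr z) (nr x * nr π) else 0) = 0 := by
      intro a
      split_ifs with h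
      · refine mul_eq_zero_of_left ?_ _
        by_contra h0
        obtain ⟨a1, a2, a3⟩ := cf_support ψ h0
        exact c ⟨h, ⟨a1, a2⟩, a3⟩
      · rfl
    have z2 : ∀ i h, U i (n, x) h = 0 := by
      intro i h
      rw [hU]
      by_cases c1 : z ∣ n
      · by_cases c2 : Primary n ∧ IsCoprime n M
        · have : gx (i.2 * μ⁻¹) (-h) x = 0 := by
            unfold gx
            split_ifs with c3
            · rw [ev_eq_zero _ fun c4 => c ⟨c1, c2, c3, c4⟩, zero_mul]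
            · rfl
          simp [this]
        · simp [hφ, c2]
      · simp [c1]
    simp [z1, z2]
  obtain ⟨c1, c2, c3, c4⟩ := c
  have pn := nr_pos c2.1.ne_zero
  have px := nr_pos c3.ne_zero
  have po := PO.of_adm hM c2.1 c2.2
  have hY : 0 < Apar B * (nr n / (B * nr z)) := by positivity
  have k1 : ∀ a, xiR M a * (if z ∣ n then cf ψ a n x * Phi B a (nr n / nr z) (nr x * nr π) else 0) =
      th n * ev ψ n * Gf n * sym n (-1) * Rs n x / ((Real.sqrt (nr n) * nr x : ℝ) : ℂ) *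
        (Wc (nr n / (B * nr z)) 0 * Wc (nr x / (Xpar B / nr π)) 0) *
        (xiR M a * ft (n * x) (fun k => sym n k * conj (gs 5 x k)) a *
          (gw (nr a / (Apar B * (nr n / (B * nr z)))) : ℂ)) := fun a => by
    rw [if_pos c1, cf, if_pos ⟨c3, c4⟩, Phi,
      show nr n / nr z / B = nr n / (B * nr z) by field_simp,
      show nr x * nr π / Xpar B = nr x / (Xpar B / nr π) by field_simp,
      show nr a * B / (Apar B * (nr n / nr z)) = nr a / (Apar B * (nr n / (B * nr z))) by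
        field_simp]
    ring
  simp only [k1]
  rw [tsum_mul_left, pois_pair hM c2.1 c2.2 c3 c4 hY, ← tsum_mul_left, ← tsum_mul_left,
    ← tsum_mul_left]
  refine tsum_congr fun h => ?_
  have k2 := A_norm_const (A := Apar B) (D := B * nr z) (X := Xpar B / nr π) (by positivity)
    (by positivity) pn px
  have k3 : sym n h = sym n (-1) * sym n (-h) := by rw [← sym_mul_right po, neg_one_mul, neg_neg]
  have k4 : ∀ i : Chr M × Chr M, U i (n, x) h = b i.1 i.2 * ev i.1 n * conj (ev i.2 x) *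
      (ft M (xiR M) h / (nr M : ℂ) * (th n * ev ψ n * Gf n * conj (sym n M) * sym x M *
        (sym n (-1) * sym n (-h)) * conj (gs 5 x (-h)) *
        (gw (Apar B * (nr n / (B * nr z)) * nr h / (nr M * nr n * nr x)) : ℂ) *
        (Wc (nr n / (B * nr z)) (1 / 2) *
          (Wc (nr x / (Xpar B / nr π)) (-(1 / 2)) / (Real.sqrt (nr x) : ℂ))))) := fun i => by
    rw [hU, if_pos c1, hφ, if_pos c2, gx, if_pos c3, ev_mul_chr, ev_inv hM.1, hμ n c2.1 c2.2,
      hμ x c3 c4, k3, show nr h / (B * nr M / Apar B * nr z * nr x) =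
        Apar B * (nr n / (B * nr z)) * nr h / (nr M * nr n * nr x) by field_simp]
    simp only [map_mul, map_div₀, Complex.conj_conj, Complex.conj_ofReal, conj_Wc, map_neg, map_one,
      map_ofNat]
    ring
  simp only [k4]
  rw [← Finset.sum_mul, Fintype.sum_prod_type, ← hR n x c2.2 c4, Complex.ofReal_div]
  linear_combination (Rs n x * (ft M (xiR M) h / (nr M : ℂ)) * (th n * ev ψ n * Gf n *
    conj (sym n M) * sym x M * (sym n (-1) * sym n (-h)) * conj (gs 5 x (-h)) *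
    (gw (Apar B * (nr n / (B * nr z)) * nr h / (nr M * nr n * nr x)) : ℂ))) * k2

end Crest.Agent.R17.HS
end
end

-- ▼ part PVc/R17/HSideC

/-!
# Row 17, `hside`, part C: Cauchy–Schwarz, `energy` and `gram`
-/

set_option autoImplicit false

noncomputable section

namespace Crest.Agent.R17.HS

open scoped ComplexConjugate
open MeasureTheory

/-- Dyadic summation of the tail (fibre over `j` with `2^j K ≤ N h ≤ 2^{j+1} K`;
`∑ 8^{-j} 4^{j+1} ≤ 8`). -/
theorem tail_le {K E : ℝ} (hK : 0 < K) (f : O → ℝ) (hf : ∀ h, 0 ≤ f h)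
    (hE : ∀ t : ℝ, 1 ≤ t → ∑ h ∈ rows (t * K), f h ≤ t ^ 2 * E) (S : Finset O)
    (hS : ∀ h ∈ S, K ≤ nr h) : ∑ h ∈ S, (K / nr h) ^ (3 : ℝ) * f h ≤ 8 * E := by
  classical
  have hE0 : 0 ≤ E := by
    have := hE 1 le_rfl
    have h0 : 0 ≤ ∑ h ∈ rows (1 * K), f h := Finset.sum_nonneg fun h _ => hf h
    linarith
  have hj : ∀ h : O, ∃ j : ℕ, h ∈ S → (2 : ℝ) ^ j ≤ nr h / K ∧ nr h / K < 2 ^ (j + 1) := by
    intro h
    by_cases hh : h ∈ S
    · obtain ⟨j, hj⟩ := exists_nat_pow_near ((one_le_div hK).2 (hS h hh)) (one_lt_two (α := ℝ))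
      exact ⟨j, fun _ => hj⟩
    · exact ⟨0, fun h' => absurd h' hh⟩
  choose j hj using hj
  set N := S.sup j + 1 with hN
  have h1 : ∀ h ∈ S, (K / nr h) ^ (3 : ℝ) * f h ≤
      ∑ i ∈ Finset.range N, if h ∈ rows (2 ^ (i + 1) * K) then (1 / 8 : ℝ) ^ i * f h else 0 := by
    intro h hh
    obtain ⟨a1, a2⟩ := hj h hh
    have hn : 0 < nr h := hK.trans_le (hS h hh)
    have h0 : h ≠ 0 := by
      rintro rfl
      simp [nr] at hn
    have hmem : h ∈ rows (2 ^ (j h + 1) * K) :=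
      (mem_rows (by positivity)).2 ⟨h0, ((div_lt_iff₀ hK).1 a2).le⟩
    have hjN : j h ∈ Finset.range N :=
      Finset.mem_range.2 (Nat.lt_succ_of_le (Finset.le_sup (f := j) hh))
    refine le_trans ?_ (Finset.single_le_sum (f := fun i =>
      if h ∈ rows (2 ^ (i + 1) * K) then (1 / 8 : ℝ) ^ i * f h else 0) (fun i _ => ?_) hjN)
    · simp only [if_pos hmem]
      refine mul_le_mul_of_nonneg_right ?_ (hf h)
      have h2 : K / nr h ≤ (1 / 2) ^ j h := by
        rw [one_div, inv_pow, ← inv_div]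
        exact inv_anti₀ (by positivity) a1
      calc (K / nr h) ^ (3 : ℝ) = (K / nr h) ^ (3 : ℕ) := by
            rw [← Real.rpow_natCast]; norm_num
        _ ≤ ((1 / 2) ^ j h) ^ (3 : ℕ) := by gcongr
        _ = (1 / 8 : ℝ) ^ j h := by rw [← pow_mul, mul_comm, pow_mul]; norm_num
    · split_ifs
      · exact mul_nonneg (by positivity) (hf h)
      · exact le_rfl
  refine (Finset.sum_le_sum h1).trans ?_
  rw [Finset.sum_comm]
  have h2 : ∀ i ∈ Finset.range N,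
      (∑ h ∈ S, if h ∈ rows (2 ^ (i + 1) * K) then (1 / 8 : ℝ) ^ i * f h else 0) ≤
        4 * E * (1 / 2 : ℝ) ^ i := by
    intro i _
    rw [← Finset.sum_filter, ← Finset.mul_sum]
    have h3 : ∑ h ∈ S.filter (fun h => h ∈ rows (2 ^ (i + 1) * K)), f h ≤
        ∑ h ∈ rows (2 ^ (i + 1) * K), f h :=
      Finset.sum_le_sum_of_subset_of_nonneg (fun h hh => (Finset.mem_filter.1 hh).2)
        fun h _ _ => hf h
    have h4 := h3.trans (hE (2 ^ (i + 1)) (one_le_pow₀ one_le_two))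
    have h5 : (1 / 8 : ℝ) ^ i * (((2 : ℝ) ^ (i + 1)) ^ 2 * E) = 4 * E * (1 / 2 : ℝ) ^ i := by
      have : (1 / 2 : ℝ) ^ i = (1 / 8 : ℝ) ^ i * ((2 : ℝ) ^ i) ^ 2 := by
        rw [← pow_mul, mul_comm i 2, pow_mul, ← mul_pow]; norm_num
      rw [this]; ring
    rw [← h5]
    exact mul_le_mul_of_nonneg_left h4 (by positivity)
  refine (Finset.sum_le_sum h2).trans ?_
  rw [← Finset.mul_sum]
  have h6 := sum_geometric_two_le N
  nlinarith

/-- Cauchy–Schwarz on the rows of norm `≤ t K`: `energy` (`h₀ = 1`, `D = B`, `R` replaced by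
`t R`, `En B (t K) Z ≤ t² En B K Z`) and `gram` (reindex `h ↦ -h`; `Gr (t K) X ≤ t Gr K X`);
use both with `min ε (1/2)`. -/
theorem block {M : O} (hM : Adm M) {ε : ℝ} (hε : 0 < ε) : ∃ (C : ℝ) (J : ℕ), 0 < C ∧
    ∀ (R B X Z K t : ℝ) (φ : O → ℂ) (ν : Chr M) (Zs : Finset O) (c : O → ℂ) (s : ℂ),
      1 ≤ B → B ≤ R → 0 < X → 1 ≤ Z → Z ≤ R → 1 ≤ K → K ≤ R → X ^ 3 ≤ K ^ 2 → 1 ≤ t →
      PerB M φ → (∀ z ∈ Zs, SP M z ∧ Z ≤ nr z ∧ nr z ≤ 2 * Z) → (∀ z, ‖c z‖ ≤ 1) → |s.re| ≤ 3 →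
      ∑ h ∈ rows (t * K), ‖Tc φ Zs c B (1 / 2) h‖ * ‖Gsum ν X s (-h)‖ ≤
        t ^ 2 * (C * R ^ ε * (1 + |s.im|) ^ J *
          (Real.sqrt (B * Z * En B K Z) * Real.sqrt (Gr K X))) := by
  have hε' : 0 < min ε (1 / 2) := lt_min hε (by norm_num)
  obtain ⟨C₁, J₁, hC₁, h₁⟩ := energy hM hε'
  obtain ⟨C₂, J₂, hC₂, h₂⟩ := gram hM hε'
  refine ⟨C₁ + C₂, J₂, by positivity,
    fun R B X Z K t φ ν Zs c s hB hBR hX hZ hZR hK hKR hXK ht hφ hZs hc hs => ?_⟩
  have hR : 1 ≤ R := hB.trans hBR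
  have hB0 : 0 < B := by linarith
  have hK0 : 0 < K := by linarith
  have hZ0 : 0 < Z := by linarith
  have ht0 : 0 < t := by linarith
  have hR0 : 0 < R := by linarith
  have htR : R ≤ t * R := le_mul_of_one_le_left hR0.le ht
  have htK : K ≤ t * K := le_mul_of_one_le_left hK0.le ht
  have htKR : t * K ≤ t * R := by gcongr
  set q := Real.sqrt t with hq
  set r := R ^ ε with hr
  set W := (1 + |s.im|) ^ J₂ with hW
  have hq2 : q ^ 2 = t := Real.sq_sqrt ht0.le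
  have hq0 : 0 ≤ q := Real.sqrt_nonneg _
  have hr0 : 0 ≤ r := by positivity
  have hW1 : 1 ≤ W := one_le_pow₀ (by linarith [abs_nonneg s.im])
  have hP : (t * R) ^ min ε (1 / 2) ≤ q * r := by
    rw [Real.mul_rpow ht0.le hR0.le, hq, Real.sqrt_eq_rpow]
    exact mul_le_mul (Real.rpow_le_rpow_of_exponent_le ht (min_le_right _ _))
      (Real.rpow_le_rpow_of_exponent_le hR (min_le_left _ _)) (by positivity) (by positivity)
  have hEn := En_nonneg hB0.le hK0.le hZ0.le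
  have hGr := Gr_nonneg hK0.le hX.le
  have ht2 : t ≤ t ^ 2 := by nlinarith
  -- the energy
  have e1 : ∑ h ∈ rows (t * K), ‖Tc φ Zs c B (1 / 2) h‖ ^ 2 ≤
      C₁ * (q * r) * t ^ 2 * (B * Z * En B K Z) := by
    have a := h₁ (t * R) (t * K) B Z φ 1 Zs c (1 / 2) (hK.trans htK) htKR hZ (hZR.trans htR) hB0
      (hBR.trans htR) ((inv_le_one_of_one_le₀ hB).trans (hR.trans htR))
      (by simpa [nr] using hR.trans htR) hφ primary_one isCoprime_one_left hZs hc
      (by norm_num [abs_le])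
    have im0 : ((1 / 2 : ℂ)).im = 0 := by norm_num
    simp only [mul_one, nr, nm_one, Nat.cast_one, one_pow, im0, abs_zero, add_zero] at a
    refine le_trans a ?_
    have b : t * K + (t * K) ^ 2 * Z / B +
        min (Z ^ 2 * Real.sqrt (t * K)) (t * K * Z ^ 2 / Real.sqrt B) +
        min (t * K * Z) (Real.sqrt (t * K) * Z * B ^ (1 / 4 : ℝ)) ≤ t ^ 2 * En B K Z := by
      have b1 : t * K ≤ t ^ 2 * K := by gcongr
      have b2 : (t * K) ^ 2 * Z / B = t ^ 2 * (K ^ 2 * Z / B) := by ring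
      have b3 : t * K * Z ^ 2 / Real.sqrt B ≤ t ^ 2 * (K * Z ^ 2 / Real.sqrt B) := by
        rw [show t * K * Z ^ 2 / Real.sqrt B = t * (K * Z ^ 2 / Real.sqrt B) by ring]
        gcongr
      have b4 : Real.sqrt (t * K) * Z * B ^ (1 / 4 : ℝ) ≤
          t ^ 2 * (Real.sqrt K * Z * B ^ (1 / 4 : ℝ)) := by
        have : Real.sqrt (t * K) ≤ t ^ 2 * Real.sqrt K := by
          rw [Real.sqrt_mul ht0.le]
          gcongr
          exact Real.sqrt_le_iff.2 ⟨by positivity, by nlinarith⟩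
        calc _ ≤ t ^ 2 * Real.sqrt K * Z * B ^ (1 / 4 : ℝ) := by gcongr
          _ = _ := by ring
      have b5 := min_le_right (Z ^ 2 * Real.sqrt (t * K)) (t * K * Z ^ 2 / Real.sqrt B)
      have b6 := min_le_right (t * K * Z) (Real.sqrt (t * K) * Z * B ^ (1 / 4 : ℝ))
      unfold En
      rw [mul_add, mul_add, mul_add]
      linarith
    calc _ ≤ C₁ * (q * r) * (B * Z) * (t ^ 2 * En B K Z) := by gcongr
      _ = _ := by ring
  -- the Gram bound
  have e2 : ∑ h ∈ rows (t * K), ‖Gsum ν X s (-h)‖ ^ 2 ≤ C₂ * (q * r) * W * t * Gr K X := by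
    have a := h₂ (t * K) X s ν (hK.trans htK) hX (hXK.trans (by gcongr)) hs
    have e : ∑ h ∈ rows (t * K), ‖Gsum ν X s (-h)‖ ^ 2 =
        ∑ h ∈ rows (t * K), ‖Gsum ν X s h‖ ^ 2 := by
      refine Finset.sum_equiv (Equiv.neg O) (fun h => ?_) (fun h _ => rfl)
      rw [mem_rows (by positivity), mem_rows (by positivity)]
      simp [nr]
    rw [e]
    refine le_trans a ?_
    have b : t * K * X * (1 + (X ^ 2 / (t * K)) ^ (1 / 6 : ℝ)) ≤ t * Gr K X := by
      unfold Gr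
      calc _ ≤ t * K * X * (1 + (X ^ 2 / K) ^ (1 / 6 : ℝ)) := by gcongr
        _ = _ := by ring
    have b' : (t * K) ^ min ε (1 / 2) ≤ q * r := le_trans (by gcongr) hP
    calc _ ≤ C₂ * (q * r) * W * (t * Gr K X) := by gcongr
      _ = _ := by ring
  have e3 : Real.sqrt (C₁ * (q * r) * t ^ 2) * Real.sqrt (C₂ * (q * r) * W * t) ≤
      t ^ 2 * ((C₁ + C₂) * r * W) := by
    rw [← Real.sqrt_mul (by positivity)]
    refine Real.sqrt_le_iff.2 ⟨by positivity, ?_⟩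
    calc C₁ * (q * r) * t ^ 2 * (C₂ * (q * r) * W * t)
        = (C₁ * C₂) * W * (q ^ 2 * t ^ 3 * r ^ 2) := by ring
      _ ≤ (C₁ + C₂) ^ 2 * W ^ 2 * (q ^ 2 * t ^ 3 * r ^ 2) := by
        gcongr
        · nlinarith [mul_pos hC₁ hC₂]
        · nlinarith
      _ = _ := by rw [hq2]; ring
  calc _ ≤ Real.sqrt (∑ h ∈ rows (t * K), ‖Tc φ Zs c B (1 / 2) h‖ ^ 2) *
        Real.sqrt (∑ h ∈ rows (t * K), ‖Gsum ν X s (-h)‖ ^ 2) :=
        Real.sum_mul_le_sqrt_mul_sqrt _ _ _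
    _ ≤ Real.sqrt (C₁ * (q * r) * t ^ 2 * (B * Z * En B K Z)) *
        Real.sqrt (C₂ * (q * r) * W * t * Gr K X) :=
        mul_le_mul (Real.sqrt_le_sqrt e1) (Real.sqrt_le_sqrt e2) (Real.sqrt_nonneg _)
          (Real.sqrt_nonneg _)
    _ = (Real.sqrt (C₁ * (q * r) * t ^ 2) * Real.sqrt (C₂ * (q * r) * W * t)) *
        (Real.sqrt (B * Z * En B K Z) * Real.sqrt (Gr K X)) := by
        rw [Real.sqrt_mul (x := C₁ * (q * r) * t ^ 2) (by positivity),
          Real.sqrt_mul (x := C₂ * (q * r) * W * t) (by positivity)]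
        ring
    _ ≤ (t ^ 2 * ((C₁ + C₂) * r * W)) *
        (Real.sqrt (B * Z * En B K Z) * Real.sqrt (Gr K X)) := by gcongr
    _ = _ := by ring

/-- **The core estimate.**  `∑_z c z Dual z = ∑'_h θ h F h`, `F h = ∑_z c z Tz Gz`
(`summable_dual`); bound every finite partial sum of `‖F h‖`: `h = 0` by `zero_term`
(`K ≤ √(B Z En) √Gr`), `0 < N h ≤ K` by `mellin_h` with `σ = min ε 1` (`(K/N h)^σ ≤ R^ε`) and
`block` with `t = 1`, `N h ≥ K` by `mellin_h` with `σ = 3`, `tail_le` and `block`; sums and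
integrals are interchanged by `DPG.sum_integral_le` (file `DPAuxG`, no integrability of the pieces
is needed), `integrable_Gamma_mul_pow`, `norm_cs_le`. -/
theorem core {M : O} (hM : Adm M) {ε : ℝ} (hε : 0 < ε) : ∃ C : ℝ, 0 < C ∧
    ∀ (R B X L Z K : ℝ) (φ : O → ℂ) (ν : Chr M) (θ : O → ℂ) (Zs : Finset O) (c : O → ℂ),
      1 ≤ B → B ≤ R → 1 ≤ X → 0 < L → 1 ≤ Z → Z ≤ R → 1 ≤ K → K ≤ R → 2 * L * Z * X ≤ K →
      X ^ 3 ≤ K ^ 2 → PerB M φ → (∀ h, ‖θ h‖ ≤ 1) →
      (∀ z ∈ Zs, SP M z ∧ Z ≤ nr z ∧ nr z ≤ 2 * Z) → (∀ z, ‖c z‖ ≤ 1) →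
      ‖∑ z ∈ Zs, c z * Dual φ ν θ B X L z‖ ≤
        C * R ^ ε * (Real.sqrt (B * Z * En B K Z) * Real.sqrt (Gr K X)) := by
  classical
  have hε2 : 0 < ε / 2 := by positivity
  obtain ⟨C₁, J, hC₁, h₁⟩ := block hM hε2
  obtain ⟨C₀, hC₀, h₀⟩ := zero_term hM.1
  set σ₁ : ℝ := min (ε / 2) 1 with hσ₁
  have hσ₁0 : 0 < σ₁ := lt_min hε2 one_pos
  set I : ℝ → ℝ := fun σ => ∫ u : ℝ, ‖Complex.Gamma (σ + u * Complex.I)‖ * (1 + |u|) ^ J with hI
  have hI0 : ∀ σ, 0 ≤ I σ := fun σ => integral_nonneg fun u => by positivity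
  refine ⟨C₀ + C₁ * I σ₁ + 8 * C₁ * I 3, by have := hI0 σ₁; have := hI0 3; positivity,
    fun R B X L Z K φ ν θ Zs c hB hBR hX hL hZ hZR hK hKR hLK hXK hφ hθ hZs hc => ?_⟩
  have hR : 1 ≤ R := hB.trans hBR
  have hB0 : 0 < B := by linarith
  have hK0 : 0 < K := by linarith
  have hZ0 : 0 < Z := by linarith
  have hX0 : 0 < X := by linarith
  have hR0 : 0 < R := by linarith
  have hz0 : ∀ z ∈ Zs, z ≠ 0 := fun z hz => (hZs z hz).1.1.ne_zero
  set Q := Real.sqrt (B * Z * En B K Z) * Real.sqrt (Gr K X) with hQ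
  have hQ0 : 0 ≤ Q := by positivity
  set F : O → ℂ := fun h => ∑ z ∈ Zs, c z * (Tz φ B z h * Gz ν X (L * nr z) h) with hF
  have hsum : HasSum (fun h => θ h * F h) (∑ z ∈ Zs, c z * Dual φ ν θ B X L z) := by
    have : (fun h => θ h * F h) =
        fun h => ∑ z ∈ Zs, c z * (θ h * (Tz φ B z h * Gz ν X (L * nr z) h)) := by
      funext h
      rw [hF, Finset.mul_sum]
      exact Finset.sum_congr rfl fun z _ => by ring
    rw [this]
    refine hasSum_sum fun z hz => HasSum.mul_left _ (Summable.hasSum ?_)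
    refine Summable.of_norm_bounded (summable_dual hM.1 hφ.1 ν hB0 hX0
      (mul_pos hL (nr_pos (hz0 z hz))) (hz0 z hz)) fun h => ?_
    rw [norm_mul]
    exact mul_le_of_le_one_left (norm_nonneg _) (hθ h)
  -- Mellin separation on a finite set of non-zero rows
  have key : ∀ (σ E : ℝ) (S : Finset O), 0 < σ → σ ≤ 3 → (∀ h ∈ S, h ≠ 0) →
      (∀ (c' : O → ℂ) (s : ℂ), (∀ z, ‖c' z‖ ≤ 1) → |s.re| ≤ 3 →
        ∑ h ∈ S, (K / nr h) ^ σ * (‖Tc φ Zs c' B (1 / 2) h‖ * ‖Gsum ν X s (-h)‖) ≤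
          E * (1 + |s.im|) ^ J) → ∑ h ∈ S, ‖F h‖ ≤ E * I σ := by
    intro σ E S hσ hσ3 hS hE
    refine (Finset.sum_le_sum fun h hh =>
      mellin_h hM.1 ν hX0 hL hZ0 hLK hσ Zs hz0 c (hS h hh)).trans ?_
    rw [hI, ← integral_const_mul]
    refine GP.sum_integral_le S _ _ _ (fun h _ => by positivity) (fun h _ u => by positivity)
      ((integrable_Gamma_mul_pow hσ J).const_mul E) fun u => ?_
    have a := hE (cs Zs c Z (σ + u * Complex.I)) (conj (σ + u * Complex.I) - 1 / 2)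
      (norm_cs_le hZ0 (fun z hz => ⟨hz0 z hz, (hZs z hz).2.2⟩) hc (by simpa using hσ.le))
      (by
        have : (conj ((σ : ℂ) + u * Complex.I) - 1 / 2).re = σ - 1 / 2 := by simp
        rw [this, abs_le]; constructor <;> linarith)
    have im : |(conj ((σ : ℂ) + u * Complex.I) - 1 / 2).im| = |u| := by simp
    rw [im] at a
    calc _ = ‖Complex.Gamma (σ + u * Complex.I)‖ * ∑ h ∈ S, (K / nr h) ^ σ *
          (‖Tc φ Zs (cs Zs c Z (σ + u * Complex.I)) B (1 / 2) h‖ *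
            ‖Gsum ν X (conj (σ + u * Complex.I) - 1 / 2) (-h)‖) := by
          rw [Finset.mul_sum]
          exact Finset.sum_congr rfl fun h _ => by ring
      _ ≤ ‖Complex.Gamma (σ + u * Complex.I)‖ * (E * (1 + |u|) ^ J) := by gcongr
      _ = _ := by ring
  have hr1 : 1 ≤ R ^ (ε / 2) := Real.one_le_rpow hR hε2.le
  have hrr : R ^ (ε / 2) * R ^ (ε / 2) = R ^ ε := by
    rw [← Real.rpow_add hR0]; congr 1; ring
  have hr2 : R ^ (ε / 2) ≤ R ^ ε := Real.rpow_le_rpow_of_exponent_le hR (by linarith)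
  -- the three pieces
  have p0 : ‖F 0‖ ≤ C₀ * R ^ ε * Q := by
    have a := h₀ B X K (fun z => L * nr z) φ ν Zs c hX0 hK0.le hXK hφ.1
      (fun z hz => (hZs z hz).1.1) hc
    have b1 : K ≤ B * Z * En B K Z := by
      have : K ≤ En B K Z := by
        unfold En
        have : 0 ≤ K ^ 2 * Z / B + K * Z ^ 2 / Real.sqrt B + Real.sqrt K * Z * B ^ (1 / 4 : ℝ) := by
          positivity
        linarith
      exact this.trans (le_mul_of_one_le_left (hK0.le.trans this) (one_le_mul_of_one_le_of_one_le hB hZ))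
    have b2 : K ≤ Gr K X := by
      unfold Gr
      have : 0 ≤ (X ^ 2 / K) ^ (1 / 6 : ℝ) := by positivity
      calc K = K * 1 * 1 := by ring
        _ ≤ _ := by gcongr; linarith
    have b3 : K ≤ Q := by
      calc K = Real.sqrt K * Real.sqrt K := (Real.mul_self_sqrt hK0.le).symm
        _ ≤ Q := by rw [hQ]; gcongr
    calc ‖F 0‖ ≤ C₀ * K := a
      _ = C₀ * 1 * K := by ring
      _ ≤ _ := by gcongr; exact hr1.trans hr2
  have p1 : ∑ h ∈ rows K, ‖F h‖ ≤ C₁ * R ^ ε * Q * I σ₁ := by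
    refine key σ₁ _ _ hσ₁0 ((min_le_right _ _).trans (by norm_num))
      (fun h hh => ((mem_rows hK0.le).1 hh).1) fun c' s hc' hs => ?_
    have a := h₁ R B X Z K 1 φ ν Zs c' s hB hBR hX0 hZ hZR hK hKR hXK le_rfl hφ hZs hc' hs
    rw [one_mul, one_pow, one_mul] at a
    calc _ ≤ ∑ h ∈ rows K, R ^ (ε / 2) * (‖Tc φ Zs c' B (1 / 2) h‖ * ‖Gsum ν X s (-h)‖) := by
          refine Finset.sum_le_sum fun h hh => mul_le_mul_of_nonneg_right ?_ (by positivity)
          have h1 := one_le_nr ((mem_rows hK0.le).1 hh).1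
          have h2 : K / nr h ≤ R := (div_le_self hK0.le h1).trans hKR
          exact (Real.rpow_le_rpow (by positivity) h2 hσ₁0.le).trans
            (Real.rpow_le_rpow_of_exponent_le hR (min_le_left _ _))
      _ ≤ R ^ (ε / 2) * (C₁ * R ^ (ε / 2) * (1 + |s.im|) ^ J * Q) := by
          rw [← Finset.mul_sum]; gcongr
      _ = _ := by rw [← hrr]; ring
  have p2 : ∀ S : Finset O, (∀ h ∈ S, K ≤ nr h) →
      ∑ h ∈ S, ‖F h‖ ≤ 8 * C₁ * R ^ ε * Q * I 3 := by
    intro S hS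
    refine key 3 _ _ (by norm_num) le_rfl (fun h hh => ?_) fun c' s hc' hs => ?_
    · rintro rfl
      have := hS 0 hh
      simp only [nr, nm_zero, Nat.cast_zero] at this
      linarith
    · refine (tail_le hK0 _ (fun h => by positivity) (fun t ht =>
        h₁ R B X Z K t φ ν Zs c' s hB hBR hX0 hZ hZR hK hKR hXK ht hφ hZs hc' hs) S hS).trans ?_
      calc _ ≤ 8 * (C₁ * R ^ ε * (1 + |s.im|) ^ J * Q) := by gcongr
        _ = _ := by ring
  refine le_of_tendsto' hsum.norm fun S => ?_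
  have q1 : ∑ h ∈ S.filter (fun h => ¬ K ≤ nr h), ‖F h‖ ≤ ‖F 0‖ + ∑ h ∈ rows K, ‖F h‖ := by
    rw [← Finset.sum_insert (f := fun h => ‖F h‖) (a := 0) (s := rows K)
      (fun h => ((mem_rows hK0.le).1 h).1 rfl)]
    refine Finset.sum_le_sum_of_subset_of_nonneg (fun h hh => ?_) fun _ _ _ => norm_nonneg _
    rw [Finset.mem_insert, mem_rows hK0.le]
    by_cases h0 : h = 0
    · exact Or.inl h0
    · exact Or.inr ⟨h0, (not_le.1 (Finset.mem_filter.1 hh).2).le⟩
  have q2 := p2 (S.filter (fun h => K ≤ nr h)) fun h hh => (Finset.mem_filter.1 hh).2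
  calc ‖∑ h ∈ S, θ h * F h‖ ≤ ∑ h ∈ S, ‖F h‖ := by
        refine (norm_sum_le _ _).trans (Finset.sum_le_sum fun h _ => ?_)
        rw [norm_mul]
        exact mul_le_of_le_one_left (norm_nonneg _) (hθ h)
    _ = ∑ h ∈ S.filter (fun h => K ≤ nr h), ‖F h‖ +
        ∑ h ∈ S.filter (fun h => ¬ K ≤ nr h), ‖F h‖ :=
        (Finset.sum_filter_add_sum_filter_not _ _ _).symm
    _ ≤ 8 * C₁ * R ^ ε * Q * I 3 + (C₀ * R ^ ε * Q + C₁ * R ^ ε * Q * I σ₁) := by linarith
    _ = _ := by ring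

end Crest.Agent.R17.HS
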