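import Crest.Agent.PVc.R17.HSideDefs
import Crest.Agent.PVc.R17.HSideC_Mg
import Crest.Agent.PVc.R17.PDefs
import Crest.Agent.PVc.R17.RowTail

-- ▼ part PVc/R17/HSideD
section

/-!
# Row 17, `hside`, part D: parametrisation of the slots
-/

set_option autoImplicit false

noncomputable section

namespace Crest.Agent.R17.HS

open scoped ComplexConjugate

namespace SlotAux

theorem sum_pi {ι α R : Type*} [Fintype ι] [DecidableEq ι] [CommSemiring R] (J : Finset ι)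
    (S : ι → Finset α) (a : α) (f : ι → α → R) :
    ∑ q ∈ Fintype.piFinset (fun i => if i ∈ J then S i else {a}), ∏ i ∈ J, f i (q i) =
      ∏ i ∈ J, ∑ p ∈ S i, f i p := by
  have h := Finset.prod_univ_sum (fun i => if i ∈ J then S i else {a})
    fun i p => if i ∈ J then f i p else 1
  simp only [Finset.prod_ite_mem, Finset.univ_inter] at h
  rw [← h, ← Finset.univ_inter J, ← Finset.prod_ite_mem, Finset.univ_inter]
  refine Finset.prod_congr rfl fun i _ => ?_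
  split_ifs <;> simp

theorem sum_split {ι α R : Type*} [Fintype ι] [DecidableEq ι] [AddCommMonoid R] (J : Finset ι)
    (S : ι → Finset α) (a : α) (G : (ι → α) → R) :
    ∑ p ∈ Fintype.piFinset S, G p =
      ∑ q ∈ Fintype.piFinset (fun i => if i ∈ J then S i else {a}),
        ∑ r ∈ Fintype.piFinset (fun i => if i ∈ Jᶜ then S i else {a}), G (J.piecewise q r) := by
  rw [← Finset.sum_product']
  refine Finset.sum_nbij' (fun p => (J.piecewise p fun _ => a, J.piecewise (fun _ => a) p))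
    (fun v => J.piecewise v.1 v.2) ?_ ?_ ?_ ?_ ?_
  · intro p hp
    simp only [Finset.mem_product, Fintype.mem_piFinset] at hp ⊢
    constructor <;> intro i <;> by_cases h : i ∈ J <;> simp [h, hp i]
  · intro v hv
    simp only [Finset.mem_product, Fintype.mem_piFinset] at hv ⊢
    intro i
    have h1 := hv.1 i
    have h2 := hv.2 i
    by_cases h : i ∈ J
    · simpa [h] using h1
    · simpa [h] using h2
  · intro p _
    funext i
    by_cases h : i ∈ J <;> simp [h]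
  · intro v hv
    simp only [Finset.mem_product, Fintype.mem_piFinset] at hv
    refine Prod.ext (funext fun i => ?_) (funext fun i => ?_)
    · have h1 := hv.1 i
      by_cases h : i ∈ J
      · simp [h]
      · simpa [h, eq_comm] using h1
    · have h2 := hv.2 i
      by_cases h : i ∈ J
      · simpa [h, eq_comm] using h2
      · simp [h]
  · intro p _
    congr 1
    funext i
    by_cases h : i ∈ J <;> simp [h]

theorem mem_of {ι α : Type*} [Fintype ι] [DecidableEq ι] {J : Finset ι} {S : ι → Finset α} {a : α}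
    {q : ι → α} (hq : q ∈ Fintype.piFinset fun i => if i ∈ J then S i else {a}) :
    (∀ i ∈ J, q i ∈ S i) ∧ ∀ i, i ∉ J → q i = a := by
  rw [Fintype.mem_piFinset] at hq
  exact ⟨fun i hi => by simpa [hi] using hq i, fun i hi => by simpa [hi] using hq i⟩

theorem nr_prod' {ι : Type*} (I : Finset ι) (r : ι → O) : nr (∏ i ∈ I, r i) = ∏ i ∈ I, nr (r i) := by
  classical
  induction I using Finset.induction_on with
  | empty => simp [nr]
  | insert j I hj ih => rw [Finset.prod_insert hj, Finset.prod_insert hj, nr_mul, ih]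

variable {M : O} {K₀ : ℕ} {B : ℝ} {I : Finset (Fin K₀)} {r r' : Fin K₀ → O}

theorem eq_index (hB : 1 ≤ B) {i j : Fin K₀} {p q : O} (hp : p ∈ Pset M K₀ B i)
    (hq : q ∈ Pset M K₀ B j) (h : p ∣ q) : i = j ∧ p = q := by
  have hB0 : 0 < B := one_pos.trans_le hB
  have h1 := (mem_Pset hB0).1 hp
  have h2 := (mem_Pset hB0).1 hq
  have e := BasicB.eq_of_dvd h1.1 h2.1 h1.2.1 h2.2.1 h
  refine ⟨?_, e⟩
  by_contra hc
  exact Finset.disjoint_left.1 (disjoint_Pset M K₀ hB fun h' => hc (Fin.ext h')) hp (e ▸ hq)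

theorem sp_prod (hB : 1 ≤ B) (hr : ∀ i ∈ I, r i ∈ Pset M K₀ B i) : SP M (∏ i ∈ I, r i) := by
  have hB0 : 0 < B := one_pos.trans_le hB
  have h := fun i hi => (mem_Pset hB0).1 (hr i hi)
  refine ⟨Primary.prod fun i hi => (h i hi).2.1,
    Finset.squarefree_prod_of_pairwise_isCoprime (fun i hi j hj hij => ?_)
      fun i hi => (h i hi).1.squarefree,
    IsCoprime.prod_left fun i hi => (h i hi).1.irreducible.coprime_iff_not_dvd.2 (h i hi).2.2.1⟩
  exact ((h i hi).1.irreducible.coprime_iff_not_dvd.2 fun hd =>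
    hij (eq_index hB (hr i hi) (hr j hj) hd).1).isRelPrime

theorem eq_of_prod (hB : 1 ≤ B) (hr : ∀ i ∈ I, r i ∈ Pset M K₀ B i)
    (hr' : ∀ i ∈ I, r' i ∈ Pset M K₀ B i) (h : ∏ i ∈ I, r i = ∏ i ∈ I, r' i) :
    ∀ i ∈ I, r i = r' i := by
  intro i hi
  have hp := ((mem_Pset (one_pos.trans_le hB)).1 (hr i hi)).1
  obtain ⟨j, hj, hd⟩ := (hp.dvd_finsetProd_iff r').1 (h ▸ Finset.dvd_prod_of_mem r hi)
  obtain ⟨rfl, e⟩ := eq_index hB (hr i hi) (hr' j hj) hd
  exact e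

theorem nr_le (hK : 1 ≤ K₀) (hB : 1 ≤ B) (hr : ∀ i ∈ I, r i ∈ Pset M K₀ B i) :
    nr (∏ i ∈ I, r i) ≤ B ^ (5 / 24 : ℝ) := by
  have hB0 : 0 < B := one_pos.trans_le hB
  have hK0 : (0 : ℝ) < K₀ := by exact_mod_cast hK
  rw [nr_prod']
  refine (Finset.prod_le_prod (fun _ _ => Nat.cast_nonneg _) fun i hi =>
    ((mem_Pset hB0).1 (hr i hi)).2.2.2.2.trans
      (Real.rpow_le_rpow_of_exponent_le hB (ell_bounds i.2).2)).trans ?_
  rw [Finset.prod_const, ← Real.rpow_mul_natCast hB0.le]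
  refine Real.rpow_le_rpow_of_exponent_le hB ?_
  have h1 : (I.card : ℝ) ≤ K₀ := by exact_mod_cast (by simpa using I.card_le_univ : I.card ≤ K₀)
  rw [div_mul_eq_mul_div, div_le_iff₀ (by positivity)]
  linarith

theorem le_nr (hB : 1 ≤ B) (hr : ∀ i ∈ I, r i ∈ Pset M K₀ B i) :
    B ^ (1 / (8 * (K₀ : ℝ)) * I.card) ≤ nr (∏ i ∈ I, r i) := by
  have hB0 : 0 < B := one_pos.trans_le hB
  rw [nr_prod', Real.rpow_mul_natCast hB0.le, ← Finset.prod_const]
  exact Finset.prod_le_prod (fun _ _ => by positivity) fun i hi =>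
    (Real.rpow_le_rpow_of_exponent_le hB (ell_bounds i.2).1).trans
      ((mem_Pset hB0).1 (hr i hi)).2.2.2.1.le

theorem mom_eq (hB : 0 < B) (σ : ℝ) (x : Fin K₀ → ℝ) :
    (∏ i ∈ I, x i) * (nr (∏ i ∈ I, r i) / ∏ i ∈ I, Pw K₀ B i) ^ σ =
      ∏ i ∈ I, x i * nr (r i) ^ σ / Pw K₀ B i ^ σ := by
  rw [nr_prod', ← Finset.prod_div_distrib, ← Real.finsetProd_rpow I
    (fun i => nr (r i) / Pw K₀ B i) fun i _ =>
      div_nonneg (Nat.cast_nonneg _) (PA.Pw_pos K₀ hB i).le, ← Finset.prod_mul_distrib]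
  refine Finset.prod_congr rfl fun i _ => ?_
  rw [Real.div_rpow (Nat.cast_nonneg _) (PA.Pw_pos K₀ hB i).le, mul_div_assoc]

theorem pow_le {C : ℝ} (I : Finset (Fin K₀)) (hC : 0 ≤ C) : C ^ I.card ≤ max 1 C ^ K₀ :=
  (pow_le_pow_left₀ hC (le_max_right _ _) _).trans
    (pow_le_pow_right₀ (le_max_left _ _) (by simpa using I.card_le_univ))

end SlotAux

open SlotAux in
/-- Fix `J`; `P = ∏_{i ∈ J} Pw i` (so `∏_{i ∉ J} Pw i = B^{1/6}/P`, `prod_Pw`, `PA.one_le_Pw`).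
Split `p = J.piecewise q r` with `q ∈ Q = piFinset (i ↦ if i ∈ J then Pset i else {1})`,
`r ∈ Q' = piFinset (i ↦ if i ∈ J then {1} else Pset i)`; `π q = ∏_{i ∈ J} q i`,
`w q = ∏_{i ∈ J} cw i (q i)`; `Zs` is the image of `Q'` under `r ↦ ∏_{i ∉ J} r i` which is injective
on `Q'` (`disjoint_Pset`, `squarefree_prod_primes`/`pf`), `c z` the weight of the preimage.
Sizes: `mem_Pset`, `ell_bounds` (`K₀ · 1/(8K₀) = 1/8`, `K₀ · 5/(24 K₀) = 5/24`); moments:
`sum_cw_le 3` and `Finset.prod_univ_sum`; `C = (max 1 C₀)^{K₀}`. -/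
theorem slots {M : O} (hM : Adm M) (ψ : Chr M) {K₀ : ℕ} (hK : 1 ≤ K₀) : ∃ C : ℝ, 0 < C ∧
    ∀ (B : ℝ) (J : Finset (Fin K₀)), 1 ≤ B → ∃ (P : ℝ) (Q : Finset (Fin K₀ → O))
      (π : (Fin K₀ → O) → O) (w : (Fin K₀ → O) → ℂ) (Zs : Finset O) (c : O → ℂ),
      1 ≤ P ∧ P ≤ B ^ (1 / 6 : ℝ) ∧
      (∀ q ∈ Q, π q ≠ 0 ∧ nr (π q) ≤ B ^ (5 / 24 : ℝ)) ∧
      (∀ z ∈ Zs, SP M z ∧ nr z ≤ B ^ (5 / 24 : ℝ)) ∧
      (∀ q ∈ Q, ∀ z ∈ Zs, B ^ (1 / 8 : ℝ) ≤ nr z * nr (π q)) ∧
      (∀ σ : ℝ, |σ| ≤ 3 → ∑ q ∈ Q, ‖w q‖ * (nr (π q) / P) ^ σ ≤ C * P) ∧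
      (∀ σ : ℝ, |σ| ≤ 3 → ∀ z ∈ Zs, ‖c z‖ * (nr z / (B ^ (1 / 6 : ℝ) / P)) ^ σ ≤ C) ∧
      ∀ F : O → O → ℂ,
        ∑ p ∈ Fintype.piFinset (fun i : Fin K₀ => Pset M K₀ B i),
          (∏ i : Fin K₀, cw K₀ B i (p i)) * (∏ i ∈ Jᶜ, -conj (ev ψ (p i))) *
            F (∏ i ∈ Jᶜ, p i) (∏ i ∈ J, p i) =
        ∑ q ∈ Q, w q * ∑ z ∈ Zs, c z * F z (π q) := by
  classical
  obtain ⟨C, hC, hcw⟩ := sum_cw_le 3
  refine ⟨max 1 C ^ K₀, by positivity, fun B J hB => ?_⟩
  have hB0 : 0 < B := one_pos.trans_le hB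
  have hK0 : (0 : ℝ) < K₀ := by exact_mod_cast hK
  have hPw := fun i => PA.Pw_pos K₀ hB0 i
  have hone : ∀ I : Finset (Fin K₀), 1 ≤ ∏ i ∈ I, Pw K₀ B i := fun I =>
    (Finset.prod_const_one (s := I)).ge.trans
      (Finset.prod_le_prod (fun _ _ => zero_le_one) fun i _ => PA.one_le_Pw i.2 hB)
  have hsplit : (∏ i ∈ J, Pw K₀ B i) * ∏ i ∈ Jᶜ, Pw K₀ B i = B ^ (1 / 6 : ℝ) := by
    rw [Finset.prod_mul_prod_compl, prod_Pw hK hB0]
  obtain ⟨Q', hQ'⟩ : ∃ Q', Q' = Fintype.piFinset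
      fun i : Fin K₀ => if i ∈ Jᶜ then Pset M K₀ B i else {1} := ⟨_, rfl⟩
  have hQ'm : ∀ r ∈ Q', (∀ i ∈ Jᶜ, r i ∈ Pset M K₀ B i) ∧ ∀ i, i ∉ Jᶜ → r i = 1 :=
    fun r hr => mem_of (hQ' ▸ hr)
  have hinj : Set.InjOn (fun r : Fin K₀ → O => ∏ i ∈ Jᶜ, r i) Q' := by
    intro r hr r' hr' h
    funext i
    by_cases hi : i ∈ Jᶜ
    · exact eq_of_prod hB (hQ'm r hr).1 (hQ'm r' hr').1 h i hi
    · rw [(hQ'm r hr).2 i hi, (hQ'm r' hr').2 i hi]
  obtain ⟨c, hc⟩ : ∃ c : O → ℂ, ∀ r ∈ Q', c (∏ i ∈ Jᶜ, r i) =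
      ∏ i ∈ Jᶜ, cw K₀ B i (r i) * -conj (ev ψ (r i)) := by
    refine ⟨fun z => (fun r : Fin K₀ → O => ∏ i ∈ Jᶜ, cw K₀ B i (r i) * -conj (ev ψ (r i)))
      (Function.invFunOn (fun r : Fin K₀ → O => ∏ i ∈ Jᶜ, r i) Q' z), fun r hr => ?_⟩
    exact congrArg _ (hinj.leftInvOn_invFunOn hr)
  refine ⟨∏ i ∈ J, Pw K₀ B i, Fintype.piFinset fun i => if i ∈ J then Pset M K₀ B i else {1},
    fun q => ∏ i ∈ J, q i, fun q => ∏ i ∈ J, cw K₀ B i (q i),
    Q'.image fun r => ∏ i ∈ Jᶜ, r i, c, hone J, ?_, fun q hq => ?_, fun z hz => ?_,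
    fun q hq z hz => ?_, fun σ hσ => ?_, fun σ hσ z hz => ?_, fun F => ?_⟩
  · rw [← hsplit]
    exact le_mul_of_one_le_right (by linarith [hone J]) (hone _)
  · exact ⟨(sp_prod hB (mem_of hq).1).1.ne_zero, nr_le hK hB (mem_of hq).1⟩
  · obtain ⟨r, hr, rfl⟩ := Finset.mem_image.1 hz
    exact ⟨sp_prod hB (hQ'm r hr).1, nr_le hK hB (hQ'm r hr).1⟩
  · obtain ⟨r, hr, rfl⟩ := Finset.mem_image.1 hz
    refine le_trans (le_of_eq ?_) (mul_le_mul (le_nr hB (hQ'm r hr).1) (le_nr hB (mem_of hq).1)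
      (by positivity) (Nat.cast_nonneg _))
    rw [← Real.rpow_add hB0, ← mul_add, ← Nat.cast_add, Finset.card_compl_add_card,
      Fintype.card_fin]
    congr 1
    field_simp
  · simp only [norm_prod, mom_eq hB0]
    rw [sum_pi J (fun i => Pset M K₀ B i) 1
      fun i p => ‖cw K₀ B i p‖ * nr p ^ σ / Pw K₀ B i ^ σ]
    refine le_trans (Finset.prod_le_prod (g := fun i : Fin K₀ => C * Pw K₀ B i)
      (fun i _ => Finset.sum_nonneg fun _ _ => ?_) fun i _ => ?_) ?_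
    · exact div_nonneg (by positivity) (Real.rpow_nonneg (hPw i).le _)
    · rw [← Finset.sum_div, div_le_iff₀ (Real.rpow_pos_of_pos (hPw i) _)]
      refine (hcw M K₀ i B σ hB0 hσ).1.trans_eq ?_
      rw [Real.rpow_add (hPw i), Real.rpow_one, mul_assoc]
    · rw [Finset.prod_mul_distrib, Finset.prod_const]
      exact mul_le_mul_of_nonneg_right (pow_le J hC.le) (by linarith [hone J])
  · obtain ⟨r, hr, rfl⟩ := Finset.mem_image.1 hz
    rw [← hsplit, mul_div_cancel_left₀ _ (by linarith [hone J]), hc r hr, norm_prod, mom_eq hB0]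
    refine le_trans ?_ (pow_le Jᶜ hC.le)
    rw [← Finset.prod_const]
    refine Finset.prod_le_prod (fun i _ => div_nonneg (by positivity)
      (Real.rpow_nonneg (hPw i).le _)) fun i hi => ?_
    rw [div_le_iff₀ (Real.rpow_pos_of_pos (hPw i) _)]
    refine le_trans ?_ ((hcw M K₀ i B σ hB0 hσ).2 (r i)
      ((mem_Pset hB0).1 ((hQ'm r hr).1 i hi)).1.ne_zero)
    refine mul_le_mul_of_nonneg_right ?_ (by positivity)
    rw [norm_mul, norm_neg, Complex.norm_conj]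
    exact mul_le_of_le_one_right (norm_nonneg _) (norm_ev_le hM.1 ψ _)
  · rw [sum_split J _ 1, ← hQ']
    refine Finset.sum_congr rfl fun q _ => ?_
    rw [Finset.sum_image hinj, Finset.mul_sum]
    refine Finset.sum_congr rfl fun r hr => ?_
    have e1 : ∀ {R : Type} [CommMonoid R] (f : Fin K₀ → O → R),
        ∏ i ∈ J, f i (J.piecewise q r i) = ∏ i ∈ J, f i (q i) := fun f =>
      Finset.prod_congr rfl fun i hi => by rw [Finset.piecewise_eq_of_mem _ _ _ hi]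
    have e2 : ∀ {R : Type} [CommMonoid R] (f : Fin K₀ → O → R),
        ∏ i ∈ Jᶜ, f i (J.piecewise q r i) = ∏ i ∈ Jᶜ, f i (r i) := fun f =>
      Finset.prod_congr rfl fun i hi => by
        rw [Finset.piecewise_eq_of_notMem _ _ _ (Finset.mem_compl.1 hi)]
    rw [hc r hr, ← Finset.prod_mul_prod_compl J, e1 fun i p => cw K₀ B i p,
      e2 fun i p => cw K₀ B i p, e2 fun _ p => -conj (ev ψ p), e1 fun _ p => p, e2 fun _ p => p,
      Finset.prod_mul_distrib]
    ring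

end Crest.Agent.R17.HS
end
end

-- ▼ part PVc/R17/HSideE
section

/-!
# Row 17, `hside`, part E: the exponents
-/

set_option autoImplicit false

noncomputable section

namespace Crest.Agent.R17.HS

theorem rpow_eq_pow {B : ℝ} (hB : 0 ≤ B) (n : ℕ) (e : ℝ) (h : e = n / 96) :
    B ^ e = (B ^ (1 / 96 : ℝ)) ^ n := by
  rw [← Real.rpow_natCast, ← Real.rpow_mul hB, h]; congr 1; ring

theorem lam_facts {u v : ℝ} (hu : 0 < u) (hv : 0 < v) :
    1 ≤ (u + u⁻¹) * (v + v⁻¹) ∧ u ≤ (u + u⁻¹) * (v + v⁻¹) ∧ u * v⁻¹ ≤ (u + u⁻¹) * (v + v⁻¹) ∧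
      u⁻¹ * v⁻¹ ≤ (u + u⁻¹) * (v + v⁻¹) := by
  have hu' := inv_pos.2 hu
  have hv' := inv_pos.2 hv
  have h1 : 1 ≤ v + v⁻¹ := by
    rcases le_total 1 v with h | h
    · linarith
    · linarith [one_le_inv₀ hv |>.2 h]
  have h2 : 1 ≤ u + u⁻¹ := by
    rcases le_total 1 u with h | h
    · linarith
    · linarith [one_le_inv₀ hu |>.2 h]
  refine ⟨one_le_mul_of_one_le_of_one_le h2 h1, ?_, ?_, ?_⟩
  · nlinarith
  · exact mul_le_mul (by linarith) (by linarith) hv'.le (by linarith)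
  · exact mul_le_mul (by linarith) (by linarith) hv'.le (by linarith)

/-- the algebraic core, `b = B^{1/96}` -/
theorem numeric_aux {b P μ K Z X : ℝ} (hb : 1 ≤ b) (hP : 1 ≤ P) (hμ : 1 ≤ μ)
    (hK0 : 0 < K) (hZ0 : 0 < Z) (hX0 : 0 < X) (hK : K ≤ μ * (b ^ 80 / P ^ 2))
    (hZ : Z ≤ μ * (b ^ 16 / P)) (hX : X ^ 2 / K ≤ μ * b ^ 12) :
    b ^ 78 / Real.sqrt (b ^ 96 * Z * X) *
      (Real.sqrt (b ^ 96 * Z * (K + K ^ 2 * Z / b ^ 96 + K * Z ^ 2 / b ^ 48 +
        Real.sqrt K * Z * b ^ 24)) * Real.sqrt (Gr K X)) ≤ 3 * μ ^ 3 * (b ^ 159 / P) := by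
  have hb0 : 0 < b := by linarith
  have hP0 : 0 < P := by linarith
  set KJ := b ^ 80 / P ^ 2 with hKJ
  have hKJ0 : 0 < KJ := by positivity
  have hμ2 : μ ≤ μ ^ 2 := by nlinarith
  have hμ3 : μ ^ 2 ≤ μ ^ 3 := pow_le_pow_right₀ hμ (by norm_num)
  have hZ' : Z ≤ μ * b ^ 16 := hZ.trans (by gcongr; exact div_le_self (by positivity) hP)
  have hK' : K ≤ μ * b ^ 80 :=
    hK.trans (by gcongr; exact div_le_self (by positivity) (one_le_pow₀ hP))
  have e1 : K ≤ μ ^ 3 * KJ := hK.trans (by gcongr; linarith)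
  have e2 : K ^ 2 * Z / b ^ 96 ≤ μ ^ 3 * KJ := by
    rw [div_le_iff₀ (by positivity)]
    calc K ^ 2 * Z = K * K * Z := by ring
      _ ≤ (μ * KJ) * (μ * b ^ 80) * (μ * b ^ 16) := by gcongr
      _ = _ := by ring
  have e3 : K * Z ^ 2 / b ^ 48 ≤ μ ^ 3 * KJ := by
    rw [div_le_iff₀ (by positivity)]
    calc K * Z ^ 2 ≤ (μ * KJ) * (μ * b ^ 16) ^ 2 := by gcongr
      _ = μ ^ 3 * KJ * b ^ 32 := by ring
      _ ≤ _ := by gcongr; norm_num
  have e4 : Real.sqrt K * Z * b ^ 24 ≤ μ ^ 3 * KJ := by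
    have h1 : Real.sqrt K ≤ μ * (b ^ 40 / P) := by
      refine Real.sqrt_le_iff.2 ⟨by positivity, hK.trans ?_⟩
      calc μ * KJ ≤ μ ^ 2 * KJ := by gcongr
        _ = _ := by rw [hKJ]; field_simp
    calc Real.sqrt K * Z * b ^ 24 ≤ μ * (b ^ 40 / P) * (μ * (b ^ 16 / P)) * b ^ 24 := by gcongr
      _ = μ ^ 2 * KJ := by rw [hKJ]; field_simp
      _ ≤ _ := by gcongr
  have e5 : (X ^ 2 / K) ^ (1 / 6 : ℝ) ≤ μ * b ^ 2 := by
    have h1 : X ^ 2 / K ≤ (μ * b ^ 2) ^ 6 := by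
      refine hX.trans ?_
      rw [mul_pow, ← pow_mul]
      gcongr
      exact le_self_pow₀ hμ (by norm_num)
    refine (Real.rpow_le_rpow (by positivity) h1 (by norm_num)).trans_eq ?_
    rw [← Real.rpow_natCast, ← Real.rpow_mul (by positivity)]
    norm_num
  have e6 : Gr K X ≤ (μ * KJ) * X * (2 * (μ * b ^ 2)) := by
    unfold Gr
    have : 1 ≤ μ * b ^ 2 := one_le_mul_of_one_le_of_one_le hμ (one_le_pow₀ hb)
    gcongr
    linarith
  set E := K + K ^ 2 * Z / b ^ 96 + K * Z ^ 2 / b ^ 48 + Real.sqrt K * Z * b ^ 24 with hE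
  have e7 : E ≤ 4 * (μ ^ 3 * KJ) := by linarith
  have hE0 : 0 ≤ E := by positivity
  have hs : 0 < Real.sqrt (b ^ 96 * Z * X) := Real.sqrt_pos.2 (by positivity)
  rw [← Real.sqrt_mul (by positivity), div_mul_eq_mul_div, div_le_iff₀ hs]
  have h8 : Real.sqrt (b ^ 96 * Z * E * Gr K X) ≤
      3 * μ ^ 3 * KJ * b * Real.sqrt (b ^ 96 * Z * X) := by
    refine Real.sqrt_le_iff.2 ⟨by positivity, ?_⟩
    rw [mul_pow, Real.sq_sqrt (by positivity)]
    have hμ5 : μ ^ 5 ≤ μ ^ 6 := pow_le_pow_right₀ hμ (by norm_num)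
    calc b ^ 96 * Z * E * Gr K X
        ≤ b ^ 96 * Z * (4 * (μ ^ 3 * KJ)) * ((μ * KJ) * X * (2 * (μ * b ^ 2))) := by
          gcongr; exact Gr_nonneg hK0.le hX0.le
      _ = 8 * μ ^ 5 * (KJ ^ 2 * b ^ 2 * (b ^ 96 * Z * X)) := by ring
      _ ≤ 9 * μ ^ 6 * (KJ ^ 2 * b ^ 2 * (b ^ 96 * Z * X)) := by gcongr; norm_num
      _ = _ := by ring
  have h9 : b ^ 78 * KJ * b ≤ b ^ 159 / P := by
    rw [hKJ, show b ^ 78 * (b ^ 80 / P ^ 2) * b = b ^ 159 / P ^ 2 by ring]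
    gcongr
    nlinarith
  calc b ^ 78 * Real.sqrt (b ^ 96 * Z * E * Gr K X)
      ≤ b ^ 78 * (3 * μ ^ 3 * KJ * b * Real.sqrt (b ^ 96 * Z * X)) := by gcongr
    _ = 3 * μ ^ 3 * (b ^ 78 * KJ * b) * Real.sqrt (b ^ 96 * Z * X) := by ring
    _ ≤ _ := by gcongr

theorem numeric {B P Z N m u v X K : ℝ} (hB : 1 ≤ B) (hP : 1 ≤ P)
    (hZ : 0 < Z) (hN : 0 < N) (hm : 1 ≤ m) (hu : u = Z / (B ^ (1 / 6 : ℝ) / P)) (hv : v = N / P)
    (hX : X = Xpar B / N) (hK : K = 2 * (B * m / Apar B) * Z * X) :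
    Apar B / Real.sqrt (B * Z * X) * (Real.sqrt (B * Z * En B K Z) * Real.sqrt (Gr K X)) ≤
      24 * m ^ 3 * ((u + u⁻¹) ^ 3 * (v + v⁻¹) ^ 3) * (NrmB B * B ^ (7 / 8 : ℝ) / P) := by
  have hB0 : 0 ≤ B := by linarith
  have hb : 1 ≤ B ^ (1 / 96 : ℝ) := Real.one_le_rpow hB (by norm_num)
  have a1 : Apar B = (B ^ (1 / 96 : ℝ)) ^ 78 := rpow_eq_pow hB0 78 _ (by norm_num)
  have a2 : Xpar B = (B ^ (1 / 96 : ℝ)) ^ 46 := rpow_eq_pow hB0 46 _ (by norm_num)
  have a3 : B ^ (1 / 6 : ℝ) = (B ^ (1 / 96 : ℝ)) ^ 16 := rpow_eq_pow hB0 16 _ (by norm_num)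
  have a4 : B ^ (1 / 4 : ℝ) = (B ^ (1 / 96 : ℝ)) ^ 24 := rpow_eq_pow hB0 24 _ (by norm_num)
  have a5 : Real.sqrt B = (B ^ (1 / 96 : ℝ)) ^ 48 := by
    rw [Real.sqrt_eq_rpow]; exact rpow_eq_pow hB0 48 _ (by norm_num)
  have a6 : B ^ (7 / 8 : ℝ) = (B ^ (1 / 96 : ℝ)) ^ 84 := rpow_eq_pow hB0 84 _ (by norm_num)
  have a7 : Apar B ^ (1 / 6 : ℝ) = (B ^ (1 / 96 : ℝ)) ^ 13 := by
    rw [Apar, ← Real.rpow_mul hB0]; exact rpow_eq_pow hB0 13 _ (by norm_num)
  have a8 : B = (B ^ (1 / 96 : ℝ)) ^ 96 := by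
    rw [← rpow_eq_pow hB0 96 1 (by norm_num), Real.rpow_one]
  rw [NrmB, En, a7, a6, a5, a4]
  rw [a3] at hu
  rw [a2] at hX
  rw [a1] at hK
  rw [a3, a2, a1]
  generalize B ^ (1 / 96 : ℝ) = b at *
  subst a8
  have hb0 : 0 < b := by linarith
  have hP0 : 0 < P := by linarith
  have hu0 : 0 < u := by rw [hu]; positivity
  have hv0 : 0 < v := by rw [hv]; positivity
  have hX0 : 0 < X := by rw [hX]; positivity
  have hK0 : 0 < K := by rw [hK]; positivity
  obtain ⟨l1, l2, l3, l4⟩ := lam_facts hu0 hv0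
  set Λ := (u + u⁻¹) * (v + v⁻¹) with hΛ
  have hZ' : Z = u * (b ^ 16 / P) := by rw [hu]; field_simp
  have hN' : N = v * P := by rw [hv]; field_simp
  have hK' : K = 2 * m * (u * v⁻¹) * (b ^ 80 / P ^ 2) := by
    rw [hK, hX, hZ', hN']; field_simp
  have hm2 : 1 ≤ 2 * m := by linarith
  have hΛμ : Λ ≤ 2 * m * Λ := le_mul_of_one_le_left (by linarith) hm2
  have hXK : X ^ 2 / K = (2 * m)⁻¹ * (u⁻¹ * v⁻¹) * b ^ 12 := by
    rw [hK', hX, hN']; field_simp
  refine (numeric_aux (μ := 2 * m * Λ) hb hP (l1.trans hΛμ) hK0 hZ hX0 ?_ ?_ ?_).trans_eq ?_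
  · rw [hK']; gcongr
  · rw [hZ']; gcongr; exact l2.trans hΛμ
  · rw [hXK]
    exact mul_le_mul_of_nonneg_right ((mul_le_of_le_one_left (by positivity)
      (inv_le_one_of_one_le₀ hm2)).trans (l4.trans hΛμ)) (by positivity)
  · rw [← mul_pow, ← hΛ]; ring

end Crest.Agent.R17.HS
end
end

-- ▼ part PVc/R17/HSideF
section

/-!
# Row 17, `hside`, part F: dyadic pieces of the marks
-/

set_option autoImplicit false

noncomputable section

namespace Crest.Agent.R17.HS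

open Finset

/-- dyadic decomposition of a complex sum -/
theorem dyadic_norm {ε : ℝ} (hε : 0 < ε) : ∃ C : ℝ, 0 < C ∧ ∀ (Q E : ℝ) (S : Finset O)
    (f : O → ℂ), 1 ≤ Q → 0 ≤ E → (∀ k ∈ S, k ≠ 0 ∧ nr k ≤ Q) →
    (∀ (Z : ℝ) (T : Finset O), 1 ≤ Z → T ⊆ S → T.Nonempty →
      (∀ k ∈ T, Z ≤ nr k ∧ nr k ≤ 2 * Z) → ‖∑ k ∈ T, f k‖ ≤ E) →
    ‖∑ k ∈ S, f k‖ ≤ C * Q ^ ε * E := by
  classical
  obtain ⟨C, hC, h⟩ := En.log_le hε
  refine ⟨C, hC, fun Q E S f hQ hE0 hS hE => ?_⟩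
  have hK0 : ⌊Q⌋₊ ≠ 0 := by
    have := (Nat.one_le_floor_iff Q).2 hQ
    omega
  have hm : (2 : ℝ) ^ Nat.log 2 ⌊Q⌋₊ ≤ Q :=
    le_trans (by exact_mod_cast Nat.pow_log_le_self 2 hK0) (Nat.floor_le (by linarith))
  rw [← sum_fiberwise_of_maps_to (t := range (Nat.log 2 ⌊Q⌋₊ + 1)) (g := fun k => Nat.log 2 (nm k))
    fun k hk => mem_range.2 (Nat.lt_succ_of_le (Nat.log_mono_right
      ((Nat.le_floor_iff (by linarith)).2 (hS k hk).2)))]
  refine (norm_sum_le _ _).trans ?_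
  calc _ ≤ ∑ _e ∈ range (Nat.log 2 ⌊Q⌋₊ + 1), E := by
        refine sum_le_sum fun e _ => ?_
        rcases (S.filter fun k => Nat.log 2 (nm k) = e).eq_empty_or_nonempty with he | he
        · rw [he, sum_empty, norm_zero]; exact hE0
        refine hE (2 ^ e) _ (one_le_pow₀ one_le_two) (filter_subset _ _) he fun k hk => ?_
        obtain ⟨hk', rfl⟩ := mem_filter.1 hk
        have h0 : nm k ≠ 0 := fun h0 => (hS k hk').1 (nm_eq_zero.1 h0)
        refine ⟨by exact_mod_cast Nat.pow_log_le_self 2 h0, ?_⟩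
        have := (Nat.lt_pow_succ_log_self one_lt_two (nm k)).le
        rw [pow_succ'] at this
        exact_mod_cast this
    _ ≤ _ := by
        rw [sum_const, card_range, nsmul_eq_mul]
        refine mul_le_mul_of_nonneg_right ?_ hE0
        exact_mod_cast h Q _ hm

theorem cube_le {v : ℝ} (hv : 0 < v) :
    (v + v⁻¹) ^ 3 ≤ 4 * (v ^ (3 : ℝ) + v ^ (-3 : ℝ)) := by
  have hv' := inv_pos.2 hv
  rw [Real.rpow_neg hv.le, show (3 : ℝ) = (3 : ℕ) by norm_num, Real.rpow_natCast, ← inv_pow]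
  nlinarith [mul_nonneg (add_pos hv hv').le (sq_nonneg (v - v⁻¹))]

/-- the sizes of the parameters of a non-empty piece -/
theorem sizes {B Z N m y : ℝ} (hB : 1 ≤ B) (hm : 1 ≤ m) (hZ : 1 ≤ Z) (h1 : Z ≤ y) (h2 : y ≤ 2 * Z)
    (hN : 1 ≤ N) (hN' : N ≤ B ^ (5 / 24 : ℝ)) (hy : y ≤ B ^ (5 / 24 : ℝ))
    (hyN : B ^ (1 / 8 : ℝ) ≤ y * N) :
    1 ≤ Xpar B / N ∧ Z ≤ 2 * m * B ∧ 1 ≤ 2 * (B * m / Apar B) * Z * (Xpar B / N) ∧
      2 * (B * m / Apar B) * Z * (Xpar B / N) ≤ 2 * m * B ∧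
      (Xpar B / N) ^ 3 ≤ (2 * (B * m / Apar B) * Z * (Xpar B / N)) ^ 2 := by
  have hB0 : 0 ≤ B := by linarith
  have hb : 1 ≤ B ^ (1 / 96 : ℝ) := Real.one_le_rpow hB (by norm_num)
  have a1 : Apar B = (B ^ (1 / 96 : ℝ)) ^ 78 := rpow_eq_pow hB0 78 _ (by norm_num)
  have a2 : Xpar B = (B ^ (1 / 96 : ℝ)) ^ 46 := rpow_eq_pow hB0 46 _ (by norm_num)
  have a3 : B ^ (5 / 24 : ℝ) = (B ^ (1 / 96 : ℝ)) ^ 20 := rpow_eq_pow hB0 20 _ (by norm_num)
  have a4 : B ^ (1 / 8 : ℝ) = (B ^ (1 / 96 : ℝ)) ^ 12 := rpow_eq_pow hB0 12 _ (by norm_num)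
  have a8 : B = (B ^ (1 / 96 : ℝ)) ^ 96 := by
    rw [← rpow_eq_pow hB0 96 1 (by norm_num), Real.rpow_one]
  rw [a3] at hN' hy
  rw [a4] at hyN
  rw [a1, a2]
  generalize B ^ (1 / 96 : ℝ) = b at *
  subst a8
  have hb0 : 0 < b := by linarith
  have hN0 : 0 < N := by linarith
  have hy0 : 0 < y := by linarith
  have p1 : b ^ 20 ≤ b ^ 46 := pow_le_pow_right₀ hb (by norm_num)
  have p2 : b ^ 20 ≤ b ^ 96 := pow_le_pow_right₀ hb (by norm_num)
  have p3 : b ^ 10 ≤ b ^ 12 := pow_le_pow_right₀ hb (by norm_num)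
  have c1 : 1 ≤ b ^ 46 / N := (one_le_div hN0).2 (hN'.trans p1)
  have e : b ^ 96 * m / b ^ 78 = b ^ 18 * m := by field_simp
  rw [e]
  set X := b ^ 46 / N with hX
  have c5 : X ^ 3 ≤ (2 * (b ^ 18 * m) * Z * X) ^ 2 := by
    have d1 : X ≤ (b ^ 18 * y) ^ 2 := by
      rw [hX, div_le_iff₀ hN0]
      calc b ^ 46 = b ^ 36 * (1 * b ^ 10) := by ring
        _ ≤ b ^ 36 * (y * (y * N)) := by gcongr; exacts [hZ.trans h1, p3.trans hyN]
        _ = _ := by ring
    have d2 : b ^ 18 * y ≤ 2 * (b ^ 18 * m) * Z := by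
      calc b ^ 18 * y = b ^ 18 * 1 * y := by ring
        _ ≤ b ^ 18 * m * (2 * Z) := by gcongr
        _ = _ := by ring
    calc X ^ 3 = X * X ^ 2 := by ring
      _ ≤ (2 * (b ^ 18 * m) * Z) ^ 2 * X ^ 2 := by
          gcongr
          exact d1.trans (pow_le_pow_left₀ (by positivity) d2 2)
      _ = _ := by ring
  refine ⟨c1, ?_, ?_, ?_, c5⟩
  · nlinarith [h1.trans (hy.trans p2), pow_pos hb0 96]
  · by_contra h
    have h3 : (2 * (b ^ 18 * m) * Z * X) ^ 2 < 1 :=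
      pow_lt_one₀ (by positivity) (not_le.1 h) two_ne_zero
    linarith [one_le_pow₀ (n := 3) c1]
  · calc 2 * (b ^ 18 * m) * Z * X ≤ 2 * (b ^ 18 * m) * b ^ 20 * b ^ 46 := by
          gcongr
          exacts [h1.trans hy, div_le_self (by positivity) hN]
      _ = 2 * m * b ^ 84 := by ring
      _ ≤ _ := by gcongr; norm_num

/-- One dyadic piece of marks, one compensation, one class. -/
theorem piece {M : O} (hM : Adm M) {ε : ℝ} (hε : 0 < ε) : ∃ C : ℝ, 0 < C ∧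
    ∀ (B P Z N C₂ : ℝ) (φ : O → ℂ) (ν : Chr M) (θ : O → ℂ) (T : Finset O) (c : O → ℂ),
      1 ≤ B → 1 ≤ P → 1 ≤ Z → 1 ≤ N → N ≤ B ^ (5 / 24 : ℝ) → 0 < C₂ → PerB M φ →
      (∀ h, ‖θ h‖ ≤ 1) → T.Nonempty →
      (∀ z ∈ T, SP M z ∧ nr z ≤ B ^ (5 / 24 : ℝ) ∧ B ^ (1 / 8 : ℝ) ≤ nr z * N ∧ Z ≤ nr z ∧
        nr z ≤ 2 * Z) →
      (∀ σ : ℝ, |σ| ≤ 3 → ∀ z ∈ T, ‖c z‖ * (nr z / (B ^ (1 / 6 : ℝ) / P)) ^ σ ≤ C₂) →
      ‖∑ z ∈ T, c z * (((Apar B / Real.sqrt (B * nr z * (Xpar B / N)) : ℝ) : ℂ) *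
          Dual φ ν θ B (Xpar B / N) (B * nr M / Apar B) z)‖ ≤
        C * C₂ * B ^ ε * (N / P + (N / P)⁻¹) ^ 3 * (NrmB B * B ^ (7 / 8 : ℝ) / P) := by
  classical
  obtain ⟨C, hC, h⟩ := core hM hε
  have hm := one_le_nr hM.1
  refine ⟨64 * C * (2 * nr M) ^ ε * (24 * nr M ^ 3), by positivity,
    fun B P Z N C₂ φ ν θ T c hB hP hZ hN hN' hC₂ hφ hθ ⟨z₀, hz₀⟩ hT hc => ?_⟩
  obtain ⟨-, b1, b2, b3, b4⟩ := hT z₀ hz₀
  obtain ⟨s1, s2, s3, s4, s5⟩ := sizes hB hm hZ b3 b4 hN hN' b1 b2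
  have hB0 : 0 < B := by linarith
  have hP0 : 0 < P := by linarith
  have hZ0 : 0 < Z := by linarith
  have hA : 0 < Apar B := Real.rpow_pos_of_pos hB0 _
  set X := Xpar B / N with hX
  set K := 2 * (B * nr M / Apar B) * Z * X with hK
  set ZJ := B ^ (1 / 6 : ℝ) / P with hZJ
  have hZJ0 : 0 < ZJ := by positivity
  set u := Z / ZJ with hu
  have hu0 : 0 < u := by positivity
  have hX0 : 0 < X := by linarith
  set a := Apar B / Real.sqrt (B * Z * X) with ha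
  have ha0 : 0 < a := by positivity
  set γ := a * (64 * C₂) / (u + u⁻¹) ^ 3 with hγ
  have hγ0 : 0 < γ := by positivity
  have h1 := h (2 * nr M * B) B X (B * nr M / Apar B) Z K φ ν θ T
    (fun z => if z ∈ T then c z * ((Apar B / Real.sqrt (B * nr z * X) : ℝ) : ℂ) / (γ : ℂ) else 0)
    hB (le_mul_of_one_le_left hB0.le (by linarith)) s1 (by positivity) hZ s2 s3 s4 le_rfl s5 hφ hθ
    (fun z hz => ⟨(hT z hz).1, (hT z hz).2.2.2⟩) (fun z => by
      split_ifs with hz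
      · obtain ⟨-, -, -, d3, d4⟩ := hT z hz
        have hz0 : 0 < nr z := by linarith
        rw [norm_div, norm_mul, Complex.norm_real, Complex.norm_real,
          Real.norm_of_nonneg (by positivity), Real.norm_of_nonneg hγ0.le, div_le_one hγ0, hγ,
          le_div_iff₀ (by positivity)]
        have e1 : Apar B / Real.sqrt (B * nr z * X) ≤ a := by rw [ha]; gcongr
        set u' := nr z / ZJ with hu'
        have hu'0 : 0 < u' := by positivity
        have e2 : u + u⁻¹ ≤ 2 * (u' + u'⁻¹) := by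
          have f1 : u ≤ u' := by rw [hu, hu']; gcongr
          have f2 : u⁻¹ ≤ 2 * u'⁻¹ := by
            rw [hu, hu', inv_div, inv_div, ← mul_div_assoc, div_le_div_iff₀ hZ0 hz0]
            nlinarith
          linarith
        have e3 : (u + u⁻¹) ^ 3 ≤ 32 * (u' ^ (3 : ℝ) + u' ^ (-3 : ℝ)) :=
          (pow_le_pow_left₀ (by positivity) e2 3).trans (by
            rw [mul_pow]; linarith [cube_le hu'0])
        have e4 := hc 3 (by norm_num) z hz
        have e5 := hc (-3) (by norm_num) z hz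
        calc ‖c z‖ * (Apar B / Real.sqrt (B * nr z * X)) * (u + u⁻¹) ^ 3
            ≤ ‖c z‖ * a * (32 * (u' ^ (3 : ℝ) + u' ^ (-3 : ℝ))) := by gcongr
          _ = a * (32 * (‖c z‖ * u' ^ (3 : ℝ) + ‖c z‖ * u' ^ (-3 : ℝ))) := by ring
          _ ≤ a * (32 * (C₂ + C₂)) := by gcongr
          _ = _ := by ring
      · simp)
  have e : ∑ z ∈ T, c z * (((Apar B / Real.sqrt (B * nr z * X) : ℝ) : ℂ) *
      Dual φ ν θ B X (B * nr M / Apar B) z) = (γ : ℂ) * ∑ z ∈ T, (if z ∈ T then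
        c z * ((Apar B / Real.sqrt (B * nr z * X) : ℝ) : ℂ) / (γ : ℂ) else 0) *
          Dual φ ν θ B X (B * nr M / Apar B) z := by
    rw [mul_sum]
    refine sum_congr rfl fun z hz => ?_
    have : (γ : ℂ) ≠ 0 := Complex.ofReal_ne_zero.2 hγ0.ne'
    rw [if_pos hz]
    field_simp
  have h2 := numeric hB hP hZ0 (by linarith : 0 < N) hm hu rfl hX hK
  rw [e, norm_mul, Complex.norm_real, Real.norm_of_nonneg hγ0.le]
  rw [Real.mul_rpow (by positivity) hB0.le] at h1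
  rw [← ha] at h2
  generalize Real.sqrt (B * Z * En B K Z) * Real.sqrt (Gr K X) = W at h1 h2
  have hU : 0 < (u + u⁻¹) ^ 3 := by positivity
  calc _ ≤ γ * (C * ((2 * nr M) ^ ε * B ^ ε) * W) := by gcongr
    _ = 64 * C₂ * C * ((2 * nr M) ^ ε * B ^ ε) / (u + u⁻¹) ^ 3 * (a * W) := by
        rw [hγ]; ring
    _ ≤ 64 * C₂ * C * ((2 * nr M) ^ ε * B ^ ε) / (u + u⁻¹) ^ 3 * (24 * nr M ^ 3 *
        ((u + u⁻¹) ^ 3 * (N / P + (N / P)⁻¹) ^ 3) * (NrmB B * B ^ (7 / 8 : ℝ) / P)) := by gcongr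
    _ = _ := by
        generalize (N / P + (N / P)⁻¹) ^ 3 = V
        generalize NrmB B * B ^ (7 / 8 : ℝ) / P = Y
        field_simp

end Crest.Agent.R17.HS
end
end

-- ▼ part PVc/R17/HSide
section

/-!
# Row 17, module M15c: the dual side of the probe

Fix the primes `p_i` and `J`; `z = ∏_{i ∉ J} p_i`, `π = ∏_{i ∈ J} p_i`.  For fixed `(n, x)` apply
`poisson` with `q = M n x` to `a ↦ xiR(a) · ft (n x) f a`, `f(k) = χ_n(k) conj (gs 5 x k)`
(`ft_mul`, `ft_ft`): with `A' = A N n/(B N z)`,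
`∑_a xiR(a) ft f(a) gw(N a/A') = (A'/N M) conj χ_n(M) χ_x(M) ∑_k ξ̂(k) f(-k) gw(A N k/(N M · B N z N x))`
(up to the exact placement of the signs), where `ξ̂ = ft M xiR` does not depend on `n, x` because
`xiR` is invariant under primary units.  So the term is
`(A √(B N z)/(N M B N z)) ∑_k ξ̂(k) [∑_n 1_{z∣n} th(n) φ(n) χ_n(k) Wc(N n/(B N z), 1/2)]
 · [∑_x N x^{-1} χ_x(M) Rs(n,x) conj (gs 5 x (-k)) W(N x N π/X)] gw(…)`.
Split `x` in classes modulo `4` (or use `Rs_expand`), discard `k = 0` (only `n = 1`), the primes far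
from the slot centres (`sum_cw_tail`), `N x ≥ X B^{ε'}/N π` and `N k ≥ K_J B^{ε'}`,
`K_J = B^{5/6}/P_J²`, `P_J = ∏_{i ∈ J} P_i`; separate `k, z, x` by `gw_eq_integral` with small `σ`.
Sum over `z` inside (coefficients `c(z)`, dyadic pieces of `N z`; `prod_slot_eq`-type
parametrisation), sum over `π` outside (trivially: `≪ P_J` terms), Cauchy–Schwarz in `k`,
`energy` with `D = B`, `Z ≈ B^{1/6}/P_J`, `h₀ = 1` (the bracket is `≪ K_J B^{O(ε')}`: at `J = ∅` the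
terms are `B^{5/6}, B^{5/6}, B^{2/3}, B^{5/6}`), and `gram` with `X_J = X/N π` (`X_J³ ≤ K_J²`,
`X_J²/K_J ≈ B^{1/8}`).  Total `≪ P_J · B · Z_J · X_J · B^{1/96} ≤ B^{1+1/96} B^{1/6} X
= NrmB B · B^{7/8}` since `A^{1/6} = B^{13/96}`.
-/

set_option autoImplicit false

noncomputable section

namespace Crest.Agent.R17

open Finset HS in
theorem hside {M : O} (hM : Adm M) (ψ : Chr M) (K₀ : ℕ) (hK : 1 ≤ K₀) {ε : ℝ} (hε : 0 < ε) :
    ∃ C : ℝ, 0 < C ∧ ∀ B : ℝ, 1 ≤ B →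
      ‖∑' a : O, xiR M a * Ia ψ K₀ B a‖ ≤ C * NrmB B * B ^ (7 / 8 + ε) := by
  classical
  obtain ⟨κ, S, φ, ν, θ, hφ, hθ, hd⟩ := dual_eq hM ψ
  obtain ⟨C₁, hC₁, h₁⟩ := piece hM (half_pos hε)
  obtain ⟨C₂, hC₂, h₂⟩ := slots hM ψ hK
  obtain ⟨C₃, hC₃, h₃⟩ := dyadic_norm (half_pos hε)
  refine ⟨2 ^ K₀ * ((S.card + 1) * C₃ * (C₁ * C₂) * (8 * C₂)), by positivity, fun B hB => ?_⟩
  have hB0 : 0 < B := by linarith
  have hN0 : 0 < NrmB B := by unfold NrmB Apar Xpar; positivity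
  have hne : ∀ p ∈ Fintype.piFinset (fun i : Fin K₀ => Pset M K₀ B i), ∀ I : Finset (Fin K₀),
      ∏ i ∈ I, p i ≠ 0 := fun p hp I => prod_ne_zero_iff.2 fun i _ =>
    ((mem_Pset hB0).1 (Fintype.mem_piFinset.1 hp i)).1.ne_zero
  have e : ∑' a : O, xiR M a * Ia ψ K₀ B a = ∑ J : Finset (Fin K₀),
      ∑ p ∈ Fintype.piFinset (fun i : Fin K₀ => Pset M K₀ B i),
        (∏ i : Fin K₀, cw K₀ B i (p i)) * (∏ i ∈ Jᶜ, -(starRingEnd ℂ) (ev ψ (p i))) *
          ∑' a : O, xiR M a * Irow ψ B a (∏ i ∈ Jᶜ, p i) (∏ i ∈ J, p i) := by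
    rw [sum_comm]
    simp only [← tsum_mul_left]
    have hs : ∀ p ∈ Fintype.piFinset (fun i : Fin K₀ => Pset M K₀ B i),
        ∀ J : Finset (Fin K₀), Summable fun a : O =>
          (∏ i : Fin K₀, cw K₀ B i (p i)) * (∏ i ∈ Jᶜ, -(starRingEnd ℂ) (ev ψ (p i))) *
            (xiR M a * Irow ψ B a (∏ i ∈ Jᶜ, p i) (∏ i ∈ J, p i)) := fun p hp J =>
      (summable_row hM ψ hB0 (hne p hp _) (hne p hp _)).mul_left _
    rw [sum_congr rfl fun p hp => (Summable.tsum_finsetSum fun J _ => hs p hp J).symm,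
      ← Summable.tsum_finsetSum fun p hp => summable_sum fun J _ => hs p hp J]
    refine tsum_congr fun a => ?_
    rw [Ia, mul_sum]
    refine sum_congr rfl fun p _ => ?_
    rw [mul_sum]
    exact sum_congr rfl fun J _ => by ring
  rw [e]
  refine (norm_sum_le _ _).trans ((sum_le_card_nsmul _ _ ((S.card + 1) * C₃ * (C₁ * C₂) *
    (8 * C₂) * NrmB B * B ^ (7 / 8 + ε)) fun J _ => ?_).trans_eq ?_)
  swap
  · rw [card_univ, Fintype.card_finset, Fintype.card_fin, nsmul_eq_mul]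
    push_cast
    ring
  obtain ⟨P, Q, π, w, Zs, c, hP, -, hπ, hZs, hZπ, hw, hc, hF⟩ := h₂ B J hB
  have hP0 : 0 < P := by linarith
  rw [hF fun z π => ∑' a : O, xiR M a * Irow ψ B a z π]
  set Y := NrmB B * B ^ (7 / 8 : ℝ) / P with hY
  have hY0 : 0 < Y := by positivity
  have h5 : B ^ (5 / 24 : ℝ) ≤ B := Real.rpow_le_self_of_one_le hB (by norm_num)
  have key : ∀ q ∈ Q, ‖∑ z ∈ Zs, c z * ∑' a : O, xiR M a * Irow ψ B a z (π q)‖ ≤
      (S.card + 1) * (C₃ * B ^ (ε / 2) *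
        (C₁ * C₂ * B ^ (ε / 2) * (nr (π q) / P + (nr (π q) / P)⁻¹) ^ 3 * Y)) := by
    intro q hq
    have hq0 := nr_pos (hπ q hq).1
    rw [sum_congr rfl fun z hz => by
      rw [hd B z (π q) hB0 (hZs z hz).1.1.ne_zero (hπ q hq).1, mul_sum, mul_sum], sum_comm]
    refine (norm_sum_le _ _).trans ((sum_le_card_nsmul _ _ _ fun i _ =>
      h₃ B _ Zs _ hB (by positivity) (fun z hz => ⟨(hZs z hz).1.1.ne_zero, (hZs z hz).2.trans h5⟩)
        fun Z T hZ hT hT' hT'' => h₁ B P Z (nr (π q)) C₂ (φ i) (ν i) θ T c hB hP hZ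
          (one_le_nr (hπ q hq).1) (hπ q hq).2 hC₂ (hφ i) hθ hT'
          (fun z hz => ⟨(hZs z (hT hz)).1, (hZs z (hT hz)).2, hZπ q hq z (hT hz), hT'' z hz⟩)
          fun σ hσ z hz => hc σ hσ z (hT hz)).trans ?_)
    rw [nsmul_eq_mul]
    gcongr
    linarith
  have e4 := hw 3 (by norm_num)
  have e5 := hw (-3) (by norm_num)
  have e6 : ∑ q ∈ Q, ‖w q‖ * (nr (π q) / P + (nr (π q) / P)⁻¹) ^ 3 ≤ 8 * C₂ * P := by
    calc _ ≤ ∑ q ∈ Q, 4 * (‖w q‖ * (nr (π q) / P) ^ (3 : ℝ) +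
          ‖w q‖ * (nr (π q) / P) ^ (-3 : ℝ)) := by
          refine sum_le_sum fun q hq => ?_
          have := cube_le (div_pos (nr_pos (hπ q hq).1) hP0)
          nlinarith [norm_nonneg (w q)]
      _ ≤ _ := by rw [← mul_sum, sum_add_distrib]; linarith
  have e7 : B ^ (7 / 8 + ε) = B ^ (7 / 8 : ℝ) * (B ^ (ε / 2) * B ^ (ε / 2)) := by
    rw [← Real.rpow_add hB0, ← Real.rpow_add hB0, add_halves]
  calc _ ≤ ∑ q ∈ Q, (S.card + 1) * (C₃ * B ^ (ε / 2) * (C₁ * C₂ * B ^ (ε / 2) * Y)) *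
        (‖w q‖ * (nr (π q) / P + (nr (π q) / P)⁻¹) ^ 3) := by
        refine (norm_sum_le _ _).trans (sum_le_sum fun q hq => ?_)
        rw [norm_mul]
        refine (mul_le_mul_of_nonneg_left (key q hq) (norm_nonneg _)).trans_eq ?_
        ring
    _ ≤ (S.card + 1) * (C₃ * B ^ (ε / 2) * (C₁ * C₂ * B ^ (ε / 2) * Y)) * (8 * C₂ * P) := by
        rw [← mul_sum]; gcongr
    _ = _ := by rw [e7, hY]; field_simp

end Crest.Agent.R17
end
end

-- ▼ part PVc/R17/RowBAuxA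
section

/-!
# Row 17, `RowB`, part A: rows multiplied by a sixth power; bounds for the one-variable sums
-/

set_option autoImplicit false

noncomputable section

namespace Crest.Agent.R17.RB

open scoped ComplexConjugate

/-! ## A1: the row `a e⁶` -/

open Classical in
/-- (`rc_mul_row`, `sym_pow_right`, `sym_pow_six`, `sym_eq_zero_iff`.) -/
theorem rc_mul_six {M : O} (hM : Adm M) (ν : Chr M) (a e n : O) :
    rc ν (a * e ^ 6) n = if IsCoprime n e then rc ν a n else 0 := by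
  by_cases h1 : Primary n ∧ IsCoprime n M
  · rw [rc_mul_row hM, sym_pow_right (PO.of_adm hM h1.1 h1.2)]
    split_ifs with h
    · rw [sym_pow_six h1.1 h, map_one, mul_one]
    · rw [(sym_eq_zero_iff h1.1).2 h]
      simp
  · have h0 : ∀ b, rc ν b n = 0 := fun b => by
      by_cases hn : Primary n
      · exact rc_eq_zero ν fun h => h1 ⟨hn, h.of_mul_right_left⟩
      · exact LBA.rc_neg ν b hn
    simp [h0]

theorem not_exc_mul_six {M r e : O} (hr : ¬ Exc M r) (he : e ≠ 0) : ¬ Exc M (r * e ^ 6) := by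
  have hr0 := ne_zero_of_not_exc hr
  refine fun h => hr fun p hp hpM => ?_
  have hp' := (mem_pf hr0).1 hp
  have := h p ((mem_pf (mul_ne_zero hr0 (pow_ne_zero 6 he))).2
    ⟨hp'.1, hp'.2.1, hp'.2.2.mul_right _⟩) hpM
  rw [vp_mul hp'.1 hr0 (pow_ne_zero 6 he), vp_pow hp'.1 he] at this
  omega

theorem cond_mul_six_le (M : O) {r e : O} (hr : r ≠ 0) (he : e ≠ 0) :
    cond M (r * e ^ 6) ≤ ∏ p ∈ pf r, nr p := by
  classical
  unfold cond
  refine Finset.prod_le_prod_of_subset_of_one_le (fun p hp => ?_) (fun _ _ => Nat.cast_nonneg _)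
    fun p hp _ => one_le_nr ((mem_pf hr).1 hp).1.ne_zero
  rw [Finset.mem_filter, mem_pf (mul_ne_zero hr (pow_ne_zero 6 he))] at hp
  obtain ⟨⟨a1, a2, -⟩, -, a4⟩ := hp
  refine (mem_pf hr).2 ⟨a1, a2, by_contra fun h => a4 ?_⟩
  rw [vp_mul a1 hr (pow_ne_zero 6 he), vp_pow a1 he, (vp_eq_zero_iff a1 hr).2 h]
  omega

theorem not_exc_of_RS {M r : O} {B : ℝ} (h : r ∈ RS M B) : ¬ Exc M r := by
  classical
  obtain ⟨-, h1, h2, h3, h4⟩ := Finset.mem_filter.1 h
  intro hE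
  refine h3 (h1.eq_prod.trans (Finset.prod_eq_one fun p hp => ?_))
  have hp' := (mem_pf h1.ne_zero).1 hp
  have a1 := hE p hp fun hd => hp'.1.not_isUnit (h2.isUnit_of_dvd' hp'.2.2 hd)
  have a2 := h4 p hp
  rw [show vp p r = 0 by omega, pow_zero]

open Classical in
theorem A1_Lser_prime {M : O} (hM : Adm M) (ν : Chr M) (a : O) {p : O} (hp : Prime p)
    (hp' : Primary p) {s : ℂ} (hs : 1 < s.re) :
    Lser ν (a * p ^ 6) s = (1 - rc ν a p * (nr p : ℂ) ^ (-s)) * Lser ν a s := by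
  have hc := LBA.cm_term hM ν a hs
  have hf : Summable fun n => rc ν a n * (nr n : ℂ) ^ (-s) := hc.summable.of_norm
  have h1 : ∑' n : O, (if p ∣ n then rc ν a n * (nr n : ℂ) ^ (-s) else 0) =
      rc ν a p * (nr p : ℂ) ^ (-s) * Lser ν a s := by
    rw [← (mul_right_injective₀ hp.ne_zero).tsum_eq
      (f := fun n => if p ∣ n then rc ν a n * (nr n : ℂ) ^ (-s) else 0), Lser, ← tsum_mul_left]
    · refine tsum_congr fun c => (if_pos (dvd_mul_right p c)).trans ?_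
      by_cases hc' : Primary c
      · exact hc.mul p c hp' hc'
      · rw [hc.zero c hc', hc.zero _ fun h => hc' (hp'.of_mul h), mul_zero]
    · intro k hk
      obtain ⟨c, rfl⟩ : p ∣ k := by_contra fun h => hk (if_neg h)
      exact ⟨c, rfl⟩
  have h2 : Summable fun n : O => if p ∣ n then rc ν a n * (nr n : ℂ) ^ (-s) else 0 :=
    hf.indicator {n | p ∣ n}
  rw [sub_mul, one_mul, ← h1, Lser, Lser, ← hf.tsum_sub h2]
  refine tsum_congr fun n => ?_
  rw [rc_mul_six hM]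
  by_cases h : p ∣ n
  · rw [if_neg fun h' => hp.irreducible.coprime_iff_not_dvd.1 h'.symm h, if_pos h]
    simp
  · rw [if_pos (hp.irreducible.coprime_iff_not_dvd.2 h).symm, if_neg h, sub_zero]

theorem A1_Lc_prime {M a : O} (hM : Adm M) (ν : Chr M) (ha : ¬ Exc M a) {p : O} (hp : Prime p)
    (hp' : Primary p) (s : ℂ) :
    Lc ν (a * p ^ 6) s = (1 - rc ν a p * (nr p : ℂ) ^ (-s)) * Lc ν a s := by
  have ha' := not_exc_mul_six ha hp.ne_zero
  have h1 := isL_Lc hM ν (ne_zero_of_not_exc ha)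
  have h2 := isL_Lc hM ν (ne_zero_of_not_exc ha')
  refine LBB.eq_of_eq_right' (L' := fun s => (1 - rc ν a p * (nr p : ℂ) ^ (-s)) * Lc ν a s)
    (h2.2.2 (not_princ_of_not_exc hM ν ha')) (Differentiable.mul ?_
      (h1.2.2 (not_princ_of_not_exc hM ν ha))) (fun s hs => ?_) s
  · exact ((differentiable_neg.const_cpow
      (Or.inl (Complex.ofReal_ne_zero.2 (nr_pos hp.ne_zero).ne'))).const_mul _).const_sub 1
  · rw [h1.2.1 s hs, h2.2.1 s hs, A1_Lser_prime hM ν a hp hp' hs]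

/-- For a primary prime `p`: `Lc ν (a p⁶) s = (1 - rc ν a p N p^{-s}) Lc ν a s` (split `Lser ν a`
according to `p ∣ n`, then `LBB.eq_of_eq_right'`); induct with `Primary.induction`. -/
theorem zf_mul_six {M r e : O} (hM : Adm M) (hr : ¬ Exc M r) (he : Primary e) {σ T : ℝ}
    (hσ : 0 ≤ σ) (h : ZF M r σ T) : ZF M (r * e ^ 6) σ T := by
  refine Primary.induction (P := fun e => ZF M (r * e ^ 6) σ T) (by simpa using h)
    (fun p n hp hp' hn ih ν s hs ht => ?_) he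
  rw [show r * (p * n) ^ 6 = r * n ^ 6 * p ^ 6 by ring,
    A1_Lc_prime hM ν (not_exc_mul_six hr hn.ne_zero) hp hp']
  refine mul_ne_zero (sub_ne_zero.2 fun e => ?_) (ih ν s hs ht)
  have h1 := LBA.norm_term_le hM ν (r * n ^ 6) s p
  have h2 : (2 : ℝ) ≤ nr p := by exact_mod_cast CountAux.two_le_nm hp
  rw [← e, norm_one] at h1
  exact absurd (Real.rpow_lt_one_of_one_lt_of_neg (by linarith) (by linarith)) (not_lt.2 h1)

/-! ## A2: the Möbius sum with the Gaussian factor, and the plain sum -/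

/-- The Möbius sum with the Gaussian factor. -/
def Mb {M : O} (ψ : Chr M) (a : O) (Y D : ℝ) : ℂ :=
  ∑' n : O, mu n * rc ψ a n * (Wc (nr n / D) 0 * (gw (Y * D / nr n) : ℂ))

theorem A2_norm_Sm_le (σ : ℝ) : ∃ C : ℝ, 0 < C ∧ ∀ (b : O → ℂ) (D : ℝ) (s : ℂ), PolyB b 1 0 →
    0 < D → |s.re| ≤ σ → ∑' n : O, ‖b n * Wc (nr n / D) s‖ ≤ C * min D (D ^ 2) := by
  obtain ⟨C, hC, h⟩ := tsum_norm_Sm_le 1 0 σ le_rfl
  refine ⟨C, hC, fun b D s hb hD hs => (h b 1 D s hb hD hs).trans_eq ?_⟩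
  rw [mul_one, zero_add, Real.rpow_one, abs_one, one_add_one_eq_two, Real.rpow_two]

theorem A2_le_mul_rpow {D B θ : ℝ} (hD : 0 < D) (hDB : D ≤ B) (hB : 1 ≤ B) (h0 : 0 ≤ θ)
    (h1 : θ ≤ 1) : D ≤ B * D ^ θ := by
  have e : D = D ^ (1 - θ) * D ^ θ := by
    rw [← Real.rpow_add hD, sub_add_cancel, Real.rpow_one]
  have h2 : D ^ (1 - θ) ≤ B :=
    (Real.rpow_le_rpow hD.le hDB (by linarith)).trans
      (Real.rpow_le_self_of_one_le hB (by linarith))
  calc D = D ^ (1 - θ) * D ^ θ := e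
    _ ≤ _ := mul_le_mul_of_nonneg_right h2 (by positivity)

theorem A2_c_ge : (1 : ℝ) ≤ 2 * Real.pi / Real.sqrt 3 := by
  have h3 : 0 < Real.sqrt 3 := Real.sqrt_pos.2 (by norm_num)
  have h4 : Real.sqrt 3 ≤ 2 := Real.sqrt_le_iff.2 ⟨by norm_num, by norm_num⟩
  rw [le_div_iff₀ h3]
  linarith [Real.pi_gt_three]

/-- Trivial bound (`gw ≤ 1`, `tsum_norm_Sm_le`). -/
theorem Mb_triv {M : O} (hM : Adm M) : ∃ C : ℝ, 0 < C ∧ ∀ (ψ : Chr M) (a : O) (Y D : ℝ),
    0 ≤ Y → 0 < D → ‖Mb ψ a Y D‖ ≤ C * min D (D ^ 2) := by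
  obtain ⟨C, hC, h⟩ := A2_norm_Sm_le 0
  refine ⟨C, hC, fun ψ a Y D hY hD => ?_⟩
  have hb := polyB_mu_rc hM ψ a
  refine (tsum_of_norm_bounded (summable_Sm hb hD 0).hasSum fun n => ?_).trans
    (h _ D 0 hb hD (by simp))
  rw [← mul_assoc, norm_mul]
  refine mul_le_of_le_one_right (norm_nonneg _) ?_
  have h1 : 0 ≤ Y * D / nr n := by positivity
  rw [Complex.norm_real, gw, Real.norm_of_nonneg (Real.exp_pos _).le, Real.exp_le_one_iff]
  nlinarith [A2_c_ge]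

open MeasureTheory in
/-- Mellin representation of the Gaussian factor. -/
theorem A2_rep {b : O → ℂ} (hb : PolyB b 1 0) {Y D η : ℝ} (hY : 0 < Y) (hD : 0 < D)
    (hη : 0 < η) :
    ∑' n : O, b n * (Wc (nr n / D) 0 * (gw (Y * D / nr n) : ℂ)) =
      (1 / (2 * Real.pi) : ℂ) * ∫ u : ℝ, Complex.Gamma (η + u * Complex.I) *
        ((2 * Real.pi / Real.sqrt 3 * Y : ℝ) : ℂ) ^ (-(η + u * Complex.I)) *
          Sm b D (η + u * Complex.I) := by
  have hc : 0 < 2 * Real.pi / Real.sqrt 3 * Y := mul_pos (one_pos.trans_le A2_c_ge) hY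
  generalize hcY : 2 * Real.pi / Real.sqrt 3 * Y = K at hc
  have hK : (K : ℂ) ≠ 0 := Complex.ofReal_ne_zero.2 hc.ne'
  have hW : Integrable fun u : ℝ => ‖Complex.Gamma (η + u * Complex.I)‖ := by
    simpa using integrable_Gamma_mul_pow hη 0
  have hn : ∀ (n : O) (u : ℝ), ‖Complex.Gamma (η + u * Complex.I) *
      (K : ℂ) ^ (-(η + u * Complex.I)) * (b n * Wc (nr n / D) (η + u * Complex.I))‖ =
      K ^ (-η) * ‖b n * Wc (nr n / D) η‖ * ‖Complex.Gamma (η + u * Complex.I)‖ := by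
    intro n u
    rw [norm_mul, norm_mul, norm_mul, norm_mul, Complex.norm_cpow_eq_rpow_re_of_pos hc, norm_Wc,
      norm_Wc]
    simp only [Complex.add_re, Complex.neg_re, Complex.ofReal_re, Complex.mul_re, Complex.I_re,
      Complex.ofReal_im, Complex.I_im, mul_zero, zero_mul, sub_self, add_zero]
    ring
  have hG : Continuous fun u : ℝ => Complex.Gamma (η + u * Complex.I) := by
    refine continuous_iff_continuousAt.2 fun u => ?_
    refine ContinuousAt.comp (f := fun u : ℝ => (η : ℂ) + u * Complex.I)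
      (Complex.differentiableAt_Gamma _ fun m hm => ?_).continuousAt (by fun_prop)
    have := congrArg Complex.re hm
    have hm := Nat.cast_nonneg (α := ℝ) m
    simp at this
    linarith
  have hi : ∀ n : O, Integrable fun u : ℝ => Complex.Gamma (η + u * Complex.I) *
      (K : ℂ) ^ (-(η + u * Complex.I)) * (b n * Wc (nr n / D) (η + u * Complex.I)) := by
    intro n
    refine (hW.const_mul _).mono' (Continuous.aestronglyMeasurable ?_)
      (Filter.Eventually.of_forall fun u => (hn n u).le)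
    refine (hG.mul (Continuous.const_cpow (by fun_prop) (Or.inl hK))).mul
      (continuous_const.mul ?_)
    unfold Wc
    fun_prop
  simp only [Sm, ← tsum_mul_left]
  rw [← integral_tsum_of_summable_integral_norm hi, ← tsum_mul_left]
  · refine tsum_congr fun n => ?_
    by_cases h0 : n = 0
    · simp [h0, hb.1]
    have hy := div_pos (nr_pos h0) hD
    rw [gw_eq_integral (div_pos (mul_pos hY hD) (nr_pos h0)) hη, ← mul_assoc, mul_left_comm,
      ← integral_const_mul]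
    congr 2
    funext u
    have e1 : 2 * Real.pi / Real.sqrt 3 * (Y * D / nr n) = K / (nr n / D) := by
      rw [← hcY, div_div_eq_mul_div]
      ring
    have e2 := Wc_add hy 0 (η + u * Complex.I)
    rw [zero_add] at e2
    rw [e1, e2, Complex.ofReal_div K, Complex.div_cpow_ofReal_nonneg hc.le hy.le,
      Complex.cpow_neg ((nr n / D : ℝ) : ℂ), div_inv_eq_mul]
    ring
  · simp only [hn, integral_const_mul]
    exact ((summable_Sm hb hD η).mul_left _).mul_right _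

/-- The pointwise bound for the integrand. -/
theorem A2_pt {M : O} (hM : Adm M) {ε η : ℝ} (hε : 0 < ε) (hη : 0 < η) (hη1 : η ≤ 1) :
    ∃ C : ℝ, 0 < C ∧ ∀ (ψ : Chr M) (a : O) (B σ D u : ℝ), Real.exp 21 ≤ B → ¬ Exc M a →
      nr a ≤ B ^ 9 → 1 / 2 ≤ σ → σ ≤ 1 → ZF M a σ (Real.log B ^ 2) → 0 < D → D ≤ B →
      ‖Complex.Gamma (η + u * Complex.I)‖ * ‖Mob ψ a D (η + u * Complex.I)‖ ≤
        C * B ^ ε * D ^ σ * Real.exp (-(1 / 2) * |u|) := by
  obtain ⟨C₁, hC₁, h₁⟩ := norm_Gamma_le_exp (σ₀ := η) (σ₁ := η) hη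
  obtain ⟨C₂, hC₂, h₂⟩ := Mob_class hM (ε := ε / 10) (by positivity)
  obtain ⟨C₃, hC₃, h₃⟩ := A2_norm_Sm_le 1
  refine ⟨C₁ * (C₂ * Real.exp 1 + C₃), by positivity,
    fun ψ a B σ D u hB ha haB hσ0 hσ1 hz hD hDB => ?_⟩
  have hB1 : 1 ≤ B := (Real.one_le_exp (by norm_num)).trans hB
  have hB0 : 0 < B := one_pos.trans_le hB1
  have hL : 21 ≤ Real.log B := (Real.le_log_iff_exp_le hB0).2 hB
  have hBε : 1 ≤ B ^ ε := Real.one_le_rpow hB1 hε.le
  have hDσ : 0 < D ^ σ := Real.rpow_pos_of_pos hD σ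
  have hre : ((η : ℂ) + u * Complex.I).re = η := by simp
  have him : ((η : ℂ) + u * Complex.I).im = u := by simp
  have hΓ := h₁ (η + u * Complex.I) hre.ge hre.le
  rw [him] at hΓ
  have hu := abs_nonneg u
  have hb := polyB_mu_rc hM ψ a
  rcases le_total |u| (Real.log B ^ 2 / 2) with h | h
  · have hR : B ^ 2 ≤ B ^ 10 := pow_le_pow_right₀ hB1 (by norm_num)
    have hLB : Real.log B ≤ B := (Real.log_le_sub_one_of_pos hB0).trans (by linarith)
    have he : Real.exp (η / 2) ≤ B := (Real.exp_le_exp.2 (by linarith)).trans hB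
    have h4 := h₂ (B ^ 10) (D * Real.exp (η / 2)) u σ _ ψ a (one_le_pow₀ hB1) ha
      (haB.trans (pow_le_pow_right₀ hB1 (by norm_num))) hσ0 hσ1 hz
      (by rw [Real.log_pow]; push_cast; nlinarith) (by nlinarith) (by positivity)
      ((mul_le_mul hDB he (Real.exp_pos _).le hB0.le).trans (by nlinarith))
    have e1 : (B ^ 10) ^ (ε / 10) = B ^ ε := by
      rw [← Real.rpow_natCast, ← Real.rpow_mul hB0.le]
      congr 1
      push_cast
      ring
    rw [e1, Real.mul_rpow hD.le (Real.exp_pos _).le, ← Real.exp_mul] at h4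
    have h5 := WeightB.norm_Sm_eq (fun n => mu n * rc ψ a n) hb.1 hD (η + u * Complex.I)
    rw [hre, him, ← Mob_eq_Sm, ← Mob_eq_Sm] at h5
    have h6 : Real.exp (η ^ 2 / 4) * Real.exp (η / 2 * σ) ≤ Real.exp 1 := by
      rw [← Real.exp_add]
      exact Real.exp_le_exp.2 (by nlinarith)
    have h7 : ‖Mob ψ a D (η + u * Complex.I)‖ ≤ C₂ * Real.exp 1 * (B ^ ε * D ^ σ) := by
      rw [h5]
      calc _ ≤ Real.exp (η ^ 2 / 4) * (C₂ * B ^ ε * (D ^ σ * Real.exp (η / 2 * σ))) :=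
            mul_le_mul_of_nonneg_left h4 (Real.exp_pos _).le
        _ = C₂ * (Real.exp (η ^ 2 / 4) * Real.exp (η / 2 * σ)) * (B ^ ε * D ^ σ) := by ring
        _ ≤ _ := by gcongr
    have h8 : Real.exp (-|u|) ≤ Real.exp (-(1 / 2) * |u|) := Real.exp_le_exp.2 (by linarith)
    calc _ ≤ C₁ * Real.exp (-(1 / 2) * |u|) * ((C₂ * Real.exp 1 + C₃) * (B ^ ε * D ^ σ)) := by
          refine mul_le_mul (hΓ.trans (mul_le_mul_of_nonneg_left h8 hC₁.le)) (h7.trans ?_)
            (norm_nonneg _) (by positivity)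
          gcongr
          linarith
      _ = _ := by ring
  · have h4 : ‖Mob ψ a D (η + u * Complex.I)‖ ≤ C₃ * (B * D ^ σ) := by
      refine (norm_tsum_le_tsum_norm (summable_Sm hb hD _)).trans
        ((h₃ _ D _ hb hD (by rw [hre, abs_of_pos hη]; exact hη1)).trans ?_)
      exact mul_le_mul_of_nonneg_left ((min_le_left _ _).trans
        (A2_le_mul_rpow hD hDB hB1 (by linarith) hσ1)) hC₃.le
    have h5 : Real.exp (-|u|) * B ≤ Real.exp (-(1 / 2) * |u|) := by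
      nth_rw 1 [← Real.exp_log hB0]
      rw [← Real.exp_add]
      exact Real.exp_le_exp.2 (by nlinarith)
    calc _ ≤ C₁ * Real.exp (-|u|) * (C₃ * (B * D ^ σ)) :=
          mul_le_mul hΓ h4 (norm_nonneg _) (by positivity)
      _ = C₁ * C₃ * 1 * D ^ σ * (Real.exp (-|u|) * B) := by ring
      _ ≤ _ := by
          gcongr
          linarith [mul_pos hC₂ (Real.exp_pos 1)]

open MeasureTheory in
theorem A2_int : Integrable fun u : ℝ => Real.exp (-(1 / 2) * |u|) := by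
  have h : IntegrableOn (fun u : ℝ => Real.exp (-(1 / 2) * u)) (Set.Ioi 0) :=
    exp_neg_integrableOn_Ioi 0 (by norm_num)
  have h1 : IntegrableOn (fun u : ℝ => Real.exp (-(1 / 2) * |u|)) (Set.Ioi 0) :=
    h.congr_fun (fun x hx => by simp only [abs_of_pos (Set.mem_Ioi.1 hx)]) measurableSet_Ioi
  have h2 : IntegrableOn (fun u : ℝ => Real.exp (-(1 / 2) * |u|)) (Set.Iic 0) := by
    rw [← Measure.map_neg_eq_self (volume : Measure ℝ)]
    let m : MeasurableEmbedding fun x : ℝ => -x := (Homeomorph.neg ℝ).measurableEmbedding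
    rw [m.integrableOn_map_iff]
    simp_rw [Function.comp_def, abs_neg, Set.neg_preimage, Set.neg_Iic, neg_zero]
    exact Iff.mpr integrableOn_Ici_iff_integrableOn_Ioi h1
  rw [← integrableOn_univ, ← Set.Iic_union_Ioi (a := (0 : ℝ))]
  exact h2.union h1

/-- `gw_eq_integral` on the line `Re = η` (`η` small): `Mb = (1/2π) ∫ Γ(η+iu) (c Y)^{-η-iu}
Mob ψ a D (η+iu) du`, `c = 2π/√3 ≥ 1`; `WeightB.norm_Sm_eq` moves `η` into the scale.
For `D ≤ 1` or `B ≤ B₀` use `Mb_triv`.  Otherwise `‖Γ(η+iu)‖ ‖Mob‖ ≤ C e^{-|u|/2} B^ε D^σ` for all `u`: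
`Mob_class` with `R = B^{10}` for `|u| ≤ (log B)²/2`, and `norm_Gamma_le_exp` with the trivial bound
`‖Mob‖ ≤ C D ≤ C B`, `e^{-(log B)²/4} B ≤ C` beyond. -/
theorem Mb_le {M : O} (hM : Adm M) {ε : ℝ} (hε : 0 < ε) : ∃ C : ℝ, 0 < C ∧
    ∀ (ψ : Chr M) (a : O) (B σ Y D : ℝ), 1 ≤ B → ¬ Exc M a → nr a ≤ B ^ 9 → 1 / 2 ≤ σ → σ ≤ 1 →
      ZF M a σ (Real.log B ^ 2) → B⁻¹ ≤ Y → 0 < D → D ≤ B →
      ‖Mb ψ a Y D‖ ≤ C * B ^ ε * D ^ σ := by
  obtain ⟨η, hη, hη1, hη2⟩ : ∃ η : ℝ, 0 < η ∧ η ≤ 1 ∧ η ≤ ε / 2 :=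
    ⟨min 1 (ε / 2), lt_min one_pos (by positivity), min_le_left _ _, min_le_right _ _⟩
  obtain ⟨C₁, hC₁, h₁⟩ := A2_pt hM (ε := ε / 2) (by positivity) hη hη1
  obtain ⟨C₂, hC₂, h₂⟩ := Mb_triv hM
  obtain ⟨I, hI⟩ : ∃ I : ℝ, ∫ u : ℝ, Real.exp (-(1 / 2) * |u|) = I := ⟨_, rfl⟩
  have hI0 : 0 ≤ I := hI ▸ MeasureTheory.integral_nonneg fun u => (Real.exp_pos _).le
  refine ⟨‖(1 / (2 * Real.pi) : ℂ)‖ * (C₁ * I) + C₂ * Real.exp 21, by positivity,
    fun ψ a B σ Y D hB ha haB hσ0 hσ1 hz hY hD hDB => ?_⟩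
  have hB0 : 0 < B := one_pos.trans_le hB
  have hY0 : 0 < Y := (inv_pos.2 hB0).trans_le hY
  have hBε : 1 ≤ B ^ ε := Real.one_le_rpow hB hε.le
  have hDσ : 0 < D ^ σ := Real.rpow_pos_of_pos hD σ
  rcases le_total B (Real.exp 21) with h | h
  · have h3 : D ≤ Real.exp 21 * D ^ σ :=
      (A2_le_mul_rpow hD hDB hB (by linarith) hσ1).trans (mul_le_mul_of_nonneg_right h hDσ.le)
    calc _ ≤ C₂ * (Real.exp 21 * D ^ σ) := (h₂ ψ a Y D hY0.le hD).trans
          (mul_le_mul_of_nonneg_left ((min_le_left _ _).trans h3) hC₂.le)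
      _ = C₂ * Real.exp 21 * 1 * D ^ σ := by ring
      _ ≤ _ := by
          gcongr
          exact le_add_of_nonneg_left (by positivity)
  · have hK : B⁻¹ ≤ 2 * Real.pi / Real.sqrt 3 * Y := hY.trans
      (le_mul_of_one_le_left hY0.le A2_c_ge)
    have hK0 := (inv_pos.2 hB0).trans_le hK
    have h3 : (2 * Real.pi / Real.sqrt 3 * Y) ^ (-η) ≤ B ^ (ε / 2) := by
      refine (Real.rpow_le_rpow_of_nonpos (inv_pos.2 hB0) hK (by linarith)).trans ?_
      rw [Real.inv_rpow hB0.le, ← Real.rpow_neg hB0.le, neg_neg]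
      exact Real.rpow_le_rpow_of_exponent_le hB hη2
    have e : B ^ (ε / 2) * B ^ (ε / 2) = B ^ ε := by
      rw [← Real.rpow_add hB0, add_halves]
    rw [Mb, A2_rep (polyB_mu_rc hM ψ a) hY0 hD hη, norm_mul]
    have h4 := MeasureTheory.norm_integral_le_of_norm_le (A2_int.const_mul (C₁ * B ^ ε * D ^ σ))
      (f := fun u : ℝ => Complex.Gamma (η + u * Complex.I) *
        ((2 * Real.pi / Real.sqrt 3 * Y : ℝ) : ℂ) ^ (-(η + u * Complex.I)) *
          Sm (fun n => mu n * rc ψ a n) D (η + u * Complex.I))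
      (Filter.Eventually.of_forall fun u => by
        have h5 := h₁ ψ a B σ D u h ha haB hσ0 hσ1 hz hD hDB
        have h6 : (-((η : ℂ) + u * Complex.I)).re = -η := by simp
        rw [norm_mul, norm_mul, Complex.norm_cpow_eq_rpow_re_of_pos hK0, h6, ← Mob_eq_Sm,
          mul_right_comm]
        calc _ ≤ C₁ * B ^ (ε / 2) * D ^ σ * Real.exp (-(1 / 2) * |u|) * B ^ (ε / 2) :=
              mul_le_mul h5 h3 (by positivity) (by positivity)
          _ = C₁ * (B ^ (ε / 2) * B ^ (ε / 2)) * D ^ σ * Real.exp (-(1 / 2) * |u|) := by ring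
          _ = _ := by rw [e])
    rw [MeasureTheory.integral_const_mul, hI] at h4
    calc _ ≤ ‖(1 / (2 * Real.pi) : ℂ)‖ * (C₁ * B ^ ε * D ^ σ * I) :=
          mul_le_mul_of_nonneg_left h4 (norm_nonneg _)
      _ = ‖(1 / (2 * Real.pi) : ℂ)‖ * (C₁ * I) * B ^ ε * D ^ σ := by ring
      _ ≤ _ := by
          gcongr
          exact le_add_of_nonneg_right (by positivity)

/-- `Pln_class'` with `R = B^9`, `τ = 0` for `B ≥ B₀`; trivial bound for `B ≤ B₀`
(`‖Pln‖ ≤ C N ≤ C B₀ N^{1-σ}`, `one_le_cond`). -/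
theorem Pln_le {M : O} (hM : Adm M) {ε : ℝ} (hε : 0 < ε) : ∃ C : ℝ, 0 < C ∧
    ∀ (ν : Chr M) (a : O) (B σ N : ℝ), 1 ≤ B → ¬ Exc M a → nr a ≤ B ^ 9 → 1 / 2 ≤ σ → σ ≤ 1 →
      ZF M a σ (Real.log B ^ 2) → 0 < N → N ≤ B →
      ‖Pln ν a N 0‖ ≤ C * B ^ ε * N ^ (1 - σ) * cond M a ^ (σ - 1 / 2) := by
  obtain ⟨C₁, hC₁, h₁⟩ := Pln_class' hM (ε := ε / 9) (by positivity)
  obtain ⟨C₂, hC₂, h₂⟩ := A2_norm_Sm_le 0
  refine ⟨C₁ + C₂ * Real.exp 28, by positivity, fun ν a B σ N hB ha haB hσ0 hσ1 hz hN hNB => ?_⟩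
  have hB0 : 0 < B := one_pos.trans_le hB
  have hBε : 1 ≤ B ^ ε := Real.one_le_rpow hB hε.le
  have hNσ : 0 < N ^ (1 - σ) := Real.rpow_pos_of_pos hN _
  have hc : 1 ≤ cond M a ^ (σ - 1 / 2) := Real.one_le_rpow (one_le_cond M a) (by linarith)
  rcases le_total B (Real.exp 28) with h | h
  · have h3 : N ≤ Real.exp 28 * N ^ (1 - σ) :=
      (A2_le_mul_rpow hN hNB hB (by linarith) (by linarith)).trans
        (mul_le_mul_of_nonneg_right h hNσ.le)
    have hb := polyB_rc hM ν a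
    calc _ ≤ C₂ * (Real.exp 28 * N ^ (1 - σ)) :=
          (norm_tsum_le_tsum_norm (summable_Sm hb hN 0)).trans ((h₂ _ N 0 hb hN (by simp)).trans
            (mul_le_mul_of_nonneg_left ((min_le_left _ _).trans h3) hC₂.le))
      _ = C₂ * Real.exp 28 * 1 * N ^ (1 - σ) * 1 := by ring
      _ ≤ _ := by
          gcongr
          exact le_add_of_nonneg_left hC₁.le
  · have hL : 28 ≤ Real.log B := (Real.le_log_iff_exp_le hB0).2 h
    have h4 := h₁ (B ^ 9) N 0 σ _ ν a (one_le_pow₀ hB) ha haB hσ0 hσ1 hz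
      (by rw [Real.log_pow, abs_zero]; push_cast; nlinarith) (by rw [abs_zero]; positivity) hN
      (hNB.trans (le_self_pow₀ hB (by norm_num)))
    have e1 : (B ^ 9) ^ (ε / 9) = B ^ ε := by
      rw [← Real.rpow_natCast, ← Real.rpow_mul hB0.le]
      congr 1
      push_cast
      ring
    rw [e1, abs_zero, add_zero, one_pow, mul_one, Complex.ofReal_zero, zero_mul] at h4
    refine h4.trans ?_
    gcongr
    exact le_add_of_nonneg_right (by positivity)

end Crest.Agent.R17.RB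
end
end

-- ▼ part PVc/R17/RowBAuxC
section

/-!
# Row 17, `RowB`, part C: the sum over the pairs which are prime to the row
-/

set_option autoImplicit false

noncomputable section

namespace Crest.Agent.R17.RB

open scoped ComplexConjugate

open Classical in
/-- The unramified coefficient. -/
def gd {M : O} (ψ : Chr M) (a : O) (v : O × O) : ℂ :=
  if IsCoprime v.1 v.2 then mu v.1 * rc ψ a v.1 * conj (rc (1 : Chr M) a v.2) else 0

/-- The sum over the unramified pairs. -/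
def Gd {M : O} (ψ : Chr M) (a : O) (Y D X : ℝ) : ℂ :=
  ∑' v : O × O, gd ψ a v *
    (Wc (nr v.1 / D) 0 * (gw (Y * D / nr v.1) : ℂ) * Wc (nr v.2 / X) 0)

theorem C1_gd_mul {M : O} (ψ : Chr M) (a : O) {n₁ x₁ n₂ x₂ : O} (h₁ : Primary n₁)
    (h₂ : Primary n₂) (h₃ : Primary x₁) (h₄ : Primary x₂) (h : IsCoprime (n₁ * x₁) (n₂ * x₂)) :
    gd ψ a (n₁ * n₂, x₁ * x₂) = gd ψ a (n₁, x₁) * gd ψ a (n₂, x₂) := by
  simp only [gd]
  by_cases hc : IsCoprime n₁ x₁ ∧ IsCoprime n₂ x₂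
  · rw [if_pos hc.1, if_pos hc.2, if_pos ((hc.1.mul_right
      h.of_mul_left_left.of_mul_right_right).mul_left
        (h.of_mul_left_right.of_mul_right_left.symm.mul_right hc.2)),
      mu_mul h₁ h₂ h.of_mul_left_left.of_mul_right_left, rc_mul ψ a h₁ h₂, rc_mul 1 a h₃ h₄,
      map_mul]
    ring
  · rw [if_neg fun h' => hc ⟨h'.of_mul_left_left.of_mul_right_left,
      h'.of_mul_left_right.of_mul_right_right⟩]
    rcases not_and_or.1 hc with hc | hc <;> rw [if_neg hc] <;> simp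

theorem C1_gd_loc {M : O} (ψ : Chr M) (a : O) {p : O} (hp : Prime p) (hp' : Primary p)
    (hpM : ¬ p ∣ M) (i j : ℕ) : gd ψ a (p ^ i, p ^ j) =
      if i = 0 then sym p a ^ j else if i = 1 ∧ j = 0 then -(ev ψ p * conj (sym p a)) else 0 := by
  simp only [gd]
  by_cases hi : i = 0
  · subst hi
    rw [if_pos rfl, pow_zero, if_pos isCoprime_one_left, mu_one, rc_one, LBA.rc_pos _ _ (hp'.pow j),
      PA.ev_one_chr (hp.coprime_iff_not_dvd.2 hpM).pow_left, sym_pow_left hp.ne_zero]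
    simp
  rw [if_neg hi]
  by_cases hj : i = 1 ∧ j = 0
  · obtain ⟨rfl, rfl⟩ := hj
    rw [if_pos (And.intro rfl rfl), pow_zero, pow_one, if_pos isCoprime_one_right, mu_prime hp hp',
      rc_one, LBA.rc_pos _ _ hp']
    simp
  rw [if_neg hj]
  split_ifs with hc
  · have hj0 : j = 0 := by
      by_contra hj0
      exact hp.not_isUnit (hc.isUnit_of_dvd' (dvd_pow_self p hi) (dvd_pow_self p hj0))
    rw [BasicB.mu_of_not fun hs => hp.not_isUnit (hs p (by
      rw [← sq]; exact pow_dvd_pow p (by omega))), zero_mul, zero_mul]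
  · rfl

theorem C1_ind {M : O} (hM : Adm M) (ψ : Chr M) (a : O) (s : Finset O) :
    ∀ n x : O, Primary n → Primary x → IsCoprime (n * x) (M * a) → pf (n * x) ⊆ s →
      cf ψ a n x = gd ψ a (n, x) := by
  classical
  induction s using Finset.induction_on with
  | empty =>
    intro n x hn hx _ hs
    have h1 := (hn.mul hx).eq_prod
    rw [Finset.subset_empty.1 hs, Finset.prod_empty] at h1
    rw [hn.eq_one_of_isUnit (IsUnit.of_mul_eq_one _ h1),
      hx.eq_one_of_isUnit (IsUnit.of_mul_eq_one_right _ h1), cf_one]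
    simp [gd, isCoprime_one_left, mu_one, rc_one]
  | insert p s _ ih =>
    intro n x hn hx h hs
    by_cases hp : p ∈ pf (n * x)
    swap
    · exact ih n x hn hx h ((Finset.subset_insert_iff_of_notMem hp).1 hs)
    obtain ⟨p1, p2, p3⟩ := BasicB.of_mem_pf hp
    have p4 : ¬ p ∣ M * a := fun h' => p1.not_isUnit (h.isUnit_of_dvd' p3 h')
    obtain ⟨i, n', a1, rfl⟩ := WfDvdMonoid.max_power_factor hn.ne_zero p1.irreducible
    obtain ⟨j, x', a2, rfl⟩ := WfDvdMonoid.max_power_factor hx.ne_zero p1.irreducible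
    have hn' := (p2.pow i).of_mul hn
    have hx' := (p2.pow j).of_mul hx
    have a3 : ¬ p ∣ n' * x' := fun h' => (p1.dvd_or_dvd h').elim a1 a2
    have a4 := p1.coprime_iff_not_dvd.2 a3
    have a5 : n' * x' ∣ p ^ i * n' * (p ^ j * x') :=
      mul_dvd_mul (dvd_mul_left _ _) (dvd_mul_left _ _)
    have a6 := (a4.pow_left (m := i)).mul_left (a4.pow_left (m := j))
    rw [cf_mul hM ψ a (p2.pow i) hn' (p2.pow j) hx' a6,
      C1_gd_mul ψ a (p2.pow i) hn' (p2.pow j) hx' a6,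
      cf_unram hM ψ p1 p2 (fun h' => p4 (h'.mul_right a)) (fun h' => p4 (h'.mul_left M)),
      C1_gd_loc ψ a p1 p2 (fun h' => p4 (h'.mul_right a)),
      ih n' x' hn' hx' (h.of_isCoprime_of_dvd_left a5) fun q hq => ?_]
    obtain ⟨q1, q2, q3⟩ := BasicB.of_mem_pf hq
    refine (Finset.mem_insert.1 (hs ((mem_pf (hn.mul hx).ne_zero).2
      ⟨q1, q2, q3.trans a5⟩))).resolve_left ?_
    rintro rfl
    exact a3 q3

/-- `cf` on the pairs prime to the row (both sides vanish unless `n, x` are primary and prime to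
`M`; otherwise induct over the primes of `n x` with `cf_mul`, `cf_unram`). -/
theorem cf_eq_gd {M : O} (hM : Adm M) (ψ : Chr M) {a n x : O} (h : IsCoprime (n * x) a) :
    cf ψ a n x = gd ψ a (n, x) := by
  by_cases hc : Primary n ∧ IsCoprime n M ∧ Primary x ∧ IsCoprime x M
  · exact C1_ind hM ψ a _ n x hc.1 hc.2.2.1 ((hc.2.1.mul_left hc.2.2.2).mul_right h) le_rfl
  · have h0 : ∀ (ν : Chr M) (m : O), rc ν a m ≠ 0 → Primary m ∧ IsCoprime m M := fun ν m hm =>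
      ⟨by_contra fun h' => hm (LBA.rc_neg ν a h'),
        by_contra fun h' => hm (rc_eq_zero ν fun h'' => h' h''.of_mul_right_left)⟩
    rw [show cf ψ a n x = 0 from by_contra fun h' => hc (cf_support ψ h')]
    symm
    by_contra h'
    simp only [gd] at h'
    split_ifs at h'
    · have h1 := h0 _ _ (right_ne_zero_of_mul (left_ne_zero_of_mul h'))
      have h2 := h0 _ _ ((map_ne_zero _).1 (right_ne_zero_of_mul h'))
      exact hc ⟨h1.1, h1.2, h2⟩
    · exact h' rfl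

theorem C1_tsum_dvd {e : O} (he : e ≠ 0) (F : O → ℂ) [DecidablePred (e ∣ ·)] :
    ∑' m : O, (if e ∣ m then F m else 0) = ∑' m : O, F (e * m) := by
  rw [← (mul_right_injective₀ he).tsum_eq (f := fun k => if e ∣ k then F k else 0)]
  · exact tsum_congr fun c => if_pos (dvd_mul_right e c)
  · intro k hk
    obtain ⟨c, rfl⟩ : e ∣ k := by_contra fun h => hk (if_neg h)
    exact ⟨c, rfl⟩

open Classical in
theorem C1_sieve {A B : O → ℂ} (hA : Summable fun n => nr n * ‖A n‖) (hB : Summable fun n => ‖B n‖)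
    (hA0 : ∀ n, ¬ Primary n → A n = 0) (hB0 : B 0 = 0) :
    ∑' v : O × O, (if IsCoprime v.1 v.2 then A v.1 * B v.2 else 0) =
      ∑' d : O, if Primary d then mu d * ((∑' n, A (d * n)) * ∑' x, B (d * x)) else 0 := by
  set f : O × O → O → ℂ := fun v d =>
    if Primary d ∧ d ∣ v.1 ∧ d ∣ v.2 then mu d * (A v.1 * B v.2) else 0 with hf
  have f0 : ∀ v, ∀ d ∉ pdiv v.1, f v d = 0 := fun v d hd => by
    simp only [hf]
    split_ifs with h
    · rw [hA0 v.1 fun h' => hd ((mem_pdiv h'.ne_zero).2 ⟨h.1, h.2.1⟩), zero_mul, mul_zero]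
    · rfl
  have hA' : Summable fun n => ‖A n‖ := hA.of_nonneg_of_le (fun _ => norm_nonneg _) fun n => by
    by_cases hn : Primary n
    · exact le_mul_of_one_le_left (norm_nonneg _) (one_le_nr hn.ne_zero)
    · rw [hA0 n hn, norm_zero, mul_zero]
  have hs : Summable (Function.uncurry f) := by
    refine Summable.of_norm ((summable_prod_of_nonneg fun _ => norm_nonneg _).2
      ⟨fun v => summable_of_ne_finset_zero (s := pdiv v.1) fun d hd => norm_eq_zero.2 (f0 v d hd),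
        ?_⟩)
    refine Summable.of_nonneg_of_le (fun _ => tsum_nonneg fun _ => norm_nonneg _) (fun v => ?_)
      ((hA.mul_of_nonneg hB (fun _ => by positivity) fun _ => norm_nonneg _).mul_left 8)
    refine (tsum_eq_sum (s := pdiv v.1) fun d hd => norm_eq_zero.2 (f0 v d hd)).trans_le ?_
    refine (Finset.sum_le_card_nsmul _ _ (‖A v.1‖ * ‖B v.2‖) fun d _ => ?_).trans ?_
    · simp only [hf]
      split_ifs
      · rw [norm_mul, norm_mul]
        exact mul_le_of_le_one_left (by positivity) (norm_mu_le d)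
      · rw [norm_zero]; positivity
    · by_cases hn : Primary v.1
      · have h1 : ((pdiv v.1).card : ℝ) ≤ 7 * nr v.1 + 1 := by
          exact_mod_cast (Finset.card_filter_le _ _).trans (card_ball_le (nm v.1))
        have h2 := one_le_nr hn.ne_zero
        rw [nsmul_eq_mul, mul_assoc, ← mul_assoc 8]
        exact mul_le_mul_of_nonneg_right (by linarith) (by positivity)
      · simp [hA0 _ hn]
  calc _ = ∑' v, ∑' d, f v d := tsum_congr fun v => ?_
    _ = ∑' d, ∑' v, f v d := hs.tsum_comm.symm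
    _ = _ := tsum_congr fun d => ?_
  · rw [tsum_eq_sum (f0 v)]
    by_cases hn : Primary v.1
    swap
    · simp [hf, hA0 _ hn]
    by_cases hx : v.2 = 0
    · simp [hf, hx, hB0]
    rw [← boole_mul, ← sum_mu_coprime hn hx, Finset.sum_filter, Finset.sum_mul]
    refine Finset.sum_congr rfl fun d hd => ?_
    obtain ⟨h1, h2⟩ := (mem_pdiv hn.ne_zero).1 hd
    simp [hf, h1, h2]
  · split_ifs with hd
    · rw [← C1_tsum_dvd hd.ne_zero, ← C1_tsum_dvd hd.ne_zero, tsum_mul_tsum_of_summable_norm,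
        ← tsum_mul_left]
      · refine tsum_congr fun v => ?_
        by_cases h1 : d ∣ v.1 <;> by_cases h2 : d ∣ v.2 <;> simp [hf, hd, h1, h2]
      · exact hA'.of_nonneg_of_le (fun _ => norm_nonneg _) fun n => by split_ifs <;> simp
      · exact hB.of_nonneg_of_le (fun _ => norm_nonneg _) fun n => by split_ifs <;> simp
    · simp [hf, hd]

theorem C1_mu_rc {M : O} (hM : Adm M) (ψ : Chr M) (a : O) {d : O} (hd : Primary d) (n : O) :
    mu (d * n) * rc ψ a (d * n) = mu d * rc ψ a d * (mu n * rc ψ (a * d ^ 6) n) := by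
  rw [LBA.rc_mul' ψ a hd, rc_mul_six hM]
  split_ifs with h
  · by_cases hn : Primary n
    · rw [mu_mul hd hn h.symm]; ring
    · simp [LBA.rc_neg ψ a hn]
  · simp [mu_mul_of_not_coprime fun h' : IsCoprime d n => h h'.symm]

open Classical in
/-- Remove the coprimality condition: `1_{(n,x)=1} = ∑_{d ∣ n, d ∣ x} μ(d)` (`sum_mu_coprime`),
`n = d n'`, `x = d x'`, `μ(d n') rc ψ a (d n') = μ(d) rc ψ a d · μ(n') rc ψ (a d⁶) n'`
(`mu_mul`, `mu_mul_of_not_coprime`, `rc_mul_six`), `conj_Wc`.  Everything converges absolutely: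
`card (pdiv n) ≤ 7 N n + 1`, `summable_Sm`. -/
theorem Gd_eq {M : O} (hM : Adm M) (ψ : Chr M) (a : O) {Y D X : ℝ} (hY : 0 ≤ Y) (hD : 0 < D)
    (hX : 0 < X) : Gd ψ a Y D X =
      ∑' d : O, (mu d * mu d * rc ψ a d * conj (rc (1 : Chr M) a d)) *
        (Mb ψ (a * d ^ 6) Y (D / nr d) * conj (Pln (1 : Chr M) a (X / nr d) 0)) := by
  have h := C1_sieve
    (A := fun n => mu n * rc ψ a n * (Wc (nr n / D) 0 * (gw (Y * D / nr n) : ℂ)))
    (B := fun x => conj (rc (1 : Chr M) a x) * Wc (nr x / X) 0) ?_ ?_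
    (fun n hn => by simp [LBA.rc_neg ψ a hn]) (by simp [rc_zero])
  · refine Eq.trans (tsum_congr fun v => ?_) (h.trans (tsum_congr fun d => ?_))
    · unfold gd
      split_ifs
      · ring
      · rw [zero_mul]
    · split_ifs with hd
      · have e1 : ∀ (n : O) (Z : ℝ), nr (d * n) / Z = nr n / (Z / nr d) := fun n Z => by
          rw [nr_mul, div_div_eq_mul_div, mul_comm]
        have e2 : ∀ n : O, Y * D / nr (d * n) = Y * (D / nr d) / nr n := fun n => by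
          rw [nr_mul, ← mul_div_assoc, div_div]
        simp only [C1_mu_rc hM ψ a hd, LBA.rc_mul' 1 a hd, e1, e2, Mb, Pln, map_mul,
          Complex.conj_tsum, conj_Wc, map_zero, mul_assoc, tsum_mul_left]
        ring
      · simp [LBA.rc_neg ψ a hd]
  · refine (summable_Sm (b := fun n => (nr n : ℂ) * (mu n * rc ψ a n)) (H := 1) (B := 1)
      ⟨by simp [rc_zero], fun n => ?_⟩ hD 0).of_nonneg_of_le (fun _ => by positivity) fun n => ?_
    · have := (polyB_mu_rc hM ψ a).2 n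
      rw [Real.rpow_zero, mul_one] at this
      rw [norm_mul, Complex.norm_real, Real.norm_of_nonneg (by positivity), Real.rpow_one, one_mul]
      exact mul_le_of_le_one_right (by positivity) this
    · have h1 : gw (Y * D / nr n) ≤ 1 := gw_le_one (by positivity)
      rw [← mul_assoc, norm_mul, mul_assoc (nr n : ℂ), norm_mul (nr n : ℂ), Complex.norm_real,
        Complex.norm_real, Real.norm_of_nonneg (gw_pos _).le, Real.norm_of_nonneg (by positivity)]
      exact mul_le_mul_of_nonneg_left (mul_le_of_le_one_right (norm_nonneg _) h1) (by positivity)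
  · exact summable_Sm (b := fun x => conj (rc (1 : Chr M) a x)) (H := 1) (B := 0)
      ⟨by simp [rc_zero], fun n => by simpa using norm_rc_le hM 1 a n⟩ hX 0

/-- In `Gd_eq` only primary `d` contribute.  With `η = min ε 1 / 3`:
`‖Mb ψ (a d⁶) Y (D/N d)‖ ≤ C B^{2η} D^σ N d^{-σ-η}` (if `D/N d ≥ 1`: `N d ≤ B`, `Mb_le`, `zf_mul_six`;
if `D/N d ≤ 1`: `Mb_triv`, `(D/N d)² ≤ (D/N d)^{σ+η}`), `Pln_le`, `cond_mul_six_le`,
`summable_nr_rpow` with exponent `1 + η`. -/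
theorem Gd_le {M : O} (hM : Adm M) {ε : ℝ} (hε : 0 < ε) : ∃ C : ℝ, 0 < C ∧
    ∀ (ψ : Chr M) (r e : O) (B σ Y D X : ℝ), 1 ≤ B → ¬ Exc M r → Primary e →
      nr (r * e ^ 6) ≤ B ^ 3 → 1 / 2 ≤ σ → σ ≤ 1 → ZF M r σ (Real.log B ^ 2) → B⁻¹ ≤ Y →
      0 < D → D ≤ B → 0 < X → X ≤ B →
      ‖Gd ψ (r * e ^ 6) Y D X‖ ≤
        C * B ^ ε * D ^ σ * X ^ (1 - σ) * (∏ p ∈ pf r, nr p) ^ (σ - 1 / 2) := by
  obtain ⟨η, hη0, hη1, hη2⟩ : ∃ η : ℝ, 0 < η ∧ η ≤ 1 / 3 ∧ 3 * η ≤ ε :=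
    ⟨min ε 1 / 3, by positivity, by linarith [min_le_right ε 1], by linarith [min_le_left ε 1]⟩
  obtain ⟨C₁, hC₁, H₁⟩ := Mb_le hM hη0
  obtain ⟨C₂, hC₂, H₂⟩ := Mb_triv hM
  obtain ⟨C₃, hC₃, H₃⟩ := Pln_le hM hη0
  have hs := summable_nr_rpow (σ := 1 + η) (by linarith)
  have hS : 0 ≤ ∑' n : O, nr n ^ (-(1 + η)) := tsum_nonneg fun _ => by positivity
  have hs' := hs.hasSum
  generalize ∑' n : O, nr n ^ (-(1 + η)) = S at hS hs'
  refine ⟨(C₁ + C₂) * C₃ * (1 + S), by positivity,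
    fun ψ r e B σ Y D X hB hr he hre hσ hσ1 hZ hY hD hDB hX hXB => ?_⟩
  have hB0 : 0 < B := one_pos.trans_le hB
  have hY0 : 0 ≤ Y := (inv_pos.2 hB0).le.trans hY
  have hr0 : r ≠ 0 := by
    rintro rfl
    exact hr fun p hp => by simp at hp
  have hP : 0 ≤ ∏ p ∈ pf r, nr p := Finset.prod_nonneg fun _ _ => Nat.cast_nonneg _
  have hBη : 1 ≤ B ^ η := Real.one_le_rpow hB hη0.le
  obtain ⟨Q, hQ⟩ : ∃ Q, Q = (∏ p ∈ pf r, nr p) ^ (σ - 1 / 2) := ⟨_, rfl⟩
  have hQ0 : 0 ≤ Q := hQ ▸ Real.rpow_nonneg hP _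
  rw [← hQ]
  obtain ⟨K, hK⟩ : ∃ K, K = (C₁ + C₂) * C₃ * (B ^ η * B ^ η * B ^ η) * D ^ σ * X ^ (1 - σ) * Q :=
    ⟨_, rfl⟩
  have hK0 : 0 ≤ K := by rw [hK]; positivity
  have key : ∀ d : O, ‖(mu d * mu d * rc ψ (r * e ^ 6) d * conj (rc (1 : Chr M) (r * e ^ 6) d)) *
      (Mb ψ (r * e ^ 6 * d ^ 6) Y (D / nr d) * conj (Pln (1 : Chr M) (r * e ^ 6) (X / nr d) 0))‖ ≤
      K * nr d ^ (-(1 + η)) := fun d => by
    by_cases hd : Primary d
    swap
    · rw [LBA.rc_neg ψ _ hd, mul_zero, zero_mul, zero_mul, norm_zero]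
      positivity
    have hn1 := one_le_nr hd.ne_zero
    have hn := nr_pos hd.ne_zero
    have h1 : ‖mu d * mu d * rc ψ (r * e ^ 6) d * conj (rc (1 : Chr M) (r * e ^ 6) d)‖ ≤ 1 := by
      rw [norm_mul, norm_mul, norm_mul, Complex.norm_conj]
      exact mul_le_one₀ (mul_le_one₀ (mul_le_one₀ (norm_mu_le d) (norm_nonneg _) (norm_mu_le d))
        (norm_nonneg _) (norm_rc_le hM _ _ _)) (norm_nonneg _) (norm_rc_le hM _ _ _)
    have h2 : ‖Mb ψ (r * e ^ 6 * d ^ 6) Y (D / nr d)‖ ≤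
        (C₁ + C₂) * (B ^ η * B ^ η) * D ^ σ * (nr d ^ (-σ) * nr d ^ (-η)) := by
      have e1 : (D / nr d) ^ σ = D ^ σ * nr d ^ (-σ) := by
        rw [Real.div_rpow hD.le hn.le, Real.rpow_neg hn.le, div_eq_mul_inv]
      rcases le_total (nr d) D with h | h
      · have hed := he.mul hd
        have e2 : r * e ^ 6 * d ^ 6 = r * (e * d) ^ 6 := by ring
        have h3 : nr (r * e ^ 6 * d ^ 6) ≤ B ^ 9 := by
          rw [nr_mul, nr_pow, show B ^ 9 = B ^ 3 * B ^ 6 by ring]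
          exact mul_le_mul hre (pow_le_pow_left₀ hn.le (h.trans hDB) 6) (by positivity)
            (by positivity)
        have h4 := H₁ ψ (r * e ^ 6 * d ^ 6) B σ Y (D / nr d) hB
          (by rw [e2]; exact not_exc_mul_six hr hed.ne_zero) h3 hσ hσ1
          (by rw [e2]; exact zf_mul_six hM hr hed (by linarith) hZ) hY (by positivity)
          ((div_le_self hD.le hn1).trans hDB)
        have h5 : 1 ≤ B ^ η * nr d ^ (-η) := by
          rw [Real.rpow_neg hn.le, ← div_eq_mul_inv, one_le_div (by positivity)]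
          exact Real.rpow_le_rpow hn.le (h.trans hDB) hη0.le
        rw [e1] at h4
        calc _ ≤ C₁ * B ^ η * (D ^ σ * nr d ^ (-σ)) * 1 := by rwa [mul_one]
          _ ≤ (C₁ + C₂) * B ^ η * (D ^ σ * nr d ^ (-σ)) * (B ^ η * nr d ^ (-η)) := by
              gcongr
              linarith
          _ = _ := by ring
      · have h3 : 0 < D / nr d := by positivity
        have h4 : (D / nr d) ^ 2 ≤ (D / nr d) ^ σ * (D / nr d) ^ η := by
          rw [← Real.rpow_add h3, ← Real.rpow_two]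
          exact Real.rpow_le_rpow_of_exponent_ge h3 ((div_le_one hn).2 h) (by linarith)
        have h5 : (D / nr d) ^ η ≤ B ^ η * nr d ^ (-η) := by
          rw [Real.div_rpow hD.le hn.le, Real.rpow_neg hn.le, div_eq_mul_inv]
          gcongr
        calc _ ≤ C₂ * ((D / nr d) ^ σ * (D / nr d) ^ η) * 1 := by
              rw [mul_one]
              exact (H₂ ψ _ Y _ hY0 h3).trans
                (mul_le_mul_of_nonneg_left ((min_le_right _ _).trans h4) hC₂.le)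
          _ ≤ (C₁ + C₂) * ((D / nr d) ^ σ * (B ^ η * nr d ^ (-η))) * B ^ η := by
              gcongr
              linarith
          _ = _ := by rw [e1]; ring
    have h3 : ‖Pln (1 : Chr M) (r * e ^ 6) (X / nr d) 0‖ ≤
        C₃ * B ^ η * (X ^ (1 - σ) * nr d ^ (-(1 - σ))) * Q := by
      rw [hQ]
      have h4 := H₃ 1 (r * e ^ 6) B σ (X / nr d) hB (not_exc_mul_six hr he.ne_zero)
        (hre.trans (pow_le_pow_right₀ hB (by norm_num))) hσ hσ1
        (zf_mul_six hM hr he (by linarith) hZ) (by positivity) ((div_le_self hX.le hn1).trans hXB)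
      rw [Real.div_rpow hX.le hn.le, div_eq_mul_inv (X ^ (1 - σ)), ← Real.rpow_neg hn.le] at h4
      refine h4.trans (mul_le_mul_of_nonneg_left (Real.rpow_le_rpow ?_
        (cond_mul_six_le M hr0 he.ne_zero) (by linarith)) (by positivity))
      exact Finset.prod_nonneg fun _ _ => Nat.cast_nonneg _
    have e3 : nr d ^ (-(1 + η)) = nr d ^ (-σ) * nr d ^ (-η) * nr d ^ (-(1 - σ)) := by
      rw [← Real.rpow_add hn, ← Real.rpow_add hn]
      congr 1
      ring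
    rw [norm_mul, norm_mul (Mb _ _ _ _), Complex.norm_conj]
    refine (mul_le_of_le_one_left (by positivity) h1).trans
      ((mul_le_mul h2 h3 (norm_nonneg _) (by positivity)).trans (le_of_eq ?_))
    rw [e3, hK]
    ring
  rw [Gd_eq hM ψ _ hY0 hD hX]
  refine (tsum_of_norm_bounded (hs'.mul_left K) key).trans ?_
  have h6 : B ^ η * B ^ η * B ^ η ≤ B ^ ε := by
    rw [← Real.rpow_add hB0, ← Real.rpow_add hB0]
    exact Real.rpow_le_rpow_of_exponent_le hB (by linarith)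
  calc K * S ≤ (C₁ + C₂) * C₃ * B ^ ε * D ^ σ * X ^ (1 - σ) * Q * (1 + S) := by
        refine mul_le_mul ?_ (by linarith) hS (by positivity)
        rw [hK]
        exact mul_le_mul_of_nonneg_right (mul_le_mul_of_nonneg_right (mul_le_mul_of_nonneg_right
          (mul_le_mul_of_nonneg_left h6 (by positivity)) (by positivity)) (by positivity))
          (by positivity)
    _ = _ := by ring

end Crest.Agent.R17.RB
end
end

-- ▼ part PVc/R17/PConv
section

/-!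
# Row 17, module M15c: the slot expansion of `Ia` (shared by `RowB` and `PrincR`)

A slot prime `p` acts on functions of pairs `(n, x)` by
`(T_p f)(n,x) = -conj ψ(p) f(p n, x) + 1_{p ∣ x} f(n, x/p)`; write `T_p = t(p) + E_p` for an
arbitrary function `t` (`t p = conj (sym p r)` in `RowB`, `t = 1` in `PrincR`).
`cfE ψ a t Z = (∏_{p ∈ Z} E_p) cf` is given in completely local form.
-/

set_option autoImplicit false

noncomputable section

namespace Crest.Agent.R17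

open scoped ComplexConjugate

/-- The pairing `⟨f, Φ⟩`. -/
def pairF (f : O × O → ℂ) (Φ : ℝ → ℝ → ℂ) : ℂ := ∑' v : O × O, f v * Φ (nr v.1) (nr v.2)

/-- The local factor of `cf` at `p`. -/
def cfL {M : O} (ψ : Chr M) (a p : O) (i j : ℕ) : ℂ := cf ψ a (p ^ i) (p ^ j)

/-- The action of `E = c · (mark) + (compensate) - t` on a local factor. -/
def Eloc (c t : ℂ) (L : ℕ → ℕ → ℂ) (i j : ℕ) : ℂ :=
  c * L (i + 1) j + (if j = 0 then 0 else L i (j - 1)) - t * L i j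

open Classical in
/-- The local factor at `p` when `Z` is the set of the error primes. -/
def cfLE {M : O} (ψ : Chr M) (a : O) (t : O → ℂ) (Z : Finset O) (p : O) : ℕ → ℕ → ℂ :=
  if p ∈ Z then Eloc (-conj (ev ψ p)) (t p) (cfL ψ a p) else cfL ψ a p

open Classical in
/-- `(∏_{p ∈ Z} E_p) cf` in local form. -/
def cfE {M : O} (ψ : Chr M) (a : O) (t : O → ℂ) (Z : Finset O) (v : O × O) : ℂ :=
  if Primary v.1 ∧ Primary v.2 then
    ∏ p ∈ Z ∪ pf (v.1 * v.2), cfLE ψ a t Z p (vp p v.1) (vp p v.2) else 0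

theorem cfL_zero {M : O} (ψ : Chr M) (a p : O) : cfL ψ a p 0 0 = 1 := by
  rw [cfL, pow_zero, cf_one]

theorem cfE_of_not {M : O} (ψ : Chr M) (a : O) (t : O → ℂ) (Z : Finset O) {v : O × O}
    (h : ¬ (Primary v.1 ∧ Primary v.2)) : cfE ψ a t Z v = 0 := if_neg h

/-- The product may be taken over any larger finite set of primary primes. -/
theorem cfE_eq {M : O} (ψ : Chr M) (a : O) (t : O → ℂ) {Z H : Finset O} {n x : O}
    (hn : Primary n) (hx : Primary x) (hH : ∀ p ∈ H, Prime p ∧ Primary p) (hZ : Z ⊆ H)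
    (h1 : pf n ⊆ H) (h2 : pf x ⊆ H) :
    cfE ψ a t Z (n, x) = ∏ p ∈ H, cfLE ψ a t Z p (vp p n) (vp p x) := by
  classical
  unfold cfE
  rw [if_pos ⟨hn, hx⟩]
  refine Finset.prod_subset (fun p hp => ?_) fun p hp hp' => ?_
  · simp only [pf_mul hn.ne_zero hx.ne_zero, Finset.mem_union] at hp
    rcases hp with hp | hp | hp
    exacts [hZ hp, h1 hp, h2 hp]
  · simp only [pf_mul hn.ne_zero hx.ne_zero, Finset.mem_union, not_or] at hp'
    obtain ⟨hq, hq'⟩ := hH p hp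
    have e1 : vp p n = 0 := by
      by_contra h; exact hp'.2.1 ((BasicB.mem_pf_iff hn.ne_zero hq hq').2 h)
    have e2 : vp p x = 0 := by
      by_contra h; exact hp'.2.2 ((BasicB.mem_pf_iff hx.ne_zero hq hq').2 h)
    simp only [cfLE, if_neg hp'.1, e1, e2, cfL_zero]

namespace PC

theorem coprime_of_ne {p q : O} (hp : Prime p ∧ Primary p) (hq : Prime q ∧ Primary q)
    (h : p ≠ q) : IsCoprime p q :=
  (hp.1.irreducible.coprime_iff_not_dvd).2 fun h' => h (BasicB.eq_of_dvd hp.1 hq.1 hp.2 hq.2 h')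

theorem cf_prod {M : O} (hM : Adm M) (ψ : Chr M) (a : O) (e k : O → ℕ) {H : Finset O}
    (hH : ∀ p ∈ H, Prime p ∧ Primary p) :
    cf ψ a (∏ p ∈ H, p ^ e p) (∏ p ∈ H, p ^ k p) = ∏ p ∈ H, cfL ψ a p (e p) (k p) := by
  classical
  induction H using Finset.induction_on with
  | empty => simp [cf_one]
  | insert q H hq ih =>
    have hH' : ∀ p ∈ H, Prime p ∧ Primary p := fun p hp => hH p (Finset.mem_insert_of_mem hp)
    have hq' := hH q (Finset.mem_insert_self _ _)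
    have hc : ∀ f : O → ℕ, IsCoprime q (∏ p ∈ H, p ^ f p) := fun f =>
      IsCoprime.prod_right fun p hp =>
        (coprime_of_ne hq' (hH' p hp) fun h => hq (h ▸ hp)).pow_right
    rw [Finset.prod_insert hq, Finset.prod_insert hq, Finset.prod_insert hq,
      cf_mul hM ψ a (hq'.2.pow _) (BasicB.primary_prod_pow hH' e) (hq'.2.pow _)
        (BasicB.primary_prod_pow hH' k)
        (IsCoprime.mul_left ((hc e).mul_right (hc k)).pow_left ((hc e).mul_right (hc k)).pow_left),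
      ih hH', cfL]

end PC

theorem cfE_empty {M : O} (hM : Adm M) (ψ : Chr M) (a : O) (t : O → ℂ) (v : O × O) :
    cfE ψ a t ∅ v = cf ψ a v.1 v.2 := by
  classical
  obtain ⟨n, x⟩ := v
  by_cases h : Primary n ∧ Primary x
  · have hH : ∀ p ∈ pf n ∪ pf x, Prime p ∧ Primary p := fun p hp => by
      rcases Finset.mem_union.1 hp with hp | hp <;> exact BasicB.pf_sub hp
    rw [cfE_eq ψ a t h.1 h.2 hH (Finset.empty_subset _) Finset.subset_union_left
      Finset.subset_union_right]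
    have e := PC.cf_prod hM ψ a (fun p => vp p n) (fun p => vp p x) hH
    rw [BasicB.prod_superset h.1.ne_zero hH Finset.subset_union_left,
      BasicB.prod_superset h.2.ne_zero hH Finset.subset_union_right, ← h.1.eq_prod,
      ← h.2.eq_prod] at e
    simp only [e, cfLE, Finset.notMem_empty, if_false]
  · rw [cfE_of_not ψ a t ∅ h]
    by_contra h'
    have := cf_support ψ (Ne.symm h')
    exact h ⟨this.1, this.2.2.1⟩

namespace PC

open Classical in
/-- The shift by the mark `m.1` and the compensation `m.2`. -/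
def sh (m : O × O) : Module.End ℂ (O × O → ℂ) where
  toFun f v := if m.2 ∣ v.2 then f (m.1 * v.1, v.2 / m.2) else 0
  map_add' f g := by
    funext v
    by_cases h : m.2 ∣ v.2 <;> simp [h]
  map_smul' c f := by
    funext v
    by_cases h : m.2 ∣ v.2 <;> simp [h]

open Classical in
theorem sh_apply (m : O × O) (f : O × O → ℂ) (v : O × O) :
    sh m f v = if m.2 ∣ v.2 then f (m.1 * v.1, v.2 / m.2) else 0 := rfl

/-- The shifts form an action of the monoid `O × O`. -/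
def shH : O × O →* Module.End ℂ (O × O → ℂ) where
  toFun := sh
  map_one' := by
    ext f v
    simp [sh_apply]
  map_mul' m m' := by
    refine LinearMap.ext fun f => funext fun v => ?_
    obtain ⟨z, π⟩ := m
    obtain ⟨z', π'⟩ := m'
    obtain ⟨n, x⟩ := v
    simp only [Module.End.mul_apply, sh_apply, Prod.fst_mul, Prod.snd_mul]
    rw [show z' * (z * n) = z * z' * n by ring]
    by_cases h0 : π = 0
    · subst h0
      by_cases hx : x = 0 <;> simp [hx]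
    by_cases h : π ∣ x
    · obtain ⟨y, rfl⟩ := h
      rw [if_pos (dvd_mul_right _ _), mul_div_cancel_left₀ _ h0]
      by_cases h' : π' ∣ y
      · rw [if_pos h', if_pos (mul_dvd_mul_left _ h')]
        obtain ⟨w, rfl⟩ := h'
        by_cases h1 : π' = 0
        · simp [h1]
        · rw [mul_div_cancel_left₀ _ h1, ← mul_assoc, mul_div_cancel_left₀ _ (mul_ne_zero h0 h1)]
      · rw [if_neg h', if_neg (mt (mul_dvd_mul_iff_left h0).1 h')]
    · rw [if_neg h, if_neg fun h' => h (dvd_of_mul_right_dvd h')]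

/-- The commutative algebra of the operators. -/
abbrev Al : Type := MonoidAlgebra ℂ (O × O)

/-- Its action. -/
def act : Al →ₐ[ℂ] Module.End ℂ (O × O → ℂ) := MonoidAlgebra.lift ℂ _ _ shH

theorem act_of (m : O × O) : act (MonoidAlgebra.of ℂ (O × O) m) = sh m :=
  MonoidAlgebra.lift_of shH m

/-- `cf` as a function of the pair. -/
def cfF {M : O} (ψ : Chr M) (a : O) (v : O × O) : ℂ := cf ψ a v.1 v.2

/-- The slot operator. -/
def Tel {M : O} (ψ : Chr M) (p : O) : Al :=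
  MonoidAlgebra.of ℂ (O × O) (1, p) +
    algebraMap ℂ Al (-conj (ev ψ p)) * MonoidAlgebra.of ℂ (O × O) (p, 1)

/-- The error operator. -/
def Eel {M : O} (ψ : Chr M) (t : O → ℂ) (p : O) : Al := Tel ψ p - algebraMap ℂ Al (t p)

open Classical in
theorem act_Eel {M : O} (ψ : Chr M) (t : O → ℂ) (q : O) (f : O × O → ℂ) (n x : O) :
    act (Eel ψ t q) f (n, x) =
      (if q ∣ x then f (n, x / q) else 0) + -conj (ev ψ q) * f (q * n, x) - t q * f (n, x) := by
  simp only [Eel, Tel, map_sub, map_add, map_mul, act_of, AlgHom.commutes, LinearMap.sub_apply,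
    LinearMap.add_apply, Module.End.mul_apply, Module.algebraMap_end_apply, Pi.sub_apply,
    Pi.add_apply, Pi.smul_apply, smul_eq_mul, sh_apply, one_mul, one_dvd, if_true,
    EuclideanDomain.div_one]

theorem act_prod {M : O} (hM : Adm M) (ψ : Chr M) (a : O) (t : O → ℂ) {Z : Finset O}
    (hZ : ∀ p ∈ Z, Prime p ∧ Primary p) :
    act (∏ p ∈ Z, Eel ψ t p) (cfF ψ a) = cfE ψ a t Z := by
  classical
  induction Z using Finset.induction_on with
  | empty =>
    funext v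
    rw [Finset.prod_empty, map_one, cfE_empty hM]
    rfl
  | insert q Z hq ih =>
    have hZ' : ∀ p ∈ Z, Prime p ∧ Primary p := fun p hp => hZ p (Finset.mem_insert_of_mem hp)
    obtain ⟨hq1, hq2⟩ := hZ q (Finset.mem_insert_self _ _)
    funext v
    obtain ⟨n, x⟩ := v
    rw [Finset.prod_insert hq, map_mul, Module.End.mul_apply, ih hZ', act_Eel]
    by_cases h : Primary n ∧ Primary x
    · obtain ⟨hn, hx⟩ := h
      set H : Finset O := insert q (Z ∪ (pf n ∪ pf x)) with hHdef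
      have hH : ∀ p ∈ H, Prime p ∧ Primary p := fun p hp => by
        simp only [hHdef, Finset.mem_insert, Finset.mem_union] at hp
        rcases hp with rfl | hp | hp | hp
        exacts [⟨hq1, hq2⟩, hZ' p hp, BasicB.pf_sub hp, BasicB.pf_sub hp]
      have hqH : q ∈ H := Finset.mem_insert_self _ _
      have s1 : Z ⊆ H := fun p hp => by simp [hHdef, hp]
      have s2 : pf n ⊆ H := fun p hp => by simp [hHdef, hp]
      have s3 : pf x ⊆ H := fun p hp => by simp [hHdef, hp]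
      have hv : ∀ p ∈ H.erase q, ∀ y : O, y ≠ 0 → vp p (q * y) = vp p y := fun p hp y hy => by
        obtain ⟨hne, hp⟩ := Finset.mem_erase.1 hp
        rw [vp_mul (hH p hp).1 hq1.ne_zero hy, vp_of_ne (hH p hp).1 hq1 (hH p hp).2 hq2 hne,
          zero_add]
      have hvq : ∀ y : O, y ≠ 0 → vp q (q * y) = vp q y + 1 := fun y hy => by
        rw [vp_mul hq1 hq1.ne_zero hy, vp_self hq1, add_comm]
      have hL : cfLE ψ a t Z q = cfL ψ a q := if_neg hq
      have e0 : cfE ψ a t (insert q Z) (n, x) =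
          Eloc (-conj (ev ψ q)) (t q) (cfL ψ a q) (vp q n) (vp q x) *
            ∏ p ∈ H.erase q, cfLE ψ a t Z p (vp p n) (vp p x) := by
        rw [cfE_eq ψ a t hn hx hH (Finset.insert_subset hqH s1) s2 s3,
          ← Finset.mul_prod_erase H _ hqH]
        congr 1
        · simp only [cfLE, Finset.mem_insert_self, if_true]
        · refine Finset.prod_congr rfl fun p hp => ?_
          simp only [cfLE, Finset.mem_insert, (Finset.mem_erase.1 hp).1, false_or]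
      have e1 : cfE ψ a t Z (n, x) = cfL ψ a q (vp q n) (vp q x) *
            ∏ p ∈ H.erase q, cfLE ψ a t Z p (vp p n) (vp p x) := by
        rw [cfE_eq ψ a t hn hx hH s1 s2 s3, ← Finset.mul_prod_erase H _ hqH, hL]
      have e2 : cfE ψ a t Z (q * n, x) = cfL ψ a q (vp q n + 1) (vp q x) *
            ∏ p ∈ H.erase q, cfLE ψ a t Z p (vp p n) (vp p x) := by
        rw [cfE_eq ψ a t (hq2.mul hn) hx hH s1 (by
          rw [pf_mul hq1.ne_zero hn.ne_zero, pf_prime hq1 hq2]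
          exact Finset.union_subset (Finset.singleton_subset_iff.2 hqH) s2) s3,
          ← Finset.mul_prod_erase H _ hqH, hL, hvq n hn.ne_zero]
        congr 1
        exact Finset.prod_congr rfl fun p hp => by rw [hv p hp n hn.ne_zero]
      have e3 : (if q ∣ x then cfE ψ a t Z (n, x / q) else 0) =
          (if vp q x = 0 then 0 else cfL ψ a q (vp q n) (vp q x - 1)) *
            ∏ p ∈ H.erase q, cfLE ψ a t Z p (vp p n) (vp p x) := by
        by_cases hd : q ∣ x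
        · obtain ⟨y, rfl⟩ := hd
          have hy : Primary y := hq2.of_mul hx
          rw [if_pos (dvd_mul_right _ _), mul_div_cancel_left₀ _ hq1.ne_zero, hvq y hy.ne_zero,
            if_neg (Nat.succ_ne_zero _), Nat.add_sub_cancel,
            cfE_eq ψ a t hn hy hH s1 s2 (fun p hp => s3 (by
              rw [pf_mul hq1.ne_zero hy.ne_zero]; exact Finset.mem_union_right _ hp)),
            ← Finset.mul_prod_erase H _ hqH, hL]
          congr 1
          exact Finset.prod_congr rfl fun p hp => by rw [hv p hp y hy.ne_zero]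
        · rw [if_neg hd, if_pos ((vp_eq_zero_iff hq1 hx.ne_zero).2 hd), zero_mul]
      rw [e0, e1, e2, e3, Eloc]
      ring
    · rw [cfE_of_not ψ a t _ (v := (n, x)) h, cfE_of_not ψ a t _ (v := (n, x)) h,
        cfE_of_not ψ a t _ (v := (q * n, x)) fun h' => h ⟨hq2.of_mul h'.1, h'.2⟩]
      have : (if q ∣ x then cfE ψ a t Z (n, x / q) else 0) = 0 := by
        split_ifs with hd
        · obtain ⟨y, rfl⟩ := hd
          rw [mul_div_cancel_left₀ _ hq1.ne_zero]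
          exact cfE_of_not ψ a t _ (v := (n, y)) fun h' => h ⟨h'.1, hq2.mul h'.2⟩
        · rfl
      rw [this]
      ring

theorem sh_cfF_zero {M : O} (ψ : Chr M) (a : O) {m : O × O} (h : m.1 = 0 ∨ m.2 = 0) (v : O × O) :
    sh m (cfF ψ a) v = 0 := by
  rw [sh_apply]
  split_ifs with hd
  · by_contra h'
    have := cf_support ψ h'
    rcases h with h | h
    · exact this.1.ne_zero (by simp [h])
    · exact this.2.2.1.ne_zero (by simp [h])
  · rfl

theorem summable_sh {M : O} (hM : Adm M) (ψ : Chr M) {B : ℝ} (hB : 0 < B) (m : O × O) :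
    Summable (fun v : O × O × O =>
      ‖sh m (cfF ψ v.1) v.2 * Phi B v.1 (nr v.2.1) (nr v.2.2)‖) := by
  by_cases h : m.1 = 0 ∨ m.2 = 0
  · simp only [sh_cfF_zero ψ _ h, zero_mul, norm_zero]
    exact summable_zero
  obtain ⟨z, π⟩ := m
  obtain ⟨hz, hπ⟩ : z ≠ 0 ∧ π ≠ 0 := not_or.1 h
  have i1 : Function.Injective fun v : O × O × O => (v.1, v.2.1, π * v.2.2) := by
    rintro ⟨a, n, x⟩ ⟨a', n', x'⟩ h
    simp only [Prod.mk.injEq, mul_right_inj' hπ] at h
    simp [h]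
  have i2 : Function.Injective fun v : O × O × O => (v.1, z * v.2.1, v.2.2) := by
    rintro ⟨a, n, x⟩ ⟨a', n', x'⟩ h
    simp only [Prod.mk.injEq, mul_right_inj' hz] at h
    simp [h]
  refine (i1.summable_iff fun v hv => ?_).1 ?_
  · rw [sh_apply, if_neg, zero_mul, norm_zero]
    rintro ⟨y, hy⟩
    exact hv ⟨(v.1, v.2.1, y), by simp only [← hy]⟩
  · refine ((summable_probe hM ψ hB hz hπ).comp_injective i2).congr fun v => ?_
    simp only [Function.comp, sh_apply, dvd_mul_right, if_true, mul_div_cancel_left₀ _ hπ, cfF,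
      nr_mul, mul_div_cancel_left₀ _ (nr_pos hz).ne', mul_comm (nr π)]

theorem summable_act {M : O} (hM : Adm M) (ψ : Chr M) {B : ℝ} (hB : 0 < B) (e : Al) :
    Summable (fun v : O × O × O =>
      ‖act e (cfF ψ v.1) v.2 * Phi B v.1 (nr v.2.1) (nr v.2.2)‖) := by
  induction e using MonoidAlgebra.induction_linear with
  | zero => simp
  | add e e' h h' =>
    refine Summable.of_nonneg_of_le (fun _ => norm_nonneg _) (fun v => ?_) (h.add h')
    rw [map_add, LinearMap.add_apply, Pi.add_apply, add_mul]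
    exact norm_add_le _ _
  | single m c =>
    refine ((summable_sh hM ψ hB m).mul_left ‖c‖).congr fun v => ?_
    have : act (MonoidAlgebra.single m c) = c • sh m := MonoidAlgebra.lift_single shH m c
    rw [this, LinearMap.smul_apply, Pi.smul_apply, smul_eq_mul, mul_assoc, norm_mul c]

theorem summable_act' {M : O} (hM : Adm M) (ψ : Chr M) (a : O) {B : ℝ} (hB : 0 < B) (e : Al) :
    Summable (fun v : O × O => ‖act e (cfF ψ a) v * Phi B a (nr v.1) (nr v.2)‖) :=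
  (summable_act hM ψ hB e).prod_factor a

/-- The pairing as a linear form on the algebra of the operators. -/
def Lam {M : O} (hM : Adm M) (ψ : Chr M) (a : O) {B : ℝ} (hB : 0 < B) : Al →ₗ[ℂ] ℂ where
  toFun e := pairF (act e (cfF ψ a)) (Phi B a)
  map_add' e e' := by
    unfold pairF
    rw [← (summable_act' hM ψ a hB e).of_norm.tsum_add (summable_act' hM ψ a hB e').of_norm]
    refine tsum_congr fun v => ?_
    rw [map_add, LinearMap.add_apply, Pi.add_apply, add_mul]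
  map_smul' c e := by
    unfold pairF
    rw [RingHom.id_apply, smul_eq_mul, ← tsum_mul_left]
    refine tsum_congr fun v => ?_
    rw [map_smul, LinearMap.smul_apply, Pi.smul_apply, smul_eq_mul, mul_assoc]

theorem Lam_mul {M : O} (hM : Adm M) (ψ : Chr M) (a : O) {B : ℝ} (hB : 0 < B) (c : ℂ) (e : Al) :
    Lam hM ψ a hB (algebraMap ℂ Al c * e) = c * Lam hM ψ a hB e := by
  rw [← Algebra.smul_def, map_smul, smul_eq_mul]

theorem Lam_of {M : O} (hM : Adm M) (ψ : Chr M) (a : O) {B : ℝ} (hB : 0 < B) {z π : O}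
    (hz : z ≠ 0) (hπ : π ≠ 0) :
    Lam hM ψ a hB (MonoidAlgebra.of ℂ (O × O) (z, π)) = Irow ψ B a z π := by
  have i1 : Function.Injective fun v : O × O => (v.1, π * v.2) := by
    rintro ⟨n, x⟩ ⟨n', x'⟩ h
    simp only [Prod.mk.injEq, mul_right_inj' hπ] at h
    simp [h]
  have i2 : Function.Injective fun v : O × O => (z * v.1, v.2) := by
    rintro ⟨n, x⟩ ⟨n', x'⟩ h
    simp only [Prod.mk.injEq, mul_right_inj' hz] at h
    simp [h]
  show pairF (act _ (cfF ψ a)) (Phi B a) = _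
  unfold pairF Irow
  rw [act_of]
  refine (i1.tsum_eq ?_).symm.trans (Eq.trans ?_ (i2.tsum_eq ?_))
  rotate_left
  · refine tsum_congr fun v => ?_
    simp only [sh_apply, dvd_mul_right, if_true, mul_div_cancel_left₀ _ hπ, cfF,
      nr_mul, mul_div_cancel_left₀ _ (nr_pos hz).ne', mul_comm (nr π)]
  · intro v hv
    by_cases hd : z ∣ v.1
    · obtain ⟨y, hy⟩ := hd
      exact ⟨(y, v.2), by simp only [← hy]⟩
    · exact absurd (if_neg hd) hv
  · intro v hv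
    by_cases hd : π ∣ v.2
    · obtain ⟨y, hy⟩ := hd
      exact ⟨(v.1, y), by simp only [← hy]⟩
    · exact absurd (by simp only [sh_apply, if_neg hd, zero_mul]) hv

theorem of_prod {ι : Type} (J J' : Finset ι) (p : ι → O) :
    MonoidAlgebra.of ℂ (O × O) (∏ i ∈ J', p i, ∏ i ∈ J, p i) =
      (∏ i ∈ J, MonoidAlgebra.of ℂ (O × O) (1, p i)) *
        ∏ i ∈ J', MonoidAlgebra.of ℂ (O × O) (p i, 1) := by
  rw [← map_prod, ← map_prod, ← map_mul]
  congr 1
  ext <;> simp [Prod.fst_prod, Prod.snd_prod]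

theorem Ia_eq_Lam {M : O} (hM : Adm M) (ψ : Chr M) (K₀ : ℕ) {B : ℝ} (hB : 0 < B) (a : O) :
    Ia ψ K₀ B a = Lam hM ψ a hB
      (∏ i : Fin K₀, ∑ p ∈ Pset M K₀ B i, algebraMap ℂ Al (cw K₀ B i p) * Tel ψ p) := by
  classical
  rw [Finset.prod_univ_sum, map_sum, Ia]
  refine Finset.sum_congr rfl fun p hp => ?_
  have hp0 : ∀ i, p i ≠ 0 := fun i =>
    ((mem_Pset hB).1 (Fintype.mem_piFinset.1 hp i)).1.ne_zero
  rw [Finset.prod_mul_distrib, ← map_prod, Lam_mul]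
  simp only [Tel]
  rw [Fintype.prod_add, map_sum, Finset.mul_sum]
  refine Finset.sum_congr rfl fun J _ => ?_
  rw [Finset.prod_mul_distrib, ← map_prod (algebraMap ℂ Al), mul_left_comm _ (algebraMap ℂ Al _),
    Lam_mul, ← of_prod, Lam_of hM ψ a hB (Finset.prod_ne_zero_iff.2 fun i _ => hp0 i)
      (Finset.prod_ne_zero_iff.2 fun i _ => hp0 i), mul_assoc]

end PC

/-- Absolute convergence, jointly in the row and the pair. -/
theorem summable_cfE_joint {M : O} (hM : Adm M) (ψ : Chr M) (t : O → ℂ) {Z : Finset O}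
    (hZ : ∀ p ∈ Z, Prime p ∧ Primary p) {B : ℝ} (hB : 0 < B) :
    Summable (fun v : O × O × O =>
      ‖cfE ψ v.1 t Z v.2 * Phi B v.1 (nr v.2.1) (nr v.2.2)‖) := by
  refine (PC.summable_act hM ψ hB (∏ p ∈ Z, PC.Eel ψ t p)).congr fun v => ?_
  rw [PC.act_prod hM ψ _ t hZ]

theorem summable_cfE {M : O} (hM : Adm M) (ψ : Chr M) (a : O) (t : O → ℂ) {Z : Finset O}
    (hZ : ∀ p ∈ Z, Prime p ∧ Primary p) {B : ℝ} (hB : 0 < B) :
    Summable (fun v : O × O => ‖cfE ψ a t Z v * Phi B a (nr v.1) (nr v.2)‖) :=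
  (summable_cfE_joint hM ψ t hZ hB).prod_factor a

/-- The primes of different slots are different. -/
theorem injective_of_mem_piFinset {M : O} {K₀ : ℕ} {B : ℝ} (hB : 1 ≤ B) {S : Finset (Fin K₀)}
    {p : S → O} (hp : p ∈ Fintype.piFinset (fun i : S => Pset M K₀ B (i : Fin K₀))) :
    Function.Injective p := by
  intro i j h
  by_contra hij
  have hne : ((i : Fin K₀) : ℕ) ≠ ((j : Fin K₀) : ℕ) := fun h' =>
    hij (Subtype.ext (Fin.ext h'))
  exact Finset.disjoint_left.1 (disjoint_Pset M K₀ hB hne) (Fintype.mem_piFinset.1 hp i)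
    (h ▸ Fintype.mem_piFinset.1 hp j)

open Classical in
/-- **The slot expansion.** -/
theorem Ia_eq {M : O} (hM : Adm M) (ψ : Chr M) (K₀ : ℕ) {B : ℝ} (hB : 1 ≤ B) (a : O)
    (t : O → ℂ) : Ia ψ K₀ B a = ∑ S : Finset (Fin K₀),
      (∏ i ∈ Sᶜ, ∑ p ∈ Pset M K₀ B i, cw K₀ B i p * t p) *
        ∑ p ∈ Fintype.piFinset (fun i : S => Pset M K₀ B (i : Fin K₀)),
          (∏ i : S, cw K₀ B (i : Fin K₀) (p i)) *
            pairF (cfE ψ a t (Finset.univ.image p)) (Phi B a) := by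
  have hB0 : 0 < B := one_pos.trans_le hB
  have e : ∀ i : Fin K₀, ∑ p ∈ Pset M K₀ B i, algebraMap ℂ PC.Al (cw K₀ B i p) * PC.Tel ψ p =
      ∑ p ∈ Pset M K₀ B i, algebraMap ℂ PC.Al (cw K₀ B i p) * PC.Eel ψ t p +
        algebraMap ℂ PC.Al (∑ p ∈ Pset M K₀ B i, cw K₀ B i p * t p) := fun i => by
    rw [map_sum, ← Finset.sum_add_distrib]
    refine Finset.sum_congr rfl fun p _ => ?_
    rw [PC.Eel, map_mul]
    ring
  rw [PC.Ia_eq_Lam hM ψ K₀ hB0]
  simp only [e]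
  rw [Fintype.prod_add, map_sum]
  refine Finset.sum_congr rfl fun S _ => ?_
  rw [← map_prod (algebraMap ℂ PC.Al), mul_comm, PC.Lam_mul, ← Finset.prod_coe_sort S,
    Finset.prod_univ_sum, map_sum]
  congr 1
  refine Finset.sum_congr rfl fun p hp => ?_
  rw [Finset.prod_mul_distrib, ← map_prod (algebraMap ℂ PC.Al), PC.Lam_mul,
    ← Finset.prod_image (f := PC.Eel ψ t) (injective_of_mem_piFinset hB hp).injOn]
  congr 1
  show pairF (PC.act _ _) _ = _
  rw [PC.act_prod hM ψ a t]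
  intro q hq
  obtain ⟨i, -, rfl⟩ := Finset.mem_image.1 hq
  have := (mem_Pset hB0).1 (Fintype.mem_piFinset.1 hp i)
  exact ⟨this.1, this.2.1⟩

end Crest.Agent.R17
end
end

-- ▼ part PVc/R17/RowBAuxD
section

/-!
# Row 17, `RowB`, part D: the local sums
-/

set_option autoImplicit false

noncomputable section

namespace Crest.Agent.R17.RB

open scoped ComplexConjugate

/-- The weight of the local term `(i, j)`. -/
def wl (σ : ℝ) (p : O) (i j : ℕ) : ℝ := nr p ^ (-(i * σ + j * (1 - σ)))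

/-- A ramified local factor vanishes outside `i ≤ v + 1`, `j ≤ 1`
(`cf_ram_zero`, `norm_cf_ram_zero`, `norm_cf_ram_one`). -/
theorem cfL_ram_eq_zero {M : O} (hM : Adm M) (ψ : Chr M) {a p : O} (hp : Prime p)
    (hp' : Primary p) (hpM : ¬ p ∣ M) (ha : p ∣ a) (ha0 : a ≠ 0) {i j : ℕ}
    (h : vp p a + 2 ≤ i ∨ 2 ≤ j) : cfL ψ a p i j = 0 := by
  unfold cfL
  by_cases hj : 2 ≤ j
  · exact cf_ram_zero hM ψ hp hp' hpM ha (Or.inr hj)
  have hi : vp p a + 2 ≤ i := h.resolve_right hj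
  refine norm_le_zero_iff.1 ?_
  obtain rfl | rfl : j = 0 ∨ j = 1 := by omega
  · have h := norm_cf_ram_zero hM ψ hp hp' hpM ha0 (i := i) (by omega)
    rw [if_neg (by omega : ¬ i ≤ vp p a), if_neg (by omega : ¬ i = vp p a + 1),
      if_neg (by omega : ¬ i = vp p a + 1), ite_self] at h
    rwa [pow_zero]
  · have h := norm_cf_ram_one hM ψ hp hp' hpM ha0 (i := i) (by omega)
    rw [if_neg (by omega : ¬ i = vp p a), if_neg (by omega)] at h
    rwa [pow_one]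

theorem D_wl_pos (σ : ℝ) {p : O} (hp : p ≠ 0) (i j : ℕ) : 0 < wl σ p i j :=
  Real.rpow_pos_of_pos (nr_pos hp) _

theorem D_step {q x y z w X : ℝ} (hq : 1 ≤ q) (hX : X ≤ q ^ x) (h : x + y ≤ z + w) :
    X * q ^ y ≤ q ^ z * q ^ w := by
  have hq0 : 0 < q := by linarith
  refine (mul_le_mul_of_nonneg_right hX (Real.rpow_nonneg hq0.le _)).trans ?_
  rw [← Real.rpow_add hq0, ← Real.rpow_add hq0]
  exact Real.rpow_le_rpow_of_exponent_le hq h

theorem D_sum_le {T S : Finset (ℕ × ℕ)} {f : ℕ × ℕ → ℝ} {B : ℝ} (hB : 0 ≤ B)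
    (h0 : ∀ e, e ∉ S → f e = 0) (h : ∀ e, f e ≤ B) : ∑ e ∈ T, f e ≤ S.card * B := by
  classical
  rw [← Finset.sum_subset (Finset.inter_subset_left (s₁ := T) (s₂ := S))
    fun e he he' => h0 e fun h => he' (Finset.mem_inter.2 ⟨he, h⟩)]
  refine (Finset.sum_le_card_nsmul _ _ B fun e _ => h e).trans ?_
  rw [nsmul_eq_mul]
  exact mul_le_mul_of_nonneg_right
    (Nat.cast_le.2 (Finset.card_le_card Finset.inter_subset_right)) hB

/-- Every term of a ramified local factor is at most `N p^m`, `m = ⌊v/6⌋`, with the gain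
`N p^{-(σ-1/2)}` when `i > j`.  (At `σ = 1/2` the exponents are: `(6k,0)`, `6k ≤ v`: `k`;
`(v+1,0)`: `m` resp. `(⌊(v+1)/3⌋-1)/2`; `(v,1)`: `(⌊v/3⌋-1)/2`; `(6k+1,1)`, `6k+1 < v`: `k`; and
`wl σ = wl (1/2) · N p^{-(i-j)(σ-1/2)}`; the term `(0,1)` vanishes.) -/
theorem cfL_ram_le {M : O} (hM : Adm M) (ψ : Chr M) {a p : O} (hp : Prime p)
    (hp' : Primary p) (hpM : ¬ p ∣ M) (ha : p ∣ a) (ha0 : a ≠ 0) {σ : ℝ} (h1 : 1 / 2 ≤ σ)
    (h2 : σ ≤ 1) (i j : ℕ) : ‖cfL ψ a p i j‖ * wl σ p i j ≤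
      nr p ^ (vp p a / 6 : ℕ) * if j < i then nr p ^ (-(σ - 1 / 2)) else 1 := by
  have hq : 1 ≤ nr p := one_le_nr hp.ne_zero
  have hq0 : 0 < nr p := by linarith
  have hn : 0 ≤ nr p ^ (vp p a / 6 : ℕ) * if j < i then nr p ^ (-(σ - 1 / 2)) else 1 := by
    split_ifs <;> positivity
  have hz : ∀ {X : ℝ}, X ≤ 0 → X * wl σ p i j ≤
      nr p ^ (vp p a / 6 : ℕ) * if j < i then nr p ^ (-(σ - 1 / 2)) else 1 := fun hX =>
    (mul_nonpos_of_nonpos_of_nonneg hX (D_wl_pos σ hp.ne_zero i j).le).trans hn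
  by_cases h0 : (i = 0 ∧ 1 ≤ j) ∨ 2 ≤ j
  · exact hz (by rw [cfL, cf_ram_zero hM ψ hp hp' hpM ha h0, norm_zero])
  by_cases hi : i = 0
  · obtain rfl : j = 0 := by omega
    subst hi
    rw [cfL_zero, norm_one, wl]
    simpa using one_le_pow₀ hq
  have hi1 : 1 ≤ i := by omega
  have hi' : (1 : ℝ) ≤ i := by exact_mod_cast hi1
  have hδ : 0 ≤ σ - 1 / 2 := by linarith
  have hiδ : σ - 1 / 2 ≤ i * (σ - 1 / 2) := le_mul_of_one_le_left hδ hi'
  obtain rfl | rfl : j = 0 ∨ j = 1 := by omega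
  · have h := norm_cf_ram_zero hM ψ hp hp' hpM ha0 hi1
    rw [cfL, pow_zero]
    rw [if_pos (by omega : 0 < i), wl, ← Real.rpow_natCast] at hz ⊢
    split_ifs at h with h3 h4 h5 h6
    · refine D_step hq h ?_
      have : i ≤ 6 * (vp p a / 6) := by omega
      have : (i : ℝ) ≤ 6 * (vp p a / 6 : ℕ) := by exact_mod_cast this
      push_cast
      linarith
    · refine D_step hq h ?_
      have : i ≤ 6 * (vp p a / 6) + 6 := by omega
      have : (i : ℝ) ≤ 6 * (vp p a / 6 : ℕ) + 6 := by exact_mod_cast this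
      push_cast
      linarith
    · exact hz h
    · refine D_step hq h ?_
      have : i / 3 ≤ 2 * (vp p a / 6) + 1 := by omega
      have : ((i / 3 : ℕ) : ℝ) ≤ 2 * (vp p a / 6 : ℕ) + 1 := by exact_mod_cast this
      push_cast
      linarith
    · exact hz h
  · have h := norm_cf_ram_one hM ψ hp hp' hpM ha0 hi1
    rw [cfL, pow_one]
    have hw : ∃ w : ℝ, (if 1 < i then nr p ^ (-(σ - 1 / 2)) else 1) = nr p ^ w ∧
        -((i - 1) * (σ - 1 / 2)) ≤ w := by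
      split_ifs with h1i
      · refine ⟨_, rfl, neg_le_neg (le_mul_of_one_le_left hδ ?_)⟩
        have : (2 : ℝ) ≤ i := by exact_mod_cast h1i
        linarith
      · exact ⟨0, (Real.rpow_zero _).symm, by linarith⟩
    obtain ⟨w, hw, hw'⟩ := hw
    rw [hw, wl, ← Real.rpow_natCast] at hz ⊢
    split_ifs at h with h3 h4
    · refine D_step hq h ?_
      have : i / 3 ≤ 2 * (vp p a / 6) + 1 := by omega
      have : ((i / 3 : ℕ) : ℝ) ≤ 2 * (vp p a / 6 : ℕ) + 1 := by exact_mod_cast this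
      push_cast
      linarith
    · refine D_step hq h ?_
      have : i / 3 ≤ 2 * (vp p a / 6) := by omega
      have : ((i / 3 : ℕ) : ℝ) ≤ 2 * (vp p a / 6 : ℕ) := by exact_mod_cast this
      push_cast
      linarith
    · exact hz h

theorem D_le {M : O} (hM : Adm M) (ψ : Chr M) {a p : O} (hp : Prime p)
    (hp' : Primary p) (hpM : ¬ p ∣ M) (ha : p ∣ a) (ha0 : a ≠ 0) {σ : ℝ} (h1 : 1 / 2 ≤ σ)
    (h2 : σ ≤ 1) (i j : ℕ) : ‖cfL ψ a p i j‖ * wl σ p i j ≤ nr p ^ (vp p a / 6 : ℕ) := by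
  have hq : 1 ≤ nr p := one_le_nr hp.ne_zero
  refine (cfL_ram_le hM ψ hp hp' hpM ha ha0 h1 h2 i j).trans
    (mul_le_of_le_one_right (by positivity) ?_)
  split_ifs
  · exact Real.rpow_le_one_of_one_le_of_nonpos hq (by linarith)
  · exact le_rfl

/-- The local sum at a prime of the row which is not an error prime (`2 (v+2)` terms). -/
theorem sum_ram_le {M : O} (hM : Adm M) (ψ : Chr M) {a p : O} (hp : Prime p)
    (hp' : Primary p) (hpM : ¬ p ∣ M) (ha : p ∣ a) (ha0 : a ≠ 0) {σ : ℝ} (h1 : 1 / 2 ≤ σ)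
    (h2 : σ ≤ 1) (T : Finset (ℕ × ℕ)) :
    ∑ e ∈ T, ‖cfL ψ a p e.1 e.2‖ * wl σ p e.1 e.2 ≤
      2 * (vp p a + 2) * nr p ^ (vp p a / 6 : ℕ) := by
  refine (D_sum_le (S := Finset.range (vp p a + 2) ×ˢ Finset.range 2)
    (B := nr p ^ (vp p a / 6 : ℕ)) (by positivity) (fun e he => ?_)
    fun e => D_le hM ψ hp hp' hpM ha ha0 h1 h2 e.1 e.2).trans (le_of_eq ?_)
  · simp only [Finset.mem_product, Finset.mem_range, not_and_or, not_lt] at he
    rw [cfL_ram_eq_zero hM ψ hp hp' hpM ha ha0 he, norm_zero, zero_mul]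
  · rw [Finset.card_product, Finset.card_range, Finset.card_range]
    push_cast
    ring

theorem D_wl_succ_left (σ : ℝ) {p : O} (hp : p ≠ 0) (i j : ℕ) :
    wl σ p i j = wl σ p (i + 1) j * nr p ^ σ := by
  rw [wl, wl, ← Real.rpow_add (nr_pos hp)]
  congr 1
  push_cast
  ring

theorem D_wl_succ_right {σ : ℝ} (h2 : σ ≤ 1) {p : O} (hp : p ≠ 0) (i j : ℕ) :
    wl σ p i (j + 1) ≤ wl σ p i j := by
  refine Real.rpow_le_rpow_of_exponent_le (one_le_nr hp) ?_
  push_cast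
  linarith

/-- The local sum at an error prime which divides the row (at most `3 (v+2)` terms, each a sum of
three; `‖L (i+1) j‖ wl i j = N p^σ ‖L (i+1) j‖ wl (i+1) j`; the case `(i+1, j) = (1, 1)` uses
`cf_ram_one_one`: size `N p^{σ-1}` if `v = 1` and `≤ N p^σ` if `v ≥ 2`). -/
theorem sum_err_ram_le {M : O} (hM : Adm M) (ψ : Chr M) {a p : O} (hp : Prime p)
    (hp' : Primary p) (hpM : ¬ p ∣ M) (ha : p ∣ a) (ha0 : a ≠ 0) {σ : ℝ} (h1 : 1 / 2 ≤ σ)
    (h2 : σ ≤ 1) {c t : ℂ} (hc : ‖c‖ ≤ 1) (ht : ‖t‖ ≤ 1) (T : Finset (ℕ × ℕ)) :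
    ∑ e ∈ T, ‖Eloc c t (cfL ψ a p) e.1 e.2‖ * wl σ p e.1 e.2 ≤
      9 * (vp p a + 2) * nr p ^ (vp p a / 6 : ℕ) *
        nr p ^ (((vp p a % 6 - 1 : ℕ) : ℝ) * (σ - 1 / 2)) * nr p ^ (1 / 2 : ℝ) := by
  have hq : 1 ≤ nr p := one_le_nr hp.ne_zero
  have hq0 : 0 < nr p := by linarith
  have hδ : 0 ≤ σ - 1 / 2 := by linarith
  have hv : 1 ≤ vp p a := Nat.one_le_iff_ne_zero.2 fun h => (vp_eq_zero_iff hp ha0).1 h ha
  set m : ℝ := nr p ^ (vp p a / 6 : ℕ) with hm
  set g : ℝ := nr p ^ (((vp p a % 6 - 1 : ℕ) : ℝ) * (σ - 1 / 2)) with hg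
  set s : ℝ := nr p ^ (1 / 2 : ℝ) with hs
  have hm1 : 1 ≤ m := one_le_pow₀ hq
  have hg1 : 1 ≤ g := Real.one_le_rpow hq (by positivity)
  have hs1 : 1 ≤ s := Real.one_le_rpow hq (by positivity)
  have hms : m * s ≤ m * g * s :=
    mul_le_mul_of_nonneg_right (le_mul_of_one_le_right (by linarith) hg1) (by linarith)
  have hmB : m ≤ m * g * s := (le_mul_of_one_le_right (by linarith) hs1).trans hms
  have hL := D_le hM ψ hp hp' hpM ha ha0 h1 h2
  have hA : ∀ i j : ℕ, ‖cfL ψ a p (i + 1) j‖ * wl σ p i j ≤ m * g * s := by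
    intro i j
    by_cases hij : j < i + 1
    · have h := cfL_ram_le hM ψ hp hp' hpM ha ha0 h1 h2 (i + 1) j
      rw [if_pos hij] at h
      rw [D_wl_succ_left σ hp.ne_zero, ← mul_assoc]
      refine (mul_le_mul_of_nonneg_right h (by positivity)).trans (le_trans (le_of_eq ?_) hms)
      rw [mul_assoc, ← Real.rpow_add hq0, hs]
      congr 2
      ring
    by_cases hj : 2 ≤ j
    · rw [cfL_ram_eq_zero hM ψ hp hp' hpM ha ha0 (Or.inr hj), norm_zero, zero_mul]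
      linarith
    obtain rfl : j = 1 := by omega
    obtain rfl : i = 0 := by omega
    have hψ := norm_ev_le hM.1 ψ p
    rw [cfL, zero_add, pow_one, cf_ram_one_one hM ψ hp hp' hpM ha ha0, wl]
    split_ifs with hv1
    · refine le_trans (mul_le_one₀ hψ (by positivity)
        (Real.rpow_le_one_of_one_le_of_nonpos hq ?_)) (hm1.trans hmB)
      push_cast
      linarith
    · have h3 : ‖-((nr p : ℂ) - 1) * ev ψ p‖ ≤ nr p ^ (1 : ℝ) := by
        rw [norm_mul, norm_neg, Real.rpow_one,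
          show ((nr p : ℝ) : ℂ) - 1 = ((nr p - 1 : ℝ) : ℂ) by push_cast; rfl, Complex.norm_real,
          Real.norm_of_nonneg (by linarith)]
        exact (mul_le_of_le_one_right (by linarith) hψ).trans (by linarith)
      rw [hm, hg, hs, ← Real.rpow_natCast, ← Real.rpow_add hq0]
      refine D_step hq h3 ?_
      by_cases hm0 : vp p a / 6 = 0
      · have : 1 ≤ vp p a % 6 - 1 := by omega
        have : (1 : ℝ) ≤ (vp p a % 6 - 1 : ℕ) := by exact_mod_cast this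
        have := le_mul_of_one_le_left hδ this
        rw [hm0]
        push_cast at this ⊢
        linarith
      · have : 1 ≤ vp p a / 6 := by omega
        have : (1 : ℝ) ≤ (vp p a / 6 : ℕ) := by exact_mod_cast this
        have : 0 ≤ ((vp p a % 6 - 1 : ℕ) : ℝ) * (σ - 1 / 2) := by positivity
        push_cast at this ⊢
        linarith
  have hB : ∀ i j : ℕ, ‖if j = 0 then 0 else cfL ψ a p i (j - 1)‖ * wl σ p i j ≤ m * g * s := by
    intro i j
    cases j with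
    | zero =>
      rw [if_pos rfl, norm_zero, zero_mul]
      linarith
    | succ j =>
      rw [if_neg j.succ_ne_zero, Nat.add_sub_cancel]
      exact (mul_le_mul_of_nonneg_left (D_wl_succ_right h2 hp.ne_zero i j)
        (norm_nonneg _)).trans ((hL i j).trans hmB)
  refine (D_sum_le (S := Finset.range (vp p a + 2) ×ˢ Finset.range 3)
    (B := 3 * (m * g * s)) (by linarith) (fun e he => ?_) fun e => ?_).trans (le_of_eq ?_)
  · simp only [Finset.mem_product, Finset.mem_range, not_and_or, not_lt] at he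
    rw [Eloc, cfL_ram_eq_zero hM ψ hp hp' hpM ha ha0 (i := e.1 + 1) (by omega),
      cfL_ram_eq_zero hM ψ hp hp' hpM ha ha0 (i := e.1) (j := e.2) (by omega),
      cfL_ram_eq_zero hM ψ hp hp' hpM ha ha0 (i := e.1) (j := e.2 - 1) (by omega)]
    simp
  · have hw := (D_wl_pos σ hp.ne_zero e.1 e.2).le
    have h3 : ‖Eloc c t (cfL ψ a p) e.1 e.2‖ ≤ ‖cfL ψ a p (e.1 + 1) e.2‖ +
        ‖if e.2 = 0 then 0 else cfL ψ a p e.1 (e.2 - 1)‖ + ‖cfL ψ a p e.1 e.2‖ := by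
      refine (norm_sub_le _ _).trans (add_le_add ((norm_add_le _ _).trans
        (add_le_add ?_ le_rfl)) ?_) <;> rw [norm_mul]
      · exact mul_le_of_le_one_left (norm_nonneg _) hc
      · exact mul_le_of_le_one_left (norm_nonneg _) ht
    refine (mul_le_mul_of_nonneg_right h3 hw).trans ?_
    have := hA e.1 e.2
    have := hB e.1 e.2
    have := (hL e.1 e.2).trans hmB
    rw [add_mul, add_mul]
    linarith
  · rw [Finset.card_product, Finset.card_range, Finset.card_range]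
    push_cast
    ring

/-- The local sum at an error prime which does not divide the row (`cf_unram`: only the terms
`(1,0)` and `(1,1)` survive, both of modulus `1`). -/
theorem sum_err_unram_le {M : O} (hM : Adm M) (ψ : Chr M) {a p : O} (hp : Prime p)
    (hp' : Primary p) (hpM : ¬ p ∣ M) (ha : ¬ p ∣ a) {σ : ℝ} (h1 : 1 / 2 ≤ σ)
    (h2 : σ ≤ 1) (T : Finset (ℕ × ℕ)) :
    ∑ e ∈ T, ‖Eloc (-conj (ev ψ p)) (conj (sym p a)) (cfL ψ a p) e.1 e.2‖ * wl σ p e.1 e.2 ≤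
      2 * nr p ^ (-(1 / 2) : ℝ) := by
  have hq : 1 ≤ nr p := one_le_nr hp.ne_zero
  have hχ : ‖sym p a‖ = 1 := norm_sym hp' (hp.coprime_iff_not_dvd.2 ha)
  have hψ : ‖ev ψ p‖ = 1 := norm_ev hM.1 ψ (hp.coprime_iff_not_dvd.2 hpM)
  have hχ' : conj (sym p a) * sym p a = 1 := by
    rw [Complex.conj_mul', hχ]
    simp
  have hψ' : conj (ev ψ p) * ev ψ p = 1 := by
    rw [Complex.conj_mul', hψ]
    simp
  have hL : ∀ i j, cfL ψ a p i j = if i = 0 then sym p a ^ j else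
      if i = 1 ∧ j = 0 then -(ev ψ p * conj (sym p a)) else 0 :=
    cf_unram hM ψ hp hp' hpM ha
  have h0 : ∀ e : ℕ × ℕ, e ∉ ({(1, 0), (1, 1)} : Finset (ℕ × ℕ)) →
      Eloc (-conj (ev ψ p)) (conj (sym p a)) (cfL ψ a p) e.1 e.2 = 0 := by
    rintro ⟨i, j⟩ he
    simp only [Finset.mem_insert, Finset.mem_singleton, Prod.mk.injEq] at he
    simp only [Eloc, hL]
    rcases i with _ | i
    · rcases j with _ | j
      · simp only [zero_add, one_ne_zero, and_self, if_true, if_false, pow_zero]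
        linear_combination conj (sym p a) * hψ'
      · simp only [zero_add, one_ne_zero, if_true, if_false, j.succ_ne_zero, and_false,
          Nat.add_sub_cancel, pow_succ]
        linear_combination -(sym p a ^ j) * hχ'
    · rw [if_neg (by omega), if_neg (by omega), if_neg i.succ_ne_zero, if_neg i.succ_ne_zero,
        if_neg (by omega : ¬ (i + 1 = 1 ∧ j = 0))]
      split_ifs with h3 h4
      · simp
      · omega
      · simp
  refine (D_sum_le (S := {(1, 0), (1, 1)}) (B := nr p ^ (-(1 / 2) : ℝ)) (by positivity)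
    (fun e he => by rw [h0 e he, norm_zero, zero_mul]) fun e => ?_).trans (le_of_eq ?_)
  · by_cases he : e ∈ ({(1, 0), (1, 1)} : Finset (ℕ × ℕ))
    · simp only [Finset.mem_insert, Finset.mem_singleton] at he
      rcases he with rfl | rfl
      · have : ‖Eloc (-conj (ev ψ p)) (conj (sym p a)) (cfL ψ a p) 1 0‖ = 1 := by
          simp [Eloc, hL, hχ, hψ]
        rw [this, one_mul]
        refine Real.rpow_le_rpow_of_exponent_le hq ?_
        push_cast
        linarith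
      · have : ‖Eloc (-conj (ev ψ p)) (conj (sym p a)) (cfL ψ a p) 1 1‖ = 1 := by
          simp [Eloc, hL, hχ, hψ]
        rw [this, one_mul]
        refine Real.rpow_le_rpow_of_exponent_le hq ?_
        push_cast
        linarith
    · rw [h0 e he, norm_zero, zero_mul]
      positivity
  · rw [Finset.card_pair (by simp)]
    norm_num

end Crest.Agent.R17.RB
end
end

-- ▼ part PVc/R17/RowBAuxE
section

/-!
# Row 17, `RowB`, part E: splitting off the primes of the row and the error primes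
-/

set_option autoImplicit false

noncomputable section

namespace Crest.Agent.R17.RB

open scoped ComplexConjugate

/-- The element with given exponents at the primes of `H`. -/
def pw (H : Finset O) (e : H → ℕ) : O := ∏ p : H, (p : O) ^ e p

open Classical in
theorem pw_eq (H : Finset O) (e : H → ℕ) :
    pw H e = ∏ p ∈ H, p ^ (if h : p ∈ H then e ⟨p, h⟩ else 0) := by
  rw [pw, ← Finset.prod_coe_sort H]
  exact Finset.prod_congr rfl fun p _ => by rw [dif_pos p.2]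

theorem primary_pw {H : Finset O} (hH : ∀ p ∈ H, Prime p ∧ Primary p) (e : H → ℕ) :
    Primary (pw H e) := Primary.prod fun p _ => (hH p p.2).2.pow _

open Classical in
theorem vp_pw {H : Finset O} (hH : ∀ p ∈ H, Prime p ∧ Primary p) (e : H → ℕ) {q : O}
    (hq : Prime q) (hq' : Primary q) : vp q (pw H e) = if h : q ∈ H then e ⟨q, h⟩ else 0 := by
  rw [pw_eq, vp_prod_pow hH _ hq hq']
  split_ifs <;> rfl

theorem vp_pw_mul {H : Finset O} (hH : ∀ p ∈ H, Prime p ∧ Primary p) (e : H → ℕ) {n : O}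
    (hn : Primary n) (h : ∀ p ∈ H, ¬ p ∣ n) (q : H) : vp q (pw H e * n) = e q := by
  obtain ⟨h1, h2⟩ := hH q q.2
  rw [vp_mul h1 (primary_pw hH e).ne_zero hn.ne_zero, vp_pw hH e h1 h2, dif_pos q.2,
    (vp_eq_zero_iff h1 hn.ne_zero).2 (h q q.2), add_zero]

theorem vp_pw_mul' {H : Finset O} (hH : ∀ p ∈ H, Prime p ∧ Primary p) (e : H → ℕ) {n : O}
    (hn : Primary n) {q : O} (hq : Prime q) (hq' : Primary q) (h : q ∉ H) :
    vp q (pw H e * n) = vp q n := by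
  rw [vp_mul hq (primary_pw hH e).ne_zero hn.ne_zero, vp_pw hH e hq hq', dif_neg h, zero_add]

theorem pf_pw {H : Finset O} (hH : ∀ p ∈ H, Prime p ∧ Primary p) (e : H → ℕ) :
    pf (pw H e) ⊆ H := fun q hq => by
  by_contra h
  have := BasicB.vp_ne_zero hq
  rw [vp_pw hH e (BasicB.pf_sub hq).1 (BasicB.pf_sub hq).2, dif_neg h] at this
  exact this rfl

theorem exists_pw {H : Finset O} (hH : ∀ p ∈ H, Prime p ∧ Primary p) {n : O} (hn : Primary n) :
    ∃ (e : H → ℕ) (m : O), Primary m ∧ (∀ p ∈ H, ¬ p ∣ m) ∧ n = pw H e * m := by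
  have hp := primary_pw hH fun p => vp p n
  obtain ⟨m, hm⟩ : pw H (fun p => vp p n) ∣ n := by
    refine (hp.dvd_iff_vp hn.ne_zero).2 fun q hq => ?_
    rw [vp_pw hH _ (BasicB.pf_sub hq).1 (BasicB.pf_sub hq).2, dif_pos (pf_pw hH _ hq)]
  have hm' : Primary m := hp.of_mul (hm ▸ hn)
  refine ⟨_, m, hm', fun q hq => ?_, hm⟩
  obtain ⟨h1, h2⟩ := hH q hq
  have := congrArg (vp q) hm
  rw [vp_mul h1 hp.ne_zero hm'.ne_zero, vp_pw hH _ h1 h2, dif_pos hq] at this
  exact (vp_eq_zero_iff h1 hm'.ne_zero).1 (by simpa using this)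

theorem nr_pw_rpow {H : Finset O} (e : H → ℕ) (s : ℝ) :
    nr (pw H e) ^ s = ∏ p : H, nr (p : O) ^ (e p * s) := by
  have : nr (pw H e) = ∏ p : H, nr ((p : O) ^ e p) := by
    rw [nr, pw, nm_prod, Nat.cast_prod]
  rw [this, ← Real.finsetProd_rpow _ _ fun p _ => Nat.cast_nonneg _]
  exact Finset.prod_congr rfl fun p _ => CountAux.nr_pow_rpow _ _ _

/-- The pairs prime to `H`. -/
def Cop (H : Finset O) (v : O × O) : Prop :=
  (Primary v.1 ∧ ∀ p ∈ H, ¬ p ∣ v.1) ∧ Primary v.2 ∧ ∀ p ∈ H, ¬ p ∣ v.2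

/-- The splitting map. -/
def spl (H : Finset O) (w : (H → ℕ × ℕ) × {v : O × O // Cop H v}) : O × O :=
  (pw H (fun p => (w.1 p).1) * w.2.1.1, pw H (fun p => (w.1 p).2) * w.2.1.2)

theorem spl_injective {H : Finset O} (hH : ∀ p ∈ H, Prime p ∧ Primary p) :
    Function.Injective (spl H) := by
  rintro ⟨e, ⟨n, x⟩, hv⟩ ⟨e', ⟨n', x'⟩, hv'⟩ h
  simp only [spl, Prod.mk.injEq] at h
  have he : e = e' := by
    funext q
    ext
    · rw [← vp_pw_mul hH (fun p => (e p).1) hv.1.1 hv.1.2 q, h.1,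
        vp_pw_mul hH (fun p => (e' p).1) hv'.1.1 hv'.1.2 q]
    · rw [← vp_pw_mul hH (fun p => (e p).2) hv.2.1 hv.2.2 q, h.2,
        vp_pw_mul hH (fun p => (e' p).2) hv'.2.1 hv'.2.2 q]
  subst he
  have h1 : n = n' := mul_left_cancel₀ (primary_pw hH _).ne_zero h.1
  have h2 : x = x' := mul_left_cancel₀ (primary_pw hH _).ne_zero h.2
  subst h1 h2
  rfl

theorem mem_range_spl {H : Finset O} (hH : ∀ p ∈ H, Prime p ∧ Primary p) {v : O × O}
    (h : Primary v.1 ∧ Primary v.2) : v ∈ Set.range (spl H) := by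
  obtain ⟨e, n, hn, hn', h1⟩ := exists_pw hH h.1
  obtain ⟨k, x, hx, hx', h2⟩ := exists_pw hH h.2
  exact ⟨(fun p => (e p, k p), ⟨(n, x), ⟨hn, hn'⟩, hx, hx'⟩), Prod.ext h1.symm h2.symm⟩

open Classical in
theorem cfE_spl {M : O} (hM : Adm M) (ψ : Chr M) {a : O} (ha : a ≠ 0) (t : O → ℂ) {Z : Finset O}
    (hZ : ∀ p ∈ Z, Prime p ∧ Primary p)
    (w : (↥(Z ∪ pf a) → ℕ × ℕ) × {v : O × O // Cop (Z ∪ pf a) v}) :
    cfE ψ a t Z (spl _ w) = (∏ p : ↥(Z ∪ pf a), cfLE ψ a t Z p (w.1 p).1 (w.1 p).2) *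
      gd ψ (a * (∏ p ∈ Z, p) ^ 6) w.2.1 := by
  obtain ⟨e, ⟨n, x⟩, ⟨hn, hn'⟩, hx, hx'⟩ := w
  simp only at hn hn' hx hx'
  set H := Z ∪ pf a with hHdef
  have hH : ∀ p ∈ H, Prime p ∧ Primary p := fun p hp => by
    rcases Finset.mem_union.1 hp with hp | hp
    exacts [hZ p hp, BasicB.pf_sub hp]
  have hG : ∀ p ∈ pf n ∪ pf x, Prime p ∧ Primary p := fun p hp => by
    rcases Finset.mem_union.1 hp with hp | hp <;> exact BasicB.pf_sub hp
  have hd : Disjoint H (pf n ∪ pf x) := Finset.disjoint_left.2 fun p hp hp' => by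
    rcases Finset.mem_union.1 hp' with hp' | hp'
    exacts [hn' p hp (BasicB.of_mem_pf hp').2.2, hx' p hp (BasicB.of_mem_pf hp').2.2]
  have hc : ∀ y : O, Primary y → (∀ p ∈ H, ¬ p ∣ y) → IsCoprime y (∏ p ∈ Z, p) :=
    fun y hy hy' => IsCoprime.prod_right fun p hp =>
      ((hZ p hp).1.irreducible.coprime_iff_not_dvd.2 (hy' p (Finset.mem_union_left _ hp))).symm
  have hca : IsCoprime (n * x) a := by
    refine (LBC.isCoprime_iff (hn.mul hx) ha).2 fun p hp h => ?_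
    rcases (BasicB.pf_sub hp).1.dvd_or_dvd h with h | h
    exacts [hn' p (Finset.mem_union_right _ hp) h, hx' p (Finset.mem_union_right _ hp) h]
  have e1 : gd ψ (a * (∏ p ∈ Z, p) ^ 6) (n, x) = cf ψ a n x := by
    rw [cf_eq_gd hM ψ hca]
    simp only [gd, rc_mul_six hM, if_pos (hc n hn hn'), if_pos (hc x hx hx')]
  have e2 := (cfE_empty hM ψ a t (n, x)).symm
  rw [cfE_eq ψ a t hn hx hG (Finset.empty_subset _) Finset.subset_union_left
    Finset.subset_union_right] at e2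
  simp only [spl]
  rw [e1, e2, cfE_eq ψ a t ((primary_pw hH _).mul hn) ((primary_pw hH _).mul hx)
    (H := H ∪ (pf n ∪ pf x)) (fun p hp => by
      rcases Finset.mem_union.1 hp with hp | hp
      exacts [hH p hp, hG p hp])
    (Finset.subset_union_left.trans Finset.subset_union_left) (by
      rw [pf_mul (primary_pw hH _).ne_zero hn.ne_zero]
      exact Finset.union_subset_union (pf_pw hH _) Finset.subset_union_left) (by
      rw [pf_mul (primary_pw hH _).ne_zero hx.ne_zero]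
      exact Finset.union_subset_union (pf_pw hH _) Finset.subset_union_right),
    Finset.prod_union hd, ← Finset.prod_coe_sort H]
  congr 1
  · exact Finset.prod_congr rfl fun p _ => by
      rw [vp_pw_mul hH _ hn hn' p, vp_pw_mul hH _ hx hx' p]
  · refine Finset.prod_congr rfl fun p hp => ?_
    have h1 : p ∉ H := Finset.disjoint_right.1 hd hp
    have h2 : p ∉ Z := fun h => h1 (Finset.mem_union_left _ h)
    rw [vp_pw_mul' hH _ hn (hG p hp).1 (hG p hp).2 h1,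
      vp_pw_mul' hH _ hx (hG p hp).1 (hG p hp).2 h1]
    simp only [cfLE, if_neg h2, Finset.notMem_empty, if_false]

open Classical in
theorem cop_of_gd {M : O} (ψ : Chr M) {a : O} {Z : Finset O} (hZ : ∀ p ∈ Z, Prime p ∧ Primary p)
    {v : O × O} (h : gd ψ (a * (∏ p ∈ Z, p) ^ 6) v ≠ 0) : Cop (Z ∪ pf a) v := by
  have key : ∀ (ν : Chr M) (y : O), rc ν (a * (∏ p ∈ Z, p) ^ 6) y ≠ 0 →
      Primary y ∧ ∀ p ∈ Z ∪ pf a, ¬ p ∣ y := fun ν y hy => by
    refine ⟨by_contra fun h' => hy (LBA.rc_neg ν _ h'), fun p hp hd => ?_⟩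
    have hc : IsCoprime y (M * (a * (∏ p ∈ Z, p) ^ 6)) := by_contra fun h' => hy (rc_eq_zero ν h')
    rcases Finset.mem_union.1 hp with hp | hp
    · exact (hZ p hp).1.not_isUnit (hc.isUnit_of_dvd' hd
        (((Finset.dvd_prod_of_mem _ hp).trans (dvd_pow_self _ (by norm_num))).mul_left _
          |>.mul_left _))
    · exact (BasicB.pf_sub hp).1.not_isUnit (hc.isUnit_of_dvd' hd
        (((BasicB.of_mem_pf hp).2.2.mul_right _).mul_left _))
  unfold gd at h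
  split_ifs at h with hc
  · refine ⟨key ψ _ fun h' => h (by rw [h']; ring), key 1 _ fun h' => h (by rw [h', map_zero]; ring)⟩
  · exact absurd rfl h

theorem Phi_eq {B y₁ y₂ : ℝ} (a : O) (m y : ℝ) :
    Phi B a (y₁ * m) (y₂ * y) = Wc (m / (B / y₁)) 0 *
      (gw (nr a / Apar B * (B / y₁) / m) : ℂ) * Wc (y / (Xpar B / y₂)) 0 := by
  unfold Phi
  rw [div_div_eq_mul_div, div_div_eq_mul_div, mul_comm m y₁, mul_comm y y₂, div_mul_div_comm,
    div_div, mul_assoc (Apar B)]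

open Classical in
theorem pair_eq {M : O} (hM : Adm M) (ψ : Chr M) {a : O} (ha : a ≠ 0) (t : O → ℂ) {Z : Finset O}
    (hZ : ∀ p ∈ Z, Prime p ∧ Primary p) {B : ℝ} (hB : 0 < B) :
    pairF (cfE ψ a t Z) (Phi B a) = ∑' e : ↥(Z ∪ pf a) → ℕ × ℕ,
      (∏ p : ↥(Z ∪ pf a), cfLE ψ a t Z p (e p).1 (e p).2) *
        Gd ψ (a * (∏ p ∈ Z, p) ^ 6) (nr a / Apar B) (B / nr (pw _ fun p => (e p).1))
          (Xpar B / nr (pw _ fun p => (e p).2)) := by
  have hH : ∀ p ∈ Z ∪ pf a, Prime p ∧ Primary p := fun p hp => by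
    rcases Finset.mem_union.1 hp with hp | hp
    exacts [hZ p hp, BasicB.pf_sub hp]
  have hs := ((summable_cfE hM ψ a t hZ hB).of_norm).comp_injective (spl_injective hH)
  unfold pairF
  rw [← (spl_injective hH).tsum_eq fun v hv => mem_range_spl hH
    (by_contra fun h => hv (by simp only [cfE_of_not ψ a t Z h, zero_mul]))]
  refine hs.tsum_prod.trans (tsum_congr fun e => ?_)
  unfold Gd
  rw [← tsum_mul_left, ← (Subtype.val_injective (p := Cop (Z ∪ pf a))).tsum_eq fun v hv =>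
    ⟨⟨v, cop_of_gd ψ hZ fun h => hv (by simp only [h, zero_mul, mul_zero])⟩, rfl⟩]
  refine tsum_congr fun w => ?_
  simp only [Function.comp]
  rw [cfE_spl hM ψ ha t hZ (e, w), mul_assoc]
  simp only [spl, nr_mul, Phi_eq]

theorem sum_pi_le {ι β : Type} [Fintype ι] (f : ι → β → ℝ) (b : ι → ℝ) (h0 : ∀ i x, 0 ≤ f i x)
    (h : ∀ i (T : Finset β), ∑ x ∈ T, f i x ≤ b i) (S : Finset (ι → β)) :
    ∑ e ∈ S, ∏ i, f i (e i) ≤ ∏ i, b i := by
  classical
  calc ∑ e ∈ S, ∏ i, f i (e i)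
      ≤ ∑ e ∈ Fintype.piFinset (fun i => S.image fun e => e i), ∏ i, f i (e i) :=
        Finset.sum_le_sum_of_subset_of_nonneg
          (fun e he => Fintype.mem_piFinset.2 fun i => Finset.mem_image_of_mem _ he)
          fun e _ _ => Finset.prod_nonneg fun i _ => h0 i _
    _ = ∏ i, ∑ x ∈ S.image fun e => e i, f i x := (Finset.prod_univ_sum _ _).symm
    _ ≤ _ := Finset.prod_le_prod (fun i _ => Finset.sum_nonneg fun x _ => h0 i x)
        fun i _ => h i _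

open Classical in
theorem pair_le {M : O} (hM : Adm M) (ψ : Chr M) {a : O} (ha : a ≠ 0) (t : O → ℂ) {Z : Finset O}
    (hZ : ∀ p ∈ Z, Prime p ∧ Primary p) {B σ K : ℝ} (hB : 0 < B) (hK : 0 ≤ K) (b : O → ℝ)
    (hG : ∀ y₁ y₂ : ℝ, 1 ≤ y₁ → 1 ≤ y₂ →
      ‖Gd ψ (a * (∏ p ∈ Z, p) ^ 6) (nr a / Apar B) (B / y₁) (Xpar B / y₂)‖ ≤
        K * (y₁ ^ (-σ) * y₂ ^ (-(1 - σ))))
    (hb : ∀ p ∈ Z ∪ pf a, ∀ T : Finset (ℕ × ℕ),
      ∑ e ∈ T, ‖cfLE ψ a t Z p e.1 e.2‖ * wl σ p e.1 e.2 ≤ b p) :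
    ‖pairF (cfE ψ a t Z) (Phi B a)‖ ≤ K * ∏ p ∈ Z ∪ pf a, b p := by
  have hH : ∀ p ∈ Z ∪ pf a, Prime p ∧ Primary p := fun p hp => by
    rcases Finset.mem_union.1 hp with hp | hp
    exacts [hZ p hp, BasicB.pf_sub hp]
  let f : ↥(Z ∪ pf a) → ℕ × ℕ → ℝ := fun p e => ‖cfLE ψ a t Z p e.1 e.2‖ * wl σ p e.1 e.2
  have h0 : ∀ p e, 0 ≤ f p e := fun p e =>
    mul_nonneg (norm_nonneg _) (Real.rpow_nonneg (Nat.cast_nonneg _) _)
  have h1 := sum_pi_le f (fun p => b p) h0 fun p T => hb p p.2 T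
  have h2 : ∀ e : ↥(Z ∪ pf a) → ℕ × ℕ, 0 ≤ ∏ p, f p (e p) := fun e =>
    Finset.prod_nonneg fun p _ => h0 p _
  have h3 : Summable fun e : ↥(Z ∪ pf a) → ℕ × ℕ => ∏ p, f p (e p) := summable_of_sum_le h2 h1
  rw [pair_eq hM ψ ha t hZ hB, ← Finset.prod_coe_sort (Z ∪ pf a)]
  refine (tsum_of_norm_bounded (h3.hasSum.mul_left K) fun e => ?_).trans
    (mul_le_mul_of_nonneg_left (h3.tsum_le_of_sum_le h1) hK)
  rw [norm_mul, norm_prod]
  refine (mul_le_mul_of_nonneg_left (hG _ _ (one_le_nr (primary_pw hH _).ne_zero)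
    (one_le_nr (primary_pw hH _).ne_zero))
    (Finset.prod_nonneg fun _ _ => norm_nonneg _)).trans (le_of_eq ?_)
  rw [mul_left_comm, nr_pw_rpow, nr_pw_rpow, ← Finset.prod_mul_distrib, ← Finset.prod_mul_distrib]
  congr 1
  refine Finset.prod_congr rfl fun p _ => ?_
  simp only [f, wl]
  rw [← Real.rpow_add (nr_pos (hH p p.2).1.ne_zero)]
  congr 2
  ring

end Crest.Agent.R17.RB
end
end

-- ▼ part PVc/R17/RowBAuxF
section

/-!
# Row 17, `RowB`, part F: the products of the local bounds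
-/

set_option autoImplicit false

noncomputable section

namespace Crest.Agent.R17.RB

open scoped ComplexConjugate

theorem nr_eq_prod {n : O} (hn : Primary n) {s : Finset O} (hs : ∀ q ∈ s, Prime q ∧ Primary q)
    (h : pf n ⊆ s) : ∏ p ∈ s, nr p ^ vp p n = nr n := by
  have e := congrArg nr ((BasicB.prod_superset hn.ne_zero hs h).trans hn.eq_prod.symm)
  rw [nr, nm_prod, Nat.cast_prod] at e
  rw [← e]
  exact Finset.prod_congr rfl fun p _ => (nr_pow p _).symm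

theorem lin_le {δ : ℝ} (hδ : 0 < δ) : ∃ K : ℝ, 0 < K ∧ ∀ (v : ℕ) (y : ℝ), 2 ≤ y →
    9 * ((v : ℝ) + 2) ≤ K * (y ^ v) ^ δ := by
  have hl : 0 < δ * Real.log 2 := mul_pos hδ (Real.log_pos one_lt_two)
  refine ⟨9 * (2 + 1 / (δ * Real.log 2)), by positivity, fun v y hy => ?_⟩
  have h1 : 1 + v * (δ * Real.log 2) ≤ (y ^ v) ^ δ := by
    refine le_trans ?_ (Real.rpow_le_rpow (by positivity) (pow_le_pow_left₀ zero_le_two hy v) hδ.le)
    rw [Real.rpow_def_of_pos (by positivity), Real.log_pow]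
    have := Real.add_one_le_exp (v * Real.log 2 * δ)
    linarith
  have h2 : (v : ℝ) + 2 ≤ (2 + 1 / (δ * Real.log 2)) * (1 + v * (δ * Real.log 2)) := by
    have : (2 + 1 / (δ * Real.log 2)) * (1 + v * (δ * Real.log 2)) =
        v + 2 + (1 / (δ * Real.log 2) + 2 * (v * (δ * Real.log 2))) := by
      have := (Real.log_pos one_lt_two).ne'
      field_simp
      ring
    rw [this]
    exact le_add_of_nonneg_right (by positivity)
  rw [mul_assoc]
  exact mul_le_mul_of_nonneg_left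
    (h2.trans (mul_le_mul_of_nonneg_left h1 (by positivity))) (by norm_num)

theorem prod_lin_le {η : ℝ} (hη : 0 < η) : ∃ C : ℝ, 0 < C ∧ ∀ a : O, Primary a →
    ∏ p ∈ pf a, 9 * ((vp p a : ℝ) + 2) ≤ C * nr a ^ η := by
  obtain ⟨K, hK, h⟩ := lin_le (half_pos hη)
  obtain ⟨C, hC, h'⟩ := pow_card_pf_le (half_pos hη) K
  refine ⟨C, hC, fun a ha => ?_⟩
  have h0 := nr_pos ha.ne_zero
  calc _ ≤ ∏ p ∈ pf a, K * (nr p ^ vp p a) ^ (η / 2) :=
        Finset.prod_le_prod (fun p _ => by positivity) fun p hp => h _ _ (by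
          exact_mod_cast CountAux.two_le_nm (BasicB.pf_sub hp).1)
    _ = K ^ (pf a).card * nr a ^ (η / 2) := by
        rw [Finset.prod_mul_distrib, Finset.prod_const,
          Real.finsetProd_rpow _ _ fun p _ => by positivity,
          nr_eq_prod ha (fun p hp => BasicB.pf_sub hp) le_rfl]
    _ ≤ C * nr a ^ (η / 2) * nr a ^ (η / 2) := by gcongr; exact h' a ha.ne_zero
    _ = _ := by rw [mul_assoc, ← Real.rpow_add h0, add_halves]

/-- The local bound at the primes of the row. -/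
def b1 (σ : ℝ) (a p : O) : ℝ := 9 * (vp p a + 2) * nr p ^ (vp p a / 6 : ℕ) *
  nr p ^ (((vp p a % 6 - 1 : ℕ) : ℝ) * (σ - 1 / 2))


theorem prod_b1_le {η : ℝ} (hη : 0 < η) : ∃ C : ℝ, 0 < C ∧ ∀ (r c : O) (σ : ℝ), Primary r →
    Primary c → (∀ p ∈ pf r, vp p r < 6) →
    (∏ p ∈ pf (r * c ^ 6), b1 σ (r * c ^ 6) p) * (∏ p ∈ pf r, nr p) ^ (σ - 1 / 2) ≤
      C * nr (r * c ^ 6) ^ η * nr c * nr r ^ (σ - 1 / 2) := by
  classical
  obtain ⟨C, hC, h⟩ := prod_lin_le hη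
  refine ⟨C, hC, fun r c σ hr hc h6 => ?_⟩
  have hpf : pf (r * c ^ 6) = pf r ∪ pf c := by
    rw [pf_mul hr.ne_zero (hc.pow 6).ne_zero, pf_pow (by norm_num)]
  have hP : ∀ p ∈ pf (r * c ^ 6), Prime p ∧ Primary p := fun p hp => BasicB.pf_sub hp
  have hv : ∀ p ∈ pf (r * c ^ 6),
      vp p (r * c ^ 6) / 6 = vp p c ∧ vp p (r * c ^ 6) % 6 = vp p r := fun p hp => by
    obtain ⟨h1, h2⟩ := hP p hp
    have : vp p r < 6 := by
      by_cases h0 : vp p r = 0
      · omega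
      · exact h6 p ((BasicB.mem_pf_iff hr.ne_zero h1 h2).2 h0)
    rw [vp_mul h1 hr.ne_zero (hc.pow 6).ne_zero, vp_pow h1 hc.ne_zero]
    omega
  have e1 : ∏ p ∈ pf (r * c ^ 6), nr p ^ (vp p (r * c ^ 6) / 6 : ℕ) = nr c := by
    rw [← nr_eq_prod hc hP (hpf ▸ Finset.subset_union_right)]
    exact Finset.prod_congr rfl fun p hp => by rw [(hv p hp).1]
  have e2 : (∏ p ∈ pf (r * c ^ 6), nr p ^ (((vp p (r * c ^ 6) % 6 - 1 : ℕ) : ℝ) * (σ - 1 / 2))) *
      (∏ p ∈ pf r, nr p) ^ (σ - 1 / 2) = nr r ^ (σ - 1 / 2) := by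
    have e3 : ∏ p ∈ pf (r * c ^ 6), nr p ^ (((vp p (r * c ^ 6) % 6 - 1 : ℕ) : ℝ) * (σ - 1 / 2)) =
        (∏ p ∈ pf r, nr p ^ (vp p r - 1)) ^ (σ - 1 / 2) := by
      rw [← Real.finsetProd_rpow _ _ fun p _ => pow_nonneg (Nat.cast_nonneg _) _]
      refine (Finset.prod_congr rfl fun p hp => ?_).trans (Finset.prod_subset
        (hpf ▸ Finset.subset_union_left : pf r ⊆ pf (r * c ^ 6)) fun p hp hp' => ?_).symm
      · rw [(hv p hp).2, Real.rpow_natCast_mul (Nat.cast_nonneg _)]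
      · have : vp p r = 0 := by
          by_contra h0
          exact hp' ((BasicB.mem_pf_iff hr.ne_zero (hP p hp).1 (hP p hp).2).2 h0)
        simp [this]
    rw [e3, ← Real.mul_rpow (Finset.prod_nonneg fun p _ => pow_nonneg (Nat.cast_nonneg _) _)
      (Finset.prod_nonneg fun p _ => Nat.cast_nonneg _), ← Finset.prod_mul_distrib,
      ← nr_eq_prod hr (fun p hp => BasicB.pf_sub hp) le_rfl]
    refine congrArg (· ^ (σ - 1 / 2)) (Finset.prod_congr rfl fun p hp => ?_)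
    rw [← pow_succ, Nat.sub_add_cancel (Nat.one_le_iff_ne_zero.2 (BasicB.vp_ne_zero hp))]
  simp only [b1, Finset.prod_mul_distrib (f := fun p => 9 * ((vp p (r * c ^ 6) : ℝ) + 2) *
    nr p ^ (vp p (r * c ^ 6) / 6 : ℕ)),
    Finset.prod_mul_distrib (f := fun p => 9 * ((vp p (r * c ^ 6) : ℝ) + 2))]
  rw [mul_assoc, e1, e2]
  exact mul_le_mul_of_nonneg_right (mul_le_mul_of_nonneg_right (h _ (hr.mul (hc.pow 6)))
    (Nat.cast_nonneg _)) (Real.rpow_nonneg (Nat.cast_nonneg _) _)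

open Classical in
/-- The extra factor at an error prime. -/
def uu (a p : O) : ℝ := if p ∣ a then nr p ^ (1 / 2 : ℝ) else 2 * nr p ^ (-(1 / 2) : ℝ)

theorem uu_nonneg (a p : O) : 0 ≤ uu a p := by unfold uu; split_ifs <;> positivity

theorem sum_uu_le : ∃ C : ℝ, 1 ≤ C ∧ ∀ (M a : O) (K₀ i : ℕ) (B : ℝ), a ≠ 0 → 0 < B →
    ∑ p ∈ Pset M K₀ B i, ‖cw K₀ B i p‖ * uu a p ≤
      C * 2 ^ (pf a).card * Real.sqrt (Pw K₀ B i) := by
  classical
  obtain ⟨C, hC, h⟩ := sum_cw_le 1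
  refine ⟨2 * C + 1, by linarith, fun M a K₀ i B ha hB => ?_⟩
  have h1 := (h M K₀ i B (-(1 / 2)) hB (by rw [abs_le]; constructor <;> norm_num)).1
  have h2 := (h M K₀ i B (1 / 2) hB (by rw [abs_le]; constructor <;> norm_num)).2
  rw [show (1 : ℝ) + -(1 / 2) = 1 / 2 by norm_num, ← Real.sqrt_eq_rpow] at h1
  rw [← Real.sqrt_eq_rpow (Pw K₀ B i)] at h2
  have hs := Real.sqrt_nonneg (Pw K₀ B i)
  have h3 : ∑ p ∈ Pset M K₀ B i, ‖cw K₀ B i p‖ * uu a p ≤
      ∑ p ∈ Pset M K₀ B i, (2 * (‖cw K₀ B i p‖ * nr p ^ (-(1 / 2) : ℝ)) +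
        if p ∈ pf a then C * Real.sqrt (Pw K₀ B i) else 0) := by
    refine Finset.sum_le_sum fun p hp => ?_
    obtain ⟨hp1, hp2, -⟩ := (mem_Pset hB).1 hp
    unfold uu
    by_cases hd : p ∣ a
    · rw [if_pos hd, if_pos ((mem_pf ha).2 ⟨hp1, hp2, hd⟩)]
      exact (h2 p hp1.ne_zero).trans (le_add_of_nonneg_left (by positivity))
    · rw [if_neg hd, if_neg fun h' => hd (BasicB.of_mem_pf h').2.2]
      exact le_of_eq (by ring)
  rw [Finset.sum_add_distrib, ← Finset.mul_sum, Finset.sum_ite_mem, Finset.sum_const,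
    nsmul_eq_mul] at h3
  have h4 : (((Pset M K₀ B i ∩ pf a).card : ℕ) : ℝ) + 1 ≤ 2 ^ (pf a).card := by
    have := (Finset.card_le_card (Finset.inter_subset_right (s₁ := Pset M K₀ B i))).trans_lt
      (Nat.lt_two_pow_self (n := (pf a).card))
    exact_mod_cast this
  have h5 : (1 : ℝ) ≤ 2 ^ (pf a).card := one_le_pow₀ one_le_two
  have h6 := mul_nonneg hC.le hs
  nlinarith [mul_le_mul_of_nonneg_right h4 h6, mul_le_mul_of_nonneg_right h5 h6,
    mul_nonneg (zero_le_one.trans h5) hs]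

theorem nr_slot_le {M : O} {K₀ : ℕ} {B : ℝ} (hB : 1 ≤ B) {S : Finset (Fin K₀)} {p : S → O}
    (hp : p ∈ Fintype.piFinset (fun i : S => Pset M K₀ B (i : Fin K₀))) :
    (∏ i : S, nr (p i)) ^ 6 ≤ B ^ 2 := by
  have hB0 : 0 < B := one_pos.trans_le hB
  have h1 : ∀ i : S, nr (p i) ≤ B ^ (1 / (3 * (K₀ : ℝ))) := fun i => by
    refine ((mem_Pset hB0).1 (Fintype.mem_piFinset.1 hp i)).2.2.2.2.trans
      (Real.rpow_le_rpow_of_exponent_le hB ((ell_bounds i.1.2).2.trans ?_))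
    have : (0 : ℝ) < K₀ := by exact_mod_cast i.1.pos
    rw [div_le_div_iff₀ (by positivity) (by positivity)]
    linarith
  have h2 : 1 ≤ B ^ (1 / (3 * (K₀ : ℝ))) := Real.one_le_rpow hB (by positivity)
  have h3 : ∏ i : S, nr (p i) ≤ B ^ (1 / 3 : ℝ) := by
    calc _ ≤ ∏ _i : S, B ^ (1 / (3 * (K₀ : ℝ))) :=
          Finset.prod_le_prod (fun i _ => by positivity) fun i _ => h1 i
      _ ≤ (B ^ (1 / (3 * (K₀ : ℝ)))) ^ K₀ := by
          rw [Finset.prod_const]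
          refine pow_le_pow_right₀ h2 ?_
          simpa using S.card_le_univ
      _ ≤ _ := by
          rw [← Real.rpow_mul_natCast hB0.le]
          refine Real.rpow_le_rpow_of_exponent_le hB ?_
          rcases Nat.eq_zero_or_pos K₀ with h | h
          · simp [h]
          · have : (0 : ℝ) < K₀ := by exact_mod_cast h
            exact le_of_eq (by field_simp)
  calc _ ≤ (B ^ (1 / 3 : ℝ)) ^ 6 := by gcongr
    _ = _ := by rw [← Real.rpow_mul_natCast hB0.le, ← Real.rpow_natCast]; norm_num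

open Classical in
/-- The bound for one choice of the error primes. -/
theorem pair_bound {M : O} (hM : Adm M) {η : ℝ} (hη : 0 < η) : ∃ C : ℝ, 0 < C ∧
    ∀ (ψ : Chr M) (B σ : ℝ) (r c : O) (Z : Finset O), 1 ≤ B → r ∈ RS M B → Primary c →
      IsCoprime c M → nr (r * c ^ 6) ≤ B → 1 / 2 ≤ σ → σ ≤ 1 → ZF M r σ (Real.log B ^ 2) →
      (∀ p ∈ Z, Prime p ∧ Primary p ∧ ¬ p ∣ M) → (∏ p ∈ Z, nr p) ^ 6 ≤ B ^ 2 →
      ‖pairF (cfE ψ (r * c ^ 6) (fun p => conj (sym p r)) Z) (Phi B (r * c ^ 6))‖ ≤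
        C * B ^ η * nr c * (B ^ σ * Xpar B ^ (1 - σ) * nr r ^ (σ - 1 / 2)) *
          ∏ p ∈ Z, uu (r * c ^ 6) p := by
  obtain ⟨C₁, hC₁, h₁⟩ := Gd_le hM (half_pos hη)
  obtain ⟨C₂, hC₂, h₂⟩ := prod_b1_le (half_pos hη)
  refine ⟨C₁ * C₂, by positivity, fun ψ B σ r c Z hB hr hc hcM ha h1 h2 hz hZ hZB => ?_⟩
  have hB0 : 0 < B := one_pos.trans_le hB
  obtain ⟨-, hr1, hrM, -, hr6⟩ := Finset.mem_filter.1 hr
  have hZ' : ∀ p ∈ Z, Prime p ∧ Primary p := fun p hp => ⟨(hZ p hp).1, (hZ p hp).2.1⟩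
  have hap : Primary (r * c ^ 6) := hr1.mul (hc.pow 6)
  have haM : IsCoprime (r * c ^ 6) M := hrM.mul_left hcM.pow_left
  have hX0 : 0 < Xpar B := Real.rpow_pos_of_pos hB0 _
  have hX : Xpar B ≤ B := Real.rpow_le_self_of_one_le hB (by norm_num)
  have hA0 : 0 < Apar B := Real.rpow_pos_of_pos hB0 _
  have hA : Apar B ≤ B := Real.rpow_le_self_of_one_le hB (by norm_num)
  have key := pair_le hM ψ hap.ne_zero (fun p => conj (sym p r)) hZ' (σ := σ)
    (K := C₁ * B ^ (η / 2) * B ^ σ * Xpar B ^ (1 - σ) * (∏ p ∈ pf r, nr p) ^ (σ - 1 / 2)) hB0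
    (by positivity) (fun p => (if p ∈ pf (r * c ^ 6) then b1 σ (r * c ^ 6) p else 1) *
      if p ∈ Z then uu (r * c ^ 6) p else 1) (fun y₁ y₂ hy₁ hy₂ => ?_) fun p hp T => ?_
  · rw [Finset.prod_mul_distrib, Finset.prod_ite_mem, Finset.prod_ite_mem,
      Finset.union_inter_cancel_left, Finset.union_inter_cancel_right] at key
    have h3 := (h₂ r c σ hr1 hc hr6).trans (show _ ≤ C₂ * B ^ (η / 2) * nr c * nr r ^ (σ - 1 / 2) by
      gcongr)
    have h4 : 0 ≤ ∏ p ∈ Z, uu (r * c ^ 6) p := Finset.prod_nonneg fun p _ => uu_nonneg _ _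
    have e : B ^ η = B ^ (η / 2) * B ^ (η / 2) := by rw [← Real.rpow_add hB0, add_halves]
    refine key.trans ?_
    calc _ = C₁ * B ^ (η / 2) * B ^ σ * Xpar B ^ (1 - σ) * ((∏ p ∈ pf (r * c ^ 6),
          b1 σ (r * c ^ 6) p) * (∏ p ∈ pf r, nr p) ^ (σ - 1 / 2)) *
          ∏ p ∈ Z, uu (r * c ^ 6) p := by ring
      _ ≤ C₁ * B ^ (η / 2) * B ^ σ * Xpar B ^ (1 - σ) *
          (C₂ * B ^ (η / 2) * nr c * nr r ^ (σ - 1 / 2)) * ∏ p ∈ Z, uu (r * c ^ 6) p := by gcongr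
      _ = _ := by rw [e]; ring
  · have hy₁' : 0 < y₁ := one_pos.trans_le hy₁
    have hy₂' : 0 < y₂ := one_pos.trans_le hy₂
    have e : r * c ^ 6 * (∏ p ∈ Z, p) ^ 6 = r * (c * ∏ p ∈ Z, p) ^ 6 := by ring
    have := h₁ ψ r (c * ∏ p ∈ Z, p) B σ (nr (r * c ^ 6) / Apar B) (B / y₁) (Xpar B / y₂) hB
      (not_exc_of_RS hr) (hc.mul (Primary.prod fun p hp => (hZ' p hp).2)) (by
        rw [← e, nr_mul, nr_pow (∏ p ∈ Z, p) 6, pow_succ' B 2,
          show nr (∏ p ∈ Z, p) = ∏ p ∈ Z, nr p by rw [nr, nm_prod, Nat.cast_prod]]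
        exact mul_le_mul ha hZB (by positivity) hB0.le) h1 h2 hz (by
        rw [inv_eq_one_div]
        exact div_le_div₀ (by positivity) (one_le_nr hap.ne_zero) hA0 hA) (by positivity)
      (div_le_self hB0.le hy₁) (by positivity) ((div_le_self hX0.le hy₂).trans hX)
    rw [e]
    refine this.trans (le_of_eq ?_)
    rw [Real.div_rpow hB0.le hy₁'.le, Real.div_rpow hX0.le hy₂'.le, Real.rpow_neg hy₁'.le,
      Real.rpow_neg hy₂'.le]
    ring
  · by_cases hpa : p ∈ pf (r * c ^ 6)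
    · obtain ⟨hp1, hp2, hd⟩ := BasicB.of_mem_pf hpa
      have hpM : ¬ p ∣ M := fun h => hp1.not_isUnit (haM.isUnit_of_dvd' hd h)
      rw [if_pos hpa]
      by_cases hpZ : p ∈ Z
      · simp only [cfLE, if_pos hpZ, uu, if_pos hd]
        exact sum_err_ram_le hM ψ hp1 hp2 hpM hd hap.ne_zero h1 h2
          (by rw [norm_neg, Complex.norm_conj]; exact norm_ev_le hM.1 ψ p)
          (by rw [Complex.norm_conj]; exact norm_sym_le p r) T
      · simp only [cfLE, if_neg hpZ, mul_one]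
        refine (sum_ram_le hM ψ hp1 hp2 hpM hd hap.ne_zero h1 h2 T).trans ?_
        refine le_trans ?_ (le_mul_of_one_le_right (by positivity)
          (Real.one_le_rpow (one_le_nr hp1.ne_zero) (mul_nonneg (Nat.cast_nonneg _) (by linarith))))
        gcongr
        norm_num
    · have hpZ : p ∈ Z := (Finset.mem_union.1 hp).resolve_right hpa
      obtain ⟨hp1, hp2, hpM⟩ := hZ p hpZ
      have hd : ¬ p ∣ r * c ^ 6 := fun h => hpa ((mem_pf hap.ne_zero).2 ⟨hp1, hp2, h⟩)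
      have hpo : PO p := PO.of_adm hM hp2 (hp1.irreducible.coprime_iff_not_dvd.2 hpM)
      have hs : sym p (r * c ^ 6) = sym p r := by
        rw [sym_mul_right hpo, sym_pow_right hpo, sym_pow_six hp2
          (hp1.irreducible.coprime_iff_not_dvd.2 fun h =>
            hd ((h.trans (dvd_pow_self _ (by norm_num))).mul_left _)), mul_one]
      simp only [cfLE, if_pos hpZ, if_neg hpa, uu, if_neg hd, one_mul, ← hs]
      exact sum_err_unram_le hM ψ hp1 hp2 hpM hd h1 h2 T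

end Crest.Agent.R17.RB
end
end

-- ▼ part PVc/R17/RowB

/-!
# Row 17, module M15d: bound for a non-exceptional row

Notation at a prime `p ∤ M`: `χ = sym p a`, `X = ψ(p) N p^{-s}`, `Y = N p^{-w}`,
`F_p = ∑_{i,j} cf(p^i, p^j) N p^{-is-jw}`, `F_p^{mark}` the part `i ≥ 1`.  The slot prime `p` replaces
`F_p` by `-conj ψ(p) N p^s F_p^{mark} + Y F_p = conj χ · F_p + Err_p`, where for `p ∤ a`
(`cf_unram`: `F = 1/(1-χY) - conj χ X`) **`Err_p = conj χ X (conj χ - Y)`**, and for `p ∣ a`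
(`χ = 0`) `Err_p` is the whole expression.  Hence (the slots are disjoint)
`Ia a = ∑_{S ⊆ slots} ∏_{i ∉ S} slt_i(a) ∑_{p_i, i ∈ S} ∏ cw(p_i) ⟨f_{p_S}, Phi⟩`, where `f_{p_S}` is
the function on pairs `(n, x)` with local factors `cf` away from `p_S` and `Err_p` at `p ∈ p_S`
(formally: the operator `(T_p f)(n,x) = -conj ψ(p) f(p n, x) + 1_{p ∣ x} f(n, x/p)` satisfies
`⟨T_p f, Φ⟩ = -conj ψ(p) ∑_{p ∣ n} f Φ(N n/N p, N x) + ∑ f Φ(N n, N x N p)`; these operators commute;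
`E_p = T_p - conj χ_p(a)`).  Deconvolve: `f_{p_S} = b * (μ rc ψ r ⊗ conj (rc 1 r))`, so
`⟨f, Phi⟩ = ∑_{j₁, j₂} b(j₁,j₂) · [∑_n μ rc ψ r (n) W(N n N j₁/B) gw(N a B/(A N n N j₁))] ·
conj (Pln 1 r (X/N j₂) 0)`.  Expand the Gaussian by `gw_eq_integral` (small `σ`), use `Mob_class`
for `|u| ≤ (log B)²/2` and `norm_Gamma_le_exp` with the trivial bound beyond, and `Pln_class'`:
`≪ B^ε (B/N j₁)^{σ+ε'} (X/N j₂)^{1-σ} cond^{σ-1/2}` (write `D^σ ≤ B^{ε'}`-loss `D^{σ+ε'}` for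
`D ≥ 1/B`, trivial bound for smaller `D`).  It remains to bound
`∑ |b| N j₁^{-σ-ε'} N j₂^{σ-1} ≤ ∏_p (local sums)`: for `p ∤ a`, `p ∉ p_S`:
`F (1-χY)/(1 - conj χ X) = 1 + XY/(1 - conj χ X) = 1 + O(N p^{-1-ε'})`; for `p ∤ a`, `p ∈ p_S`:
`O(N p^{-σ})`; for `p ∣ a`, `v_p(a) = 6 m + v_p(r)`: the sum of the absolute values of the terms of
`F_p` is `≤ C N p^m` (`norm_cf_ram_zero`, `norm_cf_ram_one`; every exponent is decreasing in `σ`,
check `σ = 1/2`), and of `Err_p` it is `≤ C N p^{1/2+ε'} N p^m N p^{(v_p(r)-1)_+ (σ-1/2)}` (a term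
`(i,j)` with `i > j` loses `N p^{-(σ-1/2)}` compared with `σ = 1/2`; the term `(1,1)` has size
`N p^{-1}` if `v = 1` and `1` if `v ≥ 2`).  `cond · ∏_{p ∣ r} N p^{v_p(r)-1} = N r`,
`C^{ω(a)} ≪ B^ε`, `sum_cw_le`, and `|slt_i(r c⁶) - slt_i(r)| ≤ ω(c)`.
-/

set_option autoImplicit false

noncomputable section

namespace Crest.Agent.R17

open scoped ComplexConjugate in
theorem row_bound {M : O} (hM : Adm M) (ψ : Chr M) (K₀ : ℕ) {ε : ℝ} (hε : 0 < ε) :
    ∃ C : ℝ, 0 < C ∧ ∀ (B σ : ℝ) (r c : O), 1 ≤ B → r ∈ RS M B → Primary c → IsCoprime c M →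
      nr (r * c ^ 6) ≤ B → 1 / 2 ≤ σ → σ ≤ 1 → ZF M r σ (Real.log B ^ 2) →
      ‖Ia ψ K₀ B (r * c ^ 6)‖ ≤ C * B ^ ε * nr c * (B ^ σ * Xpar B ^ (1 - σ) * nr r ^ (σ - 1 / 2) *
        ∏ i : Fin K₀, (‖slt M K₀ B i r‖ + Real.sqrt (Pw K₀ B i))) := by
  classical
  obtain ⟨C₁, hC₁, h₁⟩ := RB.pair_bound hM (half_pos hε)
  obtain ⟨C₂, hC₂, h₂⟩ := RB.sum_uu_le
  obtain ⟨C₃, hC₃, h₃⟩ := pow_card_pf_le (half_pos hε) (2 ^ K₀)
  refine ⟨C₁ * (C₂ ^ K₀ * C₃), by positivity, fun B σ r c hB hr hc hcM ha h1 h2 hz => ?_⟩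
  have hB0 : 0 < B := one_pos.trans_le hB
  have hap : Primary (r * c ^ 6) := (Finset.mem_filter.1 hr).2.1.mul (hc.pow 6)
  have hX0 : 0 < Xpar B := Real.rpow_pos_of_pos hB0 _
  have hn0 : ∀ z : O, 0 ≤ nr z := fun z => Nat.cast_nonneg _
  obtain ⟨K, hK⟩ : ∃ K : ℝ, K = C₁ * B ^ (ε / 2) * nr c *
    (B ^ σ * Xpar B ^ (1 - σ) * nr r ^ (σ - 1 / 2)) := ⟨_, rfl⟩
  have hK0 : 0 ≤ K := by rw [hK]; positivity
  obtain ⟨U, hU⟩ : ∃ U : Fin K₀ → ℝ, ∀ i,
    U i = ∑ p ∈ Pset M K₀ B i, ‖cw K₀ B i p‖ * RB.uu (r * c ^ 6) p := ⟨_, fun _ => rfl⟩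
  have hU0 : ∀ i, 0 ≤ U i := fun i => by
    rw [hU]
    exact Finset.sum_nonneg fun p _ => mul_nonneg (norm_nonneg _) (RB.uu_nonneg _ _)
  have step1 : ‖Ia ψ K₀ B (r * c ^ 6)‖ ≤ K * ∏ i : Fin K₀, (U i + ‖slt M K₀ B i r‖) := by
    rw [Ia_eq hM ψ K₀ hB _ fun p => conj (sym p r), Fintype.prod_add, Finset.mul_sum]
    refine norm_sum_le_of_le _ fun S _ => ?_
    rw [norm_mul, norm_prod, mul_comm, ← mul_assoc]
    refine mul_le_mul_of_nonneg_right ?_ (Finset.prod_nonneg fun _ _ => norm_nonneg _)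
    simp only [hU]
    rw [← Finset.prod_coe_sort S, Finset.prod_univ_sum, Finset.mul_sum]
    refine norm_sum_le_of_le _ fun p hp => ?_
    have hinj := (injective_of_mem_piFinset hB hp).injOn (s := (Finset.univ : Finset S))
    have := h₁ ψ B σ r c (Finset.univ.image p) hB hr hc hcM ha h1 h2 hz (fun q hq => by
      obtain ⟨i, -, rfl⟩ := Finset.mem_image.1 hq
      have := (mem_Pset hB0).1 (Fintype.mem_piFinset.1 hp i)
      exact ⟨this.1, this.2.1, this.2.2.1⟩) (by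
      rw [Finset.prod_image hinj]
      exact RB.nr_slot_le hB hp)
    rw [Finset.prod_image hinj, ← hK] at this
    rw [norm_mul, norm_prod, Finset.prod_mul_distrib, mul_left_comm]
    exact mul_le_mul_of_nonneg_left this (Finset.prod_nonneg fun _ _ => norm_nonneg _)
  have h4 : (1 : ℝ) ≤ C₂ * 2 ^ (pf (r * c ^ 6)).card :=
    one_le_mul_of_one_le_of_one_le hC₂ (one_le_pow₀ one_le_two)
  have step2 : ∏ i : Fin K₀, (U i + ‖slt M K₀ B i r‖) ≤ C₂ ^ K₀ * C₃ * B ^ (ε / 2) *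
      ∏ i : Fin K₀, (‖slt M K₀ B i r‖ + Real.sqrt (Pw K₀ B i)) := by
    calc _ ≤ ∏ i : Fin K₀, C₂ * 2 ^ (pf (r * c ^ 6)).card *
          (‖slt M K₀ B i r‖ + Real.sqrt (Pw K₀ B i)) := by
          refine Finset.prod_le_prod (fun i _ => add_nonneg (hU0 i) (norm_nonneg _)) fun i _ => ?_
          rw [mul_add, add_comm, hU]
          exact add_le_add (le_mul_of_one_le_left (norm_nonneg _) h4)
            (h₂ M _ K₀ i B hap.ne_zero hB0)
      _ = C₂ ^ K₀ * (2 ^ K₀) ^ (pf (r * c ^ 6)).card *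
          ∏ i : Fin K₀, (‖slt M K₀ B i r‖ + Real.sqrt (Pw K₀ B i)) := by
          rw [Finset.prod_mul_distrib, Finset.prod_const, Finset.card_univ, Fintype.card_fin,
            mul_pow, ← pow_mul, ← pow_mul, mul_comm K₀]
      _ ≤ _ := by
          refine mul_le_mul_of_nonneg_right ?_
            (Finset.prod_nonneg fun _ _ => add_nonneg (norm_nonneg _) (Real.sqrt_nonneg _))
          rw [mul_assoc]
          refine mul_le_mul_of_nonneg_left ((h₃ _ hap.ne_zero).trans ?_)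
            (pow_nonneg (zero_le_one.trans hC₂) _)
          exact mul_le_mul_of_nonneg_left (Real.rpow_le_rpow (hn0 _) ha (half_pos hε).le) hC₃.le
  have e : B ^ ε = B ^ (ε / 2) * B ^ (ε / 2) := by rw [← Real.rpow_add hB0, add_halves]
  refine (step1.trans (mul_le_mul_of_nonneg_left step2 hK0)).trans (le_of_eq ?_)
  rw [hK, e]
  ring

end Crest.Agent.R17
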