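import Crest.Agent.PVc.R17.P3Defs
import Crest.Agent.PVc.R17.P3ConvAuxB
import Crest.Agent.PVc.R17.P3Op
import Crest.Agent.PVc.R17.P3Euler
import Crest.Agent.PVc.R17.LZeroAuxC
import Crest.Agent.PVc.R17.Counts
import Crest.Agent.PVc.R17.RowB_Mg
import Crest.Agent.PVc.R17.LBasic
import Crest.Prelude.Def_HeckeK3

-- ▼ part PVc/R17/P3ConvAuxA
section

/-!
# Row 17, principal rows: Dirichlet convolution on triples, the analytic part
-/

set_option autoImplicit false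

noncomputable section

namespace Crest.Agent.R17.P3.CA

variable {α γ f g g' K : T3 → ℂ}

theorem hasSum_conv (hα : Sup α) (hγ : Sup γ)
    (h : Summable fun d : T3 × T3 => ‖α d.1 * γ d.2 * K (d.1 * d.2)‖) :
    HasSum (fun v => conv α γ v * K v) (∑' d : T3 × T3, α d.1 * γ d.2 * K (d.1 * d.2)) := by
  have h1 := (Summable.of_norm h).hasSum.tsum_fiberwise (fun d : T3 × T3 => d.1 * d.2)
  refine (congrArg (HasSum · _) (funext fun v => ?_)).mp h1
  symm
  rw [tsum_subtype ((fun d : T3 × T3 => d.1 * d.2) ⁻¹' {v})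
    (fun d : T3 × T3 => α d.1 * γ d.2 * K (d.1 * d.2)), tsum_eq_sum (s := tdiv v), conv,
    Finset.sum_mul]
  · refine Finset.sum_congr rfl fun d hd => ?_
    have e := (mem_tdiv.1 hd).2.2
    rw [Set.indicator_of_mem (by exact e), e]
  · intro d hd
    by_cases e : d.1 * d.2 = v
    · rw [Set.indicator_of_mem (by exact e)]
      by_contra hne
      exact hd (mem_tdiv.2 ⟨hα _ (left_ne_zero_of_mul (left_ne_zero_of_mul hne)),
        hγ _ (right_ne_zero_of_mul (left_ne_zero_of_mul hne)), e⟩)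
    · exact Set.indicator_of_notMem (by exact e) _

theorem summable_nT {σ : ℝ} (hσ : 1 < σ) : Summable fun v : T3 => nr (nT v) ^ (-σ) := by
  have h := summable_nr_rpow hσ
  have h0 : (0 : O → ℝ) ≤ fun n : O => nr n ^ (-σ) := fun n => by positivity
  have h2 := h.mul_of_nonneg h h0 h0
  have h3 := h.mul_of_nonneg h2 h0 fun v => mul_nonneg (h0 _) (h0 _)
  refine h3.congr fun v => ?_
  rw [nT, nr_mul, nr_mul, Real.mul_rpow (by positivity) (by positivity),
    Real.mul_rpow (by positivity) (by positivity), mul_assoc]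

theorem deconv (hf : Sup f) (hg : Sup g) (hg' : Sup g') (hgg : conv g' g = del) {H C : ℝ}
    (h1 : ∀ v, ‖f v‖ ≤ H * nr (nT v)) (h2 : ∀ v, ‖g v‖ ≤ 1) (h3 : ∀ v, ‖g' v‖ ≤ 1)
    (hK : ∀ v, Pr3 v → ‖K v‖ ≤ C * nr (nT v) ^ (-3 : ℝ)) :
    ∑' v, f v * K v = ∑' j, conv f g' j * ∑' d, g d * K (j * d) := by
  classical
  have hH : 0 ≤ H := by simpa [nT_one] using (norm_nonneg _).trans (h1 1)
  have hC : 0 ≤ C := by simpa [nT_one] using (norm_nonneg _).trans (hK 1 pr3_one)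
  set G : T3 × T3 × T3 → ℂ := fun x => f x.1 * (g' x.2.1 * g x.2.2 * K (x.1 * (x.2.1 * x.2.2)))
    with hG
  have hs : Summable G := by
    have s2 := summable_nT (σ := 2) (by norm_num)
    have s3 := summable_nT (σ := 3) (by norm_num)
    have p2 : (0 : T3 → ℝ) ≤ fun v : T3 => nr (nT v) ^ (-2 : ℝ) := fun n => by positivity
    have p3 : (0 : T3 → ℝ) ≤ fun v : T3 => nr (nT v) ^ (-3 : ℝ) := fun n => by positivity
    have s4 := (s2.mul_of_nonneg (s3.mul_of_nonneg s3 p3 p3) p2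
      fun v => mul_nonneg (p3 _) (p3 _)).mul_left (H * C)
    refine Summable.of_norm_bounded s4 fun x => ?_
    by_cases hx : G x = 0
    · rw [hx, norm_zero]
      positivity
    · have a1 := hf _ (left_ne_zero_of_mul hx)
      have a2 := hg' _ (left_ne_zero_of_mul (left_ne_zero_of_mul (right_ne_zero_of_mul hx)))
      have a3 := hg _ (right_ne_zero_of_mul (left_ne_zero_of_mul (right_ne_zero_of_mul hx)))
      have b := hK _ (a1.mul (a2.mul a3))
      rw [nT_mul, nT_mul, nr_mul, nr_mul, Real.mul_rpow (by positivity) (by positivity),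
        Real.mul_rpow (by positivity) (by positivity)] at b
      have e : nr (nT x.1) ^ (-2 : ℝ) = nr (nT x.1) * nr (nT x.1) ^ (-3 : ℝ) := by
        rw [mul_comm, ← Real.rpow_add_one (nr_pos a1.nT.ne_zero).ne']
        norm_num
      simp only [hG, norm_mul]
      have b2 : ‖g' x.2.1‖ * ‖g x.2.2‖ ≤ 1 := mul_le_one₀ (h3 _) (norm_nonneg _) (h2 _)
      have b3 := (mul_le_mul b2 b (norm_nonneg _) zero_le_one).trans (one_mul _).le
      refine (mul_le_mul (h1 _) b3 (by positivity) (by positivity)).trans (le_of_eq ?_)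
      rw [e]
      ring
  have hs' : Summable fun y : (T3 × T3) × T3 => G (Equiv.prodAssoc _ _ _ y) :=
    (Equiv.prodAssoc T3 T3 T3).summable_iff.2 hs
  have e1 : ∀ y : T3 × T3, f y.1 * g' y.2 * ∑' d, g d * K (y.1 * y.2 * d) =
      ∑' d, G (Equiv.prodAssoc _ _ _ (y, d)) := fun y => by
    rw [← tsum_mul_left]
    refine tsum_congr fun d => ?_
    simp only [hG, Equiv.prodAssoc_apply, mul_assoc]
  have c1 := (hasSum_conv (K := fun j => ∑' d, g d * K (j * d)) hf hg'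
    (by simpa only [e1] using hs'.prod.norm)).tsum_eq
  rw [c1]
  simp only [e1]
  rw [← hs'.tsum_prod, (Equiv.prodAssoc T3 T3 T3).tsum_eq G, hs.tsum_prod]
  refine tsum_congr fun a => ?_
  by_cases ha : f a = 0
  · simp [hG, ha]
  · have s1 : Summable fun y : T3 × T3 => g' y.1 * g y.2 * K (a * (y.1 * y.2)) :=
      (summable_mul_left_iff ha).1 (hs.prod_factor a)
    have c2 := (hasSum_conv (K := fun v => K (a * v)) hg' hg s1.norm).tsum_eq
    simp only [hG]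
    rw [tsum_mul_left, ← c2, hgg, tsum_eq_single 1 fun v hv => by simp [del, hv]]
    simp [del]

theorem conv_sub (α α' γ : T3 → ℂ) (v : T3) :
    conv (fun u => α u - α' u) γ v = conv α γ v - conv α' γ v := by
  simp only [conv, sub_mul, Finset.sum_sub_distrib]

theorem conv_comm (α γ : T3 → ℂ) : conv α γ = conv γ α := by
  funext v
  refine Finset.sum_nbij' Prod.swap Prod.swap (fun d hd => ?_) (fun d hd => ?_) (fun _ _ => rfl)
    (fun _ _ => rfl) fun d _ => mul_comm _ _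
  all_goals
    rw [mem_tdiv] at hd ⊢
    exact ⟨hd.2.1, hd.1, (mul_comm _ _).trans hd.2.2⟩

theorem conv_tw (α γ : T3 → ℂ) : conv (tw α) (tw γ) = tw (conv α γ) := by
  funext v
  rw [tw, conv, conv, Finset.sum_mul]
  refine Finset.sum_congr rfl fun d hd => ?_
  rw [tw, tw, ← (mem_tdiv.1 hd).2.2, wt_mul]
  push_cast
  ring

end Crest.Agent.R17.P3.CA
end
end

-- ▼ part PVc/R17/P3Conv
section

/-!
# Row 17, principal rows: Dirichlet convolution on triples

`hasSum_conv`: `HasSum.tsum_fiberwise` along `d ↦ d.1 * d.2`, the fibre sum is a finite sum over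
`tdiv v` (`tsum_subtype`, `tsum_eq_sum`, `mem_tdiv`).  `summable_nT`: product of three copies of
`summable_nr_rpow`.  `deconv`: with `Ψ j = ∑' d, g d K(j d)` (`‖Ψ j‖ ≤ C' N(j)^{-3}`), `hasSum_conv`
gives `∑_j (f * g')(j) Ψ j = ∑_{a,c} f a g' c Ψ(a c) = ∑_a f a ∑_{c,d} g' c g d K(a c d)` and the inner
sum is `∑_v (g' * g)(v) K(a v) = K a` (`hasSum_conv` with the kernel `K(a ·)`; `Summable.tsum_prod`).
`Mul3.conv`: for coprime `u, v` the map `((a,b),(a',b')) ↦ (a a', b b')` is a bijection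
`tdiv u × tdiv v → tdiv (u v)` (`Finset.sum_bij` / `sum_nbij`; one component: `a ∣ u v` gives
`a = a₁ a₂`, `a₁ ∣ u`, `a₂ ∣ v` by `exists_dvd_and_dvd_of_dvd_mul`, normalise with
`exists_unit_primary`, `Primary.of_mul`; uniqueness by `IsCoprime.dvd_of_dvd_mul_right`,
`Primary.eq_of_associated`).  `LB.conv`: a factorisation of `pp p l` is `(pp p a, pp p b)` with
`a + b = l` (`dvd_prime_pow`), compare with `SB.prod`.  `conv_gi_g`: the sum over `tdiv v` is a
product of three sums over primary divisors, `sum_mu_pdiv`, `rc_mul`.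
-/

set_option autoImplicit false

noncomputable section

namespace Crest.Agent.R17.P3

open scoped ComplexConjugate

variable {M p : O} {α γ α' f g g' K : T3 → ℂ}


theorem summable_nT {σ : ℝ} (hσ : 1 < σ) : Summable fun v : T3 => nr (nT v) ^ (-σ) :=
  CA.summable_nT hσ

theorem deconv (hf : Sup f) (hg : Sup g) (hg' : Sup g') (hgg : conv g' g = del) {H C : ℝ}
    (h1 : ∀ v, ‖f v‖ ≤ H * nr (nT v)) (h2 : ∀ v, ‖g v‖ ≤ 1) (h3 : ∀ v, ‖g' v‖ ≤ 1)
    (hK : ∀ v, Pr3 v → ‖K v‖ ≤ C * nr (nT v) ^ (-3 : ℝ)) :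
    ∑' v, f v * K v = ∑' j, conv f g' j * ∑' d, g d * K (j * d) :=
  CA.deconv hf hg hg' hgg h1 h2 h3 hK

theorem Mul3.conv (hα : Mul3 M α) (hγ : Mul3 M γ) : Mul3 M (conv α γ) :=
  CvB.mul3_conv hα hγ

theorem conv_sub (α α' γ : T3 → ℂ) (v : T3) :
    conv (fun u => α u - α' u) γ v = conv α γ v - conv α' γ v :=
  CA.conv_sub α α' γ v

theorem conv_comm (α γ : T3 → ℂ) : conv α γ = conv γ α :=
  CA.conv_comm α γ

theorem conv_tw (α γ : T3 → ℂ) : conv (tw α) (tw γ) = tw (conv α γ) :=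
  CA.conv_tw α γ

theorem LB.conv (hp : Prime p) (hp' : Primary p) {c c' : ℝ} (hα : LB p α c) (hγ : LB p γ c') :
    LB p (conv α γ) (c * c') :=
  CvB.lb_conv hp hp' hα hγ

theorem mul3_g3 (ψ : Chr M) : Mul3 M (g3 ψ) :=
  CvB.mul3_g3 ψ

theorem mul3_gi3 (ψ : Chr M) : Mul3 M (gi3 ψ) :=
  CvB.mul3_gi3 ψ

theorem norm_g3_le (hM : Adm M) (ψ : Chr M) (v : T3) : ‖g3 ψ v‖ ≤ 1 :=
  CvB.norm_g3_le hM ψ v

theorem norm_gi3_le (hM : Adm M) (ψ : Chr M) (v : T3) : ‖gi3 ψ v‖ ≤ 1 :=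
  CvB.norm_gi3_le hM ψ v

theorem conv_gi_g (ψ : Chr M) : conv (gi3 ψ) (g3 ψ) = del :=
  CvB.conv_gi_g ψ

end Crest.Agent.R17.P3
end
end

-- ▼ part PVc/R17/P3Rows
section

/-!
# Row 17, principal rows: the sum over the principal rows as a sum over triples

`norm_K3_le`: `gw_le_rpow 1`, `norm_Wc_le_rpow` with `A = -4` and `A = -3`.  `tsum_exc`: the map
`c ↦ c⁶` is injective on primary elements (`Primary.ext_vp`, `vp_pow`), and a primary `a` coprime to
`M` with `Exc M a` is such a power (`exists_sixth`); `tsum_eq_tsum_of_ne_zero_bij`.  `Irow_eq`: both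
sides are `∑_{n', x'} cf(z n', x') Φ(N n', N x' N π)` (`Function.Injective.tsum_eq` for
`(n', x') ↦ (z n', x')` and `(n', x') ↦ (n', π x')`; no summability is needed).  `rows_eq`:
`Finset.powerset_univ`, `Finset.compl_eq_univ_sdiff`; summability over triples from `‖Sh z π f3 v‖ ≤
N z · N(nT v)` (vanishing off primary triples), `norm_K3_le`, `summable_nT`;
`Summable.tsum_finsetSum`, `Summable.tsum_prod`, `Summable.tsum_comm` or an explicit `Equiv`
`O × (O × O) ≃ T3`.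
-/

set_option autoImplicit false

noncomputable section

namespace Crest.Agent.R17.P3

open scoped ComplexConjugate

variable {M : O}

theorem norm_K3_le {B : ℝ} (hB : 0 < B) :
    ∃ C : ℝ, ∀ v, Pr3 v → ‖K3 B v‖ ≤ C * nr (nT v) ^ (-3 : ℝ) := by
  obtain ⟨C₁, hC₁, h₁⟩ := norm_Wc_le_rpow (-4) 0
  obtain ⟨C₂, hC₂, h₂⟩ := gw_le_rpow 1
  obtain ⟨C₃, hC₃, h₃⟩ := norm_Wc_le_rpow (-3) 0
  have hA : 0 < Apar B := Real.rpow_pos_of_pos hB _
  have hX : 0 < Xpar B := Real.rpow_pos_of_pos hB _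
  refine ⟨C₁ * C₂ * C₃ * (B ^ 3 * Apar B * Xpar B ^ 3), fun v hv => ?_⟩
  have hn := nr_pos hv.1.ne_zero
  have hx := nr_pos hv.2.1.ne_zero
  have hc := one_le_nr hv.2.2.ne_zero
  have e : ∀ (y : ℝ) (k : ℕ), 0 < y → y ^ (-(k : ℝ)) = (y ^ k)⁻¹ := fun y k hy => by
    rw [Real.rpow_neg hy.le, Real.rpow_natCast]
  have a₁ := h₁ (nr v.1 / B) 0 (by positivity) (by simp)
  have a₂ := h₂ (nr (v.2.2 ^ 6) * B / (Apar B * nr v.1)) (by rw [nr_pow]; positivity) zero_le_one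
  have a₃ := h₃ (nr v.2.1 / Xpar B) 0 (by positivity) (by simp)
  have e₁ := e (nr v.1 / B) 4 (by positivity)
  have e₃ := e (nr v.2.1 / Xpar B) 3 (by positivity)
  have e₄ := e (nr (nT v)) 3 (nr_pos hv.nT.ne_zero)
  rw [Nat.cast_ofNat] at e₁ e₃ e₄
  rw [e₁] at a₁
  rw [e₃] at a₃
  rw [Real.rpow_neg_one] at a₂
  rw [K3, Phi, norm_mul, norm_mul, Complex.norm_real, Real.norm_of_nonneg (gw_pos _).le, e₄]
  refine (mul_le_mul (mul_le_mul a₁ a₂ (gw_pos _).le (by positivity)) a₃ (norm_nonneg _)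
    (by rw [nr_pow]; positivity)).trans ?_
  rw [nT, nr_mul, nr_mul, nr_pow]
  have h4 : (nr v.2.2 ^ 3)⁻¹ ≤ 1 := inv_le_one_of_one_le₀ (one_le_pow₀ hc)
  refine le_trans (le_of_eq ?_) (mul_le_of_le_one_right (by positivity) h4)
  field_simp

open Classical in
theorem tsum_exc (M : O) (F : O → ℂ) :
    ∑' a : O, (if Exc M a then xiR M a * F a else 0) =
      ∑' c : O, if Primary c ∧ IsCoprime c M then F (c ^ 6) else 0 := by
  have hs : ∀ c : Function.support fun c : O =>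
      if Primary c ∧ IsCoprime c M then F (c ^ 6) else 0, Primary c.1 ∧ IsCoprime c.1 M := fun c => by
    by_contra h
    exact c.2 (if_neg h)
  refine tsum_eq_tsum_of_ne_zero_bij (fun c => c.1 ^ 6) (fun c d h => Subtype.ext ?_)
    (fun a ha => ?_) fun c => ?_
  · refine (hs c).1.ext_vp (hs d).1 fun p hp _ => ?_
    have := congrArg (vp p) h
    simp only [vp_pow hp (hs c).1.ne_zero, vp_pow hp (hs d).1.ne_zero] at this
    omega
  · have h1 : Exc M a := by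
      by_contra h
      exact ha (if_neg h)
    simp only [Function.mem_support, if_pos h1] at ha
    have h2 : Primary a ∧ IsCoprime a M := by
      by_contra h
      exact left_ne_zero_of_mul ha (if_neg h)
    obtain ⟨r, c, hr, hc, h3, rfl⟩ := exists_sixth h2.1
    have h4 : r = 1 := by
      refine hr.ext_vp primary_one fun p hp hp' => ?_
      rw [BasicB.vp_unit hp isUnit_one]
      by_contra h0
      have h5 := (BasicB.mem_pf_iff hr.ne_zero hp hp').2 h0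
      have h6 : p ∣ r * c ^ 6 := (BasicB.of_mem_pf h5).2.2.mul_right _
      have h7 := h1 p ((mem_pf h2.1.ne_zero).2 ⟨hp, hp', h6⟩)
        fun h => hp.not_isUnit (h2.2.isUnit_of_dvd' h6 h)
      rw [vp_mul hp hr.ne_zero (hc.pow 6).ne_zero, vp_pow hp hc.ne_zero] at h7
      have := h3 p h5
      omega
    rw [h4, one_mul] at ha h2 ⊢
    have h5 : IsCoprime c M := (IsCoprime.pow_left_iff (by norm_num)).1 h2.2
    exact ⟨⟨c, by
      simp only [Function.mem_support, if_pos (And.intro hc h5)]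
      exact right_ne_zero_of_mul ha⟩, rfl⟩
  · have h1 : Exc M (c.1 ^ 6) := fun p hp _ => by
      rw [vp_pow (BasicB.pf_sub hp).1 (hs c).1.ne_zero]
      exact dvd_mul_right _ _
    simp only [if_pos h1, if_pos (hs c)]
    rw [xiR, if_pos ⟨(hs c).1.pow 6, (hs c).2.pow_left⟩, one_mul]

theorem Irow_eq (ψ : Chr M) (B : ℝ) {c z π : O} (hc : Primary c) (hcM : IsCoprime c M) (hz : z ≠ 0)
    (hπ : π ≠ 0) :
    Irow ψ B (c ^ 6) z π = ∑' y : O × O, Sh z π (f3 ψ) (y.1, y.2, c) * K3 B (y.1, y.2, c) := by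
  have h1 : Function.Injective fun y : O × O => (z * y.1, y.2) := fun y y' h =>
    Prod.ext (mul_left_cancel₀ hz (Prod.ext_iff.1 h).1) (Prod.ext_iff.1 h).2
  have h2 : Function.Injective fun y : O × O => (y.1, π * y.2) := fun y y' h =>
    Prod.ext (Prod.ext_iff.1 h).1 (mul_left_cancel₀ hπ (Prod.ext_iff.1 h).2)
  rw [Irow, ← h1.tsum_eq, ← h2.tsum_eq
    (f := fun y : O × O => Sh z π (f3 ψ) (y.1, y.2, c) * K3 B (y.1, y.2, c))]
  · refine tsum_congr fun y => ?_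
    simp only [Sh, f3, K3, dvd_mul_right, if_true, if_pos (And.intro hc hcM), nr_mul]
    rw [mul_div_cancel_left₀ _ hπ, mul_div_cancel_left₀ _ (nr_pos hz).ne', mul_comm (nr π)]
  · intro y hy
    have h3 : π ∣ y.2 := by
      by_contra h
      exact left_ne_zero_of_mul hy (if_neg h)
    obtain ⟨x, hx⟩ := h3
    exact ⟨(y.1, x), Prod.ext rfl hx.symm⟩
  · intro y hy
    have h3 : z ∣ y.1 := by
      by_contra h
      exact hy (if_neg h)
    obtain ⟨x, hx⟩ := h3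
    exact ⟨(x, y.2), Prod.ext hx.symm rfl⟩

theorem rows_summable (hM : Adm M) (ψ : Chr M) {B : ℝ} (hB : 0 < B) {z π : O} (hz : Primary z)
    (hπ : Primary π) : Summable fun v : T3 => Sh z π (f3 ψ) v * K3 B v := by
  obtain ⟨C, hC⟩ := norm_K3_le hB
  refine ((summable_nT one_lt_two).mul_left (nr z * |C|)).of_norm_bounded fun v => ?_
  have h0 : (0 : ℝ) ≤ nr z := Nat.cast_nonneg _
  have h0' : (0 : ℝ) ≤ nr (nT v) := Nat.cast_nonneg _
  by_cases h : Sh z π (f3 ψ) v = 0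
  · rw [h, zero_mul, norm_zero]
    positivity
  have h1 : π ∣ v.2.1 := by
    by_contra h1
    exact h (if_neg h1)
  obtain ⟨n, x, c⟩ := v
  obtain ⟨x, rfl : _ = π * x⟩ := h1
  have h2 : Sh z π (f3 ψ) (n, π * x, c) = f3 ψ (z * n, x, c) := by
    simp only [Sh, dvd_mul_right, if_true, mul_div_cancel_left₀ _ hπ.ne_zero]
  rw [h2] at h ⊢
  obtain ⟨p₁, p₂, p₃⟩ := (mul3_f3 hM ψ).sup _ h
  have hv : Pr3 (n, π * x, c) := ⟨hz.of_mul p₁, hπ.mul p₂, p₃⟩
  have h3 : nr (nT (z * n, x, c)) ≤ nr z * nr (nT (n, π * x, c)) := by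
    have h4 : nr z * nr (nT (n, π * x, c)) = nr π * nr (nT (z * n, x, c)) := by
      simp only [nT, nr_mul]
      ring
    rw [h4]
    exact le_mul_of_one_le_left (Nat.cast_nonneg _) (one_le_nr hπ.ne_zero)
  have hp := nr_pos hv.nT.ne_zero
  rw [norm_mul]
  refine (mul_le_mul ((norm_f3_le hM ψ _).trans h3) ((hC _ hv).trans
    (mul_le_mul_of_nonneg_right (le_abs_self C) (by positivity))) (norm_nonneg _)
    (by positivity)).trans (le_of_eq ?_)
  rw [show (-2 : ℝ) = 1 + -3 by norm_num, Real.rpow_add hp, Real.rpow_one]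
  ring

/-- Regrouping of the triples along the last component. -/
def rowsEquiv : O × O × O ≃ T3 where
  toFun w := (w.2.1, w.2.2, w.1)
  invFun v := (v.2.2, v.1, v.2.1)
  left_inv _ := rfl
  right_inv _ := rfl

theorem rows_hasSum {F : T3 → ℂ} (hF : Summable F) :
    HasSum (fun c : O => ∑' y : O × O, F (y.1, y.2, c)) (∑' v, F v) := by
  have h1 := (rowsEquiv.summable_iff).2 hF
  rw [← rowsEquiv.tsum_eq]
  exact h1.hasSum.prod_fiberwise fun c => (h1.prod_factor c).hasSum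

open Classical in
theorem rows_eq (hM : Adm M) (ψ : Chr M) (K₀ : ℕ) {B : ℝ} (hB : 0 < B) :
    ∑' a : O, (if Exc M a then xiR M a * Ia ψ K₀ B a else 0) =
      ∑ q ∈ Fintype.piFinset (fun i : Fin K₀ => Pset M K₀ B i), (∏ i : Fin K₀, cw K₀ B i (q i)) *
        ∑' v : T3, fI ψ q Finset.univ v * K3 B v := by
  have hP : ∀ q ∈ Fintype.piFinset (fun i : Fin K₀ => Pset M K₀ B i), ∀ J : Finset (Fin K₀),
      Primary (∏ i ∈ J, q i) := fun q hq J =>
    Primary.prod fun i _ => ((mem_Pset hB).1 (Fintype.mem_piFinset.1 hq i)).2.1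
  rw [tsum_exc]
  have h1 := hasSum_sum (s := Fintype.piFinset fun i : Fin K₀ => Pset M K₀ B i) fun q hq =>
    hasSum_sum (s := (Finset.univ : Finset (Finset (Fin K₀)))) fun J _ =>
      (rows_hasSum (rows_summable hM ψ hB (hP q hq Jᶜ) (hP q hq J))).mul_left
        ((∏ i : Fin K₀, cw K₀ B i (q i)) * ∏ i ∈ Jᶜ, -conj (ev ψ (q i)))
  refine (tsum_congr fun c => ?_).trans (h1.tsum_eq.trans ?_)
  · split_ifs with hc
    · exact Finset.sum_congr rfl fun q hq => Finset.sum_congr rfl fun J _ => by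
        rw [Irow_eq ψ B hc.1 hc.2 (hP q hq _).ne_zero (hP q hq _).ne_zero]
    · simp only [Sh, f3, if_neg hc, ite_self, zero_mul, tsum_zero, mul_zero, Finset.sum_const_zero]
  · refine Finset.sum_congr rfl fun q hq => ?_
    simp only [fI, Finset.powerset_univ, ← Finset.compl_eq_univ_sdiff, Finset.sum_mul, mul_assoc]
    rw [Summable.tsum_finsetSum fun J _ =>
      (rows_summable hM ψ hB (hP q hq Jᶜ) (hP q hq J)).mul_left _, Finset.mul_sum]
    simp only [tsum_mul_left]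

end Crest.Agent.R17.P3
end
end

-- ▼ part PVc/R17/P3LocAuxA
section

/-!
# Row 17, principal rows: proofs of `GP.seven_le`, `loc_ram`, `loc_gi`
-/

set_option autoImplicit false

noncomputable section

namespace Crest.Agent.R17.P3.LocA

open scoped ComplexConjugate

variable {M p : O}

theorem seven_le (hM : Adm M) (hp : GP M p) : 7 ≤ nr p := by
  have h2 : p ≠ -2 := by
    rintro rfl
    exact hp.2.2 (Dvd.dvd.trans ⟨-36, by norm_num⟩ hM.2)
  exact_mod_cast (nm_prime_mod_six hp.1 hp.2.1 h2).2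

theorem rpow_neg_le {q c : ℝ} (hq : 7 ≤ q) (a b : ℕ) (hb : b ≠ 0) (hc : 0 < c)
    (h : 1 ≤ c ^ b * 7 ^ a) : q ^ (-((a : ℝ) / b)) ≤ c := by
  have hq0 : 0 < q := by linarith
  have hb' : (b : ℝ) ≠ 0 := Nat.cast_ne_zero.2 hb
  rw [← pow_le_pow_iff_left₀ (by positivity) hc.le hb, ← Real.rpow_natCast,
    ← Real.rpow_mul hq0.le, neg_mul, div_mul_cancel₀ _ hb', Real.rpow_neg hq0.le,
    Real.rpow_natCast, inv_le_iff_one_le_mul₀ (by positivity)]
  exact h.trans (by gcongr)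

theorem SB_single {α : Type} [DecidableEq α] (a : α) {c : ℝ} (hc : 0 ≤ c) :
    SB (fun b => if b = a then c else 0) c :=
  SB.of_hasSum (hasSum_ite_eq a c) fun b => by split_ifs; exacts [hc, le_rfl]

theorem SB_geom {t : ℝ} (h0 : 0 ≤ t) (h1 : t < 1) : SB (fun n : ℕ => t ^ n) (1 - t)⁻¹ :=
  SB.of_hasSum (hasSum_geometric_of_lt_one h0 h1) fun n => by positivity

theorem SB_tail {t : ℝ} (h0 : 0 ≤ t) (h1 : t ≤ 7 / 10) :
    SB (fun n : ℕ => if 6 ≤ n then t ^ n else 0) (10 / 3 * t ^ 6) := by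
  have h := (SB_geom h0 (by linarith)).const_mul (pow_nonneg h0 6)
  have h2 : t ^ 6 * (1 - t)⁻¹ ≤ 10 / 3 * t ^ 6 := by
    rw [mul_comm]
    refine mul_le_mul_of_nonneg_right ?_ (pow_nonneg h0 6)
    rw [inv_le_comm₀ (by linarith) (by norm_num)]
    linarith
  have h3 : ∀ n : ℕ, 0 < (if 6 ≤ n then t ^ n else 0) → 6 ≤ n := fun n hn => by
    by_contra h6
    rw [if_neg h6] at hn
    exact lt_irrefl _ hn
  refine (h.mono (fun _ => le_rfl) h2).comp (fun n => n - 6) (fun a ha b hb e => ?_)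
    fun n hn => ?_
  · have := h3 a ha
    have := h3 b hb
    simp only at e
    omega
  · rw [if_pos (h3 n hn), ← pow_add, Nat.add_sub_cancel' (h3 n hn)]

theorem f3_pp (ψ : Chr M) (hp : GP M p) (i j k : ℕ) :
    f3 ψ (pp p (i, j, k)) = cf ψ ((p ^ k) ^ 6) (p ^ i) (p ^ j) :=
  if_pos ⟨hp.2.1.pow k, (hp.1.coprime_iff_not_dvd.2 hp.2.2).pow_left⟩

theorem div_three_le (i : ℕ) : ((i / 3 : ℕ) : ℝ) ≤ (i : ℝ) / 3 := by
  exact_mod_cast Nat.cast_div_le (α := ℝ) (m := i) (n := 3)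

theorem norm_zero_le (hM : Adm M) (ψ : Chr M) (hp : GP M p) {k i : ℕ} (hk : 1 ≤ k) (hi : 1 ≤ i) :
    ‖cf ψ ((p ^ k) ^ 6) (p ^ i) 1‖ ≤ if 6 ≤ i then nr p ^ (2 * i / 3 : ℝ) else 0 := by
  have hq : 1 ≤ nr p := le_trans (by norm_num) (seven_le hM hp)
  have h := norm_cf_ram_zero hM ψ hp.1 hp.2.1 hp.2.2
    (pow_ne_zero 6 (pow_ne_zero k hp.1.ne_zero)) hi
  rw [vp_pow hp.1 (pow_ne_zero k hp.1.ne_zero), vp_pow hp.1 hp.1.ne_zero, vp_self hp.1] at h
  refine h.trans ?_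
  have h3 := div_three_le i
  split_ifs
  all_goals first
    | exact le_rfl
    | positivity
    | exact Real.rpow_le_rpow_of_exponent_le hq (by linarith)
    | (exfalso; omega)

theorem norm_one_le (hM : Adm M) (ψ : Chr M) (hp : GP M p) {k i : ℕ} (hk : 1 ≤ k) (hi : 1 ≤ i) :
    ‖cf ψ ((p ^ k) ^ 6) (p ^ i) p‖ ≤
      (if i = 1 then nr p else 0) + if 6 ≤ i then nr p ^ (2 * i / 3 + 1 / 2 : ℝ) else 0 := by
  have hq : 1 ≤ nr p := le_trans (by norm_num) (seven_le hM hp)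
  have h := norm_cf_ram_one hM ψ hp.1 hp.2.1 hp.2.2
    (pow_ne_zero 6 (pow_ne_zero k hp.1.ne_zero)) hi
  rw [vp_pow hp.1 (pow_ne_zero k hp.1.ne_zero), vp_pow hp.1 hp.1.ne_zero, vp_self hp.1] at h
  refine h.trans ?_
  have h3 := div_three_le i
  by_cases h1 : i = 1
  · subst h1
    rw [if_neg (by omega), if_pos (by omega), if_pos rfl, if_neg (by omega)]
    norm_num
  · rw [if_neg h1, zero_add]
    split_ifs
    all_goals first
      | exact le_rfl
      | positivity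
      | exact Real.rpow_le_rpow_of_exponent_le hq (by linarith)
      | (exfalso; omega)

open Classical in
theorem loc_ram (hM : Adm M) (ψ : Chr M) (hp : GP M p) {k : ℕ} (hk : 1 ≤ k) :
    f3 ψ (pp p (0, 0, k)) = 1 ∧
    SB (fun y : ℕ × ℕ => if y = 0 then 0 else
      ‖f3 ψ (pp p (y.1, y.2, k))‖ * (nr p ^ (-(7 / 8) : ℝ)) ^ (y.1 + y.2))
      (3 * nr p ^ (-(3 / 4) : ℝ)) := by
  refine ⟨by rw [f3_pp ψ hp, pow_zero, cf_one], ?_⟩
  have hq := seven_le hM hp
  have hq0 : 0 < nr p := by linarith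
  have hdvd : p ∣ (p ^ k) ^ 6 := (dvd_pow_self p (by omega)).trans (dvd_pow_self _ (by norm_num))
  generalize hqq : nr p = q at hq hq0
  have hpw : ∀ (a : ℝ) (n : ℕ), (q ^ a) ^ n = q ^ (a * n) := fun a n => by
    rw [Real.rpow_mul hq0.le, Real.rpow_natCast]
  set t := q ^ (-(5 / 24) : ℝ) with ht
  have ht0 : 0 ≤ t := by positivity
  have ht1 : t ≤ 7 / 10 := by
    simpa using rpow_neg_le hq 5 24 (by norm_num) (c := 7 / 10) (by norm_num) (by norm_num)
  have hA := SB_tail ht0 ht1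
  have hA0 : ∀ n : ℕ, 0 ≤ if 6 ≤ n then t ^ n else 0 := fun n => by split_ifs <;> positivity
  have h1 := hA.prod (SB_single (0 : ℕ) zero_le_one) hA0 fun b => by split_ifs <;> positivity
  have h2 := hA.prod (SB_single (1 : ℕ) (c := q ^ (-(3 / 8) : ℝ)) (by positivity)) hA0
    fun b => by split_ifs <;> positivity
  have h3 := SB_single ((1, 1) : ℕ × ℕ) (c := q ^ (-(3 / 4) : ℝ)) (by positivity)
  refine ((h1.add h2).add h3).mono ?_ ?_
  · rintro ⟨i, j⟩
    have hn : 0 ≤ (if 6 ≤ i then t ^ i else 0) * (if j = 0 then 1 else 0) +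
        (if 6 ≤ i then t ^ i else 0) * (if j = 1 then q ^ (-(3 / 8) : ℝ) else 0) +
        if (i, j) = (1, 1) then q ^ (-(3 / 4) : ℝ) else 0 := by split_ifs <;> positivity
    by_cases h0 : (i, j) = 0
    · rw [if_pos h0]; exact hn
    rw [if_neg h0]
    simp only [f3_pp ψ hp]
    by_cases hz : (i = 0 ∧ 1 ≤ j) ∨ 2 ≤ j
    · rw [cf_ram_zero hM ψ hp.1 hp.2.1 hp.2.2 hdvd hz, norm_zero, zero_mul]; exact hn
    have hi : 1 ≤ i := by
      rw [Prod.mk_eq_zero] at h0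
      omega
    have hx : 0 ≤ (q ^ (-(7 / 8) : ℝ)) ^ (i + j) := by positivity
    obtain rfl | rfl : j = 0 ∨ j = 1 := by omega
    · have := norm_zero_le hM ψ hp hk hi
      rw [hqq] at this
      rw [pow_zero]
      refine (mul_le_mul_of_nonneg_right this hx).trans ?_
      simp only [if_true, mul_one, zero_ne_one, if_false, mul_zero, add_zero, Prod.mk.injEq,
        and_false]
      split_ifs
      · rw [ht, hpw, hpw, ← Real.rpow_add hq0]
        exact le_of_eq (congrArg _ (by ring))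
      · rw [zero_mul]
    · have := norm_one_le hM ψ hp hk hi
      rw [hqq] at this
      rw [pow_one]
      refine (mul_le_mul_of_nonneg_right this hx).trans ?_
      simp only [if_true, one_ne_zero, if_false, mul_zero, zero_add, Prod.mk.injEq, and_true]
      rw [add_mul, add_comm]
      refine add_le_add ?_ ?_
      · split_ifs
        · rw [ht, hpw, hpw, ← Real.rpow_add hq0, ← Real.rpow_add hq0]
          exact le_of_eq (congrArg _ (by push_cast; ring))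
        · rw [zero_mul, zero_mul]
      · split_ifs with h
        · subst h
          rw [hpw, mul_comm, ← Real.rpow_add_one hq0.ne']
          exact le_of_eq (congrArg _ (by norm_num))
        · rw [zero_mul]
  · have a1 : q ^ (-(1 / 2) : ℝ) ≤ 38 / 100 := by
      simpa using rpow_neg_le hq 1 2 (by norm_num) (c := 38 / 100) (by norm_num) (by norm_num)
    have a2 : q ^ (-(7 / 8) : ℝ) ≤ 1 / 5 := by
      simpa using rpow_neg_le hq 7 8 (by norm_num) (c := 1 / 5) (by norm_num) (by norm_num)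
    have e1 : t ^ 6 = q ^ (-(1 / 2) : ℝ) * q ^ (-(3 / 4) : ℝ) := by
      rw [ht, hpw, ← Real.rpow_add hq0]; norm_num
    have e2 : t ^ 6 * q ^ (-(3 / 8) : ℝ) = q ^ (-(7 / 8) : ℝ) * q ^ (-(3 / 4) : ℝ) := by
      rw [ht, hpw, ← Real.rpow_add hq0, ← Real.rpow_add hq0]; norm_num
    have h4 : 0 ≤ q ^ (-(3 / 4) : ℝ) := by positivity
    rw [mul_assoc _ _ (q ^ (-(3 / 8) : ℝ)), e2, e1]
    nlinarith [mul_le_mul_of_nonneg_right a1 h4, mul_le_mul_of_nonneg_right a2 h4]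

theorem norm_mu_pow_le (hp : Prime p) (j : ℕ) {x : ℝ} (hx : 0 ≤ x) :
    ‖mu (p ^ j)‖ * x ^ j ≤ (if j = 0 then 1 else 0) + if j = 1 then x else 0 := by
  rcases j with _ | _ | j
  · simp
  · simpa using mul_le_mul_of_nonneg_right (norm_mu_le p) hx
  · have : ¬ Squarefree (p ^ (j + 1 + 1)) := fun h =>
      hp.not_isUnit (h p ⟨p ^ j, by ring⟩)
    simp [BasicB.mu_of_not this]

theorem loc_gi (hM : Adm M) (ψ : Chr M) (hp : GP M p) : LB p (tw (gi3 ψ)) 2 := by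
  have hq := seven_le hM hp
  set x := nr p ^ (-(7 / 8) : ℝ) with hx
  have hx0 : 0 ≤ x := by positivity
  have hx1 : x ≤ 1 / 5 := by
    simpa using rpow_neg_le hq 7 8 (by norm_num) (c := 1 / 5) (by norm_num) (by norm_num)
  have hB := (SB_single (0 : ℕ) zero_le_one).add (SB_single (1 : ℕ) hx0)
  have hB0 : ∀ j : ℕ, 0 ≤ (if j = 0 then (1 : ℝ) else 0) + if j = 1 then x else 0 := fun j => by
    split_ifs <;> positivity
  have h := (SB_geom hx0 (by linarith)).prod (hB.prod hB hB0 hB0) (fun n => by positivity)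
    fun b => mul_nonneg (hB0 _) (hB0 _)
  refine h.mono ?_ ?_
  · rintro ⟨i, j, k⟩
    simp only [norm_tw, wt_pp, ← hx]
    have r : ∀ (ν : Chr M) (n : O), ‖rc ν 1 n‖ ≤ 1 := fun ν n => norm_rc_le hM ν 1 n
    have b : ‖gi3 ψ (pp p (i, j, k))‖ ≤ ‖mu (p ^ j)‖ * ‖mu (p ^ k)‖ := by
      simp only [gi3, pp, norm_mul]
      calc _ ≤ 1 * (‖mu (p ^ j)‖ * 1) * (‖mu (p ^ k)‖ * 1) := by gcongr <;> exact r _ _
        _ = _ := by ring
    calc _ ≤ ‖mu (p ^ j)‖ * ‖mu (p ^ k)‖ * x ^ (i + j + k) := by gcongr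
      _ = x ^ i * ((‖mu (p ^ j)‖ * x ^ j) * (‖mu (p ^ k)‖ * x ^ k)) := by ring
      _ ≤ _ := mul_le_mul_of_nonneg_left (mul_le_mul (norm_mu_pow_le hp.1 j hx0)
          (norm_mu_pow_le hp.1 k hx0) (by positivity) (hB0 j)) (by positivity)
  · rw [inv_mul_le_iff₀ (by linarith)]
    nlinarith

end Crest.Agent.R17.P3.LocA
end
end

-- ▼ part PVc/R17/P3LocAuxB
section

/-!
# Row 17, principal rows: local estimates, the differences `f3 - g3` and `Tp f3 - f3`
-/

set_option autoImplicit false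

noncomputable section

namespace Crest.Agent.R17.P3.LocB

open scoped ComplexConjugate

variable {M p : O}

theorem SB_fiber {α β : Type} {h : α → β → ℝ} {c : β → ℝ} {C : ℝ}
    (H : ∀ b, SB (fun a => h a b) (c b)) (Hc : SB c C) (h0 : ∀ a b, 0 ≤ h a b) :
    SB (fun v : α × β => h v.1 v.2) C := by
  classical
  intro S
  calc ∑ v ∈ S, h v.1 v.2 ≤ ∑ v ∈ S.image Prod.fst ×ˢ S.image Prod.snd, h v.1 v.2 :=
        Finset.sum_le_sum_of_subset_of_nonneg Finset.subset_product fun v _ _ => h0 _ _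
    _ = ∑ b ∈ S.image Prod.snd, ∑ a ∈ S.image Prod.fst, h a b := Finset.sum_product_right _ _ _
    _ ≤ ∑ b ∈ S.image Prod.snd, c b := Finset.sum_le_sum fun b _ => H b _
    _ ≤ C := Hc _

theorem SB_single {α : Type} [DecidableEq α] (a : α) {t : ℝ} (ht : 0 ≤ t) :
    SB (fun b => if b = a then t else 0) t :=
  SB.of_hasSum (hasSum_ite_eq a t) fun _ => by split_ifs <;> simp [ht]

theorem SB_geo {x : ℝ} (h0 : 0 ≤ x) (h1 : x ≤ 1 / 5) : SB (fun j : ℕ => x ^ j) (5 / 4) :=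
  (SB.of_hasSum (hasSum_geometric_of_lt_one h0 (by linarith)) fun _ => by positivity).mono
    (fun _ => le_rfl) (by rw [inv_le_comm₀ (by linarith) (by norm_num)]; linarith)

theorem SB_geo1 {x : ℝ} (h0 : 0 ≤ x) (h1 : x ≤ 1 / 5) :
    SB (fun j : ℕ => if j = 0 then 0 else x ^ j) (5 / 4 * x) := by
  rw [mul_comm]
  refine ((SB_geo h0 h1).const_mul h0).comp (fun j => j - 1) (fun a ha b hb e => ?_) fun j hj => ?_
  · have a0 : a ≠ 0 := fun h => by simp [h] at ha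
    have b0 : b ≠ 0 := fun h => by simp [h] at hb
    simp only at e
    omega
  · have j0 : j ≠ 0 := fun h => by simp [h] at hj
    rw [if_neg j0, ← pow_succ', Nat.sub_one_add_one j0]

theorem LB_of {f : T3 → ℂ} {x c₀ c₁ : ℝ} (hx : x = nr p ^ (-(7 / 8) : ℝ)) (h1 : x ≤ 1 / 5)
    (H0 : SB (fun y : ℕ × ℕ => ‖f (pp p (y.1, y.2, 0))‖ * x ^ (y.1 + y.2)) c₀)
    (H1 : ∀ k, 1 ≤ k → SB (fun y : ℕ × ℕ => ‖f (pp p (y.1, y.2, k))‖ * x ^ (y.1 + y.2)) c₁) :
    LB p (tw f) (c₀ + c₁ * (5 / 4 * x)) := by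
  have h0 : 0 ≤ x := by rw [hx]; positivity
  have A := SB_fiber (h := fun (y : ℕ × ℕ) (k : ℕ) =>
      x ^ k * (‖f (pp p (y.1, y.2, k))‖ * x ^ (y.1 + y.2)))
    (c := fun k => (if k = 0 then c₀ else 0) + c₁ * if k = 0 then 0 else x ^ k)
    (fun k => by
      rcases Nat.eq_zero_or_pos k with rfl | hk
      · simpa using H0
      · rw [if_neg hk.ne', if_neg hk.ne', zero_add, mul_comm]
        exact (H1 k hk).const_mul (by positivity))
    ((SB_single 0 H0.nonneg).add ((SB_geo1 h0 h1).const_mul (H1 1 le_rfl).nonneg))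
    fun _ _ => by positivity
  refine A.comp (fun l : L3 => ((l.1, l.2.1), l.2.2)) (fun a _ b _ e => ?_) fun l _ => le_of_eq ?_
  · simp only [Prod.mk.injEq] at e
    exact Prod.ext e.1.1 (Prod.ext e.1.2 e.2)
  · rw [norm_tw, wt_pp, ← hx, pow_add]
    ring

theorem x_le (h7 : 7 ≤ nr p) : nr p ^ (-(7 / 8) : ℝ) ≤ 1 / 5 := by
  refine (Real.rpow_le_rpow_of_nonpos (by norm_num) h7 (by norm_num)).trans ?_
  refine le_of_pow_le_pow_left₀ (n := 8) (by norm_num) (by norm_num) ?_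
  rw [← Real.rpow_natCast, ← Real.rpow_mul (by norm_num)]
  norm_num

theorem e_le (h7 : 7 ≤ nr p) : nr p ^ (-(3 / 4) : ℝ) ≤ 1 / 3 := by
  refine (Real.rpow_le_rpow_of_nonpos (by norm_num) h7 (by norm_num)).trans ?_
  refine le_of_pow_le_pow_left₀ (n := 4) (by norm_num) (by norm_num) ?_
  rw [← Real.rpow_natCast, ← Real.rpow_mul (by norm_num)]
  norm_num

theorem x_le_e (h7 : 7 ≤ nr p) : nr p ^ (-(7 / 8) : ℝ) ≤ nr p ^ (-(3 / 4) : ℝ) :=
  Real.rpow_le_rpow_of_exponent_le (by linarith) (by norm_num)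

theorem f3_zero (hM : Adm M) (ψ : Chr M) (hp : GP M p) (i j : ℕ) :
    f3 ψ (pp p (i, j, 0)) = if i = 0 then 1 else if i = 1 ∧ j = 0 then -ev ψ p else 0 := by
  have h := cf_unram hM ψ (a := 1) hp.1 hp.2.1 hp.2.2 hp.1.not_dvd_one i j
  simp only [sym_one_right, one_pow, map_one, mul_one] at h
  simp only [f3, pp, pow_zero, one_pow]
  rw [if_pos ⟨primary_one, isCoprime_one_left⟩, h]

theorem g3_pp (ψ : Chr M) (hp : GP M p) (i j k : ℕ) :
    g3 ψ (pp p (i, j, k)) = if i = 0 then 1 else if i = 1 then -ev ψ p else 0 := by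
  have h1 : ∀ n : ℕ, rc (1 : Chr M) 1 (p ^ n) = 1 := fun n => by
    rw [LBA.rc_pos _ _ (hp.2.1.pow n), sym_one_right, map_one, mul_one]
    exact MulChar.one_apply (isUnit_mk_iff.2 (hp.1.coprime_iff_not_dvd.2 hp.2.2).pow_left)
  simp only [g3, pp, h1, mul_one]
  split_ifs with h0 h2
  · rw [h0, pow_zero, mu_one, LBA.rc_one, one_mul]
  · rw [h2, pow_one, mu_prime hp.1 hp.2.1, LBA.rc_pos _ _ hp.2.1, sym_one_right]
    simp
  · obtain ⟨n, rfl⟩ : ∃ n, i = n + 1 + 1 := ⟨i - 2, by omega⟩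
    rw [pow_succ _ (n + 1), mu_mul_of_not_coprime, zero_mul]
    exact fun h => hp.1.not_isUnit (h.isUnit_of_dvd' (dvd_pow_self p (by omega)) dvd_rfl)

theorem norm_ev_p (hM : Adm M) (ψ : Chr M) (hp : GP M p) : ‖ev ψ p‖ = 1 :=
  norm_ev hM.1 ψ (hp.1.coprime_iff_not_dvd.2 hp.2.2)

open Classical in
/-- The statement of `loc_ram`. -/
def Ram (ψ : Chr M) (p : O) : Prop := ∀ k : ℕ, 1 ≤ k →
  f3 ψ (pp p (0, 0, k)) = 1 ∧
    SB (fun y : ℕ × ℕ => if y = 0 then 0 else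
      ‖f3 ψ (pp p (y.1, y.2, k))‖ * (nr p ^ (-(7 / 8) : ℝ)) ^ (y.1 + y.2))
      (3 * nr p ^ (-(3 / 4) : ℝ))

theorem loc_f (hM : Adm M) (ψ : Chr M) (hp : GP M p) (h7 : 7 ≤ nr p) (hr : Ram ψ p) :
    LB p (tw fun v => f3 ψ v - g3 ψ v) (10 * nr p ^ (-(13 / 8) : ℝ)) := by
  have hx5 := x_le h7
  have hxe := x_le_e h7
  have hex : nr p ^ (-(13 / 8) : ℝ) = nr p ^ (-(3 / 4) : ℝ) * nr p ^ (-(7 / 8) : ℝ) := by
    rw [← Real.rpow_add (by linarith)]
    norm_num
  have hψ := norm_ev_p hM ψ hp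
  unfold Ram at hr
  rw [hex]
  generalize nr p ^ (-(3 / 4) : ℝ) = e at *
  set x := nr p ^ (-(7 / 8) : ℝ) with hx
  have h0 : 0 ≤ x := by positivity
  have n0 : ∀ (a : ℕ) (t : ℝ), 0 ≤ t → ∀ i : ℕ, 0 ≤ if i = a then t else 0 :=
    fun a t ht i => by split_ifs <;> simp [ht]
  have n1 : ∀ j : ℕ, 0 ≤ if j = 0 then 0 else x ^ j := fun j => by split_ifs <;> positivity
  refine (LB_of (c₀ := x * (5 / 4 * x)) (c₁ := 3 * e + (1 * (5 / 4 * x) + x * (5 / 4))) hx hx5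
    ?_ fun k hk => ?_).mono (fun _ => le_rfl) (by nlinarith [mul_le_mul_of_nonneg_left hxe h0])
  · refine ((SB_single 1 h0).prod (SB_geo1 h0 hx5) (n0 1 x h0) n1).mono (fun y => ?_) le_rfl
    obtain ⟨i, j⟩ := y
    simp only [f3_zero hM ψ hp, g3_pp ψ hp]
    rcases i with _ | _ | i
    · simp
    · rcases j with _ | j
      · simp
      · simp [hψ, pow_add, mul_comm]
    · simp
  · obtain ⟨r0, r1⟩ := hr k hk
    refine (r1.add (((SB_single 0 zero_le_one).prod (SB_geo1 h0 hx5) (n0 0 1 zero_le_one) n1).add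
      ((SB_single 1 h0).prod (SB_geo h0 hx5) (n0 1 x h0) fun _ => by positivity))).mono
      (fun y => ?_) le_rfl
    obtain ⟨i, j⟩ := y
    by_cases hy : ((i, j) : ℕ × ℕ) = 0
    · obtain ⟨rfl, rfl⟩ := Prod.mk_eq_zero.1 hy
      simp [r0, g3_pp ψ hp]
    · rw [if_neg hy]
      refine (mul_le_mul_of_nonneg_right (norm_sub_le _ _) (by positivity)).trans ?_
      rw [add_mul, g3_pp ψ hp]
      refine add_le_add le_rfl ?_
      rcases i with _ | _ | i
      · have hj : j ≠ 0 := fun h => hy (by simp [h])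
        simp [hj]
      · simp [hψ, pow_add]
      · simp

theorem loc_T (hM : Adm M) (ψ : Chr M) (hp : GP M p) (h7 : 7 ≤ nr p) (hr : Ram ψ p) :
    LB p (tw fun v => Tp ψ p (f3 ψ) v - f3 ψ v) (20 * nr p ^ (-(3 / 4) : ℝ)) := by
  have hx5 := x_le h7
  have hxe := x_le_e h7
  have he3 := e_le h7
  have hψ := norm_ev_p hM ψ hp
  have hψ' : conj (ev ψ p) * ev ψ p = 1 := by
    rw [Complex.conj_mul', hψ]
    simp
  unfold Ram at hr
  generalize nr p ^ (-(3 / 4) : ℝ) = e at *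
  set x := nr p ^ (-(7 / 8) : ℝ) with hx
  have h0 : 0 < x := by positivity
  refine (LB_of (c₀ := x + x ^ 2) (c₁ := x⁻¹ * (3 * e) + x * 2 + 2) hx hx5
    ?_ fun k hk => ?_).mono (fun _ => le_rfl) ?_
  · refine ((SB_single ((1, 0) : ℕ × ℕ) h0.le).add
      (SB_single ((1, 1) : ℕ × ℕ) (sq_nonneg x))).mono (fun y => ?_) le_rfl
    obtain ⟨i, j⟩ := y
    simp only [Tp_pp ψ hp.1, f3_zero hM ψ hp]
    rcases i with _ | _ | i
    · rcases j with _ | j
      · simp [hψ']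
      · simp
    · rcases j with _ | _ | j
      · simp [hψ]
      · simp [hψ]
      · simp
    · simp
  · obtain ⟨r0, r1⟩ := hr k hk
    have r2 : SB (fun y : ℕ × ℕ => ‖f3 ψ (pp p (y.1, y.2, k))‖ * x ^ (y.1 + y.2)) 2 := by
      refine (r1.add (SB_single (0 : ℕ × ℕ) zero_le_one)).mono (fun y => ?_) (by linarith)
      by_cases hy : y = 0
      · subst hy
        simp [r0]
      · simp [hy]
    have r3 : SB (fun y : ℕ × ℕ => ‖f3 ψ (pp p (y.1 + 1, y.2, k))‖ * x ^ (y.1 + y.2))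
        (x⁻¹ * (3 * e)) := by
      refine (r1.const_mul (inv_pos.2 h0).le).comp (fun y => (y.1 + 1, y.2))
        (fun a _ b _ h => ?_) fun y _ => le_of_eq ?_
      · simp only [Prod.mk.injEq] at h
        exact Prod.ext (by omega) h.2
      · rw [if_neg (by simp), show y.1 + 1 + y.2 = y.1 + y.2 + 1 by ring, pow_succ]
        field_simp
    have r4 : SB (fun y : ℕ × ℕ =>
        ‖if y.2 = 0 then 0 else f3 ψ (pp p (y.1, y.2 - 1, k))‖ * x ^ (y.1 + y.2)) (x * 2) := by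
      refine (r2.const_mul h0.le).comp (fun y => (y.1, y.2 - 1))
        (fun a ha b hb h => ?_) fun y hy => le_of_eq ?_
      · have a0 : a.2 ≠ 0 := fun h => by simp [h] at ha
        have b0 : b.2 ≠ 0 := fun h => by simp [h] at hb
        simp only [Prod.mk.injEq] at h
        exact Prod.ext h.1 (by omega)
      · have y0 : y.2 ≠ 0 := fun h => by simp [h] at hy
        rw [if_neg y0, show y.1 + y.2 = y.1 + (y.2 - 1) + 1 by omega, pow_succ]
        ring
    refine ((r3.add r4).add r2).mono (fun y => ?_) le_rfl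
    rw [← add_mul, ← add_mul, Tp_pp ψ hp.1]
    refine mul_le_mul_of_nonneg_right ((norm_sub_le _ _).trans (add_le_add
      ((norm_add_le _ _).trans (add_le_add (le_of_eq ?_) (le_of_eq ?_))) le_rfl)) (by positivity)
    · rw [norm_mul, norm_neg, Complex.norm_conj, hψ, one_mul]
    · congr
  · have e1 : (x⁻¹ * (3 * e) + x * 2 + 2) * (5 / 4 * x) = 15 / 4 * e + 5 / 2 * x ^ 2 + 5 / 2 * x := by
      field_simp
      ring
    rw [e1]
    nlinarith

end Crest.Agent.R17.P3.LocB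
end
end

-- ▼ part PVc/R17/P3Loc
section

/-!
# Row 17, principal rows: local estimates

Put `q = N p ≥ 7` (`nm_prime_mod_six`; `p ≠ -2` since `72 ∣ M`), `x = q^{-7/8} ≤ 1/5`,
`F(i,j,k) = f3 ψ (pp p (i,j,k)) = cf ψ ((p^k)^6) (p^i) (p^j)`; `wt_pp`, `norm_tw`.
`loc_ram` (`k ≥ 1`, `vp p ((p^k)^6) = 6k`): `j ≥ 2` or `(i = 0, j = 1)`: zero (`cf_ram_zero`);
`j = 0`, `i ≥ 1`: zero for `i < 6`, and `≤ q^{2i/3}` (`norm_cf_ram_zero`); `j = 1`: `≤ q` for
`i = 1`, zero for `2 ≤ i ≤ 5`, `≤ q^{2i/3+1/2}` for `i ≥ 6` (`norm_cf_ram_one`).  With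
`t = q^{-5/24} ≤ 7/10` (`∑_{i ≥ 6} t^i = t⁶/(1-t) ≤ (10/3) t⁶`) the sum is at most
`q^{-3/4} + (10/3) q^{-5/4} + (10/3) q^{-13/8} ≤ 3 q^{-3/4}` (`q^{-1/2} ≤ 0.38`, `x ≤ 1/5`).  Majorise by explicit functions with known
`HasSum` (`hasSum_geometric_of_lt_one`, `hasSum_ite_eq`, `SB.of_hasSum`, `SB.prod`, `SB.add`, `SB.mono`).
For `k = 0` (`cf_unram` with `a = 1`): `F(0,j,0) = 1`, `F(1,0,0) = -ψ(p)`, the rest is zero;
`G(i,j,k) = g3 ψ (pp p (i,j,k))` is `1` for `i = 0`, `-ψ(p)` for `i = 1`, `0` for `i ≥ 2`.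
`loc_f`: `F - G` vanishes at `(0,j,0)`, `(1,0,0)`, `(0,0,k)`; otherwise
`‖F - G‖ ≤ 1_{k ≥ 1, (i,j) ≠ 0} ‖F‖ + ‖G‖`, where the `G` part is supported on `i = 0, j, k ≥ 1` and
`i = 1, (j,k) ≠ 0`: `≤ (25/16) x² + (25/8) x²`, the `F` part is `≤ 3 q^{-3/4} (5/4) x`.
`loc_gi`: `(1 + x)²/(1 - x) ≤ 2`.  `loc_T` (`Tp_pp`): at `k = 0` the difference is
`ψ(p) (δ_{(1,0)} - δ_{(1,1)})`, of norm `x + x²`; for `k ≥ 1` (note `F(1,0,k) = 0`) bound the three
terms separately: `(5/4) x · [3 q^{-3/4}/x + 2 x + 2]`.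
-/

set_option autoImplicit false

noncomputable section

namespace Crest.Agent.R17.P3

open scoped ComplexConjugate

variable {M p : O}

theorem GP.seven_le (hM : Adm M) (hp : GP M p) : 7 ≤ nr p :=
  LocA.seven_le hM hp

open Classical in
theorem loc_ram (hM : Adm M) (ψ : Chr M) (hp : GP M p) {k : ℕ} (hk : 1 ≤ k) :
    f3 ψ (pp p (0, 0, k)) = 1 ∧
    SB (fun y : ℕ × ℕ => if y = 0 then 0 else
      ‖f3 ψ (pp p (y.1, y.2, k))‖ * (nr p ^ (-(7 / 8) : ℝ)) ^ (y.1 + y.2))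
      (3 * nr p ^ (-(3 / 4) : ℝ)) :=
  LocA.loc_ram hM ψ hp hk

theorem loc_f (hM : Adm M) (ψ : Chr M) (hp : GP M p) :
    LB p (tw fun v => f3 ψ v - g3 ψ v) (10 * nr p ^ (-(13 / 8) : ℝ)) :=
  LocB.loc_f hM ψ hp (hp.seven_le hM) fun _ hk => loc_ram hM ψ hp hk

theorem loc_gi (hM : Adm M) (ψ : Chr M) (hp : GP M p) : LB p (tw (gi3 ψ)) 2 :=
  LocA.loc_gi hM ψ hp

theorem loc_T (hM : Adm M) (ψ : Chr M) (hp : GP M p) :
    LB p (tw fun v => Tp ψ p (f3 ψ) v - f3 ψ v) (20 * nr p ^ (-(3 / 4) : ℝ)) :=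
  LocB.loc_T hM ψ hp (hp.seven_le hM) fun _ hk => loc_ram hM ψ hp hk

end Crest.Agent.R17.P3
end
end

-- ▼ part PVc/R17/P3Theta
section

/-!
# Row 17, principal rows: the sum over the sixth powers

`theta_line`: `gw_eq_integral` with `σ = 1/3`, exchange sum and integral
(`hasSum_integral_of_summable_integral_norm` or `integral_tsum`; `integrable_Gamma_mul_pow`,
`summable_nr_rpow 2`), `(isL_Lc ..).2.1`.  `theta_rep`: `Princ (1 : Chr M) 1`; `princ_pole` gives the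
entire `G₀(s) = (s - 1) Lc(s)`; `contour_shift_pole` on the strip `7/48 ≤ Re w ≤ 1/3`, `ρ = 1/6`, with
`G(w) = Γ(w) (2π/√3)^{-w} Y^w G₀(6w)/6` (`Lc_growth`, `norm_Gamma_le_exp`);
`κ = Γ(1/6) (2π/√3)^{-1/6} G₀(1)/6`, `h(u) = (2π)⁻¹ Γ(w) (2π/√3)^{-w} Lc(6w)`, `w = 7/48 + iu`.
`MT_approx`: insert `theta_rep`, `Wc_add` (`Wc y 0 * y^w = Wc y w`), exchange the sum over `n` and the
integral (`summable_Sm`, `polyB_mu_rc`, `norm_Wc` only depends on `Re w`), `Mob_of_zeroFree`.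
-/

set_option autoImplicit false

noncomputable section

namespace Crest.Agent.R17.P3

open scoped ComplexConjugate

open MeasureTheory

variable {M : O}

theorem P3Theta_cpow {x : ℝ} (hx : 0 < x) (s : ℂ) :
    (x : ℂ) ^ s = Complex.exp ((Real.log x : ℂ) * s) := by
  rw [Complex.cpow_def_of_ne_zero (by exact_mod_cast hx.ne'), Complex.ofReal_log hx.le]

theorem P3Theta_div_cpow {a Y : ℝ} (ha : 0 < a) (hY : 0 < Y) (w : ℂ) :
    ((a / Y : ℝ) : ℂ) ^ (-w) = (a : ℂ) ^ (-w) * (Y : ℂ) ^ w := by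
  rw [P3Theta_cpow (div_pos ha hY), P3Theta_cpow ha, P3Theta_cpow hY, ← Complex.exp_add,
    Real.log_div ha.ne' hY.ne']
  congr 1
  push_cast
  ring

theorem P3Theta_six_cpow {a x Y : ℝ} (ha : 0 < a) (hx : 0 < x) (hY : 0 < Y) (w : ℂ) :
    ((a * (x ^ 6 / Y) : ℝ) : ℂ) ^ (-w) = ((a / Y : ℝ) : ℂ) ^ (-w) * (x : ℂ) ^ (-(6 * w)) := by
  rw [P3Theta_cpow (by positivity), P3Theta_cpow (div_pos ha hY), P3Theta_cpow hx,
    ← Complex.exp_add, Real.log_mul ha.ne' (by positivity), Real.log_div (by positivity) hY.ne',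
    Real.log_div ha.ne' hY.ne', Real.log_pow]
  congr 1
  push_cast
  ring

theorem theta_line (hM : Adm M) {Y : ℝ} (hY : 0 < Y) :
    Th M Y = (1 / (2 * Real.pi) : ℂ) * ∫ u : ℝ, Complex.Gamma ((1 / 3 : ℝ) + u * Complex.I) *
      ((2 * Real.pi / Real.sqrt 3 / Y : ℝ) : ℂ) ^ (-(((1 / 3 : ℝ) : ℂ) + u * Complex.I)) *
        Lc (1 : Chr M) 1 (6 * (((1 / 3 : ℝ) : ℂ) + u * Complex.I)) := by
  set a : ℝ := 2 * Real.pi / Real.sqrt 3 with ha
  have ha0 : 0 < a := by positivity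
  have hb0 : 0 < a / Y := div_pos ha0 hY
  set w : ℝ → ℂ := fun u => ((1 / 3 : ℝ) : ℂ) + u * Complex.I with hw
  have hwre : ∀ u, (w u).re = 1 / 3 := fun u => by simp [hw]
  have hwc : Continuous w := by fun_prop
  set F : O → ℝ → ℂ := fun c u => Complex.Gamma (w u) * ((a / Y : ℝ) : ℂ) ^ (-w u) *
    (rc (1 : Chr M) 1 c * (nr c : ℂ) ^ (-(6 * w u))) with hF
  have hG := integrable_Gamma_mul_pow (σ := 1 / 3) (by norm_num) 0
  simp only [pow_zero, mul_one] at hG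
  have hbound : ∀ c u, ‖F c u‖ ≤ ‖Complex.Gamma (w u)‖ * ((a / Y) ^ (-(1 / 3) : ℝ) *
      nr c ^ (-2 : ℝ)) := by
    intro c u
    by_cases hc : c = 0
    · subst hc
      simp only [hF, rc_zero, zero_mul, mul_zero, norm_zero]
      positivity
    · have hn := nr_pos hc
      simp only [hF, norm_mul, Complex.norm_cpow_eq_rpow_re_of_pos hb0,
        Complex.norm_cpow_eq_rpow_re_of_pos hn, Complex.neg_re, hwre]
      have e : (6 * w u).re = 2 := by simp [hw]; norm_num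
      rw [e, mul_assoc]
      refine mul_le_mul_of_nonneg_left (mul_le_mul_of_nonneg_left ?_ (by positivity))
        (norm_nonneg _)
      exact mul_le_of_le_one_left (by positivity) (norm_rc_le hM _ _ _)
  have hint : ∀ c, Integrable (F c) := by
    intro c
    refine (hG.mul_const _).mono' ?_ (Filter.Eventually.of_forall (hbound c))
    by_cases hc : c = 0
    · subst hc
      simp only [hF, rc_zero, zero_mul, mul_zero]
      exact aestronglyMeasurable_const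
    · have hn := nr_pos hc
      refine Continuous.aestronglyMeasurable ?_
      refine ((WA.continuous_Gamma_line (σ := 1 / 3) (by norm_num)).mul ?_).mul
        (continuous_const.mul ?_)
      · exact hwc.neg.const_cpow (Or.inl (by exact_mod_cast hb0.ne'))
      · exact (continuous_const.mul hwc).neg.const_cpow (Or.inl (by exact_mod_cast hn.ne'))
  have hsum : Summable fun c => ∫ u, ‖F c u‖ := by
    refine Summable.of_nonneg_of_le (fun c => integral_nonneg fun u => norm_nonneg _)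
      (fun c => integral_mono (hint c).norm (hG.mul_const _) (hbound c)) ?_
    simp only [integral_mul_const]
    exact ((summable_nr_rpow (σ := 2) (by norm_num)).mul_left _).mul_left _
  have H := hasSum_integral_of_summable_integral_norm hint hsum
  have e1 : ∀ u, ∑' c, F c u = Complex.Gamma (w u) * ((a / Y : ℝ) : ℂ) ^ (-w u) *
      Lc (1 : Chr M) 1 (6 * w u) := by
    intro u
    have e : 1 < (6 * w u).re := by simp [hw]; norm_num
    rw [(isL_Lc hM (1 : Chr M) one_ne_zero).2.1 _ e, Lser, ← tsum_mul_left]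
  have e2 : ∀ c, rc (1 : Chr M) 1 c * (gw (nr c ^ 6 / Y) : ℂ) =
      (1 / (2 * Real.pi) : ℂ) * ∫ u, F c u := by
    intro c
    by_cases hc : c = 0
    · subst hc
      simp only [hF, rc_zero, zero_mul, mul_zero, integral_zero]
    · have hn := nr_pos hc
      rw [gw_eq_integral (σ := 1 / 3) (by positivity) (by norm_num), mul_left_comm,
        ← integral_const_mul]
      congr 2
      funext u
      rw [P3Theta_six_cpow ha0 hn hY]
      simp only [hF, hw]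
      ring
  simp only [e1] at H
  rw [Th]
  simp only [e2]
  rw [tsum_mul_left, H.tsum_eq]

theorem P3Theta_princ : Princ (1 : Chr M) 1 := by
  intro n hn hc
  rw [mul_one] at hc
  rw [rc, if_pos hn, PA.ev_one_chr hc, sym_one_right, map_one, mul_one]

theorem P3Theta_exp_bound (J : ℕ) {x : ℝ} (hx : 0 ≤ x) :
    Real.exp (-x) * (1 + 6 * x) ^ J ≤ 6 ^ J * (J + 2).factorial * Real.exp 1 / (1 + x ^ 2) := by
  have h1 := Real.pow_div_factorial_le_exp (1 + x) (by positivity) (J + 2)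
  rw [div_le_iff₀ (by positivity), Real.exp_add] at h1
  have h2 : (1 + 6 * x) ^ J ≤ 6 ^ J * (1 + x) ^ J := by
    rw [← mul_pow]; gcongr; linarith
  have h3 : 1 + x ^ 2 ≤ (1 + x) ^ 2 := by nlinarith
  rw [le_div_iff₀ (by positivity), Real.exp_neg]
  have he := Real.exp_pos x
  calc (Real.exp x)⁻¹ * (1 + 6 * x) ^ J * (1 + x ^ 2)
      ≤ (Real.exp x)⁻¹ * (6 ^ J * (1 + x) ^ J) * (1 + x) ^ 2 := by gcongr
    _ = (Real.exp x)⁻¹ * 6 ^ J * (1 + x) ^ (J + 2) := by ring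
    _ ≤ (Real.exp x)⁻¹ * 6 ^ J * (Real.exp 1 * Real.exp x * (J + 2).factorial) := by gcongr
    _ = 6 ^ J * (J + 2).factorial * Real.exp 1 := by field_simp

theorem theta_rep (hM : Adm M) : ∃ (κ : ℂ) (h : ℝ → ℂ), κ ≠ 0 ∧ Continuous h ∧
    (∀ J : ℕ, Integrable fun u => ‖h u‖ * (1 + |u|) ^ J) ∧ ∀ Y : ℝ, 0 < Y →
      Th M Y = κ * (Y : ℂ) ^ (1 / 6 : ℂ) +
        ∫ u : ℝ, h u * (Y : ℂ) ^ (((7 / 48 : ℝ) : ℂ) + u * Complex.I) := by
  set a : ℝ := 2 * Real.pi / Real.sqrt 3 with ha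
  have ha0 : 0 < a := by positivity
  have haC : (a : ℂ) ≠ 0 := by exact_mod_cast ha0.ne'
  obtain ⟨k, G₀, hk, hG₀, hG1, hGe⟩ := princ_pole hM (1 : Chr M) one_ne_zero P3Theta_princ
  obtain ⟨C, J₀, hC, hgr⟩ := Lc_growth hM
  obtain ⟨CΓ, hCΓ, hΓ⟩ := norm_Gamma_le_exp (σ₀ := 7 / 48) (σ₁ := 1 / 3) (by norm_num)
  have hn1 : nr (1 : O) = 1 := by rw [nr, BasicA.nm_of_isUnit isUnit_one, Nat.cast_one]
  have hgr' : ∀ s : ℂ, -1 ≤ s.re → s.re ≤ 3 → s ≠ 1 →
      ‖(s - 1) * Lc (1 : Chr M) 1 s‖ ≤ C * (1 + |s.im|) ^ J₀ := fun s h0 h1 hs => by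
    simpa only [hn1, one_pow, mul_one] using (hgr 1 1 s one_ne_zero h0 h1).1 hs
  set w : ℝ → ℂ := fun u => ((7 / 48 : ℝ) : ℂ) + u * Complex.I with hw
  have hwre : ∀ u, (w u).re = 7 / 48 := fun u => by simp [hw]
  have hw6 : ∀ u, (6 * w u).re = 7 / 8 := fun u => by simp [hw]; norm_num
  have hw6i : ∀ u, (6 * w u).im = 6 * u := fun u => by simp [hw]
  have hw1 : ∀ u, 6 * w u ≠ 1 := fun u h => by
    have := hw6 u
    rw [h] at this
    norm_num at this
  have hwc : Continuous w := by fun_prop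
  set h : ℝ → ℂ := fun u => (1 / (2 * Real.pi) : ℂ) *
    (Complex.Gamma (w u) * (a : ℂ) ^ (-w u) * Lc (1 : Chr M) 1 (6 * w u)) with hh
  have hhc : Continuous h := by
    refine continuous_const.mul (((WA.continuous_Gamma_line (σ := 7 / 48) (by norm_num)).mul
      (hwc.neg.const_cpow (Or.inl haC))).mul ?_)
    exact (isL_Lc hM (1 : Chr M) one_ne_zero).1.continuousOn.comp_continuous
      (continuous_const.mul hwc) hw1
  refine ⟨Complex.Gamma (1 / 6) * (a : ℂ) ^ (-(1 / 6 : ℂ)) * k / 6, h, ?_, hhc, fun J => ?_,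
    fun Y hY => ?_⟩
  · refine div_ne_zero (mul_ne_zero (mul_ne_zero (Complex.Gamma_ne_zero_of_re_pos (by norm_num))
      ?_) (by exact_mod_cast hk.ne')) (by norm_num)
    rw [Ne, Complex.cpow_eq_zero_iff]
    exact fun h => haC h.1
  · refine ((integrable_Gamma_mul_pow (σ := 7 / 48) (by norm_num) (J₀ + J)).const_mul
      (‖(1 / (2 * Real.pi) : ℂ)‖ * a ^ (-(7 / 48) : ℝ) * (8 * C * 6 ^ J₀))).mono'
      (hhc.norm.mul (by fun_prop)).aestronglyMeasurable (Filter.Eventually.of_forall fun u => ?_)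
    have h1 := hgr' (6 * w u) (by rw [hw6]; norm_num) (by rw [hw6]; norm_num) (hw1 u)
    have h2 : 1 / 8 ≤ ‖6 * w u - 1‖ := by
      refine le_trans ?_ (Complex.abs_re_le_norm _)
      rw [Complex.sub_re, hw6, Complex.one_re]
      norm_num [abs_of_neg]
    have h3 : (1 + |6 * u|) ^ J₀ ≤ 6 ^ J₀ * (1 + |u|) ^ J₀ := by
      rw [← mul_pow, abs_mul, abs_of_pos (by norm_num : (0 : ℝ) < 6)]
      gcongr
      linarith [abs_nonneg u]
    rw [norm_mul, hw6i] at h1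
    have h4 : ‖Lc (1 : Chr M) 1 (6 * w u)‖ ≤ 8 * C * 6 ^ J₀ * (1 + |u|) ^ J₀ := by
      have h5 := mul_le_mul_of_nonneg_right h2 (norm_nonneg (Lc (1 : Chr M) 1 (6 * w u)))
      have h6 := mul_le_mul_of_nonneg_left h3 hC.le
      linarith
    rw [Real.norm_of_nonneg (by positivity)]
    simp only [hh, norm_mul, Complex.norm_cpow_eq_rpow_re_of_pos ha0, Complex.neg_re, hwre]
    calc ‖(1 / (2 * Real.pi) : ℂ)‖ * (‖Complex.Gamma (w u)‖ * a ^ (-(7 / 48) : ℝ) *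
          ‖Lc (1 : Chr M) 1 (6 * w u)‖) * (1 + |u|) ^ J
        ≤ ‖(1 / (2 * Real.pi) : ℂ)‖ * (‖Complex.Gamma (w u)‖ * a ^ (-(7 / 48) : ℝ) *
          (8 * C * 6 ^ J₀ * (1 + |u|) ^ J₀)) * (1 + |u|) ^ J := by gcongr
      _ = _ := by rw [pow_add]; ring
  · have hb0 : 0 < a / Y := div_pos ha0 hY
    have hbC : ((a / Y : ℝ) : ℂ) ≠ 0 := by exact_mod_cast hb0.ne'
    set G : ℂ → ℂ := fun z => Complex.Gamma z * ((a / Y : ℝ) : ℂ) ^ (-z) * G₀ (6 * z) / 6 with hG
    have hGd : DifferentiableOn ℂ G (strip (7 / 48) (1 / 3)) := by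
      intro z hz
      refine DifferentiableAt.differentiableWithinAt ?_
      refine (((Complex.differentiableAt_Gamma z fun m hm => ?_).mul ?_).mul ?_).div_const _
      · have := hz.1
        rw [hm] at this
        simp only [Complex.neg_re, Complex.natCast_re] at this
        have : (0 : ℝ) ≤ m := Nat.cast_nonneg m
        linarith
      · exact differentiableAt_id.neg.const_cpow (Or.inl hbC)
      · exact (hG₀ _).comp z (by fun_prop)
    have hGb : ∀ z ∈ strip (7 / 48) (1 / 3), 1 ≤ |z.im| →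
        ‖G z‖ ≤ (CΓ * Real.exp |Real.log (a / Y)| * C *
          (6 ^ J₀ * (J₀ + 2).factorial * Real.exp 1)) / (1 + z.im ^ 2) := by
      intro z hz hz1
      have hre : (6 * z).re = 6 * z.re := by simp
      have him : (6 * z).im = 6 * z.im := by simp
      have hne : 6 * z ≠ 1 := fun h => by
        rw [h, Complex.one_im] at him
        have : z.im = 0 := by linarith
        rw [this, abs_zero] at hz1
        linarith
      have h1 := hgr' (6 * z) (by rw [hre]; linarith [hz.1]) (by rw [hre]; linarith [hz.2]) hne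
      rw [← hGe _ hne, him, abs_mul, abs_of_pos (by norm_num : (0 : ℝ) < 6)] at h1
      have h2 := hΓ z hz.1 hz.2
      have h3 : (a / Y) ^ (-z.re) ≤ Real.exp |Real.log (a / Y)| := by
        rw [Real.rpow_def_of_pos hb0]
        refine Real.exp_le_exp.2 ((le_abs_self _).trans ?_)
        rw [abs_mul]
        refine mul_le_of_le_one_right (abs_nonneg _) ?_
        rw [abs_le]
        constructor <;> linarith [hz.1, hz.2]
      have h4 := P3Theta_exp_bound J₀ (abs_nonneg z.im)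
      rw [sq_abs] at h4
      simp only [hG, norm_div, norm_mul, Complex.norm_cpow_eq_rpow_re_of_pos hb0, Complex.neg_re]
      have h6 : ‖(6 : ℂ)‖ = 6 := by simp
      rw [h6]
      calc ‖Complex.Gamma z‖ * (a / Y) ^ (-z.re) * ‖G₀ (6 * z)‖ / 6
          ≤ ‖Complex.Gamma z‖ * (a / Y) ^ (-z.re) * ‖G₀ (6 * z)‖ :=
            div_le_self (by positivity) (by norm_num)
        _ ≤ CΓ * Real.exp (-|z.im|) * Real.exp |Real.log (a / Y)| *
            (C * (1 + 6 * |z.im|) ^ J₀) := by gcongr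
        _ = CΓ * Real.exp |Real.log (a / Y)| * C *
            (Real.exp (-|z.im|) * (1 + 6 * |z.im|) ^ J₀) := by ring
        _ ≤ CΓ * Real.exp |Real.log (a / Y)| * C *
            (6 ^ J₀ * (J₀ + 2).factorial * Real.exp 1 / (1 + z.im ^ 2)) := by gcongr
        _ = _ := by ring
    have hshift := contour_shift_pole (ρ := 1 / 6) (by norm_num) (by norm_num) hGd hGb
    have hq : ∀ z : ℂ, z.re ≠ 1 / 6 → G z / (z - 1 / 6) =
        Complex.Gamma z * ((a / Y : ℝ) : ℂ) ^ (-z) * Lc (1 : Chr M) 1 (6 * z) := by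
      intro z hz
      have hz' : z - 1 / 6 ≠ 0 := fun h => hz (by rw [sub_eq_zero.1 h]; norm_num)
      have hne : 6 * z ≠ 1 := fun h => hz' (by linear_combination h / 6)
      rw [div_eq_iff hz']
      simp only [hG]
      rw [hGe _ hne]
      ring
    have hq1 : ∀ u : ℝ, (((1 / 3 : ℝ) : ℂ) + u * Complex.I).re ≠ 1 / 6 := fun u => by
      have : (((1 / 3 : ℝ) : ℂ) + u * Complex.I).re = 1 / 3 := by simp
      rw [this]; norm_num
    have hq0 : ∀ u : ℝ, (((7 / 48 : ℝ) : ℂ) + u * Complex.I).re ≠ 1 / 6 := fun u => by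
      rw [hwre u]; norm_num
    simp only [hq _ (hq1 _), hq _ (hq0 _)] at hshift
    rw [theta_line hM hY, hshift, mul_add, add_comm, ← integral_const_mul]
    congr 1
    · have hpi : (Real.pi : ℂ) ≠ 0 := by exact_mod_cast Real.pi_ne_zero
      have e6 : (6 : ℂ) * (1 / 6) = 1 := by norm_num
      simp only [hG]
      rw [e6, hG1, P3Theta_div_cpow ha0 hY]
      field_simp
    · congr 1
      funext u
      rw [P3Theta_div_cpow ha0 hY]
      simp only [hh, hw]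
      ring


theorem MT_approx (hM : Adm M) : ∃ κ : ℂ, κ ≠ 0 ∧ ∀ β : ℝ, 1 / 2 ≤ β → β ≤ 1 → ZeroFree β →
    ∀ (ψ : Chr M) (ε : ℝ), 0 < ε → ∃ C : ℝ, 0 < C ∧ ∀ D A : ℝ, 0 < D → 0 < A →
      ‖MT ψ D A - κ * (A ^ (1 / 6 : ℝ) : ℝ) * Mob ψ 1 D (1 / 6)‖ ≤
        C * A ^ (7 / 48 : ℝ) * D ^ (β + ε) := by
  obtain ⟨κ, h, hκ, hc, hi, hrep⟩ := theta_rep hM
  refine ⟨κ, hκ, fun β hβ hβ1 hz ψ ε hε => ?_⟩
  obtain ⟨C, J, hC, hMob⟩ := Mob_of_zeroFree hβ hβ1 hz hM ψ hε
  have hI0 : 0 ≤ ∫ u, ‖h u‖ * (1 + |u|) ^ J := integral_nonneg fun u => by positivity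
  refine ⟨C * ((∫ u, ‖h u‖ * (1 + |u|) ^ J) + 1), by positivity, fun D A hD hA => ?_⟩
  have hb := polyB_mu_rc hM ψ 1
  have hb0 : mu 0 * rc ψ 1 0 = 0 := hb.1
  set w : ℝ → ℂ := fun u => ((7 / 48 : ℝ) : ℂ) + u * Complex.I with hw
  have hwre : ∀ u, (w u).re = 7 / 48 := fun u => by simp [hw]
  have hwim : ∀ u, (w u).im = u := fun u => by simp [hw]
  set F : O → ℝ → ℂ := fun n u =>
    h u * (A : ℂ) ^ w u * (mu n * rc ψ 1 n * Wc (nr n / D) (w u)) with hF
  have hA0 : (A : ℂ) ≠ 0 := by exact_mod_cast hA.ne'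
  have hnorm : ∀ n u, ‖F n u‖ = ‖h u‖ *
      (A ^ (7 / 48 : ℝ) * ‖mu n * rc ψ 1 n * Wc (nr n / D) ((7 / 48 : ℝ) : ℂ)‖) := by
    intro n u
    simp only [hF, norm_mul, norm_Wc, hwre, Complex.norm_cpow_eq_rpow_re_of_pos hA,
      Complex.ofReal_re]
    ring
  have hh : Integrable fun u => ‖h u‖ := by simpa using hi 0
  have hwc : Continuous w := by
    simp only [hw]
    fun_prop
  have hFi : ∀ n, Integrable (F n) := by
    intro n
    have c1 : Continuous fun u => (A : ℂ) ^ w u := hwc.const_cpow (Or.inl hA0)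
    have c2 : Continuous fun u => Wc (nr n / D) (w u) := by
      unfold Wc
      fun_prop
    have c3 : Continuous (F n) := (hc.mul c1).mul (continuous_const.mul c2)
    exact (hh.mul_const _).mono' c3.aestronglyMeasurable
      (Filter.Eventually.of_forall fun u => (hnorm n u).le)
  have hFs : Summable fun n => ∫ u, ‖F n u‖ := by
    simp only [hnorm, integral_mul_const]
    exact ((summable_Sm hb hD _).mul_left _).mul_left _
  have hterm : ∀ n : O, mu n * rc ψ 1 n * Wc (nr n / D) 0 * Th M (A * (nr n / D)) =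
      κ * (A ^ (1 / 6 : ℝ) : ℝ) * (mu n * rc ψ 1 n * Wc (nr n / D) (1 / 6)) + ∫ u, F n u := by
    intro n
    rcases eq_or_ne n 0 with rfl | hn
    · simp only [hF, hb0, zero_mul, mul_zero, integral_zero, add_zero]
    have hy : 0 < nr n / D := div_pos (nr_pos hn) hD
    have e1 : ∀ s : ℂ, Wc (nr n / D) s = Wc (nr n / D) 0 * ((nr n / D : ℝ) : ℂ) ^ s := fun s => by
      rw [← Wc_add hy, zero_add]
    rw [hrep _ (mul_pos hA hy), mul_add, ← integral_const_mul, e1 (1 / 6),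
      Complex.ofReal_cpow hA.le, Complex.ofReal_mul, Complex.mul_cpow_ofReal_nonneg hA.le hy.le]
    congr 1
    · push_cast
      ring
    · refine integral_congr_ae (Filter.Eventually.of_forall fun u => ?_)
      simp only [hF]
      rw [e1 (w u), Complex.mul_cpow_ofReal_nonneg hA.le hy.le]
      ring
  have hS := hasSum_integral_of_summable_integral_norm hFi hFs
  have hS1 := ((summable_Sm hb hD (1 / 6)).of_norm.hasSum.mul_left
    (κ * (A ^ (1 / 6 : ℝ) : ℝ))).add hS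
  have e : MT ψ D A - κ * (A ^ (1 / 6 : ℝ) : ℝ) * Mob ψ 1 D (1 / 6) =
      ∫ u, h u * (A : ℂ) ^ w u * Mob ψ 1 D (w u) := by
    rw [MT, tsum_congr hterm, hS1.tsum_eq, Mob, add_sub_cancel_left]
    simp only [hF, tsum_mul_left, Mob]
  rw [e]
  have key := norm_integral_le_of_norm_le (μ := volume)
    (f := fun u => h u * (A : ℂ) ^ w u * Mob ψ 1 D (w u))
    ((hi J).mul_const (C * A ^ (7 / 48 : ℝ) * D ^ (β + ε)))
    (Filter.Eventually.of_forall fun u => by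
      have h1 := hMob D (w u) hD (by rw [hwre]; norm_num)
      rw [hwim] at h1
      rw [norm_mul, norm_mul, Complex.norm_cpow_eq_rpow_re_of_pos hA, hwre]
      calc _ ≤ ‖h u‖ * A ^ (7 / 48 : ℝ) * (C * (1 + |u|) ^ J * D ^ (β + ε)) := by gcongr
        _ = _ := by ring)
  rw [integral_mul_const] at key
  refine key.trans ?_
  have h2 : 0 ≤ C * A ^ (7 / 48 : ℝ) * D ^ (β + ε) := by positivity
  nlinarith

end Crest.Agent.R17.P3
end
end

-- ▼ part PVc/R17/P3Psi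
section

/-!
# Row 17, principal rows: the model sum

`Psi3_eq`: the summand is `[μ rc(n) W(N n/D) · rc(c) gw(N c⁶/(A' N n/D))] · [rc(x) W(N x/X')]` with
`D = B/N j₁`, `X' = X/N j₂`, `A' = A/N j₃⁶` (for `n = 0` both sides vanish, `rc_zero`); absolute
convergence: `gw t ≤ C/t` (`gw_le_rpow`), `norm_Wc_le_rpow`, `summable_nr_rpow`; `Summable.tsum_prod`,
`tsum_mul_left`, `tsum_mul_right`.  `Psi3_bounds`: `Pln_exc` (`θ = 7/8`, `a = 1`, `Exc M 1`,
`Princ (1 : Chr M) 1`), `MT_approx`, `Mob_of_zeroFree`; `κ = m · Wm(1 + 0) · κ'`;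
`(A/N j₃⁶)^{1/6} = A^{1/6}/N j₃`, `(A/N j₃⁶)^{7/48} = A^{7/48} N j₃^{-7/8}`,
`(B/N j₁)^{β+ε} ≤ B^{β+ε} N j₁^{-7/8}`, `X^{7/8} ≤ X B^{-1/60}`, `A^{7/48} ≤ A^{1/6} B^{-1/60}`,
`P S - P₀ S₀ = (P - P₀) S + P₀ (S - S₀)`.
-/

set_option autoImplicit false

noncomputable section

namespace Crest.Agent.R17.P3

open scoped ComplexConjugate

variable {M : O}

theorem P3Psi_summable (hM : Adm M) (ψ : Chr M) {D A : ℝ} (hD : 0 < D) (hA : 0 < A) :
    Summable fun v : O × O => ‖mu v.1 * rc ψ 1 v.1 * Wc (nr v.1 / D) 0 *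
      (rc (1 : Chr M) 1 v.2 * (gw (nr v.2 ^ 6 / (A * (nr v.1 / D))) : ℂ))‖ := by
  obtain ⟨C, hC, h⟩ := gw_le_rpow 1
  have hb : PolyB (fun n => mu n * rc ψ 1 n * (nr n : ℂ)) 1 1 :=
    ⟨by simp, fun n => by
      have := (polyB_mu_rc hM ψ 1).2 n
      rw [Real.rpow_zero, mul_one] at this
      rw [norm_mul, Complex.norm_real, Real.norm_of_nonneg (Nat.cast_nonneg _), Real.rpow_one]
      gcongr⟩
  have h1 := (summable_Sm hb hD 0).mul_left (C * (A / D))
  have h2 := summable_nr_rpow (σ := 6) (by norm_num)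
  refine (h1.mul_of_nonneg h2 (fun n => by positivity) fun c => by positivity).of_nonneg_of_le
    (fun v => norm_nonneg _) ?_
  rintro ⟨n, c⟩
  dsimp only
  rcases eq_or_ne n 0 with rfl | hn
  · simp [rc_zero]
  rcases eq_or_ne c 0 with rfl | hc
  · rw [rc_zero, zero_mul, mul_zero, norm_zero]; positivity
  have n1 := nr_pos hn
  have n2 := nr_pos hc
  have h3 := h (nr c ^ 6 / (A * (nr n / D))) (by positivity) zero_le_one
  rw [Real.rpow_neg_one] at h3
  have h4 : nr c ^ (-6 : ℝ) = (nr c ^ 6)⁻¹ := by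
    rw [Real.rpow_neg n2.le]; norm_cast
  rw [h4, norm_mul, norm_mul (rc _ _ c), Complex.norm_real, Real.norm_of_nonneg (gw_pos _).le,
    mul_right_comm (mu n * rc ψ 1 n), norm_mul _ (nr n : ℂ), Complex.norm_real,
    Real.norm_of_nonneg n1.le]
  calc _ ≤ ‖mu n * rc ψ 1 n * Wc (nr n / D) 0‖ * (1 * (C * (nr c ^ 6 / (A * (nr n / D)))⁻¹)) := by
        have := (gw_pos (nr c ^ 6 / (A * (nr n / D)))).le
        gcongr
        exact norm_rc_le hM _ _ _
    _ = _ := by field_simp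

theorem Psi3_eq (hM : Adm M) (ψ : Chr M) {B : ℝ} (hB : 0 < B) {j : T3} (hj : Pr3 j) :
    Psi3 ψ B j = Pln (1 : Chr M) 1 (Xpar B / nr j.2.1) 0 *
      MT ψ (B / nr j.1) (Apar B / nr j.2.2 ^ 6) := by
  have n1 := nr_pos hj.1.ne_zero
  have n2 := nr_pos hj.2.1.ne_zero
  have n3 := nr_pos hj.2.2.ne_zero
  have hA : 0 < Apar B := by unfold Apar; positivity
  have hX : 0 < Xpar B := by unfold Xpar; positivity
  have h1 := P3Psi_summable hM ψ (D := B / nr j.1) (A := Apar B / nr j.2.2 ^ 6) (by positivity)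
    (by positivity)
  have h2 := summable_Sm (polyB_rc hM (1 : Chr M) 1) (X := Xpar B / nr j.2.1) (by positivity) 0
  have e1 := h1.of_norm.tsum_prod
  simp only [tsum_mul_left] at e1
  rw [MT]
  simp only [Th]
  rw [← e1, Pln, tsum_mul_tsum_of_summable_norm h2 h1, Psi3]
  let e : T3 ≃ T3 := ⟨fun v => (v.2.1, v.1, v.2.2), fun v => (v.2.1, v.1, v.2.2),
    fun _ => rfl, fun _ => rfl⟩
  rw [← e.tsum_eq]
  refine tsum_congr ?_
  rintro ⟨x, n, c⟩
  have a1 : nr (j.1 * n) / B = nr n / (B / nr j.1) := by rw [nr_mul]; field_simp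
  have a2 : nr (j.2.1 * x) / Xpar B = nr x / (Xpar B / nr j.2.1) := by rw [nr_mul]; field_simp
  have a3 : nr ((j.2.2 * c) ^ 6) * B / (Apar B * nr (j.1 * n)) =
      nr c ^ 6 / (Apar B / nr j.2.2 ^ 6 * (nr n / (B / nr j.1))) := by
    rw [nr_pow, nr_mul, nr_mul]
    rcases eq_or_ne (nr n) 0 with h | h
    · simp [h]
    · field_simp
  show g3 ψ (n, x, c) * K3 B (j * (n, x, c)) = _
  simp only [g3, K3, Phi, Prod.fst_mul, Prod.snd_mul, a1, a2, a3]
  ring

theorem P3Psi_princ : Princ (1 : Chr M) 1 := by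
  intro n hn hc
  rw [mul_one] at hc
  rw [rc, if_pos hn, sym_one_right, map_one, mul_one, ev]
  obtain ⟨a, b, hab⟩ := hc
  refine MulChar.one_apply (IsUnit.of_mul_eq_one (Ideal.Quotient.mk _ a) ?_)
  rw [← map_mul, ← map_one (Ideal.Quotient.mk _), Ideal.Quotient.eq, Ideal.mem_span_singleton]
  exact ⟨-b, by rw [← hab]; ring⟩

theorem P3Psi_core {P P₀ S S₀ : ℂ} {c₁ c₀ c₂ c₃ u v δ : ℝ} (hδ : δ ≤ 1) (hδ0 : 0 ≤ δ) (hc₁ : 0 ≤ c₁)
    (hc₀ : 0 ≤ c₀) (hc₂ : 0 ≤ c₂) (hc₃ : 0 ≤ c₃) (hu : 0 ≤ u) (hv : 0 ≤ v)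
    (h1 : ‖P - P₀‖ ≤ c₁ * u * δ) (h0 : ‖P₀‖ ≤ c₀ * u) (h2 : ‖S - S₀‖ ≤ c₂ * v * δ)
    (h3 : ‖S₀‖ ≤ c₃ * v) :
    ‖P * S‖ ≤ (c₁ + c₀) * (c₂ + c₃) * (u * v) ∧
      ‖P * S - P₀ * S₀‖ ≤ (c₁ + c₀) * (c₂ + c₃) * (u * v * δ) := by
  have hS : ‖S‖ ≤ (c₂ + c₃) * v := by
    calc ‖S‖ ≤ ‖S - S₀‖ + ‖S₀‖ := norm_le_norm_sub_add _ _
      _ ≤ c₂ * v * 1 + c₃ * v := add_le_add (h2.trans (by gcongr)) h3
      _ = _ := by ring
  have hP : ‖P‖ ≤ (c₁ + c₀) * u := by
    calc ‖P‖ ≤ ‖P - P₀‖ + ‖P₀‖ := norm_le_norm_sub_add _ _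
      _ ≤ c₁ * u * 1 + c₀ * u := add_le_add (h1.trans (by gcongr)) h0
      _ = _ := by ring
  constructor
  · rw [norm_mul]
    calc _ ≤ (c₁ + c₀) * u * ((c₂ + c₃) * v) := by gcongr
      _ = _ := by ring
  · calc _ = ‖(P - P₀) * S + P₀ * (S - S₀)‖ := by congr 1; ring
      _ ≤ ‖P - P₀‖ * ‖S‖ + ‖P₀‖ * ‖S - S₀‖ := by
        rw [← norm_mul, ← norm_mul]; exact norm_add_le _ _
      _ ≤ c₁ * u * δ * ((c₂ + c₃) * v) + c₀ * u * ((c₂ + c₃) * v * δ) := by
        have : ‖S - S₀‖ ≤ (c₂ + c₃) * v * δ := h2.trans (by gcongr; linarith)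
        gcongr
      _ = _ := by ring

theorem P3Psi_div {x n σ : ℝ} (hx : 0 ≤ x) (hn : 1 ≤ n) (hσ : 7 / 8 ≤ σ) :
    (x / n) ^ σ ≤ x ^ σ * n ^ (-(7 / 8) : ℝ) := by
  rw [Real.div_rpow hx (by linarith), div_eq_mul_inv, ← Real.rpow_neg (by linarith)]
  exact mul_le_mul_of_nonneg_left (Real.rpow_le_rpow_of_exponent_le hn (by linarith)) (by positivity)

theorem P3Psi_div6 {x n : ℝ} (hx : 0 ≤ x) (hn : 0 ≤ n) (σ : ℝ) :
    (x / n ^ 6) ^ σ = x ^ σ * n ^ (-(6 * σ)) := by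
  rw [Real.div_rpow hx (by positivity), div_eq_mul_inv, ← Real.rpow_natCast_mul hn,
    ← Real.rpow_neg hn]
  norm_num

theorem Psi3_bounds (hM : Adm M) : ∃ κ : ℂ, κ ≠ 0 ∧ ∀ β : ℝ, 7 / 8 ≤ β → β ≤ 1 → ZeroFree β →
    ∀ (ψ : Chr M) (ε : ℝ), 0 < ε → ∃ C : ℝ, 0 < C ∧ ∀ (B : ℝ) (j : T3), 1 ≤ B → Pr3 j →
      ‖Psi3 ψ B j‖ ≤ C * (Apar B ^ (1 / 6 : ℝ) * Xpar B) * B ^ (β + ε) * wt j ∧
      ‖Psi3 ψ B j - κ * (Apar B ^ (1 / 6 : ℝ) * Xpar B : ℝ) *
          (Mob ψ 1 (B / nr j.1) (1 / 6) / ((nr j.2.1 * nr j.2.2 : ℝ) : ℂ))‖ ≤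
        C * (Apar B ^ (1 / 6 : ℝ) * Xpar B) * B ^ (β + ε - 1 / 60) * wt j := by
  obtain ⟨C₁, J₁, hC₁, h₁⟩ := Pln_exc hM (θ := 7 / 8) (ε := 1) (by norm_num) (by norm_num) one_pos
  obtain ⟨m, -, hm, h₁⟩ := h₁ (1 : Chr M) 1 one_ne_zero fun p hp => by simp at hp
  obtain ⟨κ, hκ, h₂⟩ := MT_approx hM
  refine ⟨m * Wm (1 + 0) * κ, mul_ne_zero (mul_ne_zero (hm P3Psi_princ) (Wm_ne_zero _)) hκ,
    fun β hβ hβ1 hZ ψ ε hε => ?_⟩
  obtain ⟨C₂, hC₂, h₂⟩ := h₂ β (by linarith) hβ1 hZ ψ ε hε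
  obtain ⟨C₃, J₃, hC₃, h₃⟩ := Mob_of_zeroFree (by linarith) hβ1 hZ hM ψ hε
  refine ⟨(C₁ + ‖m‖ * ‖Wm (1 + 0)‖) * (C₂ + ‖κ‖ * C₃), by positivity, fun B j hB hj => ?_⟩
  have hB0 : 0 < B := by linarith
  have n1 := one_le_nr hj.1.ne_zero
  have n2 := one_le_nr hj.2.1.ne_zero
  have n3 := one_le_nr hj.2.2.ne_zero
  have hA : 0 < Apar B := by unfold Apar; positivity
  have hX : 0 < Xpar B := by unfold Xpar; positivity
  have k1 := h₁ (Xpar B / nr j.2.1) 0 (by positivity) (by simp)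
  have k2 := h₂ (B / nr j.1) (Apar B / nr j.2.2 ^ 6) (by positivity) (by positivity)
  have k3 := h₃ (B / nr j.1) (1 / 6) (by positivity) (by norm_num)
  have i6 : (1 / 6 : ℂ).im = 0 := by norm_num
  simp only [nr, nm_one, Nat.cast_one, Real.one_rpow, Complex.zero_im, abs_zero, add_zero, one_pow,
    mul_one, i6] at k1 k3
  have d1 := P3Psi_div hB0.le n1 (σ := β + ε) (by linarith)
  have d2 := P3Psi_div hX.le n2 (σ := 7 / 8) le_rfl
  have d2' := P3Psi_div hX.le n2 (σ := 1) (by norm_num)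
  rw [Real.rpow_one, Real.rpow_one] at d2'
  have x1 : Xpar B ^ (7 / 8 : ℝ) ≤ Xpar B * B ^ (-(1 / 60) : ℝ) := by
    rw [Xpar, ← Real.rpow_mul hB0.le, ← Real.rpow_add hB0]
    exact Real.rpow_le_rpow_of_exponent_le hB (by norm_num)
  have x2 : Apar B ^ (7 / 48 : ℝ) ≤ Apar B ^ (1 / 6 : ℝ) * B ^ (-(1 / 60) : ℝ) := by
    rw [Apar, ← Real.rpow_mul hB0.le, ← Real.rpow_mul hB0.le, ← Real.rpow_add hB0]
    exact Real.rpow_le_rpow_of_exponent_le hB (by norm_num)
  have x3 : nr j.2.2 ^ (-(6 * (1 / 6)) : ℝ) ≤ nr j.2.2 ^ (-(7 / 8) : ℝ) :=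
    Real.rpow_le_rpow_of_exponent_le n3 (by norm_num)
  have x4 : (-(6 * (7 / 48)) : ℝ) = -(7 / 8) := by norm_num
  have x5 : nr j.2.2 ^ (-(6 * (1 / 6)) : ℝ) = (nr j.2.2)⁻¹ := by
    rw [← Real.rpow_neg_one]; norm_num
  rw [P3Psi_div6 hA.le (by positivity), P3Psi_div6 hA.le (by positivity), x4] at k2
  obtain ⟨r1, r2⟩ := P3Psi_core (δ := B ^ (-(1 / 60) : ℝ)) (c₁ := C₁) (c₀ := ‖m‖ * ‖Wm (1 + 0)‖)
    (c₂ := C₂) (c₃ := ‖κ‖ * C₃) (u := Xpar B * nr j.2.1 ^ (-(7 / 8) : ℝ))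
    (v := Apar B ^ (1 / 6 : ℝ) * nr j.2.2 ^ (-(7 / 8) : ℝ) * (B ^ (β + ε) * nr j.1 ^ (-(7 / 8) : ℝ)))
    (Real.rpow_le_one_of_one_le_of_nonpos hB (by norm_num)) (by positivity) hC₁.le (by positivity)
    hC₂.le (by positivity) (by positivity) (by positivity)
    (k1.trans (by
      calc _ ≤ C₁ * (Xpar B * B ^ (-(1 / 60) : ℝ) * nr j.2.1 ^ (-(7 / 8) : ℝ)) := by
            gcongr; exact d2.trans (by gcongr)
        _ = _ := by ring))
    (by
      rw [norm_mul, norm_mul, Complex.norm_real, Real.norm_of_nonneg (by positivity), add_zero,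
        mul_right_comm]
      gcongr)
    (k2.trans (by
      calc _ ≤ C₂ * (Apar B ^ (1 / 6 : ℝ) * B ^ (-(1 / 60) : ℝ) * nr j.2.2 ^ (-(7 / 8) : ℝ)) *
            (B ^ (β + ε) * nr j.1 ^ (-(7 / 8) : ℝ)) := by gcongr
        _ = _ := by ring))
    (by
      rw [norm_mul, norm_mul, Complex.norm_real, Real.norm_of_nonneg (by positivity)]
      calc _ ≤ ‖κ‖ * (Apar B ^ (1 / 6 : ℝ) * nr j.2.2 ^ (-(7 / 8) : ℝ)) *
            (C₃ * (B ^ (β + ε) * nr j.1 ^ (-(7 / 8) : ℝ))) := by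
            gcongr; exact k3.trans (by gcongr)
        _ = _ := by ring)
  have hw : wt j = nr j.1 ^ (-(7 / 8) : ℝ) * nr j.2.1 ^ (-(7 / 8) : ℝ) * nr j.2.2 ^ (-(7 / 8) : ℝ) := by
    rw [wt, nT, nr_mul, nr_mul, Real.mul_rpow (by positivity) (by positivity),
      Real.mul_rpow (by positivity) (by positivity)]
  rw [Psi3_eq hM ψ hB0 hj, hw, sub_eq_add_neg (β + ε), Real.rpow_add hB0 (β + ε)]
  refine ⟨r1.trans_eq (by ring), le_of_eq_of_le ?_ (r2.trans_eq (by ring))⟩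
  congr 2
  rw [x5, add_zero]
  push_cast
  ring

end Crest.Agent.R17.P3
end
end

-- ▼ part PVc/R17/P3Main
section

/-!
# Row 17, principal rows: assembly (owner helper81)
-/

set_option autoImplicit false

noncomputable section

namespace Crest.Agent.R17.P3

open scoped ComplexConjugate

variable {M p : O}

/-- The deconvolved coefficients. -/
def b3 (ψ : Chr M) : T3 → ℂ := conv (f3 ψ) (gi3 ψ)

/-- The size of the local factors. -/
def eps3 (p : O) : ℝ := 20 * nr p ^ (-(13 / 8) : ℝ)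

/-- The sum of the local sizes. -/
def E3 : ℝ := 20 * ∑' n : O, nr n ^ (-(13 / 8) : ℝ)

theorem mul3_b3 (hM : Adm M) (ψ : Chr M) : Mul3 M (b3 ψ) := (mul3_f3 hM ψ).conv (mul3_gi3 ψ)

theorem lb_b3 (hM : Adm M) (ψ : Chr M) (hp : GP M p) :
    LB p (tw fun v => b3 ψ v - del v) (eps3 p) := by
  have h := LB.conv hp.1 hp.2.1 (loc_f hM ψ hp) (loc_gi hM ψ hp)
  rw [conv_tw] at h
  have e : (conv (fun v => f3 ψ v - g3 ψ v) (gi3 ψ)) = fun v => b3 ψ v - del v := by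
    funext v
    rw [conv_sub, conv_comm (g3 ψ), conv_gi_g, b3]
  rw [e] at h
  exact SB.mono h (fun _ => le_rfl) (by rw [eps3]; linarith)

theorem LB.twist {b χ : T3 → ℂ} {e : ℝ} (hp : Primary p) (h : LB p (tw fun v => b v - del v) e)
    (h1 : χ 1 = 1) (hχ : ∀ v, Pr3 v → ‖χ v‖ ≤ wt v) : LB p (fun v => b v * χ v - del v) e := by
  refine SB.mono h (fun l => ?_) le_rfl
  have e1 : b (pp p l) * χ (pp p l) - del (pp p l) = (b (pp p l) - del (pp p l)) * χ (pp p l) := by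
    unfold del
    split_ifs with h0
    · rw [h0, h1]; ring
    · ring
  simp only [norm_tw]
  rw [e1, norm_mul]
  exact mul_le_mul_of_nonneg_left (hχ _ (pr3_pp hp l)) (norm_nonneg _)

theorem sbp_eps3 (M : O) : SBP M eps3 E3 := fun S _ => by
  simp only [eps3, E3, ← Finset.mul_sum]
  exact mul_le_mul_of_nonneg_left ((summable_nr_rpow (by norm_num)).sum_le_tsum S
    fun _ _ => by positivity) (by norm_num)

theorem eps3_lt_one (hM : Adm M) (hp : GP M p) : eps3 p < 1 := by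
  have h7 := hp.seven_le hM
  have h1 : (20 : ℝ) < 7 ^ (13 / 8 : ℝ) := by
    refine lt_of_pow_lt_pow_left₀ 8 (by positivity) ?_
    rw [← Real.rpow_natCast (7 ^ (13 / 8 : ℝ)), ← Real.rpow_mul (by norm_num)]
    norm_num
  have h2 : (7 : ℝ) ^ (13 / 8 : ℝ) ≤ nr p ^ (13 / 8 : ℝ) :=
    Real.rpow_le_rpow (by norm_num) h7 (by norm_num)
  rw [eps3, Real.rpow_neg (by positivity), ← div_eq_mul_inv, div_lt_one (by positivity)]
  linarith

theorem norm_wt (v : T3) : ‖(wt v : ℂ)‖ = wt v := by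
  rw [Complex.norm_real, Real.norm_of_nonneg (wt_nonneg v)]

theorem lb_tw_b3 (hM : Adm M) (ψ : Chr M) (hp : GP M p) :
    LB p (fun v => tw (b3 ψ) v - del v) (eps3 p) :=
  (lb_b3 hM ψ hp).twist hp.2.1 (χ := fun v => (wt v : ℂ)) (by rw [wt_one, Complex.ofReal_one])
    fun v _ => (norm_wt v).le

theorem sb_b3 (hM : Adm M) (ψ : Chr M) : SB (fun v => ‖b3 ψ v‖ * wt v) (Real.exp E3) := by
  have := euler_le (mul3_b3 hM ψ).tw (fun p hp => lb_tw_b3 hM ψ hp) (sbp_eps3 M)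
  simpa only [norm_tw] using this

theorem sb_diff (hM : Adm M) (ψ : Chr M) {ι : Type} [Fintype ι] [DecidableEq ι] {q : ι → O}
    (hq : ∀ i, GP M (q i)) (hinj : Function.Injective q) {R : ℝ} (hR : 0 < R)
    (hqR : ∀ i, R ≤ nr (q i)) :
    SB (fun v => ‖conv (fI ψ q Finset.univ) (gi3 ψ) v - b3 ψ v‖ * wt v)
      (Real.exp E3 * (Real.exp (Fintype.card ι * (40 * R ^ (-(3 / 4) : ℝ))) - 1)) := by
  classical
  have hq' : ∀ i ∈ (Finset.univ : Finset ι), GP M (q i) := fun i _ => hq i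
  have hinj' : Set.InjOn q (Finset.univ : Finset ι) := hinj.injOn
  have hc : 0 ≤ 40 * R ^ (-(3 / 4) : ℝ) := by positivity
  have hm := ((mul3_fI hM ψ hq' hinj').conv (mul3_gi3 ψ)).tw
  have e : (fun v => tw (conv (fI ψ q Finset.univ) (gi3 ψ)) v - tw (b3 ψ) v) =
      conv (tw fun v => fI ψ q Finset.univ v - f3 ψ v) (tw (gi3 ψ)) := by
    rw [conv_tw]
    funext v
    simp only [tw, conv_sub, b3]
    ring
  have key := euler_diff (mul3_b3 hM ψ).tw hm (fun p hp => lb_tw_b3 hM ψ hp) (sbp_eps3 M)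
    (δ := fun p => ∑ i, if q i = p then 40 * R ^ (-(3 / 4) : ℝ) else 0)
    (Δ := Fintype.card ι * (40 * R ^ (-(3 / 4) : ℝ))) (fun p hp => ?_) (fun S _ => ?_)
  · refine SB.mono key (fun v => le_of_eq ?_) le_rfl
    rw [tw, tw, ← sub_mul, norm_mul, norm_wt]
  · rw [e]
    by_cases h : ∃ i, q i = p
    · obtain ⟨i, rfl⟩ := h
      have h1 : LB (q i) (tw fun v => fI ψ q Finset.univ v - f3 ψ v)
          (20 * nr (q i) ^ (-(3 / 4) : ℝ)) := by
        refine SB.mono (loc_T hM ψ hp) (fun l => le_of_eq ?_) le_rfl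
        simp only [tw, fI_pp_self hM ψ hq' hinj' (Finset.mem_univ i)]
      refine SB.mono (LB.conv hp.1 hp.2.1 h1 (loc_gi hM ψ hp)) (fun _ => le_rfl) ?_
      have h2 : nr (q i) ^ (-(3 / 4) : ℝ) ≤ R ^ (-(3 / 4) : ℝ) :=
        Real.rpow_le_rpow_of_nonpos hR (hqR i) (by norm_num)
      refine le_trans ?_ (Finset.single_le_sum (f := fun j => if q j = q i then
        40 * R ^ (-(3 / 4) : ℝ) else 0) (fun j _ => by split_ifs <;> simp [hc]) (Finset.mem_univ i))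
      rw [if_pos rfl]
      linarith
    · have h1 : LB p (tw fun v => fI ψ q Finset.univ v - f3 ψ v) 0 := fun S => by
        simp [tw, fI_pp_of_ne hM ψ hq' hinj' hp fun i _ hi => h ⟨i, hi⟩]
      refine SB.mono (LB.conv hp.1 hp.2.1 h1 (loc_gi hM ψ hp)) (fun _ => le_rfl) ?_
      rw [zero_mul]
      exact Finset.sum_nonneg fun j _ => by split_ifs <;> simp [hc]
  · rw [Finset.sum_comm]
    refine (Finset.sum_le_card_nsmul _ _ (40 * R ^ (-(3 / 4) : ℝ)) fun i _ => ?_).trans ?_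
    · rw [Finset.sum_ite_eq]
      split_ifs <;> simp [hc]
    · rw [nsmul_eq_mul, Finset.card_univ]

theorem pair_le {b u : T3 → ℂ} {c C : ℝ} (hb : Sup b) (h : SB (fun v => ‖b v‖ * wt v) c)
    (hC : 0 ≤ C) (hu : ∀ v, Pr3 v → ‖u v‖ ≤ C * wt v) :
    Summable (fun v => b v * u v) ∧ ‖∑' v, b v * u v‖ ≤ C * c := by
  have h1 : SB (fun v => ‖b v * u v‖) (C * c) := by
    refine SB.mono (h.const_mul hC) (fun v => ?_) le_rfl
    by_cases h0 : b v = 0
    · simp [h0]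
    · rw [norm_mul, mul_left_comm]
      exact mul_le_mul_of_nonneg_left (hu v (hb v h0)) (norm_nonneg _)
  have h2 := h1.summable fun _ => norm_nonneg _
  exact ⟨h2.of_norm, (norm_tsum_le_tsum_norm h2).trans (h1.tsum_le fun _ => norm_nonneg _)⟩

theorem bbOf_tsum {b : T3 → ℂ} {u : O → ℂ}
    (h : Summable fun v : T3 => b v * (u v.1 / ((nr v.2.1 * nr v.2.2 : ℝ) : ℂ))) :
    ∑' j, bbOf b j * u j = ∑' v : T3, b v * (u v.1 / ((nr v.2.1 * nr v.2.2 : ℝ) : ℂ)) := by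
  rw [h.tsum_prod]
  refine tsum_congr fun j => ?_
  rw [bbOf, ← tsum_mul_right]
  exact tsum_congr fun y => by ring

theorem norm_chi_le {s : ℂ} (hs : 7 / 8 ≤ s.re) {v : T3} (hv : Pr3 v) :
    ‖(nr v.1 : ℂ) ^ (-s) / ((nr v.2.1 * nr v.2.2 : ℝ) : ℂ)‖ ≤ wt v := by
  have h1 := one_le_nr hv.1.ne_zero
  have h2 := one_le_nr hv.2.1.ne_zero
  have h3 := one_le_nr hv.2.2.ne_zero
  have h4 : 1 ≤ nr v.2.1 * nr v.2.2 := one_le_mul_of_one_le_of_one_le h2 h3
  rw [norm_div, Complex.norm_cpow_eq_rpow_re_of_pos (by positivity), Complex.norm_real,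
    Real.norm_of_nonneg (by positivity), wt, nT, mul_assoc, nr_mul, nr_mul,
    Real.mul_rpow (by positivity) (by positivity), div_eq_mul_inv, ← Real.rpow_neg_one]
  refine mul_le_mul (Real.rpow_le_rpow_of_exponent_le h1 (by simpa using hs))
    (Real.rpow_le_rpow_of_exponent_le h4 (by norm_num)) (by positivity) (by positivity)

theorem bb_zero (hM : Adm M) (ψ : Chr M) : bbOf (b3 ψ) 0 = 0 := by
  have : ∀ y : O × O, b3 ψ (0, y) = 0 := fun y => by
    by_contra h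
    exact ((mul3_b3 hM ψ).sup _ h).1.ne_zero rfl
  simp [bbOf, this]

theorem bb_summable (hM : Adm M) (ψ : Chr M) :
    Summable fun j => ‖bbOf (b3 ψ) j‖ * nr j ^ (-(7 / 8) : ℝ) := by
  have h := (sb_b3 hM ψ).summable fun v => mul_nonneg (norm_nonneg _) (wt_nonneg v)
  refine Summable.of_nonneg_of_le (fun j => by positivity) (fun j => ?_) h.prod
  have e : ‖bbOf (b3 ψ) j‖ * nr j ^ (-(7 / 8) : ℝ) =
      ‖bbOf (b3 ψ) j * (nr j : ℂ) ^ (-((7 / 8 : ℝ) : ℂ))‖ := by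
    rw [norm_mul, ← Complex.ofReal_neg, ← Complex.ofReal_cpow (Nat.cast_nonneg _),
      Complex.norm_real, Real.norm_of_nonneg (by positivity)]
  rw [e, bbOf, ← tsum_mul_right]
  refine tsum_of_norm_bounded (h.prod_factor j).hasSum fun y => ?_
  by_cases h0 : b3 ψ (j, y) = 0
  · simp [h0]
  · rw [div_mul_eq_mul_div, mul_div_assoc, norm_mul]
    exact mul_le_mul_of_nonneg_left
      (norm_chi_le (s := ((7 / 8 : ℝ) : ℂ)) (v := (j, y)) (by rw [Complex.ofReal_re])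
        ((mul3_b3 hM ψ).sup _ h0)) (norm_nonneg _)

theorem bb_ne (hM : Adm M) (ψ : Chr M) {s : ℂ} (hs : 7 / 8 < s.re) :
    ∑' j : O, bbOf (b3 ψ) j * (nr j : ℂ) ^ (-s) ≠ 0 := by
  have h1 : nr (1 : O) = 1 := by rw [nr, BasicA.nm_of_isUnit isUnit_one, Nat.cast_one]
  have hone : (nr (1 : T3).1 : ℂ) ^ (-s) / ((nr (1 : T3).2.1 * nr (1 : T3).2.2 : ℝ) : ℂ) = 1 := by
    simp only [Prod.fst_one, Prod.snd_one, h1]
    simp
  have h2 := (pair_le (u := fun v => (nr v.1 : ℂ) ^ (-s) / ((nr v.2.1 * nr v.2.2 : ℝ) : ℂ))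
    (mul3_b3 hM ψ).sup (sb_b3 hM ψ) zero_le_one fun v hv => by
      rw [one_mul]; exact norm_chi_le hs.le hv).1
  rw [bbOf_tsum (u := fun j => (nr j : ℂ) ^ (-s)) h2]
  refine euler_ne ((mul3_b3 hM ψ).twist hone fun u v _ _ => ?_)
    (fun p hp => (lb_b3 hM ψ hp).twist hp.2.1 hone fun v hv => norm_chi_le hs.le hv) (sbp_eps3 M)
    fun p hp => eps3_lt_one hM hp
  simp only [Prod.fst_mul, Prod.snd_mul, nr_mul, Complex.ofReal_mul]
  rw [Complex.mul_cpow_ofReal_nonneg (Nat.cast_nonneg _) (Nat.cast_nonneg _), div_mul_div_comm]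
  congr 1
  ring

theorem exp_sub_one_le {t T : ℝ} (ht : 0 ≤ t) (hT : t ≤ T) :
    Real.exp t - 1 ≤ t * Real.exp T := by
  have h1 := Real.add_one_le_exp (-t)
  have h2 : Real.exp (-t) * Real.exp t = 1 := by rw [← Real.exp_add]; simp
  have h3 := Real.exp_le_exp.2 hT
  nlinarith [Real.exp_pos t]

open Classical in
theorem main_est (K₀ : ℕ) (hK : 1 ≤ K₀) : ∃ m : ℝ, 0 < m ∧ ∀ β : ℝ, 7 / 8 ≤ β → β ≤ 1 →
    ZeroFree β → ∀ {M : O}, Adm M → ∀ ψ : Chr M, ∃ (κ : ℂ) (C : ℝ), κ ≠ 0 ∧ ∀ B : ℝ, 1 ≤ B →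
      ‖∑' a : O, (if Exc M a then xiR M a * Ia ψ K₀ B a else 0) -
        κ * (Apar B ^ (1 / 6 : ℝ) * Xpar B : ℝ) * Pt M K₀ B *
          ∑' j : O, bbOf (b3 ψ) j * Mob ψ 1 (B / nr j) (1 / 6)‖ ≤ C * NrmB B * B ^ (β - m) := by
  have hK0 : (0 : ℝ) < K₀ := by exact_mod_cast hK
  set m : ℝ := min (1 / 60) (3 / (32 * (K₀ : ℝ))) / 2 with hm
  have hm0 : 0 < m := by positivity
  have hm1 : 2 * m ≤ 1 / 60 := by rw [hm]; linarith [min_le_left (1 / 60) (3 / (32 * (K₀ : ℝ)))]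
  have hm2 : 2 * m ≤ 3 / (32 * (K₀ : ℝ)) := by
    rw [hm]; linarith [min_le_right (1 / 60) (3 / (32 * (K₀ : ℝ)))]
  refine ⟨m, hm0, fun β hβ hβ1 hZ M hM ψ => ?_⟩
  obtain ⟨κ, hκ, hP⟩ := Psi3_bounds hM
  obtain ⟨C, hC, hP⟩ := hP β hβ hβ1 hZ ψ m hm0
  obtain ⟨Cw, hCw, hw⟩ := sum_cw_le 0
  refine ⟨κ, Cw ^ K₀ * (C * (Real.exp E3 * (K₀ * 40 * Real.exp (K₀ * 40)) + Real.exp E3)), hκ,
    fun B hB => ?_⟩
  have hB0 : 0 < B := one_pos.trans_le hB
  set N : ℝ := Apar B ^ (1 / 6 : ℝ) * Xpar B with hN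
  have hN0 : 0 < N := by rw [hN]; unfold Apar Xpar; positivity
  obtain ⟨CK, hCK⟩ := norm_K3_le hB0
  have hb := (mul3_b3 hM ψ).sup
  -- the two pairings with `b3`
  have p1 := pair_le hb (sb_b3 hM ψ) (by positivity) fun v hv => (hP B v hB hv).1
  have p2 := pair_le hb (sb_b3 hM ψ) (by positivity) fun v hv => (hP B v hB hv).2
  have p3 : Summable fun v : T3 => b3 ψ v * (κ * (N : ℂ) * Mob ψ 1 (B / nr v.1) (1 / 6) /
      ((nr v.2.1 * nr v.2.2 : ℝ) : ℂ)) := (p1.1.sub p2.1).congr fun v => by ring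
  have e0 : κ * (N : ℂ) * ∑' j : O, bbOf (b3 ψ) j * Mob ψ 1 (B / nr j) (1 / 6) =
      ∑' v, b3 ψ v * Psi3 ψ B v - ∑' v, b3 ψ v * (Psi3 ψ B v - κ * (N : ℂ) *
        (Mob ψ 1 (B / nr v.1) (1 / 6) / ((nr v.2.1 * nr v.2.2 : ℝ) : ℂ))) := by
    rw [← p1.1.tsum_sub p2.1, ← tsum_mul_left]
    refine Eq.trans (tsum_congr fun j => ?_) ((bbOf_tsum (u := fun j => κ * (N : ℂ) *
      Mob ψ 1 (B / nr j) (1 / 6)) p3).trans (tsum_congr fun v => by ring))
    ring
  have key : ∀ q ∈ Fintype.piFinset (fun i : Fin K₀ => Pset M K₀ B i),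
      ‖∑' v : T3, fI ψ q Finset.univ v * K3 B v -
        κ * (N : ℂ) * ∑' j : O, bbOf (b3 ψ) j * Mob ψ 1 (B / nr j) (1 / 6)‖ ≤
      C * (Real.exp E3 * (K₀ * 40 * Real.exp (K₀ * 40)) + Real.exp E3) * N * B ^ (β - m) := by
    intro q hq
    rw [Fintype.mem_piFinset] at hq
    have hq1 := fun i => (mem_Pset hB0).1 (hq i)
    have hg : ∀ i, GP M (q i) := fun i => ⟨(hq1 i).1, (hq1 i).2.1, (hq1 i).2.2.1⟩
    have hinj : Function.Injective q := fun i j hij => by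
      by_contra hne
      exact Finset.disjoint_left.1 (disjoint_Pset M K₀ hB fun h => hne (Fin.ext h)) (hq i)
        (hij ▸ hq j)
    have hR : ∀ i, B ^ (1 / (8 * (K₀ : ℝ))) ≤ nr (q i) := fun i =>
      (Real.rpow_le_rpow_of_exponent_le hB (ell_bounds i.2).1).trans (hq1 i).2.2.2.1.le
    have hd := sb_diff hM ψ hg hinj (by positivity) hR
    have hmI := mul3_fI hM ψ (I := Finset.univ) (fun i _ => hg i) hinj.injOn
    obtain ⟨H, hH⟩ := norm_fI_le hM ψ (q := q) (I := Finset.univ) fun i _ => (hg i).1.ne_zero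
    have hsup : Sup fun v => conv (fI ψ q Finset.univ) (gi3 ψ) v - b3 ψ v := fun v hv => by
      by_contra h
      have h1 : conv (fI ψ q Finset.univ) (gi3 ψ) v = 0 := by
        by_contra h'; exact h ((hmI.conv (mul3_gi3 ψ)).sup v h')
      have h2 : b3 ψ v = 0 := by by_contra h'; exact h (hb v h')
      exact hv (by simp only [h1, h2, sub_zero])
    have p4 := pair_le hsup hd (by positivity) fun v hv => (hP B v hB hv).1
    have e1 : ∑' v : T3, fI ψ q Finset.univ v * K3 B v =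
        ∑' v, (conv (fI ψ q Finset.univ) (gi3 ψ) v - b3 ψ v) * Psi3 ψ B v +
          ∑' v, b3 ψ v * Psi3 ψ B v := by
      rw [deconv hmI.sup (mul3_g3 ψ).sup (mul3_gi3 ψ).sup (conv_gi_g ψ) hH (norm_g3_le hM ψ)
        (norm_gi3_le hM ψ) hCK, ← p4.1.tsum_add p1.1]
      exact tsum_congr fun v => by rw [Psi3]; ring
    rw [e0, e1, add_comm, add_sub_sub_cancel]
    refine (norm_add_le _ _).trans ((add_le_add p4.2 p2.2).trans ?_)
    have t1 : (B ^ (1 / (8 * (K₀ : ℝ)))) ^ (-(3 / 4) : ℝ) = B ^ (-(3 / (32 * (K₀ : ℝ)))) := by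
      rw [← Real.rpow_mul hB0.le]
      congr 1
      field_simp
      ring
    have t2 : B ^ (-(3 / (32 * (K₀ : ℝ)))) ≤ 1 :=
      Real.rpow_le_one_of_one_le_of_nonpos hB (neg_nonpos.2 (by positivity))
    have t3 := exp_sub_one_le (t := K₀ * (40 * B ^ (-(3 / (32 * (K₀ : ℝ)))))) (T := K₀ * 40)
      (by positivity) (by nlinarith)
    have t4 : B ^ (β + m) * B ^ (-(3 / (32 * (K₀ : ℝ)))) ≤ B ^ (β - m) := by
      rw [← Real.rpow_add hB0]
      exact Real.rpow_le_rpow_of_exponent_le hB (by linarith)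
    have t5 : B ^ (β + m - 1 / 60) ≤ B ^ (β - m) :=
      Real.rpow_le_rpow_of_exponent_le hB (by linarith)
    rw [Fintype.card_fin, t1]
    calc _ ≤ C * N * B ^ (β + m) * (Real.exp E3 * (K₀ * (40 * B ^ (-(3 / (32 * (K₀ : ℝ))))) *
          Real.exp (K₀ * 40))) + C * N * B ^ (β - m) * Real.exp E3 := by gcongr
      _ = C * N * (Real.exp E3 * (K₀ * 40 * Real.exp (K₀ * 40))) *
          (B ^ (β + m) * B ^ (-(3 / (32 * (K₀ : ℝ))))) + C * N * B ^ (β - m) * Real.exp E3 := by ring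
      _ ≤ C * N * (Real.exp E3 * (K₀ * 40 * Real.exp (K₀ * 40))) * B ^ (β - m) +
          C * N * B ^ (β - m) * Real.exp E3 := by gcongr
      _ = _ := by ring
  have hsum : ∑ q ∈ Fintype.piFinset (fun i : Fin K₀ => Pset M K₀ B i),
      ‖∏ i : Fin K₀, cw K₀ B i (q i)‖ ≤ Cw ^ K₀ * B ^ (1 / 6 : ℝ) := by
    simp only [norm_prod]
    rw [← Finset.prod_univ_sum (fun i : Fin K₀ => Pset M K₀ B i) fun i p => ‖cw K₀ B i p‖,
      ← prod_Pw hK hB0]
    calc _ ≤ ∏ i : Fin K₀, Cw * Pw K₀ B i :=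
          Finset.prod_le_prod (fun i _ => Finset.sum_nonneg fun _ _ => norm_nonneg _) fun i _ => by
            simpa using (hw M K₀ i B 0 hB0 (by simp)).1
      _ = _ := by rw [Finset.prod_mul_distrib, Finset.prod_const, Finset.card_univ, Fintype.card_fin]
  rw [rows_eq hM ψ K₀ hB0, Pt, Finset.prod_univ_sum, mul_assoc (κ * (N : ℂ)), mul_left_comm,
    Finset.sum_mul, ← Finset.sum_sub_distrib]
  calc _ ≤ ∑ q ∈ Fintype.piFinset (fun i : Fin K₀ => Pset M K₀ B i),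
        ‖∏ i : Fin K₀, cw K₀ B i (q i)‖ * (C * (Real.exp E3 * (K₀ * 40 * Real.exp (K₀ * 40)) +
          Real.exp E3) * N * B ^ (β - m)) := by
        refine norm_sum_le_of_le _ fun q hq => ?_
        rw [← mul_sub, norm_mul]
        exact mul_le_mul_of_nonneg_left (key q hq) (norm_nonneg _)
    _ ≤ Cw ^ K₀ * B ^ (1 / 6 : ℝ) * (C * (Real.exp E3 * (K₀ * 40 * Real.exp (K₀ * 40)) +
          Real.exp E3) * N * B ^ (β - m)) := by
        rw [← Finset.sum_mul]
        gcongr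
    _ = _ := by rw [NrmB, ← hN]; ring

end Crest.Agent.R17.P3
end
end

-- ▼ part PVc/R17/PrincAuxM
section

/-!
# Row 17, module M15e: the Mellin argument (`mellin_contra`)
-/

set_option autoImplicit false

noncomputable section

namespace Crest.Agent.R17.PrM

open MeasureTheory Filter Topology

/-- the averaged smooth sum -/
def fm (b bb : O → ℂ) (B : ℝ) : ℂ := ∑' j : O, bb j * Sm b (B / nr j) (1 / 6)

theorem term_le (A : ℝ) (hA : 0 ≤ A) : ∃ C : ℝ, 0 < C ∧ ∀ (b bb : O → ℂ), PolyB b 1 0 → bb 0 = 0 →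
    ∀ B : ℝ, 0 < B → ∀ j : O, ‖bb j * Sm b (B / nr j) (1 / 6)‖ ≤
      C * B ^ (1 + A) * (‖bb j‖ * nr j ^ (-(7 / 8) : ℝ)) := by
  obtain ⟨C, hC, h⟩ := tsum_norm_Sm_le A 0 1 le_rfl
  refine ⟨C, hC, fun b bb hb h0 B hB j => ?_⟩
  rcases eq_or_ne j 0 with rfl | hj
  · simp [h0]
  have hN := nr_pos hj
  have hX : 0 < B / nr j := div_pos hB hN
  have h1 := (norm_tsum_le_tsum_norm (summable_Sm hb hX (1 / 6))).trans
    (h b 1 _ (1 / 6) hb hX (by norm_num))
  rw [mul_one, zero_add, abs_of_nonneg hA] at h1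
  have h2 : ‖Sm b (B / nr j) (1 / 6)‖ ≤ C * (B / nr j) ^ (1 + A) :=
    h1.trans (mul_le_mul_of_nonneg_left (min_le_right _ _) hC.le)
  have h3 : (B / nr j) ^ (1 + A) ≤ B ^ (1 + A) * nr j ^ (-(7 / 8) : ℝ) := by
    rw [Real.div_rpow hB.le hN.le, div_eq_mul_inv, ← Real.rpow_neg hN.le]
    exact mul_le_mul_of_nonneg_left
      (Real.rpow_le_rpow_of_exponent_le (one_le_nr hj) (by linarith)) (by positivity)
  rw [norm_mul]
  calc ‖bb j‖ * ‖Sm b (B / nr j) (1 / 6)‖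
      ≤ ‖bb j‖ * (C * (B ^ (1 + A) * nr j ^ (-(7 / 8) : ℝ))) :=
        mul_le_mul_of_nonneg_left (h2.trans (mul_le_mul_of_nonneg_left h3 hC.le)) (norm_nonneg _)
    _ = _ := by ring

theorem continuousOn_Sm {b : O → ℂ} (hb : PolyB b 1 0) :
    ContinuousOn (fun X : ℝ => Sm b X (1 / 6)) (Set.Ioi 0) := by
  have h0 := LZC.continuous_Sm hb 0
  have h1 : ContinuousOn (fun X : ℝ => Real.log X + (1 / 6 : ℝ) / 2) (Set.Ioi 0) :=
    (Real.continuousOn_log.mono fun x hx => ne_of_gt hx).add continuousOn_const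
  refine ((h0.comp_continuousOn h1).const_smul (Complex.exp (((1 / 6 : ℝ) : ℂ) ^ 2 / 4 +
    ((0 : ℝ) * Complex.I) * ((1 / 6 : ℝ) : ℂ) / 2))).congr fun X hX => ?_
  have h2 := Sm_shift b hb.1 hX ((0 : ℝ) * Complex.I) (1 / 6)
  have e : ((0 : ℝ) * Complex.I + ((1 / 6 : ℝ) : ℂ) : ℂ) = 1 / 6 := by simp
  rw [e] at h2
  simp only [Function.comp, Pi.smul_apply, smul_eq_mul, Real.exp_add, Real.exp_log hX]
  exact h2

variable {b bb : O → ℂ}

theorem continuousOn_fm (hb : PolyB b 1 0) (h0 : bb 0 = 0)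
    (hs : Summable fun j => ‖bb j‖ * nr j ^ (-(7 / 8) : ℝ)) :
    ContinuousOn (fm b bb) (Set.Ioi 0) := by
  obtain ⟨C, hC, h⟩ := term_le 0 le_rfl
  intro x hx
  have hx0 : (0 : ℝ) < x := hx
  have h1 : ContinuousOn (fm b bb) (Set.Ioo 0 (x + 1)) := by
    refine continuousOn_tsum (u := fun j => C * (x + 1) * (‖bb j‖ * nr j ^ (-(7 / 8) : ℝ)))
      (fun j => ?_) (hs.mul_left _) fun j y hy => ?_
    · rcases eq_or_ne j 0 with rfl | hj
      · simpa [h0] using continuousOn_const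
      · refine continuousOn_const.mul ((continuousOn_Sm hb).comp
          (continuous_id.div_const _).continuousOn fun y hy => ?_)
        exact div_pos hy.1 (nr_pos hj)
    · refine (h b bb hb h0 y hy.1 j).trans ?_
      rw [add_zero, Real.rpow_one]
      have := hy.2.le
      gcongr
  exact (h1.continuousAt (Ioo_mem_nhds hx0 (lt_add_one x))).continuousWithinAt

theorem differentiableAt_mellin (hb : PolyB b 1 0) (h0 : bb 0 = 0)
    (hs : Summable fun j => ‖bb j‖ * nr j ^ (-(7 / 8) : ℝ)) {θ C B₀ : ℝ}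
    (h : ∀ B ≥ B₀, ‖fm b bb B‖ ≤ C * B ^ θ) {z : ℂ} (hz : θ < z.re) :
    DifferentiableAt ℂ (fun z => mellin (fm b bb) (-z)) z := by
  refine DifferentiableAt.comp z (g := mellin (fm b bb)) ?_ differentiable_neg.differentiableAt
  refine mellin_differentiableAt_of_isBigO_rpow (a := -θ) (b := -(1 + |z.re|))
    ((continuousOn_fm hb h0 hs).locallyIntegrableOn measurableSet_Ioi) ?_ (by simpa using hz) ?_
    (by rw [Complex.neg_re]; linarith [le_abs_self z.re])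
  · refine Asymptotics.IsBigO.of_bound C ?_
    filter_upwards [eventually_ge_atTop B₀, eventually_gt_atTop 0] with X hX hX0
    rw [Real.norm_of_nonneg (by positivity), neg_neg]
    exact h X hX
  · obtain ⟨C', hC', h'⟩ := term_le |z.re| (abs_nonneg _)
    refine Asymptotics.IsBigO.of_bound (C' * ∑' j, ‖bb j‖ * nr j ^ (-(7 / 8) : ℝ)) ?_
    filter_upwards [self_mem_nhdsWithin] with X hX
    have hX0 : 0 < X := hX
    rw [Real.norm_of_nonneg (by positivity), neg_neg]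
    refine (tsum_of_norm_bounded (hs.mul_left (C' * X ^ (1 + |z.re|))).hasSum
      (h' b bb hb h0 X hX0)).trans_eq ?_
    rw [tsum_mul_left]
    ring

theorem mellin_exp (f : ℝ → ℂ) (s : ℂ) :
    mellin f (-s) = ∫ w : ℝ, Complex.exp (-s * w) * f (Real.exp w) := by
  have h := integral_image_eq_integral_abs_deriv_smul (s := Set.univ) (f := Real.exp)
    (f' := Real.exp) MeasurableSet.univ (fun x _ => (Real.hasDerivAt_exp x).hasDerivWithinAt)
    Real.exp_injective.injOn (fun X : ℝ => (X : ℂ) ^ (-s - 1) • f X)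
  rw [Set.image_univ, Real.range_exp, Measure.restrict_univ] at h
  rw [mellin, h]
  refine integral_congr_ae (Eventually.of_forall fun w => ?_)
  have h1 := LZC.cpow_eq (Real.exp_pos w) (s + 1)
  rw [Real.log_exp, neg_add'] at h1
  simp only [h1, abs_of_pos (Real.exp_pos w), smul_eq_mul, Complex.real_smul]
  rw [Complex.ofReal_exp, ← mul_assoc, ← Complex.exp_add]
  congr 2
  ring

theorem integral_hc_ne (z : ℂ) : ∫ y, LZC.hc z y ≠ 0 := by
  rw [LZC.hc_eq, integral_cexp_quadratic (by simp) z 0]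
  refine mul_ne_zero ?_ (Complex.exp_ne_zero _)
  simp [Real.pi_ne_zero]

theorem norm_coef_le (h0 : bb 0 = 0) {s : ℂ} (hs : 7 / 8 ≤ s.re) (j : O) :
    ‖bb j * (nr j : ℂ) ^ (-s)‖ ≤ ‖bb j‖ * nr j ^ (-(7 / 8) : ℝ) := by
  rcases eq_or_ne j 0 with rfl | hj
  · simp [h0]
  · rw [norm_mul, Complex.norm_cpow_eq_rpow_re_of_pos (nr_pos hj), Complex.neg_re]
    exact mul_le_mul_of_nonneg_left
      (Real.rpow_le_rpow_of_exponent_le (one_le_nr hj) (by linarith)) (norm_nonneg _)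

theorem mellin_fm (h0 : bb 0 = 0)
    (hs : Summable fun j => ‖bb j‖ * nr j ^ (-(7 / 8) : ℝ)) {s : ℂ} (hs' : 7 / 8 ≤ s.re)
    (hi : Integrable (LZC.Tt b s (1 / 6))) :
    mellin (fm b bb) (-s) =
      (∑' j : O, bb j * (nr j : ℂ) ^ (-s)) * ∫ w, LZC.Tt b s (1 / 6) w := by
  have e : ∀ w : ℝ, Complex.exp (-s * w) * fm b bb (Real.exp w) =
      ∑' j : O, bb j * (nr j : ℂ) ^ (-s) * LZC.Tt b s (1 / 6) (w - Real.log (nr j)) := by
    intro w
    rw [fm, ← tsum_mul_left]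
    refine tsum_congr fun j => ?_
    rcases eq_or_ne j 0 with rfl | hj
    · simp [h0]
    · rw [LZC.Tt, LZC.cpow_eq (nr_pos hj), Real.exp_sub, Real.exp_log (nr_pos hj)]
      have : Complex.exp (-s * w) = Complex.exp (-s * Real.log (nr j)) *
          Complex.exp (-s * ((w - Real.log (nr j) : ℝ) : ℂ)) := by
        rw [← Complex.exp_add]
        congr 1
        push_cast
        ring
      rw [this]
      ring
  rw [mellin_exp]
  simp only [e]
  rw [← integral_tsum_of_summable_integral_norm, ← tsum_mul_right]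
  · refine tsum_congr fun j => ?_
    rw [integral_const_mul, integral_sub_right_eq_self]
  · exact fun j => (hi.comp_sub_right _).const_mul _
  · refine Summable.of_nonneg_of_le (fun n => integral_nonneg fun _ => norm_nonneg _)
      (fun j => ?_) (hs.mul_right (∫ w, ‖LZC.Tt b s (1 / 6) w‖))
    simp only [norm_mul (bb j * _)]
    rw [integral_const_mul, integral_sub_right_eq_self (fun w => ‖LZC.Tt b s (1 / 6) w‖)]
    exact mul_le_mul_of_nonneg_right (norm_coef_le h0 hs' j)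
      (integral_nonneg fun _ => norm_nonneg _)

theorem differentiableOn_D (h0 : bb 0 = 0)
    (hs : Summable fun j => ‖bb j‖ * nr j ^ (-(7 / 8) : ℝ)) :
    DifferentiableOn ℂ (fun s : ℂ => ∑' j : O, bb j * (nr j : ℂ) ^ (-s)) {s | 7 / 8 < s.re} := by
  refine Complex.differentiableOn_tsum_of_summable_norm hs (fun j => ?_)
    (isOpen_lt continuous_const Complex.continuous_re) fun j s hs => norm_coef_le h0 (le_of_lt hs) j
  rcases eq_or_ne j 0 with rfl | hj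
  · simp [h0]
  · refine Differentiable.differentiableOn (Differentiable.const_mul ?_ _)
    exact differentiable_neg.const_cpow (Or.inl (Complex.ofReal_ne_zero.2 (nr_pos hj).ne'))

theorem main {M : O} (hM : Adm M) (ψ : Chr M) (h0 : bb 0 = 0)
    (hs : Summable fun j => ‖bb j‖ * nr j ^ (-(7 / 8) : ℝ)) {θ C B₀ : ℝ} (hθ : 7 / 8 ≤ θ)
    (h : ∀ B ≥ B₀, ‖fm (fun n => mu n * rc ψ 1 n) bb B‖ ≤ C * B ^ θ) {G e : ℂ → ℂ}
    (hG : Differentiable ℂ G) (he : Differentiable ℂ e)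
    (hGe : ∀ z : ℂ, 1 < z.re → G z = e z * Lser ψ 1 z) {s : ℂ} (hs' : θ < s.re) :
    mellin (fm (fun n => mu n * rc ψ 1 n) bb) (-s) * G s =
      e s * ((∑' j : O, bb j * (nr j : ℂ) ^ (-s)) * ∫ y, LZC.hc (s + 1 / 6) y) := by
  have hb := polyB_mu_rc hM ψ 1
  have hU : IsOpen {z : ℂ | θ < z.re} := isOpen_lt continuous_const Complex.continuous_re
  have h1 : DifferentiableOn ℂ
      (fun z => mellin (fm (fun n => mu n * rc ψ 1 n) bb) (-z) * G z) {z : ℂ | θ < z.re} :=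
    fun z hz => ((differentiableAt_mellin hb h0 hs h hz).mul (hG z)).differentiableWithinAt
  have h2 : DifferentiableOn ℂ (fun z => e z * ((∑' j : O, bb j * (nr j : ℂ) ^ (-z)) *
      ∫ y, LZC.hc (z + 1 / 6) y)) {z : ℂ | θ < z.re} :=
    he.differentiableOn.mul (((differentiableOn_D h0 hs).mono fun z hz => lt_of_le_of_lt hθ hz).mul
      (LZC.differentiable_integral_hc.comp (differentiable_id.add_const _)).differentiableOn)
  have h3 : θ < (((θ + 1 : ℝ) : ℂ)).re := by simp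
  refine (h1.analyticOnNhd hU).eqOn_of_preconnected_of_eventuallyEq (h2.analyticOnNhd hU)
    (convex_halfSpace_re_gt θ).isPreconnected h3 ?_ hs'
  have : ∀ᶠ z : ℂ in 𝓝 ((θ + 1 : ℝ) : ℂ), 1 < z.re :=
    (isOpen_lt continuous_const Complex.continuous_re).mem_nhds (by simp; linarith)
  filter_upwards [this] with z hz
  have h4 := Lser_mul_mob hM ψ 1 hz
  have h5 := LZC.integral_Tt hb hz (1 / 6)
  have hi : Integrable (LZC.Tt (fun n => mu n * rc ψ 1 n) z (1 / 6)) := by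
    refine Integrable.of_integral_ne_zero ?_
    rw [h5]
    exact mul_ne_zero (right_ne_zero_of_mul_eq_one h4) (integral_hc_ne _)
  rw [mellin_fm h0 hs (by linarith) hi, h5, hGe z hz]
  linear_combination (e z * (∑' j : O, bb j * (nr j : ℂ) ^ (-z)) *
    ∫ y, LZC.hc (z + 1 / 6) y) * h4

theorem contra {M : O} (hM : Adm M) (ψ : Chr M) (h0 : bb 0 = 0)
    (hs : Summable fun j => ‖bb j‖ * nr j ^ (-(7 / 8) : ℝ))
    (hne : ∀ s : ℂ, 7 / 8 < s.re → ∑' j : O, bb j * (nr j : ℂ) ^ (-s) ≠ 0) {θ C B₀ : ℝ}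
    (hθ : 7 / 8 ≤ θ) (h : ∀ B ≥ B₀, ‖fm (fun n => mu n * rc ψ 1 n) bb B‖ ≤ C * B ^ θ) {s : ℂ}
    (hs' : θ < s.re) (hs1 : s ≠ 1 ∨ ¬ Princ ψ 1) : Lc ψ 1 s ≠ 0 := by
  intro hL
  obtain ⟨-, h2, h3⟩ := isL_Lc hM ψ (one_ne_zero (α := O))
  have hD := mul_ne_zero (hne s (lt_of_le_of_lt hθ hs')) (integral_hc_ne (s + 1 / 6))
  by_cases hP : Princ ψ 1
  · have h1 : s ≠ 1 := hs1.resolve_right (not_not.2 hP)
    obtain ⟨κ, G, -, hG, -, hG'⟩ := princ_pole hM ψ one_ne_zero hP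
    have key := main hM ψ h0 hs hθ h hG (e := fun z => z - 1) (differentiable_id.sub_const _)
      (fun z hz => by
        rw [hG' z (by rintro rfl; simp at hz), h2 z hz]) hs'
    rw [hG' s h1, hL, mul_zero, mul_zero] at key
    exact mul_ne_zero (sub_ne_zero.2 h1) hD key.symm
  · have key := main hM ψ h0 hs hθ h (h3 hP) (e := fun _ => 1) (differentiable_const _)
      (fun z hz => by rw [h2 z hz, one_mul]) hs'
    rw [hL, mul_zero, one_mul] at key
    exact hD key.symm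

end Crest.Agent.R17.PrM
end
end

-- ▼ part PVc/R17/PrincR
section

/-!
# Row 17, module M15e: the principal rows `a = c⁶`, and the Mellin argument

The rows with `xiR a ≠ 0` and `Exc M a` are `a = c⁶`, `c` primary coprime to `M` (`c` unique).
`f₃(n, x, c) = cf ψ (c⁶) n x` is multiplicative in the triple (`cf_mul`, `cf_row_mul`).  As in
`RowB` (same operators `T_p`) write the slot factor as `F_p + Err'_p` (`Err'_p = X(1 - Y)` for
`p ∤ c`, `Err'_p = -conj ψ(p) N p^s F^{mark} + Y F - F` for `p ∣ c`), so that the sum is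
`∑_S ∏_{i ∉ S} (∑_p cw p) ∑_{p_S} ∏ cw ⟨f_{p_S}, Φ⟩`.  Deconvolve
`f = b₃ * (μ rc ψ 1 ⊗ rc 1 1 ⊗ rc 1 1)`; `∑ |b₃| N j₁^{-7/8} N j₂^{-θ} N j₃^{-θ} < ∞` for
`θ = 9/10` (local factor `(1-X)^{-1}(1-Y)(1-U) ∑_m F(6m) U^m = 1 + O(N p^{-1-δ})`; use
`F(6m) = 1 - (N p-1) X Y + O(N p^{-5/4})` for `m ≥ 1`, from `cf_ram_one_one` and the size lemmas at
`|X| ≤ N p^{-7/8}`), and an error slot has local sum `O(N p^{-7/8})` (for `p ∣ c` one gains
`|U| = N p^{-θ}`).  The `x`-sum is `Pln 1 1 (X/N j₂) 0 = m (X/N j₂) Wm(1) + O((X/N j₂)^θ)`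
(`Pln_exc`, `m ≠ 0`); the `c`-sum `∑_c rc 1 1 c · gw((N c N j₃)⁶/Y)`, `Y = A N n/B`, equals
`(1/2π)∫ Γ(u) (2π/√3)^{-u} Y^u N j₃^{-6u} Lc 1 1 (6u)` on `Re u = 1`; move to `Re u = θ/6`
(`princ_pole`, `Lc_growth`, `Contour.lean`): residue `κ' Y^{1/6}/N j₃`; the factor `(N n/B)^u` is a
twist of the Möbius sum, bounded by `Mob_of_zeroFree`.  Main term: `S = ∅` and both residues;
`bb(j₁) = ∑_{j₂,j₃} b₃/(N j₂ N j₃)`, whose Dirichlet series is the Euler product of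
`h_p(s) = (1-X)^{-1}(1-1/N p)² ∑_m F(6m) N p^{-m}`, and at `Y = U = 1/N p`
`∑_m F(6m) U^m = (N p+1)/(N p-1) - X (1 + 1/N p) + O(small) ≠ 0` for `N p ≥ 7`, `|X| ≤ N p^{-7/8}`.
Savings: `X^{-(1-θ)}`, `A^{-(1-θ)/6}`, `P_i^{-7/8} ≤ B^{-7/(64 K₀)}`.
-/

set_option autoImplicit false

noncomputable section

namespace Crest.Agent.R17

/-- The averaged Möbius sum that appears in the main term. -/
def fmain {M : O} (ψ : Chr M) (bb : O → ℂ) (B : ℝ) : ℂ :=
  ∑' j : O, bb j * Mob ψ 1 (B / nr j) (1 / 6)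

/-- Admissible coefficients. -/
def BB (bb : O → ℂ) : Prop :=
  bb 0 = 0 ∧ Summable (fun j => ‖bb j‖ * nr j ^ (-(7 / 8) : ℝ)) ∧
    ∀ s : ℂ, 7 / 8 < s.re → ∑' j : O, bb j * (nr j : ℂ) ^ (-s) ≠ 0

open Classical in
theorem princ_rows (K₀ : ℕ) (hK : 1 ≤ K₀) : ∃ m : ℝ, 0 < m ∧ ∀ β : ℝ, 7 / 8 ≤ β → β ≤ 1 →
    ZeroFree β → ∀ {M : O}, Adm M → ∀ ψ : Chr M, ∃ (bb : O → ℂ) (κ : ℂ) (C : ℝ),
      BB bb ∧ κ ≠ 0 ∧ ∀ B : ℝ, 1 ≤ B →
        ‖∑' a : O, (if Exc M a then xiR M a * Ia ψ K₀ B a else 0) -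
          κ * (Apar B ^ (1 / 6 : ℝ) * Xpar B : ℝ) * Pt M K₀ B * fmain ψ bb B‖ ≤
          C * NrmB B * B ^ (β - m) := by
  obtain ⟨m, hm, h⟩ := P3.main_est K₀ hK
  refine ⟨m, hm, fun β hβ hβ1 hZ M hM ψ => ?_⟩
  obtain ⟨κ, C, hκ, h⟩ := h β hβ hβ1 hZ hM ψ
  exact ⟨P3.bbOf (P3.b3 ψ), κ, C,
    ⟨P3.bb_zero hM ψ, P3.bb_summable hM ψ, fun s hs => P3.bb_ne hM ψ hs⟩, hκ, h⟩

/-- `F(s) = ∫_0^∞ fmain(B) B^{-s-1} dB` is holomorphic for `Re s > θ` (`fmain(B) ≪ B^A` for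
`B ≤ 1`, bounded on compact sets), and `F(s) Lser(s) = Wm(s + 1/6) ∑ bb(j) N j^{-s}` for `Re s > 1`
(`mellin_Wc`, `Lser_mul_mob`); continue the identity to `{Re s > θ} ∖ {1}`. -/
theorem mellin_contra {M : O} (hM : Adm M) (ψ : Chr M) {bb : O → ℂ} (hb : BB bb) {θ C B₀ : ℝ}
    (hθ : 7 / 8 ≤ θ) (h : ∀ B ≥ B₀, ‖fmain ψ bb B‖ ≤ C * B ^ θ) {s : ℂ} (hs : θ < s.re)
    (hs1 : s ≠ 1 ∨ ¬ Princ ψ 1) : Lc ψ 1 s ≠ 0 :=
  PrM.contra hM ψ hb.1 hb.2.1 hb.2.2 hθ h hs hs1

end Crest.Agent.R17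
end
end

-- ▼ part PVc/R17/Boot
section

/-!
# Row 17, module M15f: the bootstrap
-/

set_option autoImplicit false

noncomputable section

namespace Crest.Agent.R17

theorem Boot.exc_pow {M c : O} (hc : c ≠ 0) : Exc M (c ^ 6) := fun p hp _ => by
  rw [vp_pow ((mem_pf (pow_ne_zero 6 hc)).1 hp).1 hc]
  exact Dvd.intro _ rfl

theorem Boot.norm_xiR_le (M a : O) : ‖xiR M a‖ ≤ 1 := by
  unfold xiR
  split_ifs <;> simp

theorem Boot.one_le_NrmB {B : ℝ} (hB : 1 ≤ B) : 1 ≤ NrmB B := by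
  unfold NrmB Apar Xpar
  refine one_le_mul_of_one_le_of_one_le (one_le_mul_of_one_le_of_one_le ?_ ?_) ?_
  · exact Real.one_le_rpow (Real.one_le_rpow hB (by norm_num)) (by norm_num)
  · exact Real.one_le_rpow hB (by norm_num)
  · exact Real.one_le_rpow hB (by norm_num)

open Classical in
/-- every non-exceptional row is `r c⁶` -/
theorem Boot.sum_rows_le (M : O) {A : ℝ} (hA : 0 ≤ A) (g : O → ℝ) (hg : ∀ a, 0 ≤ g a) :
    ∑ a ∈ (rows A).filter (fun a => ¬ Exc M a ∧ Primary a ∧ IsCoprime a M), g a ≤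
      ∑ r ∈ RS M A, ∑ c ∈ (rows ((A / nr r) ^ (1 / 6 : ℝ))).filter
        (fun c => Primary c ∧ IsCoprime c M ∧ nr (r * c ^ 6) ≤ A), g (r * c ^ 6) := by
  rw [Finset.sum_sigma']
  refine le_trans (Finset.sum_le_sum_of_subset_of_nonneg ?_ fun a _ _ => hg a)
    (Finset.sum_image_le_of_nonneg (g := fun x : (Σ _ : O, O) => x.1 * x.2 ^ 6) fun a _ => hg a)
  intro a ha
  rw [Finset.mem_filter, mem_rows hA] at ha
  obtain ⟨⟨-, a2⟩, a3, a4, a5⟩ := ha
  obtain ⟨r, c, hr, hc, h6, rfl⟩ := exists_sixth a4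
  have hr0 := nr_pos hr.ne_zero
  have hc1 := one_le_nr hc.ne_zero
  have e : nr (r * c ^ 6) = nr r * nr c ^ 6 := by rw [nr_mul, nr_pow]
  refine Finset.mem_image.2 ⟨⟨r, c⟩, Finset.mem_sigma.2 ⟨?_, ?_⟩, rfl⟩
  · refine Finset.mem_filter.2 ⟨(mem_rows hA).2 ⟨hr.ne_zero, le_trans ?_ a2⟩, hr,
      a5.of_mul_left_left, ?_, h6⟩
    · rw [e]
      exact le_mul_of_one_le_right hr0.le (one_le_pow₀ hc1)
    · rintro rfl
      rw [one_mul] at a3
      exact a3 (Boot.exc_pow hc.ne_zero)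
  · refine Finset.mem_filter.2 ⟨(mem_rows (by positivity)).2 ⟨hc.ne_zero, ?_⟩, hc,
      (IsCoprime.pow_left_iff (by norm_num)).1 a5.of_mul_left_right, a2⟩
    rw [one_div, Real.le_rpow_inv_iff_of_pos (by positivity) (by positivity) (by norm_num),
      le_div_iff₀ hr0, mul_comm]
    rw [e] at a2
    exact_mod_cast a2

theorem Boot.sum_nr_le : ∃ C : ℝ, 0 < C ∧ ∀ Y : ℝ, 1 ≤ Y →
    ∑ c ∈ rows (Y ^ (1 / 6 : ℝ)), nr c ≤ C * Y ^ (1 / 3 : ℝ) := by
  obtain ⟨C, hC, h⟩ := sum_nr_rpow_le (σ := 1) (by norm_num)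
  refine ⟨C, hC, fun Y hY => ?_⟩
  have h1 : 1 ≤ Y ^ (1 / 6 : ℝ) := Real.one_le_rpow hY (by norm_num)
  have h2 := h ⌊Y ^ (1 / 6 : ℝ)⌋₊ (Nat.le_floor (by exact_mod_cast h1))
  simp only [Real.rpow_one] at h2
  refine h2.trans (mul_le_mul_of_nonneg_left ?_ hC.le)
  refine (Real.rpow_le_rpow (by positivity) (Nat.floor_le (by positivity)) (by norm_num)).trans_eq ?_
  rw [← Real.rpow_mul (by linarith)]
  norm_num

open Classical in
/-- The non-exceptional rows: `a = r c⁶` (`exists_sixth`), `row_bound`,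
`∑_{N c ≤ Y} N c ≪ Y²` (`sum_nr_rpow_le`), `row_sum`, `row_tail`. -/
theorem nonprinc_rows : ∃ (m : ℝ) (K₀ : ℕ), 0 < m ∧ 1 ≤ K₀ ∧ ∀ β : ℝ, 7 / 8 ≤ β → β ≤ 1 →
    ZeroFree β → ∀ {M : O}, Adm M → ∀ ψ : Chr M, ∃ C B₀ : ℝ, ∀ B ≥ B₀,
      ‖∑' a : O, (if Exc M a then 0 else xiR M a * Ia ψ K₀ B a)‖ ≤ C * NrmB B * B ^ (β - m) := by
  obtain ⟨m, K₀, hm, hm', hK, H⟩ := row_sum
  refine ⟨m / 2, K₀, by positivity, hK, fun β h1 h2 hZ M hM ψ => ?_⟩
  obtain ⟨C₃, B₀, H⟩ := H β h1 h2 hZ hM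
  obtain ⟨C₁, hC₁, H₁⟩ := row_bound hM ψ K₀ (show 0 < m / 2 by positivity)
  obtain ⟨C₂, hC₂, H₂⟩ := Boot.sum_nr_le
  obtain ⟨C₄, hC₄, H₄⟩ := row_tail hM ψ K₀ hm
  refine ⟨C₁ * C₂ * C₃ + C₄, max 1 B₀, fun B hB => ?_⟩
  have hB1 : 1 ≤ B := (le_max_left _ _).trans hB
  have hB0 : 0 < B := one_pos.trans_le hB1
  obtain ⟨σ, hσ, hsum⟩ := H B ((le_max_right _ _).trans hB)
  have h4 := H₄ B hB1
  have hAB : Apar B * B ^ m ≤ B := by
    rw [Apar, ← Real.rpow_add hB0]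
    exact Real.rpow_le_self_of_one_le hB1 (by linarith)
  have hA0 : 0 ≤ Apar B * B ^ m := by unfold Apar; positivity
  generalize Apar B * B ^ m = A at *
  have hs := summable_Ia hM ψ K₀ hB0
  set S := (rows A).filter (fun a => ¬ Exc M a ∧ Primary a ∧ IsCoprime a M) with hS
  have s1 : Summable fun a : O => if a ∈ S then ‖Ia ψ K₀ B a‖ else 0 :=
    summable_of_ne_finset_zero (s := S) fun a ha => if_neg ha
  have s2 : Summable fun a : O => if A < nr a then ‖Ia ψ K₀ B a‖ else 0 :=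
    Summable.of_nonneg_of_le (fun a => by positivity)
      (fun a => by split_ifs; exacts [le_rfl, norm_nonneg _]) hs
  have b1 : ‖∑' a : O, (if Exc M a then 0 else xiR M a * Ia ψ K₀ B a)‖ ≤
      ∑ a ∈ S, ‖Ia ψ K₀ B a‖ + C₄ := by
    refine (tsum_of_norm_bounded (s1.add s2).hasSum fun a => ?_).trans ?_
    · have n0 := norm_nonneg (Ia ψ K₀ B a)
      by_cases e1 : Exc M a
      · rw [if_pos e1, norm_zero]
        positivity
      by_cases e2 : Primary a ∧ IsCoprime a M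
      · rw [if_neg e1, xiR, if_pos e2, one_mul]
        by_cases e3 : A < nr a
        · rw [if_pos e3]
          split_ifs <;> linarith
        · rw [if_neg e3, if_pos (Finset.mem_filter.2
            ⟨(mem_rows hA0).2 ⟨e2.1.ne_zero, not_lt.1 e3⟩, e1, e2⟩), add_zero]
      · rw [if_neg e1, xiR, if_neg e2, zero_mul, norm_zero]
        positivity
    · rw [s1.tsum_add s2, tsum_eq_sum (s := S) fun a ha => if_neg ha,
        Finset.sum_congr rfl fun a ha => if_pos ha]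
      linarith
  have b2 : ∑ a ∈ S, ‖Ia ψ K₀ B a‖ ≤ C₁ * B ^ (m / 2) * C₂ * (C₃ * NrmB B * B ^ (β - m)) := by
    refine (Boot.sum_rows_le M hA0 _ fun a => norm_nonneg _).trans
      (le_trans ?_ (mul_le_mul_of_nonneg_left hsum (by positivity)))
    rw [Finset.mul_sum]
    refine Finset.sum_le_sum fun r hr => ?_
    obtain ⟨σ1, σ2, σ3⟩ := hσ r hr
    have hr' := Finset.mem_filter.1 hr
    rw [mem_rows hA0] at hr'
    have hr0 := nr_pos hr'.1.1
    have hrB : r ∈ RS M B :=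
      Finset.mem_filter.2 ⟨(mem_rows hB0.le).2 ⟨hr'.1.1, hr'.1.2.trans hAB⟩, hr'.2⟩
    have hE : 0 ≤ B ^ σ r * Xpar B ^ (1 - σ r) * nr r ^ (σ r - 1 / 2) *
        ∏ i : Fin K₀, (‖slt M K₀ B i r‖ + Real.sqrt (Pw K₀ B i)) := by
      unfold Xpar
      positivity
    refine (Finset.sum_le_sum fun c hc => H₁ B (σ r) r c hB1 hrB (Finset.mem_filter.1 hc).2.1
      (Finset.mem_filter.1 hc).2.2.1 ((Finset.mem_filter.1 hc).2.2.2.trans hAB) σ1 σ2 σ3).trans ?_
    rw [← Finset.sum_mul, ← Finset.mul_sum, mul_assoc (C₁ * B ^ (m / 2)) C₂,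
      mul_assoc (C₁ * B ^ (m / 2)), ← mul_assoc C₂]
    refine mul_le_mul_of_nonneg_left (mul_le_mul_of_nonneg_right ?_ hE) (by positivity)
    exact (Finset.sum_le_sum_of_subset_of_nonneg (Finset.filter_subset _ _)
      fun _ _ _ => Nat.cast_nonneg _).trans (H₂ _ ((one_le_div hr0).2 hr'.1.2))
  have b3 : C₄ ≤ C₄ * (NrmB B * B ^ (β - m / 2)) := le_mul_of_one_le_right hC₄.le
    (one_le_mul_of_one_le_of_one_le (Boot.one_le_NrmB hB1) (Real.one_le_rpow hB1 (by linarith)))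
  have e : B ^ (β - m / 2) = B ^ (m / 2) * B ^ (β - m) := by
    rw [← Real.rpow_add hB0]
    congr 1
    ring
  calc _ ≤ C₁ * B ^ (m / 2) * C₂ * (C₃ * NrmB B * B ^ (β - m)) +
        C₄ * (NrmB B * B ^ (β - m / 2)) := by linarith
    _ = _ := by rw [e]; ring

/-- `hside`, `nonprinc_rows`, `princ_rows`, `Pt_lower` give `fmain(B) ≪ B^{β'}` with
`β' = max(7/8 + (β - 7/8)/2, β - m/2)`; `mellin_contra`, `zeroFree_iff_one`. -/
theorem boot {β : ℝ} (h₁ : 7 / 8 < β) (h₂ : β ≤ 1) (h : ZeroFree β) :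
    ∃ β' < β, ZeroFree β' := by
  classical
  obtain ⟨m₁, K₀, hm₁, hK, H₁⟩ := nonprinc_rows
  obtain ⟨m₂, hm₂, H₂⟩ := princ_rows K₀ hK
  obtain ⟨d, hd, d1, d2, d3⟩ : ∃ d : ℝ, 0 < d ∧ 3 * d ≤ β - 7 / 8 ∧ 2 * d ≤ m₁ ∧ 2 * d ≤ m₂ := by
    refine ⟨min (β - 7 / 8) (min m₁ m₂) / 3, by
      have : 0 < min (β - 7 / 8) (min m₁ m₂) := lt_min (by linarith) (lt_min hm₁ hm₂)
      positivity, ?_, ?_, ?_⟩
    · linarith [min_le_left (β - 7 / 8) (min m₁ m₂)]
    · linarith [min_le_right (β - 7 / 8) (min m₁ m₂), min_le_left m₁ m₂]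
    · linarith [min_le_right (β - 7 / 8) (min m₁ m₂), min_le_right m₁ m₂]
  refine ⟨β - d, by linarith, (zeroFree_iff_one _).2 fun M hM ψ s hs hs1 => ?_⟩
  obtain ⟨C₁, B₁, H₁⟩ := H₁ β h₁.le h₂ h hM ψ
  obtain ⟨bb, κ, C₂, hbb, hκ, H₂⟩ := H₂ β h₁.le h₂ h hM ψ
  obtain ⟨C₃, hC₃, H₃⟩ := hside hM ψ K₀ hK hd
  obtain ⟨B₄, H₄⟩ := Pt_lower hM hK hd
  refine mellin_contra hM ψ hbb (θ := β - d) (C := ‖κ‖⁻¹ * (|C₁| + |C₂| + C₃))
    (B₀ := max 1 (max B₁ B₄)) (by linarith) (fun B hB => ?_) hs hs1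
  simp only [ge_iff_le, max_le_iff] at hB
  obtain ⟨hB1, hB2, hB4⟩ := hB
  have hB0 : 0 < B := one_pos.trans_le hB1
  have a1 := H₁ B hB2
  have a2 := H₂ B hB1
  have a3 := H₃ B hB1
  have a4 := H₄ B hB4
  have hs := summable_Ia hM ψ K₀ hB0
  have hsum : ∀ f : O → ℂ, (∀ a, f a = 0 ∨ f a = xiR M a * Ia ψ K₀ B a) → Summable f := by
    refine fun f hf => Summable.of_norm_bounded hs fun a => ?_
    rcases hf a with e | e <;> rw [e]
    · simp
    · rw [norm_mul]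
      exact mul_le_of_le_one_left (norm_nonneg _) (Boot.norm_xiR_le M a)
  have e1 : ∑' a : O, xiR M a * Ia ψ K₀ B a =
      ∑' a : O, (if Exc M a then xiR M a * Ia ψ K₀ B a else 0) +
        ∑' a : O, (if Exc M a then 0 else xiR M a * Ia ψ K₀ B a) := by
    rw [← (hsum _ fun a => by split_ifs <;> simp).tsum_add (hsum _ fun a => by split_ifs <;> simp)]
    exact tsum_congr fun a => by split_ifs <;> simp
  have hN : 0 < NrmB B := one_pos.trans_le (Boot.one_le_NrmB hB1)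
  have hle : ∀ (C t : ℝ), t ≤ β - 2 * d → C * NrmB B * B ^ t ≤ |C| * NrmB B * B ^ (β - 2 * d) :=
    fun C t ht => mul_le_mul (mul_le_mul_of_nonneg_right (le_abs_self C) hN.le)
      (Real.rpow_le_rpow_of_exponent_le hB1 ht) (by positivity) (by positivity)
  have b1 := a1.trans (hle C₁ _ (by linarith))
  have b2 := a2.trans (hle C₂ _ (by linarith))
  have b3 := a3.trans (hle C₃ _ (by linarith))
  rw [abs_of_pos hC₃, e1] at b3
  generalize ∑' a : O, (if Exc M a then xiR M a * Ia ψ K₀ B a else 0) = P at *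
  generalize ∑' a : O, (if Exc M a then 0 else xiR M a * Ia ψ K₀ B a) = N at *
  have hAX : 0 < Apar B ^ (1 / 6 : ℝ) * Xpar B := by unfold Apar Xpar; positivity
  have b4 : ‖κ * (Apar B ^ (1 / 6 : ℝ) * Xpar B : ℝ) * Pt M K₀ B * fmain ψ bb B‖ ≤
      (|C₁| + |C₂| + C₃) * NrmB B * B ^ (β - 2 * d) := by
    generalize κ * (Apar B ^ (1 / 6 : ℝ) * Xpar B : ℝ) * Pt M K₀ B * fmain ψ bb B = Q at *
    have : Q = (P + N) - N - (P - Q) := by ring
    rw [this]
    have t1 := norm_sub_le (P + N - N) (P - Q)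
    have t2 := norm_sub_le (P + N) N
    linarith
  rw [norm_mul, norm_mul, norm_mul, Complex.norm_real, Real.norm_eq_abs, abs_of_pos hAX] at b4
  have hκ0 : 0 < ‖κ‖ := norm_pos_iff.2 hκ
  have e2 : NrmB B * B ^ (β - 2 * d) =
      Apar B ^ (1 / 6 : ℝ) * Xpar B * B ^ (1 / 6 - d) * B ^ (β - d) := by
    rw [NrmB, mul_assoc _ (B ^ _), mul_assoc _ (B ^ _), ← Real.rpow_add hB0, ← Real.rpow_add hB0]
    congr 2
    ring
  have hw : 0 < ‖κ‖ * (Apar B ^ (1 / 6 : ℝ) * Xpar B) * B ^ (1 / 6 - d) := by positivity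
  refine le_of_mul_le_mul_left ?_ hw
  calc _ ≤ ‖κ‖ * (Apar B ^ (1 / 6 : ℝ) * Xpar B) * ‖Pt M K₀ B‖ * ‖fmain ψ bb B‖ := by gcongr
    _ ≤ _ := b4
    _ = _ := by
      rw [mul_assoc, e2]
      field_simp

/-- Take the infimum of the `β ∈ [7/8, 1]` with `ZeroFree β`. -/
theorem zeroFree_78 : ZeroFree (7 / 8) := by
  have mono : ∀ {β β' : ℝ}, β ≤ β' → ZeroFree β → ZeroFree β' :=
    fun hle h M hM ν a ha s hs => h M hM ν a ha s (hle.trans_lt hs)
  set S : Set ℝ := {β | 7 / 8 ≤ β ∧ ZeroFree β} with hS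
  have h1 : (1 : ℝ) ∈ S := ⟨by norm_num, zeroFree_one⟩
  have hb : BddBelow S := ⟨7 / 8, fun β hβ => hβ.1⟩
  have hZ : ZeroFree (sInf S) := fun M hM ν a ha s hs => by
    obtain ⟨β, hβ, hlt⟩ := exists_lt_of_csInf_lt ⟨1, h1⟩ hs
    exact hβ.2 M hM ν a ha s hlt
  by_contra hne
  have hlt : 7 / 8 < sInf S := by
    by_contra hc
    exact hne (mono (not_lt.1 hc) hZ)
  obtain ⟨β', hβ', h'⟩ := boot hlt (csInf_le hb h1) hZ
  have := csInf_le hb (show max β' (7 / 8) ∈ S from ⟨le_max_right _ _, mono (le_max_left _ _) h'⟩)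
  exact absurd (max_lt hβ' hlt) (not_lt.2 this)

end Crest.Agent.R17
end
end

-- ▼ part PVc/R17/FinalAuxA
section

/-!
# Row 17: the L-function of `χ ∘ N` is `L(χ) L(χ χ₋₃)`
-/

set_option autoImplicit false

noncomputable section

namespace Crest.Agent.R17.FinalA

open Complex

theorem nm_congr {K : ℕ} {a b : O} (h : (K : O) ∣ a - b) : (nm a : ZMod K) = nm b := by
  obtain ⟨c, hc⟩ := h
  have h1 : a.re = b.re + K * c.re := by
    have := congrArg QuadraticAlgebra.re hc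
    simp at this; omega
  have h2 : a.im = b.im + K * c.im := by
    have := congrArg QuadraticAlgebra.im hc
    simp at this; omega
  have e : ∀ z : O, (nm z : ZMod K) = ((nm z : ℤ) : ZMod K) := fun z => by simp
  rw [e, e, nm_cast, nm_cast, h1, h2]
  simp

/-- the norm modulo `K` -/
def nq (K : ℕ) (x : O ⧸ Ideal.span {(K : O)}) : ZMod K :=
  Quotient.liftOn' x (fun a => (nm a : ZMod K)) fun _ _ h =>
    nm_congr (Ideal.mem_span_singleton.1 ((Submodule.quotientRel_def _).1 h))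

theorem nq_mk (K : ℕ) (a : O) : nq K (Ideal.Quotient.mk _ a) = nm a := rfl

/-- the character `χ ∘ N` -/
def normChr {K : ℕ} (χ : DirichletCharacter ℂ K) : Chr (K : O) where
  toFun x := χ (nq K x)
  map_one' := by
    rw [← map_one (Ideal.Quotient.mk _), nq_mk, isUnit_iff_nm.1 isUnit_one]; simp
  map_mul' x y := by
    obtain ⟨a, rfl⟩ := Ideal.Quotient.mk_surjective x
    obtain ⟨b, rfl⟩ := Ideal.Quotient.mk_surjective y
    rw [← map_mul, nq_mk, nq_mk, nq_mk, nm_mul, Nat.cast_mul, map_mul]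
  map_nonunit' x hx := by
    obtain ⟨a, rfl⟩ := Ideal.Quotient.mk_surjective x
    refine χ.map_nonunit fun h => hx ?_
    rw [nq_mk, ZMod.isUnit_iff_coprime] at h
    obtain ⟨u, v, huv⟩ := (Nat.isCoprime_iff_coprime.2 h).map (Int.castRingHom O)
    refine IsUnit.of_mul_eq_one (Ideal.Quotient.mk _ (cj a * u)) ?_
    rw [← map_mul, ← map_one (Ideal.Quotient.mk _), Ideal.Quotient.eq, Ideal.mem_span_singleton]
    refine ⟨-v, ?_⟩
    simp only [eq_intCast, Int.cast_natCast] at huv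
    rw [← mul_assoc, mul_cj]
    linear_combination huv

open Classical in
theorem rc_normChr {K : ℕ} (χ : DirichletCharacter ℂ K) (n : O) :
    rc (normChr χ) 1 n = if Primary n then χ (nm n) else 0 := by
  simp only [rc, sym_one_right, map_one, mul_one]
  rfl

/-- the quadratic character modulo `3` -/
def chi3 : DirichletCharacter ℂ 3 :=
  haveI := Fact.mk Nat.prime_three
  (quadraticChar (ZMod 3)).ringHomComp (Int.castRingHom ℂ)

theorem chi3_two : chi3 2 = -1 := by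
  have h0 : ¬ IsSquare (2 : ZMod 3) := by decide
  have := Fact.mk Nat.prime_three
  have : quadraticChar (ZMod 3) 2 = -1 := quadraticChar_neg_one_iff_not_isSquare.2 h0
  simp [chi3, this]

theorem nm_cj (z : O) : nm (cj z) = nm z := by
  apply Int.natCast_inj.mp; rw [nm_cast, nm_cast]; simp only [cj]; ring

theorem fiber_split {l : ℕ} (hl : l.Prime) (h1 : l % 3 = 1) :
    ∃ π : O, Prime π ∧ Primary π ∧ nm π = l ∧ π ≠ cj π ∧
      ∀ p, Prime p → Primary p → l ∣ nm p → p = π ∨ p = cj π := by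
  obtain ⟨π, a, b, c⟩ := CountAux.exists_prime_nm hl
    ((ZMod.natCast_eq_natCast_iff' l 1 3).2 (by simpa using h1))
  refine ⟨π, a, b, c, fun h => ?_, fun p hp hp' hd => ?_⟩
  · have h2 : π.im = 0 := by
      have := congrArg QuadraticAlgebra.im h
      simp only [cj] at this; omega
    have h3 := nm_cast π
    rw [h2, c] at h3
    have h4 : l = π.re.natAbs * π.re.natAbs := by
      apply Int.natCast_inj.mp
      rw [h3, Int.natAbs_mul_self]; ring
    exact hl.not_isSquare ⟨_, h4⟩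
  · have h2 : π ∣ p * cj p := by
      rw [mul_cj]
      exact (Dvd.intro _ ((mul_cj π).trans (by rw [c]))).trans (Nat.cast_dvd_cast hd)
    rcases a.dvd_or_dvd h2 with h | h
    · exact Or.inl (BasicB.eq_of_dvd a hp b hp' h).symm
    · right
      rw [BasicB.eq_of_dvd a (RecipA.prime_cj hp) b (RecipA.primary_cj hp') h, RecipA.cj_cj]

theorem fiber_inert {l : ℕ} (hl : l.Prime) (h1 : l % 3 = 2) :
    Prime (-l : O) ∧ Primary (-l : O) ∧ ∀ p, Prime p → Primary p → l ∣ nm p → p = -l := by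
  have hpr : Primary (-l : O) := by
    rw [BasicA.primary_iff]; simp; omega
  have key : ∀ p, Prime p → Primary p → p ∣ (l : O) → p = -l := by
    rintro p hp hp' ⟨c, hc⟩
    have h2 : nm p * nm c = l ^ 2 := by rw [← nm_mul, ← hc, nm_natCast]
    have h3 := nm_prime_mod hp hp'
    have h4 := CountAux.two_le_nm hp
    obtain ⟨k, hk, hk'⟩ := (Nat.dvd_prime_pow hl).1 (Dvd.intro _ h2)
    interval_cases k
    · rw [pow_zero] at hk'; omega
    · rw [pow_one] at hk'; omega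
    · rw [hk'] at h2
      have h5 : IsUnit c := isUnit_iff_nm.2
        (mul_left_cancel₀ (pow_ne_zero 2 hl.ne_zero) (h2.trans (mul_one _).symm))
      refine hp'.eq_of_associated hpr ?_
      rw [hc]
      exact (associated_mul_unit_right p c h5).neg_right
  refine ⟨?_, hpr, fun p hp hp' hd => ?_⟩
  · have hnu : ¬ IsUnit (l : O) := fun h => by
      rw [isUnit_iff_nm, nm_natCast] at h
      exact hl.one_lt.ne' (Nat.pow_eq_one.1 h |>.resolve_right two_ne_zero)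
    have h0 : (l : O) ≠ 0 := fun h => hpr.ne_zero (by rw [h, neg_zero])
    obtain ⟨q, hq, hd⟩ := WfDvdMonoid.exists_irreducible_factor hnu h0
    obtain ⟨u, hu, huq⟩ := exists_unit_primary (n := q) fun h => by
      have h2 := nm_dvd_of_dvd (h.trans hd)
      rw [nm_lam, nm_natCast] at h2
      have := Nat.prime_three.dvd_of_dvd_pow h2
      omega
    have h3 : Prime (u * q) := (associated_unit_mul_right q u hu).prime hq.prime
    rw [← key _ h3 huq ((associated_unit_mul_left q u hu).dvd.trans hd)]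
    exact h3
  · obtain ⟨l', f, hl', h2, h3⟩ := RecipA.exists_char hp
    rw [h3] at hd
    rw [(Nat.prime_dvd_prime_iff_eq hl hl').1 (hl.dvd_of_dvd_pow hd)] at key ⊢
    exact key p hp hp' h2

theorem Lser_normChr {K : ℕ} [NeZero K] (h72 : 72 ∣ K) (χ : DirichletCharacter ℂ K) {s : ℂ}
    (hs : 1 < s.re) :
    Lser (normChr χ) 1 s = LSeries (fun n => χ n) s *
      LSeries (fun n => (χ * DirichletCharacter.changeLevel (Dvd.dvd.trans (by norm_num) h72)
        chi3) n) s := by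
  classical
  have hM : Adm (K : O) := ⟨by exact_mod_cast NeZero.ne K, by exact_mod_cast Nat.cast_dvd_cast (α := O) h72⟩
  have h3 : 3 ∣ K := Dvd.dvd.trans (by norm_num) h72
  set χ2 := χ * DirichletCharacter.changeLevel h3 chi3 with hχ2
  have hv : ∀ l : ℕ, χ2 l = χ l * chi3 l := fun l => by
    by_cases hu : IsUnit (l : ZMod K)
    · rw [hχ2, MulChar.mul_apply, ← hu.unit_spec, DirichletCharacter.changeLevel_eq_cast_of_dvd,
        hu.unit_spec, ZMod.cast_natCast h3]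
    · rw [χ2.map_nonunit hu, χ.map_nonunit hu, zero_mul]
  set F : O → ℂ := fun p =>
    if Prime p then -Complex.log (1 - rc (normChr χ) 1 p * (nr p : ℂ) ^ (-s)) else 0 with hF
  have hs0 : (-s).re ≠ 0 := by simp; linarith
  have hFs : Summable F := by
    have h1 : Summable fun p : O => rc (normChr χ) 1 p * (nr p : ℂ) ^ (-s) := by
      refine Summable.of_norm_bounded (summable_nr_rpow hs) fun p => ?_
      rw [norm_mul, ofReal_natCast, norm_natCast_cpow_of_re_ne_zero _ hs0, neg_re]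
      exact mul_le_of_le_one_left (by positivity) (norm_rc_le hM _ _ _)
    have h2 := h1.clog_one_sub.neg.indicator {p | Prime p}
    refine h2.congr fun p => ?_
    simp only [hF, Set.indicator_apply, Set.mem_ofPred_eq]
  have hne : ∀ l : ℕ, l.Prime → ∀ ψ : DirichletCharacter ℂ K, 1 - ψ l * (l : ℂ) ^ (-s) ≠ 0 := by
    intro l hl ψ h
    have h1 : ‖ψ l * (l : ℂ) ^ (-s)‖ < 1 := by
      rw [norm_mul, norm_natCast_cpow_of_re_ne_zero _ hs0]
      refine (mul_le_of_le_one_left (by positivity) (ψ.norm_le_one _)).trans_lt ?_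
      exact Real.rpow_lt_one_of_one_lt_of_neg (by exact_mod_cast hl.one_lt) (by simp; linarith)
    rw [← sub_eq_zero.1 h] at h1
    simp at h1
  have hsum := ((Equiv.sigmaFiberEquiv fun p : O => (nm p).minFac).hasSum_iff.2 hFs.hasSum).sigma
    (g := fun l => ∑' p : {p : O // (nm p).minFac = l}, F p)
    fun l => (hFs.subtype _).hasSum
  have hprod := hsum.cexp
  have hzero : ∀ p, ¬ (Prime p ∧ Primary p) → F p = 0 := fun p hp => by
    simp only [hF]
    split_ifs with h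
    · rw [rc_normChr, if_neg fun h' => hp ⟨h, h'⟩]; simp
    · rfl
  have hval : ∀ p, Prime p → Primary p →
      F p = -Complex.log (1 - χ (nm p) * (nm p : ℂ) ^ (-s)) := fun p hp hp' => by
    simp only [hF, if_pos hp, rc_normChr, if_pos hp', ofReal_natCast]
  have hfib : ∀ (l : ℕ) (S : Finset O), (∀ p ∈ S, (nm p).minFac = l) →
      (∀ p, Prime p → Primary p → (nm p).minFac = l → p ∈ S) →
      ∑' p : {p : O // (nm p).minFac = l}, F p = ∑ p ∈ S, F p := by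
    intro l S h1 h2
    refine (tsum_subtype {p : O | (nm p).minFac = l} F).trans ?_
    rw [tsum_eq_sum (s := S)]
    · exact Finset.sum_congr rfl fun p hp => Set.indicator_of_mem (s := {p : O | (nm p).minFac = l}) (h1 p hp) _
    · intro p hp
      by_cases h : p ∈ {p : O | (nm p).minFac = l}
      · rw [Set.indicator_of_mem h]
        exact hzero p fun h' => hp (h2 p h'.1 h'.2 h)
      · exact Set.indicator_of_notMem h _
  have hprime : ∀ l : Nat.Primes, cexp (∑' p : {p : O // (nm p).minFac = l}, F p) =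
      (1 - χ l * (l : ℂ) ^ (-s))⁻¹ * (1 - χ2 l * (l : ℂ) ^ (-s))⁻¹ := by
    rintro ⟨l, hl⟩
    simp only
    have hd : ∀ p : O, (nm p).minFac = l → l ∣ nm p := fun p h => h ▸ Nat.minFac_dvd _
    have hc : (l : ZMod 3) = ((l % 3 : ℕ) : ZMod 3) := (ZMod.natCast_mod l 3).symm
    obtain h | h | h : l % 3 = 0 ∨ l % 3 = 1 ∨ l % 3 = 2 := by omega
    · have h0 : χ l = 0 := by
        refine χ.map_nonunit fun hu => ?_
        rw [ZMod.isUnit_iff_coprime] at hu
        have := Nat.eq_one_of_dvd_coprimes hu (Nat.dvd_of_mod_eq_zero h) h3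
        omega
      rw [hfib l ∅ (by simp) fun p hp hp' e => by
        have h1 := nm_prime_mod hp hp'
        have h2 := (Nat.dvd_of_mod_eq_zero h).trans (hd p e)
        omega, hv, h0]
      simp
    · obtain ⟨π, a, b, c, d, e⟩ := fiber_split hl h
      rw [hfib l {π, cj π} (by simp [nm_cj, c, hl.minFac_eq])
        fun p hp hp' e' => by simpa using e p hp hp' (hd p e'), Finset.sum_pair d, hval π a b,
        hval _ (RecipA.prime_cj a) (RecipA.primary_cj b), nm_cj, c, hv, hc, h, exp_add, exp_neg,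
        exp_log (hne l hl χ)]
      simp
    · obtain ⟨a, b, e⟩ := fiber_inert hl h
      have c : nm (-l : O) = l ^ 2 := by
        rw [← nm_natCast, neg_eq_neg_one_mul, nm_mul, isUnit_iff_nm.1 isUnit_one.neg, one_mul]
      have h1 := hne l hl χ
      have h2 := hne l hl χ2
      have h4 : 1 - χ ((l ^ 2 : ℕ) : ZMod K) * ((l ^ 2 : ℕ) : ℂ) ^ (-s) =
          (1 - χ l * (l : ℂ) ^ (-s)) * (1 - χ2 l * (l : ℂ) ^ (-s)) := by
        rw [hv, hc, h, sq, Nat.cast_mul, map_mul, Nat.cast_mul, natCast_mul_natCast_cpow,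
          Nat.cast_ofNat, chi3_two]
        ring
      rw [hfib l {(-l : O)} (by simp [c, hl.pow_minFac])
        fun p hp hp' e' => by simpa using e p hp hp' (hd p e'), Finset.sum_singleton, hval _ a b, c,
        exp_neg, h4, exp_log (mul_ne_zero h1 h2), mul_inv]
  have hP : HasProd (fun l : Nat.Primes => cexp (∑' p : {p : O // (nm p).minFac = l}, F p))
      (cexp (∑' p, F p)) := by
    refine (hasProd_subtype_iff_of_mulSupport_subset (s := {l : ℕ | l.Prime}) ?_).2 hprod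
    intro l hl
    by_contra h
    refine hl ?_
    simp only [Function.comp]
    rw [hfib l ∅ (by simp) fun p hp _ e => by
      have := CountAux.two_le_nm hp
      exact absurd (e ▸ Nat.minFac_prime (by omega)) h]
    simp
  simp only [hprime] at hP
  rw [Lser_eq_exp hM _ _ hs]
  exact hP.unique ((χ.LSeries_eulerProduct_hasProd hs).mul (χ2.LSeries_eulerProduct_hasProd hs))

theorem Lc_normChr {K : ℕ} [NeZero K] (h72 : 72 ∣ K) (χ : DirichletCharacter ℂ K) {s : ℂ}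
    (hs : s ≠ 1) :
    Lc (normChr χ) 1 s = χ.LFunction s *
      (χ * DirichletCharacter.changeLevel (Dvd.dvd.trans (by norm_num) h72) chi3).LFunction s := by
  have hM : Adm (K : O) := ⟨by exact_mod_cast NeZero.ne K, by exact_mod_cast Nat.cast_dvd_cast (α := O) h72⟩
  obtain ⟨h1, h2, -⟩ := isL_Lc hM (normChr χ) one_ne_zero
  have hpc : IsPreconnected ({1}ᶜ : Set ℂ) :=
    (isConnected_compl_singleton_of_one_lt_rank (rank_real_complex ▸ Nat.one_lt_ofNat) _)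
      |>.isPreconnected
  have hne : 2 ∈ ({1}ᶜ : Set ℂ) := by simp
  refine AnalyticOnNhd.eqOn_of_preconnected_of_eventuallyEq (𝕜 := ℂ)
    (g := fun s => χ.LFunction s * (χ * DirichletCharacter.changeLevel
      (Dvd.dvd.trans (by norm_num) h72) chi3).LFunction s)
    (h1.analyticOnNhd isOpen_compl_singleton) ?_ hpc hne ?_ hs
  · refine DifferentiableOn.analyticOnNhd (fun s hs => ?_) isOpen_compl_singleton
    exact ((DirichletCharacter.differentiableAt_LFunction _ _ (.inl hs)).mul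
      (DirichletCharacter.differentiableAt_LFunction _ _ (.inl hs))).differentiableWithinAt
  · refine Filter.eventually_of_mem ?_ fun t (ht : 1 < t.re) => ?_
    · exact (continuous_re.isOpen_preimage _ isOpen_Ioi).mem_nhds (by simp : 1 < (2 : ℂ).re)
    · simp only [h2 t ht, DirichletCharacter.LFunction_eq_LSeries _ ht, Lser_normChr h72 χ ht]

theorem dirichlet {β : ℝ} (h : ZeroFree β) {N : ℕ} [NeZero N]
    (χ : DirichletCharacter ℂ N) (s : ℂ) (hχs : χ ≠ 1 ∨ s ≠ 1) (hs : β < s.re) :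
    χ.LFunction s ≠ 0 := by
  by_cases h1 : s = 1
  · exact χ.LFunction_ne_zero_of_one_le_re hχs (by simp [h1])
  have : NeZero (72 * N) := ⟨mul_ne_zero (by norm_num) (NeZero.ne N)⟩
  have h72 : 72 ∣ 72 * N := Dvd.intro _ rfl
  have hM : Adm ((72 * N : ℕ) : O) :=
    ⟨by exact_mod_cast NeZero.ne (72 * N), by exact_mod_cast Nat.cast_dvd_cast (α := O) h72⟩
  have h2 := h _ hM (normChr (DirichletCharacter.changeLevel (Dvd.intro_left 72 rfl) χ)) 1
    one_ne_zero s hs (Or.inl h1)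
  rw [Lc_normChr h72 _ h1, DirichletCharacter.LFunction_changeLevel _ _ hχs] at h2
  exact left_ne_zero_of_mul (left_ne_zero_of_mul h2)

end Crest.Agent.R17.FinalA
end
end

-- ▼ part PVc/R17/FinalAuxB
section

/-!
# Row 17, module M16: Hecke characters of `ℚ(√-3)` in terms of `O`
-/

set_option autoImplicit false

noncomputable section

namespace Crest.Agent.R17.FinB

open Crest.NumberTheoryR.EisensteinField

theorem exists_equiv : Nonempty (O ≃+* O3) := by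
  have : IsCyclotomicExtension {3} ℚ K3 := CyclotomicField.isCyclotomicExtension 3 ℚ
  have hζ := IsCyclotomicExtension.zeta_spec 3 ℚ K3
  set η : O3 := hζ.toInteger with hη
  have h1 : η * η = (-1 : ℤ) • (1 : O3) + (-1 : ℤ) • η := by
    have := hζ.toInteger_isPrimitiveRoot.geom_sum_eq_zero (by norm_num)
    simp only [Finset.sum_range_succ, Finset.sum_range_zero, ← hη] at this
    simp only [neg_smul, one_smul]
    linear_combination this
  let φ : O →ₐ[ℤ] O3 := QuadraticAlgebra.lift ⟨η, h1⟩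
  refine ⟨RingEquiv.ofBijective φ ⟨(injective_iff_map_eq_zero φ).2 fun z hz => ?_, fun y => ?_⟩⟩
  · have h2 : φ (z * cj z) = 0 := by rw [map_mul, hz, zero_mul]
    rw [mul_cj, map_natCast, Nat.cast_eq_zero] at h2
    exact nm_eq_zero.1 h2
  · have h2 : Algebra.adjoin ℤ {η} ≤ φ.range := by
      rw [Algebra.adjoin_le_iff, Set.singleton_subset_iff]
      refine ⟨om, ?_⟩
      change (0 : ℤ) • (1 : O3) + (1 : ℤ) • η = η
      simp
    rw [IsCyclotomicExtension.Rat.adjoin_singleton_eq_top hζ] at h2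
    exact h2 Algebra.mem_top

variable (e : O ≃+* O3)

/-- the ideal generated by the image of `x` -/
def sp (x : O) : Ideal O3 := Ideal.span {e x}

theorem sp_mul (x y : O) : sp e (x * y) = sp e x * sp e y := by
  rw [sp, sp, sp, map_mul, Ideal.span_singleton_mul_span_singleton]

theorem sp_surj (I : Ideal O3) : ∃ x, sp e x = I := by
  obtain ⟨x, hx⟩ := (IsPrincipalIdealRing.principal (I.comap e)).principal
  refine ⟨x, ?_⟩
  rw [← Ideal.map_comap_of_surjective e e.surjective I, hx, Ideal.submodule_span_eq,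
    Ideal.map_span, Set.image_singleton, sp]

theorem sp_dvd {x y : O} : sp e x ∣ sp e y ↔ x ∣ y := by
  rw [sp, sp, Ideal.dvd_span_singleton, Ideal.mem_span_singleton, map_dvd_iff]

theorem sp_eq {x y : O} : sp e x = sp e y ↔ Associated x y := by
  rw [← dvd_dvd_iff_associated, ← sp_dvd e, ← sp_dvd e]
  exact ⟨fun h => h ▸ ⟨dvd_rfl, dvd_rfl⟩, fun h =>
    le_antisymm (Ideal.le_of_dvd h.2) (Ideal.le_of_dvd h.1)⟩

theorem sp_sup {x y : O} : sp e x ⊔ sp e y = ⊤ ↔ IsCoprime x y := by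
  rw [← Ideal.isCoprime_iff_sup_eq, sp, sp, Ideal.isCoprime_span_singleton_iff]
  exact ⟨fun h => by simpa using h.map (e.symm : O3 →+* O), fun h => h.map (e : O →+* O3)⟩

theorem absNorm_sp (x : O) : Ideal.absNorm (sp e x) = nm x := by
  rw [Ideal.absNorm_apply, Submodule.cardQuot_apply, ← card_quot_aux]
  refine (Nat.card_congr (Ideal.quotientEquiv (Ideal.span {x}) (sp e x) e ?_).toEquiv).symm
  rw [Ideal.map_span, Set.image_singleton, sp]
  rfl

variable {g : O} (ψ : RayClassChar (sp e g))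

/-- the Hecke character on elements -/
def Ψ (x : O) : ℂ := ψ.toFun (sp e x)

theorem Ψ_mul (x y : O) : Ψ e ψ (x * y) = Ψ e ψ x * Ψ e ψ y := by
  rw [Ψ, sp_mul, ψ.map_mul, Ψ, Ψ]

theorem Ψ_eq_one {x : O} (h : g ∣ x - 1) : Ψ e ψ x = 1 := by
  refine ψ.map_span_of_sub_one_mem _ (Ideal.mem_span_singleton.2 ?_)
  rw [← map_one e, ← map_sub]
  exact map_dvd e h

theorem Ψ_eq_zero {x : O} (h : ¬ IsCoprime x g) : Ψ e ψ x = 0 :=
  ψ.eq_zero_of_not_coprime _ fun h' => h ((sp_sup e).1 h')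

theorem Ψ_congr {x y : O} (hx : IsCoprime x g) (h : g ∣ x - y) : Ψ e ψ x = Ψ e ψ y := by
  obtain ⟨a, b, hab⟩ := hx
  obtain ⟨c, hc⟩ := h
  have h1 := Ψ_eq_one e ψ (x := a * x) ⟨-b, by linear_combination hab⟩
  have h2 := Ψ_eq_one e ψ (x := a * y) ⟨-b - a * c, by linear_combination hab - a * hc⟩
  rw [Ψ_mul] at h1 h2
  exact mul_left_cancel₀ (left_ne_zero_of_mul_eq_one h1) (h1.trans h2.symm)

theorem exists_ν (k : O) : ∃ ν : Chr (k * g), ∀ n, IsCoprime n (k * g) → ev ν n = Ψ e ψ n :=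
  exists_chr _ (Ψ_eq_one e ψ (by simp)) (fun _ _ _ _ => Ψ_mul e ψ _ _) fun _ _ hm h =>
    Ψ_congr e ψ hm.of_mul_right_right ((dvd_mul_left g k).trans h)

theorem norm_Ψ_le (hg : g ≠ 0) (x : O) : ‖Ψ e ψ x‖ ≤ 1 := by
  by_cases h : IsCoprime x g
  · obtain ⟨ν, hν⟩ := exists_ν e ψ 1
    rw [← hν x (by rwa [one_mul])]
    exact norm_ev_le (by rwa [one_mul]) ν x
  · simp [Ψ_eq_zero e ψ h]

theorem lift_coprime {x q p : O} (hp : Prime p) (h : IsCoprime x q) :
    ∃ y, q ∣ x - y ∧ IsCoprime y (q * p) := by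
  by_cases hx : p ∣ x
  · refine ⟨x + q * 1, ⟨-1, by ring⟩, (h.add_mul_left_left 1).mul_right
      (hp.irreducible.coprime_iff_not_dvd.2 fun h' => ?_).symm⟩
    rw [mul_one, dvd_add_right hx] at h'
    exact hp.not_isUnit (h.isUnit_of_dvd' hx h')
  · exact ⟨x, by simp, h.mul_right (hp.irreducible.coprime_iff_not_dvd.2 hx).symm⟩

theorem coprime_72 {x : O} (h1 : ¬ lam ∣ x) (h2 : ¬ (-2 : O) ∣ x) : IsCoprime x 72 := by
  have e72 : (72 : O) = -((-2) ^ 3 * lam ^ 4) := by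
    rw [show lam ^ 4 = (lam ^ 2) ^ 2 by ring, lam_sq]
    norm_num
  rw [e72]
  exact ((prime_neg_two.irreducible.coprime_iff_not_dvd.2 h2).symm.pow_right.mul_right
    (prime_lam.irreducible.coprime_iff_not_dvd.2 h1).symm.pow_right).neg_right

theorem principal {ν : Chr (72 * g)} (hν : ∀ n, IsCoprime n (72 * g) → ev ν n = Ψ e ψ n)
    (h : Princ ν 1) : IsPrincipalChar ψ := by
  intro I hI
  obtain ⟨x, rfl⟩ := sp_surj e I
  have hx := (sp_sup e).1 hI
  obtain ⟨y, hy, hy'⟩ := lift_coprime prime_lam hx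
  have hy0 := hy'.of_mul_right_left
  obtain ⟨z, hz, hz'⟩ := lift_coprime prime_neg_two hy'
  have z1 : ¬ lam ∣ z :=
    prime_lam.irreducible.coprime_iff_not_dvd.1 hz'.of_mul_right_left.of_mul_right_right.symm
  have z2 : ¬ (-2 : O) ∣ z :=
    prime_neg_two.irreducible.coprime_iff_not_dvd.1 hz'.of_mul_right_right.symm
  obtain ⟨u, hu, hp⟩ := exists_unit_primary z1
  have hc : IsCoprime (u * z) (72 * g) := (isCoprime_mul_unit_left_left hu _ _).2
    ((coprime_72 z1 z2).mul_right hz'.of_mul_right_left.of_mul_right_left)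
  have h1 := h _ hp (by rwa [mul_one])
  rw [rc, if_pos hp, sym_one_right, map_one, mul_one, hν _ hc, Ψ,
    (sp_eq e).2 (associated_unit_mul_left z u hu)] at h1
  change Ψ e ψ x = 1
  rw [Ψ_congr e ψ hx hy, Ψ_congr e ψ hy0 ((dvd_mul_right g lam).trans hz)]
  exact h1

/-- the general term of the Dirichlet series -/
def tm (s : ℂ) (I : Ideal O3) : ℂ := ψ.toFun I * (Ideal.absNorm I : ℂ) ^ (-s)

theorem tm_mul (s : ℂ) (I J : Ideal O3) : tm e ψ s (I * J) = tm e ψ s I * tm e ψ s J := by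
  rw [tm, tm, tm, ψ.map_mul, map_mul, Nat.cast_mul, Complex.natCast_mul_natCast_cpow]
  ring

theorem tm_sp (s : ℂ) (x : O) : tm e ψ s (sp e x) = Ψ e ψ x * (nm x : ℂ) ^ (-s) := by
  rw [tm, absNorm_sp, Ψ]

theorem norm_tm_le (hg : g ≠ 0) {s : ℂ} (hs : 0 < s.re) (x : O) :
    ‖tm e ψ s (sp e x)‖ ≤ nr x ^ (-s.re) := by
  rw [tm_sp, norm_mul, Complex.norm_natCast_cpow_of_re_ne_zero _ (by simpa using hs.ne'),
    Complex.neg_re]
  exact mul_le_of_le_one_left (by positivity) (norm_Ψ_le e ψ hg x)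

theorem summable_tm (hg : g ≠ 0) {s : ℂ} (hs : 1 < s.re) : Summable (tm e ψ s) := by
  choose γ hγ using sp_surj e
  have hinj : Function.Injective γ := fun I J h => by rw [← hγ I, ← hγ J, h]
  refine Summable.of_norm_bounded ((summable_nr_rpow hs).comp_injective hinj) fun I => ?_
  conv_lhs => rw [← hγ I]
  exact norm_tm_le e ψ hg (by linarith) _

theorem LSeries_eq (hg : g ≠ 0) {s : ℂ} (hs : 1 < s.re) :
    LSeries (coeff ψ) s = ∑' I, tm e ψ s I := by
  rw [← ((summable_tm e ψ hg hs).hasSum.tsum_fiberwise Ideal.absNorm).tsum_eq, LSeries]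
  refine tsum_congr fun n => ?_
  have hs0 : s ≠ 0 := by
    rintro rfl
    simp at hs
    linarith
  have h1 : LSeries.term (coeff ψ) s n = coeff ψ n * (n : ℂ) ^ (-s) := by
    rcases eq_or_ne n 0 with rfl | hn
    · simp [hs0]
    · rw [LSeries.term_of_ne_zero hn, Complex.cpow_neg, div_eq_mul_inv]
  rw [h1, coeff, ← tsum_eq_finsum (L := .unconditional _), ← tsum_mul_right, tsum_subtype]
  · refine tsum_congr fun I => ?_
    by_cases h : Ideal.absNorm I = n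
    · rw [if_pos h, Set.indicator_of_mem (by exact h), tm, h]
    · rw [if_neg h, Set.indicator_of_notMem (by exact h), zero_mul]
  · refine (Ideal.finite_setOfPred_absNorm_eq n).subset fun I hI => ?_
    by_contra h
    exact hI (if_neg h)

open Classical in
theorem remove {f : Ideal O3 → ℂ} (hf : Summable f) {P : Ideal O3} (hP : P ≠ 0) {c : ℂ}
    (h : ∀ J, f (P * J) = c * f J) :
    ∑' I, (if P ∣ I then 0 else f I) = (1 - c) * ∑' I, f I := by
  have h1 : ∑' I, (if P ∣ I then f I else 0) = c * ∑' I, f I := by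
    rw [← tsum_mul_left, ← (mul_right_injective₀ hP).tsum_eq]
    · simp only [dvd_mul_right, if_true, h]
    · intro I hI
      by_contra h'
      exact hI (if_neg fun ⟨J, hJ⟩ => h' ⟨J, hJ.symm⟩)
  have s1 : Summable fun I => if P ∣ I then f I else 0 := hf.indicator {I | P ∣ I}
  rw [sub_mul, one_mul, ← h1, ← hf.tsum_sub s1]
  refine tsum_congr fun I => ?_
  split_ifs <;> simp

theorem Lser_eq (hg : g ≠ 0) {ν : Chr (72 * g)}
    (hν : ∀ n, IsCoprime n (72 * g) → ev ν n = Ψ e ψ n) {s : ℂ} (hs : 1 < s.re) :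
    Lser ν 1 s = (1 - tm e ψ s (sp e (-2))) * ((1 - tm e ψ s (sp e lam)) * LSeries (coeff ψ) s) := by
  classical
  have hf := summable_tm e ψ hg hs
  have n0 : ∀ {x : O}, x ≠ 0 → sp e x ≠ 0 := fun {x} hx h =>
    hx (e.map_eq_zero_iff.1 (Ideal.span_singleton_eq_bot.1 h))
  have s1 : Summable fun I => if sp e lam ∣ I then 0 else tm e ψ s I := by
    refine (hf.indicator {I | ¬ sp e lam ∣ I}).congr fun I => ?_
    by_cases h : sp e lam ∣ I <;> simp [h]
  have hl2 : ¬ lam ∣ (-2 : O) := fun h => by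
    have := nm_dvd_of_dvd h
    rw [nm_lam, nm_neg, BasicA.nm_two] at this
    omega
  rw [LSeries_eq e ψ hg hs, ← remove hf (n0 prime_lam.ne_zero) (tm_mul e ψ s _),
    ← remove s1 (n0 prime_neg_two.ne_zero) fun J => ?_]
  swap
  · obtain ⟨x, rfl⟩ := sp_surj e J
    simp only [← sp_mul, sp_dvd, prime_lam.dvd_mul, hl2, false_or]
    split_ifs
    · rw [mul_zero]
    · rw [sp_mul, tm_mul]
  have hinj : Function.Injective fun n : {n : O | Primary n} => sp e n := fun a b h =>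
    Subtype.ext (a.2.eq_of_associated b.2 ((sp_eq e).1 h))
  rw [← hinj.tsum_eq, Lser, ← tsum_subtype_eq_of_support_subset (s := {n : O | Primary n})]
  · refine tsum_congr fun ⟨n, hn⟩ => ?_
    have hn' : Primary n := hn
    simp only [rc, if_pos hn', sym_one_right, map_one, mul_one, sp_dvd, if_neg hn'.not_lam_dvd,
      tm_sp, Complex.ofReal_natCast]
    split_ifs with h2
    · rw [ev_eq_zero, zero_mul]
      exact fun h => prime_neg_two.not_isUnit
        (h.isUnit_of_dvd' h2 (Dvd.dvd.mul_right ⟨-36, by norm_num⟩ g))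
    · by_cases h3 : IsCoprime n g
      · rw [hν n ((coprime_72 hn'.not_lam_dvd h2).mul_right h3)]
      · rw [Ψ_eq_zero e ψ h3, ev_eq_zero ν fun h => h3 h.of_mul_right_right]
  · intro n hn
    by_contra h
    exact hn (by simp only [rc, if_neg (show ¬ Primary n from h), zero_mul])
  · intro I hI
    obtain ⟨x, rfl⟩ := sp_surj e I
    have h1 : ¬ lam ∣ x := fun h => hI (by simp only [sp_dvd, if_pos h, ite_self])
    obtain ⟨u, hu, hp⟩ := exists_unit_primary h1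
    exact ⟨⟨_, hp⟩, (sp_eq e).2 (associated_unit_mul_left x u hu)⟩

theorem one_sub_ne (hg : g ≠ 0) {s : ℂ} (hs : 0 < s.re) {x : O} (hx : 1 < nm x) :
    1 - tm e ψ s (sp e x) ≠ 0 := by
  intro h
  have h1 := norm_tm_le e ψ hg hs x
  rw [← sub_eq_zero.1 h, norm_one] at h1
  exact absurd (Real.rpow_lt_one_of_one_lt_of_neg (by exact_mod_cast hx) (by linarith))
    (not_lt.2 h1)

theorem differentiable_tm {x : O} (hx : x ≠ 0) : Differentiable ℂ fun s => tm e ψ s (sp e x) := by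
  simp only [tm_sp]
  exact (differentiable_id.neg.const_cpow
    (Or.inl (Nat.cast_ne_zero.2 fun h => hx (nm_eq_zero.1 h)))).const_mul _

theorem hecke (h : ZeroFree (7 / 8)) (m : Ideal O3) (hm : m ≠ ⊥) (ψ : RayClassChar m) :
    ∃ G : ℂ → ℂ, (∀ s : ℂ, 1 < s.re → G s = LSeries (coeff ψ) s) ∧
      ∀ s : ℂ, 7 / 8 < s.re → (¬ IsPrincipalChar ψ ∨ s ≠ 1) → DifferentiableAt ℂ G s ∧ G s ≠ 0 := by
  obtain ⟨e⟩ := exists_equiv
  obtain ⟨g, rfl⟩ := sp_surj e m
  have hg : g ≠ 0 := by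
    rintro rfl
    exact hm (by simp [sp])
  obtain ⟨ν, hν⟩ := exists_ν e ψ 72
  have h72 : (72 : O) ≠ 0 := fun h => by
    have := nm_natCast 72
    rw [Nat.cast_ofNat, h, nm_zero] at this
    omega
  have hM : Adm (72 * g) := ⟨mul_ne_zero h72 hg, dvd_mul_right _ _⟩
  obtain ⟨hL1, hL2, hL3⟩ := isL_Lc hM ν one_ne_zero
  have a1 : ∀ s : ℂ, 0 < s.re → 1 - tm e ψ s (sp e lam) ≠ 0 := fun s hs =>
    one_sub_ne e ψ hg hs (by rw [nm_lam]; norm_num)
  have a2 : ∀ s : ℂ, 0 < s.re → 1 - tm e ψ s (sp e (-2)) ≠ 0 := fun s hs =>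
    one_sub_ne e ψ hg hs (by rw [nm_neg, BasicA.nm_two]; norm_num)
  refine ⟨fun s => (1 - tm e ψ s (sp e lam))⁻¹ * ((1 - tm e ψ s (sp e (-2)))⁻¹ * Lc ν 1 s),
    fun s hs => ?_, fun s hs hs1 => ?_⟩
  · simp only
    rw [hL2 s hs, Lser_eq e ψ hg hν hs, inv_mul_cancel_left₀ (a2 s (by linarith)),
      inv_mul_cancel_left₀ (a1 s (by linarith))]
  · have hs2 : s ≠ 1 ∨ ¬ Princ ν 1 := hs1.symm.imp_right fun h1 h2 => h1 (principal e ψ hν h2)
    have b1 := a1 s (by linarith)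
    have b2 := a2 s (by linarith)
    have hd : DifferentiableAt ℂ (Lc ν 1) s := hs2.elim
      (fun h1 => hL1.differentiableAt (isOpen_compl_singleton.mem_nhds h1)) fun h1 => hL3 h1 s
    refine ⟨(((differentiable_tm e ψ prime_lam.ne_zero s).const_sub 1).inv b1).mul
      ((((differentiable_tm e ψ prime_neg_two.ne_zero s).const_sub 1).inv b2).mul hd), ?_⟩
    exact mul_ne_zero (inv_ne_zero b1)
      (mul_ne_zero (inv_ne_zero b2) (h _ hM ν 1 one_ne_zero s hs hs2))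

end Crest.Agent.R17.FinB
end
end

-- ▼ part PVc/R17/Final

/-!
# Row 17, module M16: from `ZeroFree (7/8)` to the two statements
-/

set_option autoImplicit false

noncomputable section

namespace Crest.Agent.R17

open Crest.NumberTheoryR.EisensteinField

/-- For `Re s ≥ 1` use Mathlib (`DirichletCharacter.LFunction_ne_zero_of_one_le_re`).  For
`Re s < 1`: `M = 72 N`, `ν(n) = χ(N n)`; `Lc ν 1 = L(χ') L(χ' χ₋₃)` on `{1}ᶜ`, `χ'` the lift of `χ`
to level `6N` (number of primary elements of norm `k` is `∑_{d ∣ k} χ₋₃(d)` for `(k,6)=1`), and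
`L(χ') = L(χ) ∏ (1 - χ(p) p^{-s})` (`LFunction_changeLevel`). -/
theorem dirichlet_of_zeroFree (h : ZeroFree (7 / 8)) {N : ℕ} [NeZero N]
    (χ : DirichletCharacter ℂ N) (s : ℂ) (hχs : χ ≠ 1 ∨ s ≠ 1) (hs : 7 / 8 < s.re) :
    χ.LFunction s ≠ 0 := FinalA.dirichlet h χ s hχs hs

/-- Ring isomorphism `O3 ≃ O`; `m = (g)`, `M = 72 g`, `ν(n) = ψ((n))`; every non-zero ideal is
`(λ^j (-2)^k n)` with a unique primary odd `n`, so
`G(s) = (1 - ψ(λ) 3^{-s})⁻¹ (1 - ψ(2) 4^{-s})⁻¹ Lc ν 1 s`, `|ψ| ≤ 1`. -/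
theorem hecke_of_zeroFree (h : ZeroFree (7 / 8)) (m : Ideal O3) (hm : m ≠ ⊥)
    (ψ : RayClassChar m) :
    ∃ G : ℂ → ℂ, (∀ s : ℂ, 1 < s.re → G s = LSeries (coeff ψ) s) ∧
      ∀ s : ℂ, 7 / 8 < s.re → (¬ IsPrincipalChar ψ ∨ s ≠ 1) → DifferentiableAt ℂ G s ∧ G s ≠ 0 :=
  FinB.hecke h m hm ψ

end Crest.Agent.R17
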