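import Crest.Agent.PVc.R17.LBasic
import Crest.Agent.PVc.R17.Count
import Crest.Agent.PVc.R17.LS2Ker
import Crest.Agent.PVc.R17.DP
import Crest.Agent.PVc.R17.RowTail
import Crest.Agent.PVc.R17.Energy

-- ▼ part PVc/R17/GramAuxA
section

/-!
# Row 17, module M15a: smooth sums over squarefree elements (auxiliary file for `Gram`)
-/

set_option autoImplicit false

noncomputable section

namespace Crest.Agent.R17.GrA

open scoped ComplexConjugate Classical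

/-- One-sided truncation of a smooth sum. -/
theorem trunc (A B σ : ℝ) (hB : 0 ≤ B) : ∃ C : ℝ, 0 < C ∧
    ∀ (b : O → ℂ) (H X L : ℝ) (s : ℂ), PolyB b H B → 0 < X → 1 ≤ L → |s.re| ≤ σ →
      ‖Sm b X s - ∑ n ∈ ball ⌊X * L⌋₊, b n * Wc (nr n / X) s‖ ≤ C * H * X ^ (B + 1) * L ^ (-A) := by
  obtain ⟨C, hC, h⟩ := tsum_norm_Sm_tail_le A B σ hB
  refine ⟨C, hC, fun b H X L s hb hX hL hs => le_trans ?_ (h b H X L s hb hX hL hs)⟩
  have h1 := summable_Sm hb hX s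
  have h2 : Summable fun n : O => if n ∈ ball ⌊X * L⌋₊ then b n * Wc (nr n / X) s else 0 :=
    summable_of_ne_finset_zero (s := ball ⌊X * L⌋₊) fun n hn => if_neg hn
  have h3 : Summable fun n : O =>
      if X / L ≤ nr n ∧ nr n ≤ X * L then 0 else ‖b n * Wc (nr n / X) s‖ := by
    refine Summable.of_nonneg_of_le (fun n => ?_) (fun n => ?_) h1 <;> split_ifs
    exacts [le_rfl, norm_nonneg _, norm_nonneg _, le_rfl]
  have e : ∑ n ∈ ball ⌊X * L⌋₊, b n * Wc (nr n / X) s =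
      ∑' n : O, if n ∈ ball ⌊X * L⌋₊ then b n * Wc (nr n / X) s else 0 := by
    rw [tsum_eq_sum (s := ball ⌊X * L⌋₊) fun n hn => if_neg hn]
    exact Finset.sum_congr rfl fun n hn => (if_pos hn).symm
  rw [e, Sm, ← h1.of_norm.tsum_sub h2]
  refine tsum_of_norm_bounded h3.hasSum fun n => ?_
  by_cases hn : n ∈ ball ⌊X * L⌋₊
  · rw [if_pos hn, sub_self, norm_zero]
    split_ifs
    exacts [le_rfl, norm_nonneg _]
  · rw [if_neg hn, sub_zero, if_neg]
    rintro ⟨-, h4⟩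
    exact hn (mem_ball.2 ((Nat.le_floor_iff (by positivity)).2 h4))

/-- Trivial bound. -/
theorem triv (B σ : ℝ) (hB : 0 ≤ B) : ∃ C : ℝ, 0 < C ∧
    ∀ (b : O → ℂ) (X : ℝ) (s : ℂ), PolyB b 1 B → 0 < X → |s.re| ≤ σ →
      ∑' n : O, ‖b n * Wc (nr n / X) s‖ ≤ C * X ^ (B + 1) := by
  obtain ⟨C, hC, h⟩ := tsum_norm_Sm_le 0 B σ hB
  refine ⟨C, hC, fun b X s hb hX hs => (h b 1 X s hb hX hs).trans ?_⟩
  rw [mul_one]
  exact mul_le_mul_of_nonneg_left (min_le_left _ _) hC.le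

theorem pln_im {M : O} (hM : Adm M) {δ : ℝ} (hδ : 0 < δ) (hδ' : δ ≤ 1 / 2) : ∃ C : ℝ, 0 < C ∧
    ∀ (ν : Chr M) (a : O) (N : ℝ) (s : ℂ), ¬ Exc M a → 0 < N → |s.re| ≤ 3 →
      ‖Pln ν a N s‖ ≤ C * (1 + |s.im|) * Real.sqrt (nr a) * N ^ (1 / 2 + δ) := by
  obtain ⟨C₁, hC₁, h1⟩ := triv 0 3 le_rfl
  obtain ⟨C₂, hC₂, h2⟩ := Pln_decay hM hδ 0
  refine ⟨C₁ + C₂, by positivity, fun ν a N s ha hN hs => ?_⟩
  have ha1 : 1 ≤ nr a := one_le_nr (ne_zero_of_not_exc ha)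
  have hr : 1 ≤ Real.sqrt (nr a) := Real.one_le_sqrt.2 ha1
  have ht : 1 ≤ 1 + |s.im| := le_add_of_nonneg_right (abs_nonneg _)
  have h3 : ‖Pln ν a N s‖ ≤ C₁ * N := by
    have := h1 _ N s (polyB_rc hM ν a) hN hs
    rw [zero_add, Real.rpow_one] at this
    exact (norm_tsum_le_tsum_norm (summable_Sm (polyB_rc hM ν a) hN s)).trans this
  have key : N ≤ (1 + |s.im|) * Real.sqrt (nr a) * N ^ (1 / 2 + δ) →
      ‖Pln ν a N s‖ ≤ (C₁ + C₂) * (1 + |s.im|) * Real.sqrt (nr a) * N ^ (1 / 2 + δ) := fun h => by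
    calc _ ≤ C₁ * ((1 + |s.im|) * Real.sqrt (nr a) * N ^ (1 / 2 + δ)) :=
          h3.trans (mul_le_mul_of_nonneg_left h hC₁.le)
      _ ≤ (C₁ + C₂) * ((1 + |s.im|) * Real.sqrt (nr a) * N ^ (1 / 2 + δ)) := by
          gcongr; linarith
      _ = _ := by ring
  rcases le_total N 1 with hN1 | hN1
  · refine key ?_
    calc N = N ^ (1 : ℝ) := (Real.rpow_one N).symm
      _ ≤ N ^ (1 / 2 + δ) := Real.rpow_le_rpow_of_exponent_ge hN hN1 (by linarith)
      _ ≤ _ := le_mul_of_one_le_left (by positivity) (one_le_mul_of_one_le_of_one_le ht hr)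
  have hd : 1 ≤ N ^ δ := Real.one_le_rpow hN1 hδ.le
  have e : N ^ (1 / 2 + δ) = Real.sqrt N * N ^ δ := by rw [Real.rpow_add hN, Real.sqrt_eq_rpow]
  have key' : Real.sqrt N ≤ (1 + |s.im|) * Real.sqrt (nr a) * N ^ δ →
      ‖Pln ν a N s‖ ≤ (C₁ + C₂) * (1 + |s.im|) * Real.sqrt (nr a) * N ^ (1 / 2 + δ) := fun h => by
    refine key ?_
    calc N = Real.sqrt N * Real.sqrt N := (Real.mul_self_sqrt hN.le).symm
      _ ≤ Real.sqrt N * ((1 + |s.im|) * Real.sqrt (nr a) * N ^ δ) := by gcongr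
      _ = _ := by rw [e]; ring
  by_cases h4 : nr a * N ^ δ * (1 + |s.im|) ^ 2 ≤ N
  · have h5 : |s.im| ≤ N := by
      have : (1 + |s.im|) ^ 2 ≤ N :=
        (le_mul_of_one_le_left (by positivity) (one_le_mul_of_one_le_of_one_le ha1 hd)).trans h4
      nlinarith [abs_nonneg s.im]
    have h6 := h2 N N s ν a hN1 ha h4 le_rfl hs h5
    rw [neg_zero, Real.rpow_zero, mul_one] at h6
    calc _ ≤ (C₁ + C₂) * 1 * 1 * 1 := by linarith
      _ ≤ _ := by
        gcongr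
        exact Real.one_le_rpow hN1 (by linarith)
  · refine key' (Real.sqrt_le_iff.2 ⟨by positivity, (not_le.1 h4).le.trans ?_⟩)
    rw [mul_pow, mul_pow, Real.sq_sqrt (by positivity)]
    calc nr a * N ^ δ * (1 + |s.im|) ^ 2 = (1 + |s.im|) ^ 2 * nr a * (N ^ δ * 1) := by ring
      _ ≤ (1 + |s.im|) ^ 2 * nr a * (N ^ δ * N ^ δ) := by gcongr
      _ = _ := by ring

/-- A Pólya–Vinogradov type bound. -/
theorem pln_le {M : O} (hM : Adm M) {δ : ℝ} (hδ : 0 < δ) (hδ' : δ ≤ 1 / 2) : ∃ C : ℝ, 0 < C ∧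
    ∀ (ν : Chr M) (a : O) (N : ℝ) (s : ℂ), ¬ Exc M a → 0 < N → |s.re| ≤ 4 →
      ‖Pln ν a N s‖ ≤ C * (1 + |s.im|) * Real.sqrt (nr a) * N ^ (1 / 2 + δ) := by
  obtain ⟨C, hC, h⟩ := pln_im hM hδ hδ'
  refine ⟨Real.exp 4 * C * Real.exp 2, by positivity, fun ν a N s ha hN hs => ?_⟩
  have h1 := h ν a (N * Real.exp (s.re / 2)) (s.im * Complex.I) ha (by positivity) (by simp)
  have h2 : ((s.im : ℂ) * Complex.I).im = s.im := by simp
  have h3 := abs_le.1 hs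
  rw [h2, Real.mul_rpow hN.le (Real.exp_pos _).le, Pln_eq_Sm] at h1
  rw [Pln_eq_Sm, WeightB.norm_Sm_eq _ (rc_zero ν a) hN]
  have h4 : Real.exp (s.re ^ 2 / 4) ≤ Real.exp 4 := Real.exp_le_exp.2 (by nlinarith)
  have h5 : Real.exp (s.re / 2) ^ (1 / 2 + δ) ≤ Real.exp 2 := by
    rw [← Real.exp_mul]
    exact Real.exp_le_exp.2 (by nlinarith)
  calc _ ≤ Real.exp 4 * (C * (1 + |s.im|) * Real.sqrt (nr a) * (N ^ (1 / 2 + δ) * Real.exp 2)) := by
        refine mul_le_mul h4 (h1.trans ?_) (norm_nonneg _) (by positivity)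
        gcongr
    _ = _ := by ring

/-- `∑_{j² ∣ m} μ(j) = μ²(m)`. -/
theorem sum_mu_sq {m : O} (hm : Primary m) :
    ∑' j : O, (if Primary j ∧ j ^ 2 ∣ m then mu j else 0) = if Squarefree m then 1 else 0 := by
  set d := ∏ p ∈ (pf m).filter (fun p => 2 ≤ vp p m), p with hd
  have hp : ∀ q ∈ (pf m).filter (fun p => 2 ≤ vp p m), Prime q ∧ Primary q :=
    fun q hq => BasicB.pf_sub (Finset.mem_filter.1 hq).1
  obtain ⟨d1, d2, d3⟩ := squarefree_prod_primes hp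
  rw [← hd] at d1 d2 d3
  have h1 : ∀ j, (if Primary j ∧ j ^ 2 ∣ m then mu j else 0) = if j ∈ pdiv d then mu j else 0 := by
    intro j
    by_cases hj : Squarefree j
    swap
    · simp [BasicB.mu_of_not hj]
    refine if_congr ?_ rfl rfl
    rw [mem_pdiv d2.ne_zero]
    refine and_congr_right fun hj' => ?_
    rw [(hj'.pow 2).dvd_iff_vp hm.ne_zero, hj'.dvd_iff_vp d2.ne_zero, pf_pow two_ne_zero]
    refine forall₂_congr fun p hp' => ?_
    obtain ⟨p1, p2⟩ := BasicB.pf_sub hp'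
    rw [vp_pow p1 hj'.ne_zero, (hj'.squarefree_iff.1 hj) p hp', Nat.one_le_iff_ne_zero,
      ← BasicB.mem_pf_iff d2.ne_zero p1 p2, d3, Finset.mem_filter,
      BasicB.mem_pf_iff hm.ne_zero p1 p2]
    omega
  rw [tsum_congr h1, tsum_eq_sum (s := pdiv d) fun j hj => if_neg hj,
    Finset.sum_congr rfl fun j hj => if_pos hj, sum_mu_pdiv d2.ne_zero, d3]
  refine if_congr ?_ rfl rfl
  rw [hm.squarefree_iff, Finset.filter_eq_empty_iff]
  refine forall₂_congr fun p hp' => ?_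
  have := BasicB.vp_ne_zero hp'
  omega

/-- Restriction of a smooth sum to the squarefree elements. -/
theorem sq_sieve {θ : ℝ} (hθ : 1 / 2 < θ) : ∃ C : ℝ, 0 < C ∧
    ∀ (χ : O → ℂ) (E Y : ℝ) (s : ℂ), PolyB χ 1 0 → (∀ n, ¬ Primary n → χ n = 0) →
      (∀ j c, Primary j → χ (j * c) = χ j * χ c) → (∀ N, 0 < N → ‖Sm χ N s‖ ≤ E * N ^ θ) → 0 < Y →
      ‖Sm (fun m => if Squarefree m then χ m else 0) Y s‖ ≤ C * E * Y ^ θ := by
  have hz := summable_nr_rpow (σ := 2 * θ) (by linarith)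
  have hz2 := summable_nr_rpow (σ := 2) (by linarith)
  refine ⟨∑' j : O, nr j ^ (-(2 * θ)) + 1, by positivity, fun χ E Y s hχ h0 hm hE hY => ?_⟩
  have hE0 : 0 ≤ E := by simpa using (norm_nonneg _).trans (hE 1 one_pos)
  obtain ⟨C, hC, h1⟩ := triv 0 |s.re| le_rfl
  have hχ1 : ∀ n, ‖χ n‖ ≤ 1 := fun n => by simpa using hχ.2 n
  set g : O → O → ℂ := fun j m =>
    (if Primary j ∧ j ^ 2 ∣ m then mu j else 0) * (χ m * Wc (nr m / Y) s) with hg
  have hs := summable_Sm hχ hY s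
  have e1 : ∀ j c, Primary j → g j (j ^ 2 * c) =
      mu j * χ (j ^ 2) * (χ c * Wc (nr c / (Y / nr j ^ 2)) s) := fun j c hj => by
    have : nr (j ^ 2 * c) / Y = nr c / (Y / nr j ^ 2) := by
      rw [nr_mul, nr_pow, div_div_eq_mul_div, mul_comm]
    simp only [hg, if_pos (And.intro hj (dvd_mul_right _ c)), hm _ c (hj.pow 2), this]
    ring
  have hsupp : ∀ j, Primary j → ∀ {β : Type} [Zero β] (F : ℂ → β), F 0 = 0 →
      Function.support (fun m => F (g j m)) ⊆ Set.range fun c => j ^ 2 * c := by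
    intro j _ β _ F hF m hm'
    by_contra h2
    refine hm' ?_
    simp only [hg, if_neg fun h3 : Primary j ∧ j ^ 2 ∣ m => h2 (h3.2.imp fun c hc => hc.symm),
      zero_mul, hF]
  have hc : ∀ j, ‖mu j * χ (j ^ 2)‖ ≤ 1 := fun j => by
    rw [norm_mul]
    exact mul_le_one₀ (norm_mu_le j) (norm_nonneg _) (hχ1 _)
  have hfib : ∀ j, Summable fun m => ‖g j m‖ := fun j => by
    refine Summable.of_nonneg_of_le (fun _ => norm_nonneg _) (fun m => ?_) hs
    rw [hg, norm_mul]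
    refine mul_le_of_le_one_left (norm_nonneg _) ?_
    split_ifs
    exacts [norm_mu_le j, by simp]
  have hzero : ∀ j, ¬ Primary j → ∀ m, g j m = 0 := fun j hj m => by simp [hg, hj]
  have hsum : Summable fun z : O × O => ‖g z.1 z.2‖ := by
    refine (summable_prod_of_nonneg fun _ => norm_nonneg _).2 ⟨hfib, ?_⟩
    refine Summable.of_nonneg_of_le (fun _ => tsum_nonneg fun _ => norm_nonneg _) (fun j => ?_)
      (hz2.mul_left (C * Y))
    by_cases hj : Primary j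
    swap
    · simp only [hzero j hj, norm_zero, tsum_zero]
      positivity
    have hN := nr_pos hj.ne_zero
    have hY' : 0 < Y / nr j ^ 2 := by positivity
    rw [← (mul_right_injective₀ (hj.pow 2).ne_zero).tsum_eq (hsupp j hj norm norm_zero)]
    simp only [e1 j _ hj]
    refine le_trans (Summable.tsum_le_tsum (fun c => ?_) ?_ (summable_Sm hχ hY' s))
      ((h1 χ _ s hχ hY' le_rfl).trans_eq ?_)
    · rw [norm_mul]
      exact mul_le_of_le_one_left (norm_nonneg _) (hc j)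
    · simp only [norm_mul (mu j * χ (j ^ 2))]
      exact (summable_Sm hχ hY' s).mul_left _
    · rw [zero_add, Real.rpow_one, Real.rpow_neg hN.le, Real.rpow_two]
      ring
  have e2 : Sm (fun m => if Squarefree m then χ m else 0) Y s = ∑' j, ∑' m, g j m := by
    rw [← (Summable.of_norm (f := Function.uncurry g) hsum).tsum_comm]
    refine tsum_congr fun m => ?_
    simp only [hg]
    rw [tsum_mul_right]
    by_cases hp : Primary m
    · rw [sum_mu_sq hp]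
      split_ifs <;> simp
    · simp [h0 m hp]
  rw [e2]
  refine (tsum_of_norm_bounded (hz.mul_right (E * Y ^ θ)).hasSum fun j => ?_).trans ?_
  · by_cases hj : Primary j
    swap
    · simp only [hzero j hj, norm_zero, tsum_zero]
      positivity
    have hN := nr_pos hj.ne_zero
    rw [← (mul_right_injective₀ (hj.pow 2).ne_zero).tsum_eq (hsupp j hj (fun z => z) rfl)]
    simp only [e1 j _ hj]
    rw [tsum_mul_left, norm_mul]
    refine (mul_le_of_le_one_left (norm_nonneg _) (hc j)).trans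
      ((hE (Y / nr j ^ 2) (by positivity)).trans_eq ?_)
    rw [Real.div_rpow hY.le (by positivity), ← Real.rpow_natCast_mul hN.le, Real.rpow_neg hN.le]
    push_cast
    ring
  · rw [tsum_mul_right, mul_assoc]
    exact mul_le_mul_of_nonneg_right (by linarith) (by positivity)

/-- The row character restricted to the squarefree elements prime to `h`. -/
def sqc {M : O} (ν : Chr M) (a h m : O) : ℂ :=
  if Squarefree m ∧ IsCoprime m h then rc ν a m else 0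

theorem polyB_sqc {M : O} (hM : Adm M) (ν : Chr M) (a h : O) : PolyB (sqc ν a h) 1 0 := by
  refine ⟨by simp [sqc], fun n => ?_⟩
  unfold sqc
  split_ifs
  · exact (polyB_rc hM ν a).2 n
  · simp

theorem sqc_le {M : O} (hM : Adm M) {δ : ℝ} (hδ : 0 < δ) (hδ' : δ ≤ 1 / 2) : ∃ C : ℝ, 0 < C ∧
    ∀ (ν : Chr M) (a h : O) (Y : ℝ) (s : ℂ), ¬ Exc M a → Primary h → 0 < Y → |s.re| ≤ 4 →
      ‖Sm (sqc ν a h) Y s‖ ≤
        C * nr h ^ δ * (1 + |s.im|) * Real.sqrt (nr a) * Y ^ (1 / 2 + δ) := by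
  obtain ⟨C₁, hC₁, h1⟩ := pln_le hM hδ hδ'
  obtain ⟨C₂, hC₂, h2⟩ := sq_sieve (θ := 1 / 2 + δ) (by linarith)
  obtain ⟨C₃, hC₃, h3⟩ := pow_card_pf_le hδ 2
  refine ⟨C₂ * C₃ * C₁, by positivity, fun ν a h Y s ha hh hY hs => ?_⟩
  have hpr : ∀ p ∈ pf h, Prime p ∧ Primary p := fun p => BasicB.pf_sub
  have h4 := LBC.Sm_sieve (polyB_rc hM ν a) (κ := 0) (s := s) (θ := 1 / 2 + δ) (by linarith)
    (fun X hX => by simpa only [zero_mul, sub_zero, Pln_eq_Sm] using h1 ν a X s ha hX hs) (pf h) hpr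
    fun p hp c => LBA.rc_mul' ν a (hpr p hp).2 c
  simp only [zero_mul, sub_zero] at h4
  have h5 := h2 (LBC.punct (rc ν a) (pf h)) _ Y s (LBC.polyB_punct (polyB_rc hM ν a) _)
    (fun n hn => by simp [LBC.punct, LBA.rc_neg ν a hn]) (fun j c hj => by
      have k : (∀ p ∈ pf h, ¬ p ∣ j * c) ↔ (∀ p ∈ pf h, ¬ p ∣ j) ∧ ∀ p ∈ pf h, ¬ p ∣ c := by
        simp only [← forall_and]
        exact forall₂_congr fun p hp => by rw [(hpr p hp).1.dvd_mul, not_or]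
      simp only [LBC.punct, k, LBA.rc_mul' ν a hj, ite_and]
      split_ifs <;> simp) h4 hY
  have e : sqc ν a h = fun m => if Squarefree m then LBC.punct (rc ν a) (pf h) m else 0 := by
    funext m
    simp only [sqc, LBC.punct, ite_and, isCoprime_comm (x := m), LS2.isCoprime_iff_pf hh]
  rw [e]
  refine h5.trans ?_
  have h6 := h3 h hh.ne_zero
  calc _ ≤ C₂ * (C₃ * nr h ^ δ * (C₁ * (1 + |s.im|) * Real.sqrt (nr a))) * Y ^ (1 / 2 + δ) := by
        gcongr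
    _ = _ := by ring

end Crest.Agent.R17.GrA
end
end

-- ▼ part PVc/R17/GramAuxB
section

/-!
# Row 17, module M15a: arithmetic of the Gauss sums (auxiliary file for `Gram`)
-/

set_option autoImplicit false

noncomputable section

namespace Crest.Agent.R17.GrB

open scoped ComplexConjugate Classical

theorem norm_gs_le (j : ℕ) {n : O} (hn : n ≠ 0) (k : O) : ‖gs j n k‖ ≤ nr n := by
  unfold gs
  refine (norm_sum_le _ _).trans ?_
  refine (Finset.sum_le_card_nsmul _ _ 1 fun x _ => ?_).trans ?_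
  · rw [norm_mul, norm_eq, mul_one, norm_pow]
    exact pow_le_one₀ (norm_nonneg _) (norm_sym_le _ _)
  · rw [card_res hn]; simp

theorem gs_pow_bound {p : O} (hp : Prime p) (h : PO p) (i : ℕ) (k : O) :
    ∃ j ≤ i, p ^ j ∣ k ∧ ‖gs 5 (p ^ i) k‖ ^ 2 ≤ nr (p ^ i) * nr (p ^ j) := by
  have hN := one_le_nr hp.ne_zero
  rcases i with _ | i
  · exact ⟨0, le_rfl, by simp, by simp [nr]⟩
  by_cases h1 : p ^ (i + 1) ∣ k
  · refine ⟨i + 1, le_rfl, h1, ?_⟩
    rw [← sq]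
    exact pow_le_pow_left₀ (norm_nonneg _) (norm_gs_le 5 (pow_ne_zero _ hp.ne_zero) k) 2
  by_cases h2 : p ^ i ∣ k
  swap
  · refine ⟨0, Nat.zero_le _, by simp, ?_⟩
    rw [Gauss_gs_pow 5 i h, if_neg h2, norm_zero, zero_pow two_ne_zero]
    positivity
  refine ⟨i, Nat.le_succ i, h2, ?_⟩
  obtain ⟨c, rfl⟩ := h2
  have h3 : ¬ p ∣ c := fun h4 => h1 (pow_succ p i ▸ mul_dvd_mul_left _ h4)
  have h4 : ‖gs (5 * (i + 1)) p c‖ ^ 2 ≤ nr p := by
    by_cases h6 : 6 ∣ 5 * (i + 1)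
    · rw [gs_prime_zero h6 hp h, if_neg h3]
      simpa using hN
    · rw [gs_sqfree h6 h hp.squarefree, norm_mul, Gauss_norm_gs h6 h hp.squarefree,
        Complex.norm_conj, norm_pow, mul_pow, Real.sq_sqrt (by positivity)]
      exact mul_le_of_le_one_left (by positivity)
        (pow_le_one₀ (by positivity) (pow_le_one₀ (norm_nonneg _) (norm_sym_le _ _)))
  rw [Gauss_gs_pow 5 i h, if_pos (dvd_mul_right _ _),
    mul_div_cancel_left₀ _ (pow_ne_zero _ hp.ne_zero), norm_mul, norm_pow, Complex.norm_natCast,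
    mul_pow, nr_pow, nr_pow]
  calc _ ≤ (nr p ^ i) ^ 2 * nr p := mul_le_mul_of_nonneg_left h4 (by positivity)
    _ = _ := by ring

theorem gs_bound {y : O} (hy : PO y) (k : O) :
    ∃ y' : O, Primary y' ∧ y' ∣ y ∧ y' ∣ k ∧ ‖gs 5 y k‖ ^ 2 ≤ nr y * nr y' := by
  have key : ∀ s : Finset O, (∀ p ∈ s, Prime p ∧ PO p) → PO (∏ p ∈ s, p ^ vp p y) ∧
      ∃ y' : O, Primary y' ∧ y' ∣ ∏ p ∈ s, p ^ vp p y ∧ y' ∣ k ∧
        ‖gs 5 (∏ p ∈ s, p ^ vp p y) k‖ ^ 2 ≤ nr (∏ p ∈ s, p ^ vp p y) * nr y' := by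
    intro s
    induction s using Finset.induction_on with
    | empty => exact fun _ => ⟨⟨primary_one, isCoprime_one_left⟩, 1, primary_one, by simp,
        one_dvd _, by simp [nr]⟩
    | insert q s hq ih =>
      intro hs
      obtain ⟨q1, q2⟩ := hs q (Finset.mem_insert_self _ _)
      obtain ⟨a0, y', a1, a2, a3, a4⟩ := ih fun p hp => hs p (Finset.mem_insert_of_mem hp)
      obtain ⟨j, b1, b2, b3⟩ := gs_pow_bound q1 q2 (vp q y) k
      have hq' : PO (q ^ vp q y) := ⟨q2.1.pow _, q2.2.pow_left⟩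
      have hc : IsCoprime q (∏ p ∈ s, p ^ vp p y) := IsCoprime.prod_right fun p hp => by
        obtain ⟨p1, p2⟩ := hs p (Finset.mem_insert_of_mem hp)
        exact (q1.irreducible.coprime_iff_not_dvd.2 fun hd =>
          hq (BasicB.eq_of_dvd q1 p1 q2.1 p2.1 hd ▸ hp)).pow_right
      rw [Finset.prod_insert hq]
      refine ⟨hq'.mul a0, q ^ j * y', (q2.1.pow _).mul a1, mul_dvd_mul (pow_dvd_pow q b1) a2,
        (hc.of_isCoprime_of_dvd_right a2).pow_left.mul_dvd b2 a3, ?_⟩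
      have h1 : ∀ m n : O, ‖sym m n ^ 5‖ ≤ 1 := fun m n => by
        rw [norm_pow]
        exact pow_le_one₀ (norm_nonneg _) (norm_sym_le _ _)
      rw [gs_mul 5 hq' a0 hc.pow_left, norm_mul, norm_mul, norm_mul, nr_mul, nr_mul]
      calc _ ≤ (1 * 1 * ‖gs 5 (q ^ vp q y) k‖ * ‖gs 5 (∏ p ∈ s, p ^ vp p y) k‖) ^ 2 := by
            gcongr <;> exact h1 _ _
        _ = ‖gs 5 (q ^ vp q y) k‖ ^ 2 * ‖gs 5 (∏ p ∈ s, p ^ vp p y) k‖ ^ 2 := by ring
        _ ≤ (nr (q ^ vp q y) * nr (q ^ j)) * (nr (∏ p ∈ s, p ^ vp p y) * nr y') :=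
            mul_le_mul b3 a4 (by positivity) (by positivity)
        _ = _ := by ring
  have := (key (pf y) fun p hp => ⟨(BasicB.of_mem_pf hp).1,
    hy.of_dvd (BasicB.of_mem_pf hp).2.1 (BasicB.of_mem_pf hp).2.2⟩).2
  rwa [← hy.1.eq_prod] at this

theorem vp_cases {k h p : O} (hk : Primary k) (hks : Squarefree k) (hh : Powerful h)
    (hc : IsCoprime k h) (hp : Prime p) (hp' : Primary p) :
    (vp p k = 0 ∧ vp p h = 0) ∨ (vp p k = 1 ∧ vp p h = 0) ∨ (vp p k = 0 ∧ 2 ≤ vp p h) := by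
  have h1 := BasicB.vp_le_one hks hp
  by_cases h2 : vp p h = 0
  · omega
  · have h3 : p ∈ pf h := (BasicB.mem_pf_iff hh.1.ne_zero hp hp').2 h2
    have h4 := hh.2 p h3
    have h5 : vp p k = 0 := by
      by_contra h6
      exact Finset.disjoint_left.1 (disjoint_pf hc)
        ((BasicB.mem_pf_iff hk.ne_zero hp hp').2 h6) h3
    omega

theorem unique {k h k' h' : O} (hk : Primary k) (hks : Squarefree k) (hh : Powerful h)
    (hc : IsCoprime k h) (hk' : Primary k') (hks' : Squarefree k') (hh' : Powerful h')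
    (hc' : IsCoprime k' h') (e : h * k = h' * k') : h = h' := by
  refine hh.1.ext_vp hh'.1 fun p hp hp' => ?_
  have e1 := congrArg (vp p) e
  rw [vp_mul hp hh.1.ne_zero hk.ne_zero, vp_mul hp hh'.1.ne_zero hk'.ne_zero] at e1
  have a := vp_cases hk hks hh hc hp hp'
  have b := vp_cases hk' hks' hh' hc' hp hp'
  omega

/-- The decomposition `x = y m`, `y` powerful, `m` squarefree. -/
theorem decomp (M : O) {L : ℝ} (hL : 0 ≤ L) (F : O → ℂ)
    (hF : ∀ x, F x ≠ 0 → Primary x ∧ IsCoprime x M) :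
    ∑ x ∈ ball ⌊L⌋₊, F x = ∑ y ∈ (ball ⌊L⌋₊).filter Powerful,
      ∑ m ∈ (sp M (L / nr y)).filter (IsCoprime · y), F (y * m) := by
  rw [Finset.sum_sigma']
  symm
  refine Finset.sum_of_injOn (fun z => z.1 * z.2) ?_ ?_ ?_ fun _ _ => rfl
  · rintro ⟨y, m⟩ h ⟨y', m'⟩ h' e
    simp only [Finset.coe_sigma, Set.mem_sigma_iff, Finset.mem_coe, Finset.mem_filter] at h h'
    obtain ⟨a, -⟩ := DP3_mem h.2.1
    obtain ⟨a', -⟩ := DP3_mem h'.2.1
    obtain rfl : y = y' := unique a.1 a.2.1 h.1.2 h.2.2 a'.1 a'.2.1 h'.1.2 h'.2.2 e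
    obtain rfl : m = m' := mul_left_cancel₀ h.1.2.1.ne_zero e
    rfl
  · rintro ⟨y, m⟩ h
    simp only [Finset.coe_sigma, Set.mem_sigma_iff, Finset.mem_coe, Finset.mem_filter] at h
    have a := (DP3_mem h.2.1).2
    rw [le_div_iff₀ (nr_pos h.1.2.1.ne_zero), mul_comm, ← nr_mul] at a
    exact mem_ball.2 ((Nat.le_floor_iff hL).2 a)
  · intro x hx hx'
    by_contra h0
    obtain ⟨x1, x2⟩ := hF x h0
    obtain ⟨m, y, a1, a2, a3, a4, rfl⟩ := exists_sqfree_powerful x1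
    refine hx' ⟨⟨y, m⟩, ?_, mul_comm _ _⟩
    simp only [Finset.coe_sigma, Set.mem_sigma_iff, Finset.mem_coe, Finset.mem_filter]
    have hy := nr_pos a3.1.ne_zero
    refine ⟨⟨mem_ball.2 ((nm_le_of_dvd (dvd_mul_left _ _) x1.ne_zero).trans (mem_ball.1 hx)), a3⟩,
      (mem_sp (by positivity)).2 ⟨⟨a1, a2, x2.of_mul_left_left⟩, ?_⟩, a4⟩
    rw [le_div_iff₀ hy, ← nr_mul]
    exact (Nat.le_floor_iff hL).1 (mem_ball.1 hx)

/-- The coefficients of the dual sums. -/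
def bet {M : O} (ν : Chr M) (b : O) (X : ℝ) (s : ℂ) (m : O) : ℂ :=
  ev ν m * conj (sym m b) * Wc (nr m / X) s

/-- The coefficients of `Gsum`. -/
def gco {M : O} (ν : Chr M) (k x : O) : ℂ :=
  if Primary x then ev ν x * (gs 5 x k / (Real.sqrt (nr x) : ℂ)) else 0

theorem polyB_gco {M : O} (hM : Adm M) (ν : Chr M) (k : O) : PolyB (gco ν k) 1 (1 / 2) := by
  refine ⟨if_neg fun h => h.ne_zero rfl, fun n => ?_⟩
  unfold gco
  split_ifs with h
  · have h1 := nr_pos h.ne_zero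
    have h2 := Real.sqrt_pos.2 h1
    rw [norm_mul, norm_div, Complex.norm_real, Real.norm_of_nonneg h2.le, ← Real.sqrt_eq_rpow]
    refine mul_le_mul (norm_ev_le hM.1 ν n) ?_ (by positivity) zero_le_one
    rw [div_le_iff₀ h2, Real.mul_self_sqrt h1.le]
    exact norm_gs_le 5 h.ne_zero k
  · rw [norm_zero]
    positivity

theorem gco_supp {M : O} (ν : Chr M) (k x : O) (h : gco ν k x ≠ 0) : Primary x ∧ IsCoprime x M := by
  unfold gco at h
  split_ifs at h with h1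
  · exact ⟨h1, by_contra fun h2 => h (by rw [ev_eq_zero ν h2, zero_mul])⟩
  · exact absurd rfl h

theorem gs_split {y m : O} (hy : PO y) (hm : PO m) (hs : Squarefree m) (h : IsCoprime m y) (k : O) :
    gs 5 (y * m) k = gs 5 y k * (Rs y m * conj (sym m (y ^ 2)) *
      ((Real.sqrt (nr m) : ℂ) * gam 5 m) * sym m k) := by
  have h1 : (Real.sqrt (nr m) : ℂ) ≠ 0 := by
    exact_mod_cast (Real.sqrt_pos.2 (nr_pos hm.1.ne_zero)).ne'
  rw [gs_mul 5 hy hm h.symm, gs_sqfree (by norm_num) hm hs, gam, mul_div_cancel₀ _ h1,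
    M4A.conj_pow (j' := 1) (by norm_num) hm.1, sym_recip hy hm, mul_pow,
    M4A.odd_pow (Or.inr rfl) (Rs_sq hy.2 hm.2), conj_sym hm.1, sym_pow_right hm]
  ring

/-- The terms with a given powerful part. -/
theorem inner_eq {M : O} (hM : Adm M) (ν : Chr M) {y : O} (hy : Primary y) :
    ∃ ν' : Chr M, ∀ (k : O) (L X : ℝ) (s : ℂ),
      ∑ m ∈ (sp M L).filter (IsCoprime · y), gco ν k (y * m) * Wc (nr (y * m) / X) s =
        gco ν k y * Sd M L (bet ν' (y ^ 2) (X / nr y) s) k := by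
  by_cases hc : IsCoprime y M
  swap
  · refine ⟨ν, fun k L X s => ?_⟩
    rw [show gco ν k y = 0 from by_contra fun h => hc (gco_supp ν k y h).2, zero_mul]
    refine Finset.sum_eq_zero fun m _ => mul_eq_zero_of_left ?_ _
    exact by_contra fun h => hc (gco_supp ν k _ h).2.of_mul_left_left
  have hy' := PO.of_adm hM hy hc
  obtain ⟨ψ, hψ⟩ := exists_chr_Rs hM hy'.2
  refine ⟨ν * ψ, fun k L X s => ?_⟩
  rw [Sd, Finset.mul_sum, Finset.sum_filter]
  refine Finset.sum_congr rfl fun m hm => ?_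
  have hm1 := (DP3_mem hm).1
  have hm' := DP3_po hM hm1
  split_ifs with h
  · have e : nr (y * m) / X = nr m / (X / nr y) := by
      rw [nr_mul, div_div_eq_mul_div, mul_comm]
    have h1 : (Real.sqrt (nr m) : ℂ) ≠ 0 := by
      exact_mod_cast (Real.sqrt_pos.2 (nr_pos hm'.1.ne_zero)).ne'
    have h2 : (Real.sqrt (nr y) : ℂ) ≠ 0 := by
      exact_mod_cast (Real.sqrt_pos.2 (nr_pos hy.ne_zero)).ne'
    rw [e, gco, gco, if_pos (hy.mul hm1.1), if_pos hy, gs_split hy' hm' hm1.2.1 h, bet, ev_mul,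
      ev_mul_chr, hψ m hm1.2.2, nr_mul, Real.sqrt_mul (Nat.cast_nonneg _)]
    push_cast
    field_simp
  · rw [bet, (sym_eq_zero_iff hm1.1).2 fun h' =>
      h ((IsCoprime.pow_right_iff two_pos).1 h')]
    simp

theorem Sd_shift {M : O} (hM : Adm M) (ν : Chr M) (y' c k : O) (L X : ℝ) (s : ℂ) :
    Sd M L (bet ν ((y' * c) ^ 2) X s) (y' * k) = Sd M L (bet ν (y' * c * c) X s) k := by
  refine Finset.sum_congr rfl fun m hm => ?_
  have hm' := DP3_po hM (DP3_mem hm).1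
  simp only [bet, sq, sym_mul_right hm', map_mul]
  by_cases h : IsCoprime m y'
  · have := Gauss_conj_mul (norm_sym hm'.1 h)
    linear_combination (ev ν m * conj (sym m y') * conj (sym m c) * conj (sym m c) *
      Wc (nr m / X) s * gam 5 m * sym m k) * this
  · simp [(sym_eq_zero_iff hm'.1).2 h]

end Crest.Agent.R17.GrB
end
end

-- ▼ part PVc/R17/GramAuxC
section

/-!
# Row 17, module M15a: the dual sum with a frozen powerful part (auxiliary file for `Gram`)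
-/

set_option autoImplicit false

noncomputable section

namespace Crest.Agent.R17.GrC

open scoped ComplexConjugate Classical
open GrA GrB

theorem child_eq {M : O} (hM : Adm M) (ν ν' : Chr M) (b a : O) {h : O} (hh : h ≠ 0) {X Λ : ℝ}
    (hX : 0 < X) (hΛ : 0 < Λ) (s s' : ℂ) :
    Sr M (X * Λ / nr h) (ext (bet ν b X s) h ν' (nr h) (X * Λ) s') a =
      ev ν h * conj (sym h b) * ((Λ⁻¹ : ℝ) : ℂ) ^ s' * ∑ m ∈ ball ⌊X / nr h * Λ⌋₊,
        sqc (ν * ν') (a * b) h m * Wc (nr m / (X / nr h)) (s + s') := by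
  have hN := nr_pos hh
  have hsub : sp M (X * Λ / nr h) ⊆ ball ⌊X / nr h * Λ⌋₊ := by
    rw [div_mul_eq_mul_div]
    exact Finset.filter_subset _ _
  rw [Sr, ← Finset.sum_subset hsub, Finset.mul_sum]
  · refine Finset.sum_congr rfl fun m hm => ?_
    have hm1 := (DP3_mem hm).1
    have hm' := DP3_po hM hm1
    have h0 := nr_pos hm1.1.ne_zero
    by_cases hc : IsCoprime m h
    swap
    · simp [ext, sqc, hc]
    have e1 : nr (h * m) / X = nr m / (X / nr h) := by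
      rw [nr_mul, div_div_eq_mul_div, mul_comm]
    have e2 : nr m * nr h / (X * Λ) = nr m / (X / nr h) * Λ⁻¹ := by field_simp
    rw [ext, if_pos hc, sqc, if_pos ⟨hm1.2.1, hc⟩, bet, e1, e2, Wc_add (by positivity),
      Complex.ofReal_mul, Complex.mul_cpow_ofReal_nonneg (by positivity) (by positivity),
      LBA.rc_pos _ _ hm1.1, ev_mul, ev_mul_chr, sym_mul_left hh hm1.1.ne_zero, sym_mul_right hm',
      map_mul, map_mul]
    ring
  · intro m hm hm'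
    refine mul_eq_zero_of_left ?_ _
    unfold sqc
    split_ifs with h1
    swap
    · rfl
    by_contra h2
    refine hm' ?_
    rw [sp, Finset.mem_filter, ← div_mul_eq_mul_div]
    exact ⟨hm, by_contra fun h3 => h2 (LBA.rc_neg _ _ h3), h1.1,
      by_contra fun h3 => h2 (rc_eq_zero _ fun h4 => h3 h4.of_mul_right_left)⟩

theorem child_le {M : O} (hM : Adm M) {δ : ℝ} (hδ : 0 < δ) (hδ' : δ ≤ 1 / 2) : ∃ C : ℝ, 0 < C ∧
    ∀ (K X : ℝ) (ν ν' : Chr M) (b a h : O) (s s' : ℂ), 1 ≤ K → 0 < X → X ≤ K → Primary h →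
      nr h ≤ K ^ 2 → |s.re| ≤ 3 → -(1 / 2) ≤ s'.re → s'.re ≤ 0 →
      ‖Sr M (X * K ^ δ / nr h) (ext (bet ν b X s) h ν' (nr h) (X * K ^ δ) s') a‖ ≤
        C * K ^ δ * (X / nr h) ∧
      (¬ Exc M (a * b) →
        ‖Sr M (X * K ^ δ / nr h) (ext (bet ν b X s) h ν' (nr h) (X * K ^ δ) s') a‖ ≤
          C * (K ^ δ) ^ 3 * ((1 + |s.im|) * (1 + |s'.im|)) * Real.sqrt (nr (a * b)) *
            (X / nr h) ^ (1 / 2 + δ)) := by
  obtain ⟨C₁, hC₁, h1⟩ := triv 0 4 le_rfl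
  obtain ⟨C₂, hC₂, h2⟩ := trunc δ⁻¹ 0 4 le_rfl
  obtain ⟨C₃, hC₃, h3⟩ := sqc_le hM hδ hδ'
  refine ⟨C₁ + C₂ + C₃, by positivity, fun K X ν ν' b a h s s' hK hX hXK hh hhK hs hs1 hs2 => ?_⟩
  have hx : 1 ≤ K ^ δ := Real.one_le_rpow hK hδ.le
  have hN := one_le_nr hh.ne_zero
  have hY : 0 < X / nr h := by positivity
  have hYK : X / nr h ≤ K := (div_le_self hX.le hN).trans hXK
  have hre : |(s + s').re| ≤ 4 := by
    rw [Complex.add_re, abs_le]
    constructor <;> linarith [abs_le.1 hs]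
  have hc : ‖ev ν h * conj (sym h b) * (((K ^ δ)⁻¹ : ℝ) : ℂ) ^ s'‖ ≤ K ^ δ := by
    rw [norm_mul, norm_mul, Complex.norm_conj, Complex.norm_cpow_eq_rpow_re_of_pos (by positivity)]
    refine (mul_le_of_le_one_left (by positivity) (mul_le_one₀ (norm_ev_le hM.1 ν h)
      (norm_nonneg _) (norm_sym_le _ _))).trans ?_
    rw [Real.inv_rpow (by positivity), ← Real.rpow_neg (by positivity)]
    exact Real.rpow_le_self_of_one_le hx (by linarith)
  have hb := polyB_sqc hM (ν * ν') (a * b) h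
  rw [child_eq hM ν ν' b a hh.ne_zero hX (by positivity), norm_mul]
  generalize X / nr h = Y at hY hYK ⊢
  constructor
  · have h4 := h1 _ Y _ hb hY hre
    rw [zero_add, Real.rpow_one] at h4
    have h5 := (norm_sum_le (ball ⌊Y * K ^ δ⌋₊) _).trans
      (((summable_Sm hb hY (s + s')).sum_le_tsum _ fun _ _ => norm_nonneg _).trans h4)
    calc _ ≤ K ^ δ * (C₁ * Y) := mul_le_mul hc h5 (norm_nonneg _) (by positivity)
      _ ≤ K ^ δ * ((C₁ + C₂ + C₃) * Y) := by gcongr; linarith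
      _ = _ := by ring
  · intro hE
    have h4 := h2 _ 1 Y _ _ hb hY hx hre
    have h5 := h3 (ν * ν') (a * b) h Y _ hE hh hY hre
    have e1 : (K ^ δ) ^ (-δ⁻¹) = K⁻¹ := by
      rw [← Real.rpow_mul (by positivity), mul_neg, mul_inv_cancel₀ hδ.ne', Real.rpow_neg_one]
    rw [e1, zero_add, Real.rpow_one, mul_one] at h4
    have h6 : Y * K⁻¹ ≤ Y ^ (1 / 2 + δ) := by
      rcases le_total Y 1 with h7 | h7
      · calc Y * K⁻¹ ≤ Y ^ (1 : ℝ) := by
              rw [Real.rpow_one]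
              exact mul_le_of_le_one_right hY.le (inv_le_one_of_one_le₀ hK)
          _ ≤ _ := Real.rpow_le_rpow_of_exponent_ge hY h7 (by linarith)
      · exact ((div_le_one (by positivity)).2 hYK).trans (Real.one_le_rpow h7 (by linarith))
    have h7 : nr h ^ δ ≤ (K ^ δ) ^ 2 := by
      rw [← Real.rpow_mul_natCast (by positivity), mul_comm, Real.rpow_natCast_mul (by positivity)]
      gcongr
    have h8 : 1 + |(s + s').im| ≤ (1 + |s.im|) * (1 + |s'.im|) := by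
      rw [Complex.add_im]
      nlinarith [abs_add_le s.im s'.im, abs_nonneg s.im, abs_nonneg s'.im]
    have h9 : 1 ≤ (1 + |s.im|) * (1 + |s'.im|) :=
      (le_add_of_nonneg_right (abs_nonneg _)).trans h8
    have h10 : 1 ≤ Real.sqrt (nr (a * b)) :=
      Real.one_le_sqrt.2 (one_le_nr (ne_zero_of_not_exc hE))
    have h11 : 1 ≤ (K ^ δ) ^ 2 := one_le_pow₀ hx
    generalize (1 + |s.im|) * (1 + |s'.im|) = T at h8 h9 ⊢
    calc _ ≤ K ^ δ * (C₃ * (K ^ δ) ^ 2 * T * Real.sqrt (nr (a * b)) * Y ^ (1 / 2 + δ) +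
          C₂ * (K ^ δ) ^ 2 * T * Real.sqrt (nr (a * b)) * Y ^ (1 / 2 + δ)) := by
          refine mul_le_mul hc ((norm_le_insert' _ _).trans (add_le_add (h5.trans ?_)
            ((norm_sub_rev _ _).trans_le (h4.trans ?_)))) (norm_nonneg _) (by positivity)
          · gcongr
          · calc C₂ * Y * K⁻¹ = C₂ * 1 * 1 * 1 * (Y * K⁻¹) := by ring
              _ ≤ _ := by gcongr
      _ = (C₂ + C₃) * (K ^ δ) ^ 3 * T * Real.sqrt (nr (a * b)) * Y ^ (1 / 2 + δ) := by ring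
      _ ≤ _ := by gcongr; linarith

/-- The children of one row. -/
def Phi {M : O} (L : ℝ) (β : O → ℂ) (ν' : Chr M) (s' : ℂ) (a : O) : ℝ :=
  ∑ e ∈ (sp M L).filter (· ∈ pdiv a), ∑ t ∈ sp (M * e) L, nr e *
    ‖Sr M (L / (nr e * nr t)) (ext β (e * t) ν' (nr e * nr t) L s') a‖ ^ 2

theorem Phi_le {M : O} (hM : Adm M) {δ : ℝ} (hδ : 0 < δ) (hδ' : δ ≤ 1 / 2) : ∃ C : ℝ, 0 < C ∧
    ∀ (K X : ℝ) (ν ν' : Chr M) (b a : O) (s s' : ℂ), 1 ≤ K → 0 < X → X * K ^ δ ≤ K → a ≠ 0 →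
      nr a ≤ K ^ 3 → |s.re| ≤ 3 → -(1 / 2) ≤ s'.re → s'.re ≤ 0 →
      Phi (X * K ^ δ) (bet ν b X s) ν' s' a ≤ C * (K ^ δ) ^ 5 * X ^ 2 ∧
      (¬ Exc M (a * b) → Phi (X * K ^ δ) (bet ν b X s) ν' s' a ≤
        C * (K ^ δ) ^ 11 * ((1 + |s.im|) * (1 + |s'.im|)) ^ 2 * nr (a * b) * X) := by
  obtain ⟨C₁, hC₁, h1⟩ := child_le hM hδ hδ'
  obtain ⟨C₂, hC₂, h2⟩ := card_pdiv_le hδ
  obtain ⟨C₃, hC₃, h3⟩ := CountAux.sum_all (σ := 1 + 2 * δ) (by linarith)
  refine ⟨C₂ * C₃ * C₁ ^ 2, by positivity, fun K X ν ν' b a s s' hK hX hL ha haK hs hs1 hs2 => ?_⟩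
  have hx : 1 ≤ K ^ δ := Real.one_le_rpow hK hδ.le
  have hXK : X ≤ K := (le_mul_of_one_le_right hX.le hx).trans hL
  have hd : ((pdiv a).card : ℝ) ≤ C₂ * (K ^ δ) ^ 3 := by
    refine (h2 a ha).trans (mul_le_mul_of_nonneg_left ?_ hC₂.le)
    rw [← Real.rpow_mul_natCast (by positivity), mul_comm, Real.rpow_natCast_mul (by positivity)]
    gcongr
  have key : ∀ D : ℝ, 0 ≤ D → (∀ e t : O, Primary e → Primary t → nr (e * t) ≤ K ^ 2 →
      nr e * ‖Sr M (X * K ^ δ / nr (e * t))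
        (ext (bet ν b X s) (e * t) ν' (nr (e * t)) (X * K ^ δ) s') a‖ ^ 2 ≤
        D * nr t ^ (-(1 + 2 * δ))) →
      Phi (X * K ^ δ) (bet ν b X s) ν' s' a ≤ C₂ * (K ^ δ) ^ 3 * (D * C₃) := by
    intro D hD h
    refine (Finset.sum_le_card_nsmul _ _ (D * C₃) fun e he => ?_).trans ?_
    · obtain ⟨e1, e2⟩ := DP3_mem (Finset.mem_filter.1 he).1
      refine (Finset.sum_le_sum fun t ht => ?_).trans
        ((Finset.mul_sum _ _ _).symm.trans_le (mul_le_mul_of_nonneg_left (h3 _) hD))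
      obtain ⟨t1, t2⟩ := DP3_mem ht
      rw [← nr_mul]
      refine h e t e1.1 t1.1 ?_
      rw [nr_mul, sq]
      exact mul_le_mul (e2.trans hL) (t2.trans hL) (by positivity) (by positivity)
    · rw [nsmul_eq_mul]
      refine mul_le_mul_of_nonneg_right (le_trans ?_ hd) (by positivity)
      exact_mod_cast Finset.card_le_card fun e he => (Finset.mem_filter.1 he).2
  constructor
  · refine (key (C₁ ^ 2 * (K ^ δ) ^ 2 * X ^ 2) (by positivity) fun e t he ht h => ?_).trans_eq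
      (by ring)
    have a1 := one_le_nr he.ne_zero
    have a2 := one_le_nr ht.ne_zero
    have a3 : (nr t ^ 2)⁻¹ ≤ nr t ^ (-(1 + 2 * δ)) := by
      rw [← Real.rpow_two, ← Real.rpow_neg (by positivity)]
      exact Real.rpow_le_rpow_of_exponent_le a2 (by linarith)
    calc _ ≤ nr e * (C₁ * K ^ δ * (X / nr (e * t))) ^ 2 := by
          gcongr
          exact (h1 K X ν ν' b a _ s s' hK hX hXK (he.mul ht) h hs hs1 hs2).1
      _ = C₁ ^ 2 * (K ^ δ) ^ 2 * X ^ 2 * ((nr t ^ 2)⁻¹ / nr e) := by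
          rw [nr_mul]
          field_simp
      _ ≤ _ := mul_le_mul_of_nonneg_left ((div_le_self (by positivity) a1).trans a3) (by positivity)
  · intro hE
    refine (key (C₁ ^ 2 * (K ^ δ) ^ 8 * ((1 + |s.im|) * (1 + |s'.im|)) ^ 2 * nr (a * b) * X)
      (by positivity) fun e t he ht h => ?_).trans_eq (by ring)
    have a1 := one_le_nr he.ne_zero
    have a2 := one_le_nr ht.ne_zero
    have a3 : nr e * ((X / nr (e * t)) ^ (1 / 2 + δ)) ^ 2 ≤
        (K ^ δ) ^ 2 * X * nr t ^ (-(1 + 2 * δ)) := by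
      rw [← Real.rpow_mul_natCast (by positivity),
        show (1 / 2 + δ) * ((2 : ℕ) : ℝ) = 1 + 2 * δ by push_cast; ring, nr_mul,
        Real.div_rpow hX.le (by positivity), Real.mul_rpow (by positivity) (by positivity),
        Real.rpow_neg (by positivity), Real.rpow_add hX, Real.rpow_one]
      have b1 : nr e ≤ nr e ^ (1 + 2 * δ) := Real.self_le_rpow_of_one_le a1 (by linarith)
      have b2 : X ^ (2 * δ) ≤ (K ^ δ) ^ 2 := by
        rw [← Real.rpow_mul_natCast (by positivity), mul_comm δ]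
        push_cast
        gcongr
      calc _ ≤ nr e ^ (1 + 2 * δ) * (X * (K ^ δ) ^ 2 /
            (nr e ^ (1 + 2 * δ) * nr t ^ (1 + 2 * δ))) := by gcongr
        _ = _ := by field_simp
    calc _ ≤ nr e * (C₁ * (K ^ δ) ^ 3 * ((1 + |s.im|) * (1 + |s'.im|)) * Real.sqrt (nr (a * b)) *
            (X / nr (e * t)) ^ (1 / 2 + δ)) ^ 2 := by
          gcongr
          exact (h1 K X ν ν' b a _ s s' hK hX hXK (he.mul ht) h hs hs1 hs2).2 hE
      _ = C₁ ^ 2 * (K ^ δ) ^ 6 * ((1 + |s.im|) * (1 + |s'.im|)) ^ 2 * Real.sqrt (nr (a * b)) ^ 2 *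
            (nr e * ((X / nr (e * t)) ^ (1 / 2 + δ)) ^ 2) := by ring
      _ ≤ C₁ ^ 2 * (K ^ δ) ^ 6 * ((1 + |s.im|) * (1 + |s'.im|)) ^ 2 * Real.sqrt (nr (a * b)) ^ 2 *
            ((K ^ δ) ^ 2 * X * nr t ^ (-(1 + 2 * δ))) := by gcongr
      _ = _ := by
          rw [Real.sq_sqrt (by positivity)]
          ring

/-- The number of exceptional rows. -/
theorem exc_le {M : O} (hM : Adm M) {δ : ℝ} (hδ : 0 < δ) : ∃ C : ℝ, 0 < C ∧
    ∀ (K A G : ℝ) (b : O), 1 ≤ K → 0 ≤ A → b ≠ 0 → A * nr b ≤ G → G ≤ K ^ 3 →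
      (((rows A).filter fun a => Exc M (a * b)).card : ℝ) ≤ C * (K ^ δ) ^ 3 * G ^ (1 / 6 : ℝ) := by
  obtain ⟨C, hC, h⟩ := card_exc_le hδ
  have hM0 := nr_pos hM.1
  refine ⟨C * nr M ^ δ, by positivity, fun K A G b hK hA hb hG hGK => ?_⟩
  have hG0 : 0 ≤ G := le_trans (by positivity) hG
  have h1 : ((rows A).filter fun a => Exc M (a * b)).card ≤
      ((ball ⌊G⌋₊).filter fun a => a ≠ 0 ∧ Exc M a).card := by
    refine Finset.card_le_card_of_injOn (· * b) (fun a ha => ?_)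
      fun a _ a' _ e => mul_right_cancel₀ hb e
    simp only [Finset.coe_filter, Set.mem_ofPred_eq, mem_rows hA] at ha ⊢
    refine ⟨mem_ball.2 ((Nat.le_floor_iff hG0).2 ?_), mul_ne_zero ha.1.1 hb, ha.2⟩
    exact (nr_mul a b).trans_le ((mul_le_mul_of_nonneg_right ha.1.2 (by positivity)).trans hG)
  refine (Nat.cast_le.2 h1).trans ?_
  rcases Nat.eq_zero_or_pos ⌊G⌋₊ with h0 | h0
  · rw [h0, Finset.filter_eq_empty_iff.2 fun a ha ha' =>
      ha'.1 (nm_eq_zero.1 (Nat.le_zero.1 (mem_ball.1 ha))), Finset.card_empty, Nat.cast_zero]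
    positivity
  have h2 := Nat.floor_le hG0
  have h3 : (⌊G⌋₊ : ℝ) ^ δ ≤ (K ^ δ) ^ 3 := by
    rw [← Real.rpow_mul_natCast (by positivity), mul_comm, Real.rpow_natCast_mul (by positivity)]
    gcongr
    exact h2.trans hGK
  refine (h M _ hM.1 h0).trans ?_
  rw [Real.mul_rpow (by positivity) hM0.le]
  calc _ ≤ C * G ^ (1 / 6 : ℝ) * ((K ^ δ) ^ 3 * nr M ^ δ) := by gcongr
    _ = _ := by ring

/-- The mean square of the dual sum with a frozen powerful part. -/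
theorem frozen {M : O} (hM : Adm M) {δ : ℝ} (hδ : 0 < δ) (hδ' : δ ≤ 1 / 2) : ∃ C : ℝ, 0 < C ∧
    ∀ (K K' X G : ℝ) (ν : Chr M) (b : O) (s : ℂ), 1 ≤ K' → K' ≤ K → 0 < X → 1 ≤ X * K ^ δ →
      X * K ^ δ ≤ K → b ≠ 0 → (X * K ^ δ) ^ 2 * K ^ δ / K' * nr b ≤ G → G ≤ K ^ 3 → |s.re| ≤ 3 →
      ∑ k ∈ rows K', ‖Sd M (X * K ^ δ) (bet ν b X s) k‖ ^ 2 ≤
        C * (K ^ δ) ^ 14 * (1 + |s.im|) ^ 2 * (K' * X * (1 + G ^ (1 / 6 : ℝ)) + X ^ 2 * G) := by
  obtain ⟨C₁, hC₁, h1⟩ := back hM hδ 2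
  obtain ⟨C₂, hC₂, h2⟩ := Phi_le hM hδ hδ'
  obtain ⟨C₃, hC₃, h3⟩ := exc_le hM hδ
  refine ⟨C₁ * (8 * Real.exp 3 ^ 2 + C₂ * (C₃ + 7)), by positivity,
    fun K K' X G ν b s hK' hKK hX hL1 hL hb hG hGK hs => ?_⟩
  have hK : 1 ≤ K := hK'.trans hKK
  have hx : 1 ≤ K ^ δ := Real.one_le_rpow hK hδ.le
  have hb1 := one_le_nr hb
  have hA0 : 0 ≤ (X * K ^ δ) ^ 2 * K ^ δ / K' := by positivity
  have hG0 : 0 ≤ G := le_trans (by positivity) hG
  have ht : 1 ≤ 1 + |s.im| := le_add_of_nonneg_right (abs_nonneg _)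
  have h4 := h1 ({()} : Finset Unit) (fun _ => 1) (fun _ => K') (fun _ => X * K ^ δ)
    (fun _ => bet ν b X s) K (C₂ * (C₃ + 7) * (K ^ δ) ^ 13 * (1 + |s.im|) ^ 2 *
      (K' * X * G ^ (1 / 6 : ℝ) + X ^ 2 * G)) hK
    (fun _ _ => ⟨zero_le_one, by positivity, hKK, by positivity, hL⟩) fun ν' s' hs1 hs2 => by
      rw [Finset.sum_singleton, one_mul]
      have hP := fun a (ha : a ∈ rows ((X * K ^ δ) ^ 2 * K ^ δ / K')) =>
        h2 K X ν ν' b a s s' hK hX hL ((mem_rows hA0).1 ha).1 (((mem_rows hA0).1 ha).2.trans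
          (((le_mul_of_one_le_right hA0 hb1).trans hG).trans hGK)) hs hs1 hs2
      have ht' : 1 ≤ 1 + |s'.im| := le_add_of_nonneg_right (abs_nonneg _)
      have k1 := Finset.sum_le_card_nsmul
        ((rows ((X * K ^ δ) ^ 2 * K ^ δ / K')).filter fun a => Exc M (a * b)) _ _
        fun a ha => (hP a (Finset.mem_filter.1 ha).1).1
      have k2 := Finset.sum_le_card_nsmul
        ((rows ((X * K ^ δ) ^ 2 * K ^ δ / K')).filter fun a => ¬ Exc M (a * b))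
        (Phi (X * K ^ δ) (bet ν b X s) ν' s')
        (C₂ * (K ^ δ) ^ 11 * ((1 + |s.im|) * (1 + |s'.im|)) ^ 2 * G * X) fun a ha => by
          obtain ⟨a1, a2⟩ := Finset.mem_filter.1 ha
          refine ((hP a a1).2 a2).trans ?_
          gcongr
          exact (nr_mul a b).trans_le ((mul_le_mul_of_nonneg_right ((mem_rows hA0).1 a1).2
            (by positivity)).trans hG)
      have k3 := h3 K _ G b hK hA0 hb hG hGK
      have k4 : (((rows ((X * K ^ δ) ^ 2 * K ^ δ / K')).filter fun a => ¬ Exc M (a * b)).card : ℝ) ≤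
          7 * ((X * K ^ δ) ^ 2 * K ^ δ / K') :=
        (Nat.cast_le.2 (Finset.card_filter_le _ _)).trans (card_rows_le hA0)
      rw [nsmul_eq_mul] at k1 k2
      change _ * ∑ a ∈ _, Phi (X * K ^ δ) (bet ν b X s) ν' s' a ≤ _
      rw [← Finset.sum_filter_add_sum_filter_not _ fun a => Exc M (a * b)]
      have k5 := add_le_add (k1.trans (mul_le_mul_of_nonneg_right k3 (by positivity)))
        (k2.trans (mul_le_mul_of_nonneg_right k4 (by positivity)))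
      refine (mul_le_mul_of_nonneg_left k5 (by positivity)).trans ?_
      have hT : 1 ≤ ((1 + |s.im|) * (1 + |s'.im|)) ^ 2 :=
        one_le_pow₀ (one_le_mul_of_one_le_of_one_le ht ht')
      have k6 : (K ^ δ) ^ 7 ≤ (K ^ δ) ^ 13 := pow_le_pow_right₀ hx (by norm_num)
      calc _ = C₂ * C₃ * (K ^ δ) ^ 7 * 1 * (K' * X * G ^ (1 / 6 : ℝ)) +
            C₂ * 7 * (K ^ δ) ^ 13 * ((1 + |s.im|) * (1 + |s'.im|)) ^ 2 * (X ^ 2 * G) := by
            field_simp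
        _ ≤ C₂ * (C₃ + 7) * (K ^ δ) ^ 13 * ((1 + |s.im|) * (1 + |s'.im|)) ^ 2 *
              (K' * X * G ^ (1 / 6 : ℝ)) +
            C₂ * (C₃ + 7) * (K ^ δ) ^ 13 * ((1 + |s.im|) * (1 + |s'.im|)) ^ 2 * (X ^ 2 * G) := by
            gcongr <;> linarith
        _ = _ := by ring
  simp only [Finset.sum_singleton, one_mul] at h4
  have h5 : nsq M (X * K ^ δ) (bet ν b X s) ≤ 8 * (X * K ^ δ) * Real.exp 3 ^ 2 := by
    refine (Finset.sum_le_card_nsmul _ _ (Real.exp 3 ^ 2) fun m _ => ?_).trans ?_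
    · refine pow_le_pow_left₀ (norm_nonneg _) ?_ 2
      rw [bet, norm_mul, norm_mul, Complex.norm_conj]
      refine (mul_le_of_le_one_left (norm_nonneg _) (mul_le_one₀ (norm_ev_le hM.1 ν m)
        (norm_nonneg _) (norm_sym_le _ _))).trans ((norm_Wc_le _ _).trans ?_)
      exact Real.exp_le_exp.2 (by nlinarith [abs_le.1 hs])
    · rw [nsmul_eq_mul]
      exact mul_le_mul_of_nonneg_right (B1.card_sp_le M hL1) (by positivity)
  refine h4.trans ?_
  rw [mul_assoc C₁, mul_assoc C₁, mul_assoc C₁]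
  refine mul_le_mul_of_nonneg_left ?_ hC₁.le
  have h6 : K ^ δ ≤ (K ^ δ) ^ 14 := le_self_pow₀ hx (by norm_num)
  have h7 : 1 ≤ (1 + |s.im|) ^ 2 := one_le_pow₀ ht
  have h8 : 0 ≤ K' * X * G ^ (1 / 6 : ℝ) + X ^ 2 * G := by positivity
  have h9 : 0 ≤ K' * X := by positivity
  have h10 : K' * nsq M (X * K ^ δ) (bet ν b X s) ≤ 8 * Real.exp 3 ^ 2 * K ^ δ * 1 * (K' * X) :=
    (mul_le_mul_of_nonneg_left h5 (by positivity)).trans_eq (by ring)
  rw [show K' * X * (1 + G ^ (1 / 6 : ℝ)) + X ^ 2 * G =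
    K' * X + (K' * X * G ^ (1 / 6 : ℝ) + X ^ 2 * G) by ring]
  generalize K' * X * G ^ (1 / 6 : ℝ) + X ^ 2 * G = Q at h8 ⊢
  generalize K' * X = P at h9 h10 ⊢
  calc _ ≤ 8 * Real.exp 3 ^ 2 * K ^ δ * 1 * P + C₂ * (C₃ + 7) * (K ^ δ) ^ 14 *
        (1 + |s.im|) ^ 2 * Q := add_le_add h10 (le_of_eq (by ring))
    _ ≤ 8 * Real.exp 3 ^ 2 * (K ^ δ) ^ 14 * (1 + |s.im|) ^ 2 * (P + Q) +
        C₂ * (C₃ + 7) * (K ^ δ) ^ 14 * (1 + |s.im|) ^ 2 * (P + Q) := by
        gcongr <;> linarith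
    _ = _ := by ring

end Crest.Agent.R17.GrC
end
end

-- ▼ part PVc/R17/Gram
section

/-!
# Row 17, module M15a: mean square of the Gauss sum averages

Proof.  `X ≤ 1` is trivial.  Write `x = y m`, `y` powerful, `m` squarefree coprime to `y`
(`exists_sqfree_powerful`), Minkowski over `y`.  `gs 5 (y m) k = Rs(y,m) conj χ_m(y²) · gs 5 y k ·
√(N m) γ₅(m) χ_m(k)`.  If `gs 5 y k ≠ 0` there is `y'` with `y/rad y ∣ y' ∣ y`, `y' ∣ k` and
`|gs 5 y k|² ≤ N y N y'` (`gs_prime_pow`, `gs_prime_pow_princ`); write `k = y' k₁`, and apply `back`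
with `K/N y'`, `L = (X/N y) K^{ε'}`, coefficients `ν(m) W conj χ_m(y²) χ_m(y') = ν W conj χ_m(b)`,
`b = y²/y'`.  The diagonal gives `N y' (K/N y')(X/N y)`.  The children are squarefree sums
`∑_{m sqfree, (m,u)=1} rc ν' (a b) m · Wc(N m/X'', s')`, `X'' = X/N(y e t)`, on the rows `a b` of norm
`≤ A_G = X² K^{3ε'}/K`.  Exceptional rows `a b`: at most `A_G^{1/6} K^ε` of them (`card_exc_le`),
trivial bound `X''`.  Other rows: the sum is `∑_{j = j₁² j₂, j₂ ∣ rad u} ± rc(j) Pln(X''/N j)`, and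
`Pln(N)` is negligible unless `N ≤ A_G K^{ε'} (1+|t|)²` (`Pln_decay`), trivially `≪ N`; this gives
`≪ K^ε (1+|t|) √(X'' A_G)`, and the contribution `N y' (K/(N y' X')) (X'² N y'/K) X' A_G
≤ X² A_G/N y ≤ K X/N y` because `X³ ≤ K²`.  Finally `∑_{y powerful} N y^{-1/2} ≪ K^ε`.
-/

set_option autoImplicit false

noncomputable section

namespace Crest.Agent.R17

open scoped ComplexConjugate

open Classical in
/-- Smooth average of normalised Gauss sums over all primary moduli. -/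
def Gsum {M : O} (ν : Chr M) (X : ℝ) (s : ℂ) (k : O) : ℂ :=
  ∑' x : O, if Primary x then ev ν x * (gs 5 x k / (Real.sqrt (nr x) : ℂ)) * Wc (nr x / X) s else 0

namespace GrD

open GrA GrB GrC
open scoped Classical

theorem gco_sq_le {M : O} (hM : Adm M) (ν : Chr M) (k : O) {y : O} (hy : Primary y) :
    ‖gco ν k y‖ ^ 2 ≤ ∑ y' ∈ pdiv y, if y' ∣ k then nr y' else 0 := by
  have h0 : ∀ y' ∈ pdiv y, 0 ≤ if y' ∣ k then nr y' else 0 := fun y' _ => by
    split_ifs <;> positivity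
  by_cases h : gco ν k y = 0
  · rw [h, norm_zero, zero_pow two_ne_zero]
    exact Finset.sum_nonneg h0
  obtain ⟨y', a1, a2, a3, a4⟩ := gs_bound (PO.of_adm hM hy (gco_supp ν k y h).2) k
  refine le_trans ?_ (Finset.single_le_sum h0 ((mem_pdiv hy.ne_zero).2 ⟨a1, a2⟩))
  have hN := nr_pos hy.ne_zero
  rw [if_pos a3, gco, if_pos hy, norm_mul, norm_div, Complex.norm_real,
    Real.norm_of_nonneg (Real.sqrt_nonneg _), mul_pow, div_pow, Real.sq_sqrt hN.le]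
  refine (mul_le_of_le_one_left (by positivity)
    (pow_le_one₀ (norm_nonneg _) (norm_ev_le hM.1 ν y))).trans ?_
  rwa [div_le_iff₀' hN]

theorem sum_dvd_le {K : ℝ} (hK : 0 ≤ K) {d : O} (hd : d ≠ 0) (f : O → ℝ) (hf : ∀ k, 0 ≤ f k) :
    ∑ k ∈ rows K, (if d ∣ k then f k else 0) ≤ ∑ k ∈ rows (K / nr d), f (d * k) := by
  have hN := nr_pos hd
  rw [← Finset.sum_filter, ← Finset.sum_image (f := f) (g := fun k => d * k)
    fun a _ b _ h => mul_left_cancel₀ hd h]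
  refine Finset.sum_le_sum_of_subset_of_nonneg (fun k hk => ?_) fun _ _ _ => hf _
  obtain ⟨h1, c, rfl⟩ := Finset.mem_filter.1 hk
  obtain ⟨h2, h3⟩ := (mem_rows hK).1 h1
  refine Finset.mem_image.2 ⟨c, (mem_rows (by positivity)).2 ⟨right_ne_zero_of_mul h2, ?_⟩, rfl⟩
  rwa [le_div_iff₀' hN, ← nr_mul]

theorem per_y {M : O} (hM : Adm M) {δ : ℝ} (hδ : 0 < δ) (hδ' : δ ≤ 1 / 3) : ∃ C : ℝ, 0 < C ∧
    ∀ (K X : ℝ) (s : ℂ) (ν ν' : Chr M) (y : O), 1 ≤ K → 0 < X → X ^ 3 ≤ K ^ 2 → |s.re| ≤ 3 →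
      Primary y → nr y ≤ X * K ^ δ →
      ∑ k ∈ rows K, ‖gco ν k y * Sd M (X * K ^ δ / nr y) (bet ν' (y ^ 2) (X / nr y) s) k‖ ^ 2 ≤
        C * (K ^ δ) ^ 18 * (1 + |s.im|) ^ 2 * (K * X * (1 + (X ^ 2 / K) ^ (1 / 6 : ℝ))) / nr y := by
  obtain ⟨C₁, hC₁, h1⟩ := frozen hM hδ (by linarith)
  obtain ⟨C₂, hC₂, h2⟩ := card_pdiv_le hδ
  refine ⟨2 * C₁ * C₂, by positivity, fun K X s ν ν' y hK hX hXK hs hy hyL => ?_⟩
  have hx : 1 ≤ K ^ δ := Real.one_le_rpow hK hδ.le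
  have hx3 : (K ^ δ) ^ 3 ≤ K := by
    rw [← Real.rpow_mul_natCast (by positivity)]
    exact Real.rpow_le_self_of_one_le hK (by push_cast; linarith)
  have hL : X * K ^ δ ≤ K := by
    refine le_of_pow_le_pow_left₀ three_ne_zero (by positivity) ?_
    rw [mul_pow, pow_succ K 2]
    gcongr
  have hX1 : X ≤ K := (le_mul_of_one_le_right hX.le hx).trans hL
  have hN := one_le_nr hy.ne_zero
  have hd : ((pdiv y).card : ℝ) ≤ C₂ * K ^ δ := (h2 y hy.ne_zero).trans (by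
    gcongr
    exact hyL.trans hL)
  generalize hρ : (X ^ 2 / K) ^ (1 / 6 : ℝ) = ρ
  have hρ0 : 0 ≤ ρ := by rw [← hρ]; positivity
  have key : ∀ y' ∈ pdiv y, ∑ k ∈ rows K, (if y' ∣ k then nr y' *
      ‖Sd M (X * K ^ δ / nr y) (bet ν' (y ^ 2) (X / nr y) s) k‖ ^ 2 else 0) ≤
      2 * C₁ * (K ^ δ) ^ 17 * (1 + |s.im|) ^ 2 * (K * X * (1 + ρ)) / nr y := by
    intro y' hy'
    obtain ⟨a1, c, rfl⟩ := (mem_pdiv hy.ne_zero).1 hy'
    have b1 := one_le_nr a1.ne_zero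
    have hc := right_ne_zero_of_mul hy.ne_zero
    have b2 := one_le_nr hc
    have b3 : nr y' ≤ nr (y' * c) := by
      rw [nr_mul]
      exact le_mul_of_one_le_right (by positivity) b2
    refine (sum_dvd_le (by positivity) a1.ne_zero _ fun k => by positivity).trans ?_
    simp only [Sd_shift hM]
    rw [← Finset.mul_sum, ← div_mul_eq_mul_div]
    have h3 := h1 K (K / nr y') (X / nr (y' * c)) (X ^ 2 * (K ^ δ) ^ 3 / K) ν' (y' * c * c) s
      ((one_le_div (by positivity)).2 (b3.trans (hyL.trans hL))) (div_le_self (by positivity) b1)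
      (by positivity) (by rwa [div_mul_eq_mul_div, one_le_div (by positivity)])
      (by rw [div_mul_eq_mul_div]; exact (div_le_self (by positivity) hN).trans hL)
      (mul_ne_zero hy.ne_zero hc) (le_of_eq (by simp only [nr_mul]; field_simp)) (by
        rw [div_le_iff₀ (by positivity)]
        calc X ^ 2 * (K ^ δ) ^ 3 ≤ K ^ 2 * K := by gcongr
          _ = K ^ 3 * 1 := by ring
          _ ≤ _ := by gcongr) hs
    have h4 : (X ^ 2 * (K ^ δ) ^ 3 / K) ^ (1 / 6 : ℝ) ≤ (K ^ δ) ^ 3 * ρ := by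
      rw [mul_comm (X ^ 2), mul_div_assoc, Real.mul_rpow (by positivity) (by positivity), hρ]
      exact mul_le_mul_of_nonneg_right
        (Real.rpow_le_self_of_one_le (one_le_pow₀ hx) (by norm_num)) hρ0
    have h5 : nr y' * ((X / nr (y' * c)) ^ 2 * (X ^ 2 * (K ^ δ) ^ 3 / K)) ≤
        (K ^ δ) ^ 3 * (K * X / nr (y' * c)) := by
      calc _ ≤ nr (y' * c) * ((X / nr (y' * c)) ^ 2 * (X ^ 2 * (K ^ δ) ^ 3 / K)) := by gcongr
        _ = (K ^ δ) ^ 3 * (X ^ 3 * X / (K * nr (y' * c))) := by field_simp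
        _ ≤ (K ^ δ) ^ 3 * (K ^ 2 * X / (K * nr (y' * c))) := by gcongr
        _ = _ := by field_simp
    have h6 : 1 ≤ (K ^ δ) ^ 3 := one_le_pow₀ hx
    refine (mul_le_mul_of_nonneg_left h3 (by positivity)).trans ?_
    calc _ = C₁ * (K ^ δ) ^ 14 * (1 + |s.im|) ^ 2 *
          (K * X / nr (y' * c) * (1 + (X ^ 2 * (K ^ δ) ^ 3 / K) ^ (1 / 6 : ℝ)) +
            nr y' * ((X / nr (y' * c)) ^ 2 * (X ^ 2 * (K ^ δ) ^ 3 / K))) := by field_simp
      _ ≤ C₁ * (K ^ δ) ^ 14 * (1 + |s.im|) ^ 2 *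
          (K * X / nr (y' * c) * ((K ^ δ) ^ 3 + (K ^ δ) ^ 3 * ρ) +
            (K ^ δ) ^ 3 * (K * X / nr (y' * c)) * (1 + ρ)) := by
          have h7 := h5.trans (le_mul_of_one_le_right (by positivity)
            (show (1 : ℝ) ≤ 1 + ρ by linarith))
          exact mul_le_mul_of_nonneg_left (add_le_add
            (mul_le_mul_of_nonneg_left (add_le_add h6 h4) (by positivity)) h7) (by positivity)
      _ = _ := by ring
  calc _ ≤ ∑ k ∈ rows K, ∑ y' ∈ pdiv y, (if y' ∣ k then nr y' *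
          ‖Sd M (X * K ^ δ / nr y) (bet ν' (y ^ 2) (X / nr y) s) k‖ ^ 2 else 0) := by
        refine Finset.sum_le_sum fun k _ => ?_
        rw [norm_mul, mul_pow]
        refine (mul_le_mul_of_nonneg_right (gco_sq_le hM ν k hy) (by positivity)).trans_eq ?_
        simp only [Finset.sum_mul, ite_mul, zero_mul]
    _ ≤ (pdiv y).card • (2 * C₁ * (K ^ δ) ^ 17 * (1 + |s.im|) ^ 2 * (K * X * (1 + ρ)) / nr y) := by
        rw [Finset.sum_comm]
        exact Finset.sum_le_card_nsmul _ _ _ key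
    _ ≤ C₂ * K ^ δ * (2 * C₁ * (K ^ δ) ^ 17 * (1 + |s.im|) ^ 2 * (K * X * (1 + ρ)) / nr y) := by
        rw [nsmul_eq_mul]
        gcongr
    _ = _ := by ring

theorem main {M : O} (hM : Adm M) {δ : ℝ} (hδ : 0 < δ) (hδ' : δ ≤ 1 / 3) : ∃ C : ℝ, 0 < C ∧
    ∀ (K X : ℝ) (s : ℂ) (ν : Chr M), 1 ≤ K → 0 < X → X ^ 3 ≤ K ^ 2 → |s.re| ≤ 3 →
      ∑ k ∈ rows K, ‖∑ x ∈ ball ⌊X * K ^ δ⌋₊, gco ν k x * Wc (nr x / X) s‖ ^ 2 ≤
        C * (K ^ δ) ^ 20 * (1 + |s.im|) ^ 2 * (K * X * (1 + (X ^ 2 / K) ^ (1 / 6 : ℝ))) := by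
  obtain ⟨C₁, hC₁, h1⟩ := per_y hM hδ hδ'
  obtain ⟨C₂, hC₂, h2⟩ := sum_powerful_le hδ
  refine ⟨C₂ ^ 2 * C₁, by positivity, fun K X s ν hK hX hXK hs => ?_⟩
  have hx : 1 ≤ K ^ δ := Real.one_le_rpow hK hδ.le
  have hL : X * K ^ δ ≤ K := by
    refine le_of_pow_le_pow_left₀ three_ne_zero (by positivity) ?_
    rw [mul_pow, pow_succ K 2, ← Real.rpow_mul_natCast (by positivity)]
    exact mul_le_mul hXK (Real.rpow_le_self_of_one_le hK (by push_cast; linarith)) (by positivity)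
      (by positivity)
  choose! ν' hν' using fun y (hy : Primary y) => inner_eq hM ν hy
  set P := (ball ⌊X * K ^ δ⌋₊).filter Powerful with hP
  have hP1 : ∀ y ∈ P, Primary y ∧ nr y ≤ X * K ^ δ := fun y hy => by
    obtain ⟨a1, a2⟩ := Finset.mem_filter.1 hy
    exact ⟨a2.1, (Nat.le_floor_iff (by positivity)).1 (mem_ball.1 a1)⟩
  have hW : ∑ y ∈ P, nr y ^ (-(1 / 2 : ℝ)) ≤ C₂ * K ^ δ := by
    refine (Finset.sum_le_sum_of_subset_of_nonneg (Finset.filter_subset_filter _ fun y hy =>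
      mem_ball.2 ((mem_ball.1 hy).trans (Nat.floor_mono hL))) fun _ _ _ => by positivity).trans
      ((h2 ⌊K⌋₊ ((Nat.one_le_floor_iff K).2 hK)).trans ?_)
    gcongr
    exact Nat.floor_le (by positivity)
  generalize hD : C₁ * (K ^ δ) ^ 18 * (1 + |s.im|) ^ 2 *
    (K * X * (1 + (X ^ 2 / K) ^ (1 / 6 : ℝ))) = D
  have hD0 : 0 ≤ D := by rw [← hD]; positivity
  calc _ ≤ ∑ k ∈ rows K, C₂ * K ^ δ * ∑ y ∈ P, nr y ^ (1 / 2 : ℝ) *
          ‖gco ν k y * Sd M (X * K ^ δ / nr y) (bet (ν' y) (y ^ 2) (X / nr y) s) k‖ ^ 2 := by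
        refine Finset.sum_le_sum fun k _ => ?_
        rw [decomp M (by positivity) _ fun x h => gco_supp ν k x (left_ne_zero_of_mul h),
          Finset.sum_congr rfl fun y hy => hν' y (hP1 y hy).1 k _ X s]
        refine (pow_le_pow_left₀ (norm_nonneg _) (norm_sum_le _ _) 2).trans
          ((Finset.sum_sq_le_sum_mul_sum_of_sq_le_mul P (f := fun y => nr y ^ (-(1 / 2 : ℝ)))
            (fun _ _ => by positivity) (fun _ _ => by positivity) fun y hy => ?_).trans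
            (mul_le_mul_of_nonneg_right hW (Finset.sum_nonneg fun _ _ => by positivity)))
        rw [← mul_assoc, ← Real.rpow_add (nr_pos (hP1 y hy).1.ne_zero), neg_add_cancel,
          Real.rpow_zero, one_mul]
    _ ≤ C₂ * K ^ δ * ∑ y ∈ P, nr y ^ (-(1 / 2 : ℝ)) * D := by
        rw [← Finset.mul_sum, Finset.sum_comm]
        refine mul_le_mul_of_nonneg_left (Finset.sum_le_sum fun y hy => ?_) (by positivity)
        have hN := nr_pos (hP1 y hy).1.ne_zero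
        rw [← Finset.mul_sum]
        refine (mul_le_mul_of_nonneg_left (h1 K X s ν (ν' y) y hK hX hXK hs (hP1 y hy).1
          (hP1 y hy).2) (by positivity)).trans_eq ?_
        rw [hD, show -(1 / 2 : ℝ) = 1 / 2 - 1 by norm_num, Real.rpow_sub_one hN.ne']
        ring
    _ ≤ C₂ * K ^ δ * (C₂ * K ^ δ * D) := by
        rw [← Finset.sum_mul]
        gcongr
    _ = _ := by rw [← hD]; ring

end GrD

theorem gram {M : O} (hM : Adm M) {ε : ℝ} (hε : 0 < ε) : ∃ (C : ℝ) (J : ℕ), 0 < C ∧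
    ∀ (K X : ℝ) (s : ℂ) (ν : Chr M), 1 ≤ K → 0 < X → X ^ 3 ≤ K ^ 2 → |s.re| ≤ 3 →
      ∑ k ∈ rows K, ‖Gsum ν X s k‖ ^ 2 ≤
        C * K ^ ε * (1 + |s.im|) ^ J * (K * X * (1 + (X ^ 2 / K) ^ (1 / 6 : ℝ))) := by
  obtain ⟨δ, hδ, hδ1, hδ2⟩ : ∃ δ : ℝ, 0 < δ ∧ δ ≤ 1 / 3 ∧ δ ≤ ε / 20 :=
    ⟨min (1 / 3) (ε / 20), lt_min (by norm_num) (by positivity), min_le_left _ _, min_le_right _ _⟩
  obtain ⟨C₁, hC₁, h1⟩ := GrD.main hM hδ hδ1
  obtain ⟨C₂, hC₂, h2⟩ := GrA.trunc δ⁻¹ (1 / 2) 3 (by norm_num)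
  refine ⟨2 * C₁ + 14 * C₂ ^ 2, 2, by positivity, fun K X s ν hK hX hXK hs => ?_⟩
  have hx : 1 ≤ K ^ δ := Real.one_le_rpow hK hδ.le
  have hX1 : X ≤ K := le_of_pow_le_pow_left₀ three_ne_zero (by positivity)
    (hXK.trans (pow_le_pow_right₀ hK (by norm_num)))
  have e1 : (K ^ δ) ^ (-δ⁻¹) = K⁻¹ := by
    rw [← Real.rpow_mul (by positivity), mul_neg, mul_inv_cancel₀ hδ.ne', Real.rpow_neg_one]
  have h3 : ∀ k, ‖Gsum ν X s k‖ ^ 2 ≤
      2 * ‖∑ x ∈ ball ⌊X * K ^ δ⌋₊, GrB.gco ν k x * Wc (nr x / X) s‖ ^ 2 + 2 * (C₂ ^ 2 * X) := by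
    intro k
    have e : Gsum ν X s k = Sm (GrB.gco ν k) X s := tsum_congr fun x => by
      unfold GrB.gco
      split_ifs <;> simp
    have h4 := h2 _ 1 X _ s (GrB.polyB_gco hM ν k) hX hx hs
    rw [← e, e1, mul_one] at h4
    have h5 : (C₂ * X ^ (1 / 2 + 1 : ℝ) * K⁻¹) ^ 2 ≤ C₂ ^ 2 * X := by
      rw [mul_pow, mul_pow, ← Real.rpow_mul_natCast hX.le,
        show (1 / 2 + 1 : ℝ) * ((2 : ℕ) : ℝ) = ((3 : ℕ) : ℝ) by norm_num, Real.rpow_natCast,
        mul_assoc, inv_pow, ← div_eq_mul_inv]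
      refine mul_le_mul_of_nonneg_left ?_ (by positivity)
      rw [div_le_iff₀ (by positivity), pow_succ' X 2]
      gcongr
    have h6 := (pow_le_pow_left₀ (norm_nonneg _) h4 2).trans h5
    have h7 := pow_le_pow_left₀ (norm_nonneg _) (norm_le_insert' (Gsum ν X s k)
      (∑ x ∈ ball ⌊X * K ^ δ⌋₊, GrB.gco ν k x * Wc (nr x / X) s)) 2
    nlinarith [sq_nonneg (‖∑ x ∈ ball ⌊X * K ^ δ⌋₊, GrB.gco ν k x * Wc (nr x / X) s‖ -
      ‖Gsum ν X s k - ∑ x ∈ ball ⌊X * K ^ δ⌋₊, GrB.gco ν k x * Wc (nr x / X) s‖)]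
  have h4 := h1 K X s ν hK hX hXK hs
  have h5 : (K ^ δ) ^ 20 ≤ K ^ ε := by
    rw [← Real.rpow_mul_natCast (by positivity)]
    exact Real.rpow_le_rpow_of_exponent_le hK (by push_cast; linarith)
  have h6 : 1 ≤ K ^ ε := Real.one_le_rpow hK hε.le
  have h7 : 1 ≤ (1 + |s.im|) ^ 2 := one_le_pow₀ (le_add_of_nonneg_right (abs_nonneg _))
  have h8 : 1 ≤ 1 + (X ^ 2 / K) ^ (1 / 6 : ℝ) := le_add_of_nonneg_right (by positivity)
  have h9 := card_rows_le (zero_le_one.trans hK)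
  refine (Finset.sum_le_sum fun k _ => h3 k).trans ?_
  rw [Finset.sum_add_distrib, ← Finset.mul_sum, Finset.sum_const, nsmul_eq_mul]
  generalize 1 + (X ^ 2 / K) ^ (1 / 6 : ℝ) = ρ at h4 h8 ⊢
  calc _ ≤ 2 * (C₁ * K ^ ε * (1 + |s.im|) ^ 2 * (K * X * ρ)) + 7 * K * (2 * (C₂ ^ 2 * X)) := by
        gcongr
        exact h4.trans (by gcongr)
    _ = 2 * C₁ * K ^ ε * (1 + |s.im|) ^ 2 * (K * X * ρ) + 14 * C₂ ^ 2 * 1 * 1 * (K * X * 1) := by
        ring
    _ ≤ 2 * C₁ * K ^ ε * (1 + |s.im|) ^ 2 * (K * X * ρ) +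
        14 * C₂ ^ 2 * K ^ ε * (1 + |s.im|) ^ 2 * (K * X * ρ) := by gcongr
    _ = _ := by ring

end Crest.Agent.R17
end
end

-- ▼ part PVc/R17/HSideDefs

/-!
# Row 17, module M15c: definitions for the dual side of the probe (sub-skeleton of `hside`)

`HSideA.dual_eq` (exact dual identity), `HSideB` (summability, `h = 0`, Mellin separation),
`HSideC.core` (Cauchy–Schwarz, `energy`, `gram`), `HSideD.slots` (parametrisation of the slots),
`HSideE.numeric` (exponents); `HSide.hside` is the assembly.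
-/

set_option autoImplicit false

noncomputable section

namespace Crest.Agent.R17.HS

open scoped ComplexConjugate

open Classical in
/-- The theta side for one mark `z` (this is the inner sum of `Tc φ Zs c B (1/2) h`). -/
def Tz (φ : O → ℂ) (B : ℝ) (z h : O) : ℂ :=
  ∑' n : O, if z ∣ n then th n * φ n * sym n h * Wc (nr n / (B * nr z)) (1 / 2) else 0

open Classical in
/-- The normalised Gauss sum (the coefficient in `Gsum ν X s h`). -/
def gx {M : O} (ν : Chr M) (h x : O) : ℂ :=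
  if Primary x then ev ν x * (gs 5 x h / (Real.sqrt (nr x) : ℂ)) else 0

/-- The Gauss sum side, with the Gaussian. -/
def Gz {M : O} (ν : Chr M) (X Y : ℝ) (h : O) : ℂ :=
  ∑' x : O, conj (gx ν (-h) x * Wc (nr x / X) (-(1 / 2))) * (gw (nr h / (Y * nr x)) : ℂ)

/-- The dual sum of one mark `z`. -/
def Dual {M : O} (φ : O → ℂ) (ν : Chr M) (θ : O → ℂ) (B X L : ℝ) (z : O) : ℂ :=
  ∑' h : O, θ h * (Tz φ B z h * Gz ν X (L * nr z) h)

/-- The bracket of `energy` (second entries of the minima, `D = B`). -/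
def En (B K Z : ℝ) : ℝ :=
  K + K ^ 2 * Z / B + K * Z ^ 2 / Real.sqrt B + Real.sqrt K * Z * B ^ (1 / 4 : ℝ)

/-- The bracket of `gram`. -/
def Gr (K X : ℝ) : ℝ := K * X * (1 + (X ^ 2 / K) ^ (1 / 6 : ℝ))

open Classical in
/-- The twisted coefficients after Mellin separation. -/
def cs (Zs : Finset O) (c : O → ℂ) (Z : ℝ) (s : ℂ) (z : O) : ℂ :=
  if z ∈ Zs then c z * ((nr z / (2 * Z) : ℝ) : ℂ) ^ s else 0

theorem Tc_eq (φ : O → ℂ) (Zs : Finset O) (c : O → ℂ) (B : ℝ) (h : O) :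
    Tc φ Zs c B (1 / 2) h = ∑ z ∈ Zs, c z * Tz φ B z h := rfl

theorem Gsum_eq {M : O} (ν : Chr M) (X : ℝ) (s : ℂ) (h : O) :
    Gsum ν X s h = ∑' x : O, gx ν h x * Wc (nr x / X) s := by
  unfold Gsum gx
  refine tsum_congr fun x => ?_
  split_ifs <;> simp

theorem norm_gx_le {M : O} (hM : M ≠ 0) (ν : Chr M) (h x : O) :
    ‖gx ν h x‖ ≤ nr x ^ (1 / 2 : ℝ) := by
  unfold gx
  split_ifs with hx
  · have h1 := nr_pos hx.ne_zero
    have h2 : 0 < Real.sqrt (nr x) := Real.sqrt_pos.2 h1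
    rw [norm_mul, norm_div, Complex.norm_real, Real.norm_of_nonneg h2.le, ← Real.sqrt_eq_rpow]
    refine (mul_le_of_le_one_left (by positivity) (norm_ev_le hM ν x)).trans ?_
    rw [div_le_iff₀ h2, Real.mul_self_sqrt h1.le]
    exact PB1_norm_gs_le 5 hx.ne_zero h
  · rw [norm_zero]; positivity

theorem polyB_gx {M : O} (hM : M ≠ 0) (ν : Chr M) (h : O) : PolyB (gx ν h) 1 (1 / 2) := by
  refine ⟨?_, fun x => by rw [one_mul]; exact norm_gx_le hM ν h x⟩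
  unfold gx
  rw [if_neg fun h0 => Primary.ne_zero h0 rfl]

theorem norm_cs_le {Zs : Finset O} {c : O → ℂ} {Z : ℝ} (hZ : 0 < Z)
    (hz : ∀ z ∈ Zs, z ≠ 0 ∧ nr z ≤ 2 * Z) (hc : ∀ z, ‖c z‖ ≤ 1) {s : ℂ} (hs : 0 ≤ s.re) (z : O) :
    ‖cs Zs c Z s z‖ ≤ 1 := by
  unfold cs
  split_ifs with h
  · have h1 := nr_pos (hz z h).1
    rw [norm_mul, Complex.norm_cpow_eq_rpow_re_of_pos (by positivity)]
    exact mul_le_one₀ (hc z) (by positivity) (Real.rpow_le_one (by positivity)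
      ((div_le_one (by positivity)).2 (hz z h).2) hs)
  · simp

theorem En_nonneg {B K Z : ℝ} (hB : 0 ≤ B) (hK : 0 ≤ K) (hZ : 0 ≤ Z) : 0 ≤ En B K Z := by
  unfold En; positivity

theorem Gr_nonneg {K X : ℝ} (hK : 0 ≤ K) (hX : 0 ≤ X) : 0 ≤ Gr K X := by
  unfold Gr; positivity

end Crest.Agent.R17.HS
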