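import Crest.Agent.PVc.R17.RowTail

/-!
# Row 17, principal rows: definitions (functions on triples `(n, x, c)`; owner helper81)
DO NOT change the definitions.
-/

set_option autoImplicit false

noncomputable section

namespace Crest.Agent.R17.P3

open scoped ComplexConjugate

/-- Triples `(n, x, c)`, a commutative monoid under componentwise multiplication. -/
abbrev T3 : Type := O × O × O

/-- Triples of exponents. -/
abbrev L3 : Type := ℕ × ℕ × ℕ

/-- The product of the three components. -/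
def nT (v : T3) : O := v.1 * v.2.1 * v.2.2

/-- All the components are primary. -/
def Pr3 (v : T3) : Prop := Primary v.1 ∧ Primary v.2.1 ∧ Primary v.2.2

/-- The triple of powers of `p`. -/
def pp (p : O) (l : L3) : T3 := (p ^ l.1, p ^ l.2.1, p ^ l.2.2)

/-- Good primes. -/
def GP (M p : O) : Prop := Prime p ∧ Primary p ∧ ¬ p ∣ M

/-- All the finite partial sums are at most `c`. -/
def SB {α : Type} (h : α → ℝ) (c : ℝ) : Prop := ∀ S : Finset α, ∑ a ∈ S, h a ≤ c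

/-- All the finite partial sums over good primes are at most `E`. -/
def SBP (M : O) (ε : O → ℝ) (E : ℝ) : Prop :=
  ∀ S : Finset O, (∀ p ∈ S, GP M p) → ∑ p ∈ S, ε p ≤ E

/-- Supported on primary triples. -/
def Sup (f : T3 → ℂ) : Prop := ∀ v, f v ≠ 0 → Pr3 v

/-- Multiplicative functions on triples. -/
structure Mul3 (M : O) (f : T3 → ℂ) : Prop where
  one : f 1 = 1
  supp : ∀ v, f v ≠ 0 → Pr3 v ∧ IsCoprime (nT v) M
  mul : ∀ u v, Pr3 u → Pr3 v → IsCoprime (nT u) (nT v) → f (u * v) = f u * f v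

/-- The primary divisors of a triple. -/
def pd3 (v : T3) : Finset T3 := pdiv v.1 ×ˢ pdiv v.2.1 ×ˢ pdiv v.2.2

open Classical in
/-- The factorisations of a triple into two primary triples. -/
def tdiv (v : T3) : Finset (T3 × T3) := (pd3 v ×ˢ pd3 v).filter fun d => d.1 * d.2 = v

/-- Dirichlet convolution. -/
def conv (α γ : T3 → ℂ) (v : T3) : ℂ := ∑ d ∈ tdiv v, α d.1 * γ d.2

open Classical in
/-- The unit of the convolution. -/
def del (v : T3) : ℂ := if v = 1 then 1 else 0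

/-- The weight `N(n x c)^{-7/8}`. -/
def wt (v : T3) : ℝ := nr (nT v) ^ (-(7 / 8) : ℝ)

/-- Multiplication by the weight. -/
def tw (f : T3 → ℂ) (v : T3) : ℂ := f v * (wt v : ℂ)

/-- Local `ℓ¹` bound at `p`. -/
def LB (p : O) (f : T3 → ℂ) (c : ℝ) : Prop := SB (fun l : L3 => ‖f (pp p l)‖) c

/-- The model `μ ψ ⊗ 1 ⊗ 1`. -/
def g3 {M : O} (ψ : Chr M) (v : T3) : ℂ :=
  mu v.1 * rc ψ 1 v.1 * rc (1 : Chr M) 1 v.2.1 * rc (1 : Chr M) 1 v.2.2

/-- Its inverse `ψ ⊗ μ ⊗ μ`. -/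
def gi3 {M : O} (ψ : Chr M) (v : T3) : ℂ :=
  rc ψ 1 v.1 * (mu v.2.1 * rc (1 : Chr M) 1 v.2.1) * (mu v.2.2 * rc (1 : Chr M) 1 v.2.2)

open Classical in
/-- The coefficients of the principal rows. -/
def f3 {M : O} (ψ : Chr M) (v : T3) : ℂ :=
  if Primary v.2.2 ∧ IsCoprime v.2.2 M then cf ψ (v.2.2 ^ 6) v.1 v.2.1 else 0

/-- The test function. -/
def K3 (B : ℝ) (v : T3) : ℂ := Phi B (v.2.2 ^ 6) (nr v.1) (nr v.2.1)

open Classical in
/-- The shift operators. -/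
def Sh (z π : O) (f : T3 → ℂ) (v : T3) : ℂ :=
  if π ∣ v.2.1 then f (z * v.1, v.2.1 / π, v.2.2) else 0

/-- The slot operator. -/
def Tp {M : O} (ψ : Chr M) (p : O) (f : T3 → ℂ) (v : T3) : ℂ :=
  -conj (ev ψ p) * Sh p 1 f v + Sh 1 p f v

/-- The product of the slot operators applied to `f3`. -/
def fI {M : O} (ψ : Chr M) {ι : Type} [DecidableEq ι] (p : ι → O) (I : Finset ι) (v : T3) : ℂ :=
  ∑ J ∈ I.powerset, (∏ i ∈ I \ J, -conj (ev ψ (p i))) *
    Sh (∏ i ∈ I \ J, p i) (∏ i ∈ J, p i) (f3 ψ) v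

/-- The model paired with the dilated test function. -/
def Psi3 {M : O} (ψ : Chr M) (B : ℝ) (j : T3) : ℂ := ∑' d : T3, g3 ψ d * K3 B (j * d)

/-- The sum over the sixth powers. -/
def Th (M : O) (Y : ℝ) : ℂ := ∑' c : O, rc (1 : Chr M) 1 c * (gw (nr c ^ 6 / Y) : ℂ)

/-- The Möbius sum twisted by `Th`. -/
def MT {M : O} (ψ : Chr M) (D A : ℝ) : ℂ :=
  ∑' n : O, mu n * rc ψ 1 n * Wc (nr n / D) 0 * Th M (A * (nr n / D))

/-- The coefficients of the main term. -/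
def bbOf (b : T3 → ℂ) (j : O) : ℂ := ∑' y : O × O, b (j, y) / ((nr y.1 * nr y.2 : ℝ) : ℂ)

theorem nT_mul (u v : T3) : nT (u * v) = nT u * nT v := by
  simp only [nT, Prod.fst_mul, Prod.snd_mul]; ring

theorem nT_one : nT 1 = 1 := by simp [nT]

theorem nT_pp (p : O) (l : L3) : nT (pp p l) = p ^ (l.1 + l.2.1 + l.2.2) := by
  simp only [nT, pp, pow_add]

theorem pr3_one : Pr3 1 := ⟨primary_one, primary_one, primary_one⟩

theorem Pr3.mul {u v : T3} (hu : Pr3 u) (hv : Pr3 v) : Pr3 (u * v) :=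
  ⟨hu.1.mul hv.1, hu.2.1.mul hv.2.1, hu.2.2.mul hv.2.2⟩

theorem Pr3.nT {v : T3} (hv : Pr3 v) : Primary (nT v) := (hv.1.mul hv.2.1).mul hv.2.2

theorem pr3_pp {p : O} (hp : Primary p) (l : L3) : Pr3 (pp p l) := ⟨hp.pow _, hp.pow _, hp.pow _⟩

theorem pp_zero (p : O) : pp p 0 = 1 := by simp [pp, Prod.ext_iff]


theorem pp_injective {p : O} (hp : Prime p) : Function.Injective (pp p) := by
  intro l l' h
  have hi := pow_injective_of_not_isUnit hp.not_isUnit hp.ne_zero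
  simp only [pp, Prod.mk.injEq] at h
  exact Prod.ext (hi h.1) (Prod.ext (hi h.2.1) (hi h.2.2))

theorem Mul3.sup {M : O} {f : T3 → ℂ} (h : Mul3 M f) : Sup f := fun v hv => (h.supp v hv).1

theorem mem_tdiv {v : T3} {d : T3 × T3} : d ∈ tdiv v ↔ Pr3 d.1 ∧ Pr3 d.2 ∧ d.1 * d.2 = v := by
  classical
  have h0 : ∀ {n e : O}, e ∈ pdiv n → Primary e := fun h => (Finset.mem_filter.1 h).2.1
  simp only [tdiv, pd3, Finset.mem_filter, Finset.mem_product]
  constructor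
  · rintro ⟨⟨⟨a1, a2, a3⟩, b1, b2, b3⟩, h⟩
    exact ⟨⟨h0 a1, h0 a2, h0 a3⟩, ⟨h0 b1, h0 b2, h0 b3⟩, h⟩
  · rintro ⟨h1, h2, rfl⟩
    have h := h1.mul h2
    exact ⟨⟨⟨(mem_pdiv h.1.ne_zero).2 ⟨h1.1, dvd_mul_right _ _⟩,
      (mem_pdiv h.2.1.ne_zero).2 ⟨h1.2.1, dvd_mul_right _ _⟩,
      (mem_pdiv h.2.2.ne_zero).2 ⟨h1.2.2, dvd_mul_right _ _⟩⟩,
      (mem_pdiv h.1.ne_zero).2 ⟨h2.1, dvd_mul_left _ _⟩,
      (mem_pdiv h.2.1.ne_zero).2 ⟨h2.2.1, dvd_mul_left _ _⟩,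
      (mem_pdiv h.2.2.ne_zero).2 ⟨h2.2.2, dvd_mul_left _ _⟩⟩, rfl⟩

theorem wt_nonneg (v : T3) : 0 ≤ wt v := by unfold wt; positivity

theorem wt_mul (u v : T3) : wt (u * v) = wt u * wt v := by
  rw [wt, wt, wt, nT_mul, nr_mul, Real.mul_rpow (Nat.cast_nonneg _) (Nat.cast_nonneg _)]

theorem wt_one : wt 1 = 1 := by
  rw [wt, nT_one, nr, BasicA.nm_of_isUnit isUnit_one, Nat.cast_one, Real.one_rpow]

theorem wt_pp (p : O) (l : L3) :
    wt (pp p l) = (nr p ^ (-(7 / 8) : ℝ)) ^ (l.1 + l.2.1 + l.2.2) := by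
  rw [wt, nT_pp, nr_pow, ← Real.rpow_natCast, ← Real.rpow_natCast,
    ← Real.rpow_mul (Nat.cast_nonneg _), ← Real.rpow_mul (Nat.cast_nonneg _), mul_comm]

theorem norm_tw (f : T3 → ℂ) (v : T3) : ‖tw f v‖ = ‖f v‖ * wt v := by
  rw [tw, norm_mul, Complex.norm_real, Real.norm_of_nonneg (wt_nonneg v)]

theorem SB.nonneg {α : Type} {h : α → ℝ} {c : ℝ} (H : SB h c) : 0 ≤ c := by simpa using H ∅

theorem SB.mono {α : Type} {h h' : α → ℝ} {c c' : ℝ} (H : SB h c) (hh : ∀ a, h' a ≤ h a)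
    (hc : c ≤ c') : SB h' c' := fun S => ((Finset.sum_le_sum fun a _ => hh a).trans (H S)).trans hc

theorem SB.add {α : Type} {h h' : α → ℝ} {c c' : ℝ} (H : SB h c) (H' : SB h' c') :
    SB (fun a => h a + h' a) (c + c') := fun S => by
  rw [Finset.sum_add_distrib]; exact add_le_add (H S) (H' S)

theorem SB.const_mul {α : Type} {h : α → ℝ} {c t : ℝ} (H : SB h c) (ht : 0 ≤ t) :
    SB (fun a => t * h a) (t * c) := fun S => by
  rw [← Finset.mul_sum]; exact mul_le_mul_of_nonneg_left (H S) ht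

theorem SB.summable {α : Type} {h : α → ℝ} {c : ℝ} (H : SB h c) (h0 : ∀ a, 0 ≤ h a) :
    Summable h := summable_of_sum_le h0 H

theorem SB.tsum_le {α : Type} {h : α → ℝ} {c : ℝ} (H : SB h c) (h0 : ∀ a, 0 ≤ h a) :
    ∑' a, h a ≤ c := (H.summable h0).tsum_le_of_sum_le H

theorem SB.of_hasSum {α : Type} {h : α → ℝ} {c : ℝ} (H : HasSum h c) (h0 : ∀ a, 0 ≤ h a) :
    SB h c := fun S => sum_le_hasSum S (fun a _ => h0 a) H

theorem SB.prod {α β : Type} {h : α → ℝ} {h' : β → ℝ} {c c' : ℝ} (H : SB h c) (H' : SB h' c')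
    (h0 : ∀ a, 0 ≤ h a) (h0' : ∀ b, 0 ≤ h' b) : SB (fun v : α × β => h v.1 * h' v.2) (c * c') := by
  classical
  intro S
  calc ∑ v ∈ S, h v.1 * h' v.2 ≤ ∑ v ∈ S.image Prod.fst ×ˢ S.image Prod.snd, h v.1 * h' v.2 :=
        Finset.sum_le_sum_of_subset_of_nonneg Finset.subset_product fun v _ _ =>
          mul_nonneg (h0 _) (h0' _)
    _ = (∑ a ∈ S.image Prod.fst, h a) * ∑ b ∈ S.image Prod.snd, h' b := by
        rw [Finset.sum_mul_sum, Finset.sum_product]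
    _ ≤ c * c' := mul_le_mul (H _) (H' _) (Finset.sum_nonneg fun b _ => h0' b) H.nonneg

/-- Comparison along a map which is injective on the support. -/
theorem SB.comp {α β : Type} {h : α → ℝ} {h' : β → ℝ} {c : ℝ} (H : SB h c)
    (φ : β → α) (hφ : Set.InjOn φ {b | 0 < h' b}) (hh : ∀ b, 0 < h' b → h' b ≤ h (φ b)) :
    SB h' c := by
  classical
  intro S
  calc ∑ b ∈ S, h' b ≤ ∑ b ∈ S.filter (fun b => 0 < h' b), h' b := by
        rw [Finset.sum_filter]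
        exact Finset.sum_le_sum fun b _ => by split_ifs with hb <;> linarith
    _ ≤ ∑ b ∈ S.filter (fun b => 0 < h' b), h (φ b) :=
        Finset.sum_le_sum fun b hb => hh b (Finset.mem_filter.1 hb).2
    _ = ∑ a ∈ (S.filter (fun b => 0 < h' b)).image φ, h a :=
        (Finset.sum_image fun x hx y hy e =>
          hφ (Finset.mem_filter.1 hx).2 (Finset.mem_filter.1 hy).2 e).symm
    _ ≤ c := H _

theorem Mul3.twist {M : O} {f : T3 → ℂ} (h : Mul3 M f) {χ : T3 → ℂ} (h1 : χ 1 = 1)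
    (hm : ∀ u v, Pr3 u → Pr3 v → χ (u * v) = χ u * χ v) : Mul3 M fun v => f v * χ v :=
  ⟨by rw [h.one, h1, one_mul], fun v hv => h.supp v (left_ne_zero_of_mul hv),
    fun u v hu hv huv => by rw [h.mul u v hu hv huv, hm u v hu hv]; ring⟩

theorem Mul3.tw {M : O} {f : T3 → ℂ} (h : Mul3 M f) : Mul3 M (tw f) :=
  h.twist (by rw [wt_one, Complex.ofReal_one]) fun u v _ _ => by rw [wt_mul, Complex.ofReal_mul]

end Crest.Agent.R17.P3
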